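import Mathlib

/-! Row 193 (S0294): unicoherence of the two-sphere.  A closed set separating two connected sets
contains a continuum separating them. -/

set_option autoImplicit false

open Set Filter Topology Metric

noncomputable section
namespace Crest.Agent.R193

local notation "𝕊" => sphere (0 : EuclideanSpace ℝ (Fin 3)) 1

section top
variable {Z : Type*} [TopologicalSpace Z]

theorem Uni_locPath (Φ : Z ≃ₜ 𝕊) : LocallyPathConnectedSpace Z := by
  have : Fact (Module.finrank ℝ (EuclideanSpace ℝ (Fin 3)) = 2 + 1) := ⟨by simp⟩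
  have : LocallyPathConnectedSpace 𝕊 :=
    ChartedSpace.locallyPathConnectedSpace (EuclideanSpace ℝ (Fin 2)) _
  exact Φ.isOpenEmbedding.locallyPathConnectedSpace

theorem Uni_compact (Φ : Z ≃ₜ 𝕊) : CompactSpace Z := Φ.symm.compactSpace

theorem Uni_connected (Φ : Z ≃ₜ 𝕊) : ConnectedSpace Z := by
  have h : IsConnected (sphere (0 : EuclideanSpace ℝ (Fin 3)) 1) :=
    isConnected_sphere (by rw [← Module.finrank_eq_rank]; simp) 0 zero_le_one
  have : ConnectedSpace 𝕊 := isConnected_iff_connectedSpace.1 h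
  exact Φ.symm.surjective.connectedSpace Φ.symm.continuous

/-- the complement of a point is a plane. -/
theorem Uni_chart (Φ : Z ≃ₜ 𝕊) (p : Z) : ∃ (k : ℂ → Z) (φ : Z → ℂ), Continuous k ∧
    ContinuousOn φ {p}ᶜ ∧ (∀ w, k w ≠ p) ∧ (∀ w, φ (k w) = w) ∧ ∀ z, z ≠ p → k (φ z) = z := by
  have : Fact (Module.finrank ℝ (EuclideanSpace ℝ (Fin 3)) = 2 + 1) := ⟨by simp⟩
  let σ := stereographic' 2 (Φ p)
  have hm : MapsTo Φ {p}ᶜ σ.source := fun z hz => by
    rw [stereographic'_source]
    exact fun h' => hz (Φ.injective h')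
  have ht : ∀ y, y ∈ σ.target := fun y => by
    rw [stereographic'_target]; exact mem_univ y
  let ψ : EuclideanSpace ℝ (Fin 2) ≃ₗᵢ[ℝ] ℂ := Complex.orthonormalBasisOneI.repr.symm
  have hs : Continuous σ.symm := by
    rw [← continuousOn_univ]
    exact σ.continuousOn_symm.mono fun y _ => ht y
  refine ⟨Φ.symm ∘ σ.symm ∘ ψ.symm, ψ ∘ σ ∘ Φ,
    Φ.symm.continuous.comp (hs.comp ψ.symm.continuous),
    ψ.continuous.comp_continuousOn (σ.continuousOn.comp Φ.continuous.continuousOn hm),
    fun w hw => ?_, fun w => ?_, fun z hz => ?_⟩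
  · have h1 := σ.map_target (ht (ψ.symm w))
    rw [stereographic'_source] at h1
    refine h1 ?_
    rw [mem_singleton_iff, ← hw]
    simp
  · simp [σ.right_inv (ht _)]
  · simp [σ.left_inv (hm hz)]

theorem Uni_compl_pair (Φ : Z ≃ₜ 𝕊) {p q : Z} (hpq : q ≠ p) :
    IsPreconnected ({p}ᶜ ∩ {q}ᶜ : Set Z) := by
  obtain ⟨k, φ, hk, -, h1, h2, h3⟩ := Uni_chart Φ p
  have e : ({p}ᶜ ∩ {q}ᶜ : Set Z) = k '' {φ q}ᶜ := by
    ext z
    constructor
    · rintro ⟨hp, hq⟩
      refine ⟨φ z, fun h => hq ?_, h3 z hp⟩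
      rw [mem_singleton_iff, ← h3 z hp, mem_singleton_iff.1 h, h3 q hpq]
    · rintro ⟨w, hw, rfl⟩
      refine ⟨h1 w, fun h => hw ?_⟩
      rw [mem_singleton_iff, ← mem_singleton_iff.1 h, h2]
  rw [e]
  exact ((isConnected_compl_singleton_of_one_lt_rank (by simp) (φ q)).image k
    hk.continuousOn).isPreconnected

theorem Uni_const {s : Set Z} (hs : IsPreconnected s) {g : Z → ℂ} (hg : ContinuousOn g s) {c : ℂ}
    (h : ∀ z ∈ s, Complex.exp (g z) = c) {a b : Z} (ha : a ∈ s) (hb : b ∈ s) : g a = g b :=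
  Complex.isCoveringMap_exp.constOn_of_comp hs hg
    (fun x hx y hy => Subtype.ext (by simp only [h x hx, h y hy])) ha hb

theorem Uni_log_compl (Φ : Z ≃ₜ 𝕊) (p : Z) {f : Z → ℂ} (hf : ContinuousOn f {p}ᶜ)
    (h0 : ∀ z, z ≠ p → f z ≠ 0) :
    ∃ L : Z → ℂ, ContinuousOn L {p}ᶜ ∧ ∀ z, z ≠ p → Complex.exp (L z) = f z := by
  obtain ⟨k, φ, hk, hφ, h1, -, h3⟩ := Uni_chart Φ p
  obtain ⟨F, ⟨-, hF⟩, -⟩ := Complex.isCoveringMapOn_exp.existsUnique_continuousMap_lifts
    (⟨f ∘ k, hf.comp_continuous hk h1⟩ : C(ℂ, ℂ)) (a₀ := 0) (e₀ := Complex.log (f (k 0)))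
    (Complex.exp_log (h0 _ (h1 0))) (fun w => h0 _ (h1 w))
  refine ⟨F ∘ φ, F.continuous.comp_continuousOn hφ, fun z hz => ?_⟩
  have := congrFun hF (φ z)
  simpa [h3 z hz] using this

/-- continuous logarithms exist on the two-sphere. -/
theorem exists_log_sphere (Φ : Z ≃ₜ 𝕊) {f : Z → ℂ} (hf : Continuous f) (h0 : ∀ z, f z ≠ 0) :
    ∃ L : Z → ℂ, Continuous L ∧ ∀ z, Complex.exp (L z) = f z := by
  classical
  have : T2Space Z := Φ.symm.t2Space
  let v : Fin 3 → 𝕊 := fun i => ⟨EuclideanSpace.single i 1, by simp⟩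
  have hv : ∀ i j, i ≠ j → Φ.symm (v i) ≠ Φ.symm (v j) := fun i j hij h => by
    have h1 := congrArg (fun x : 𝕊 => (x : EuclideanSpace ℝ (Fin 3)) i) (Φ.symm.injective h)
    simp [v, hij] at h1
  set p := Φ.symm (v 0)
  set q := Φ.symm (v 1)
  set r := Φ.symm (v 2)
  have hqp : q ≠ p := hv 1 0 (by decide)
  have hrp : r ≠ p := hv 2 0 (by decide)
  have hrq : r ≠ q := hv 2 1 (by decide)
  obtain ⟨Lp, hLp, hp⟩ := Uni_log_compl Φ p hf.continuousOn fun z _ => h0 z
  obtain ⟨Lq, hLq, hq⟩ := Uni_log_compl Φ q hf.continuousOn fun z _ => h0 z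
  have h1 : ∀ z, z ≠ p → z ≠ q → Complex.exp (Lp z - Lq z) = 1 := fun z h1 h2 => by
    rw [Complex.exp_sub, hp z h1, hq z h2, div_self (h0 z)]
  have hc : ∀ z, z ≠ p → z ≠ q → Lp z - Lq z = Lp r - Lq r := fun z hzp hzq =>
    Uni_const (Uni_compl_pair Φ hqp) (g := fun z => Lp z - Lq z)
      ((hLp.mono inter_subset_left).sub (hLq.mono inter_subset_right))
      (fun z hz => h1 z hz.1 hz.2) ⟨hzp, hzq⟩ ⟨hrp, hrq⟩
  refine ⟨fun z => if z = p then Lq z + (Lp r - Lq r) else Lp z, ?_, fun z => ?_⟩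
  · rw [continuous_iff_continuousAt]
    intro z
    by_cases hz : z = p
    · have hn : ({q}ᶜ : Set Z) ∈ 𝓝 z := isOpen_compl_singleton.mem_nhds (hz ▸ hqp.symm)
      refine ((hLq.continuousAt hn).add_const (Lp r - Lq r)).congr ?_
      filter_upwards [hn] with w hw
      split_ifs with h
      · rfl
      · rw [← hc w h hw]; ring
    · have hn : ({p}ᶜ : Set Z) ∈ 𝓝 z := isOpen_compl_singleton.mem_nhds hz
      refine (hLp.continuousAt hn).congr ?_
      filter_upwards [hn] with w hw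
      rw [if_neg (show ¬ w = p from hw)]
  · by_cases hz : z = p
    · simp only [if_pos hz]
      rw [Complex.exp_add, h1 r hrp hrq, mul_one, hq z (hz ▸ hqp.symm)]
    · simp only [if_neg hz]
      exact hp z hz

end top

variable {Z : Type*} [MetricSpace Z]

/-- **Phragmén–Brouwer**: if neither of two disjoint closed sets separates `a` from `b`, their
union does not. -/
theorem phragmen_brouwer (Φ : Z ≃ₜ 𝕊) {F₁ F₂ C₁ C₂ : Set Z} (h₁ : IsClosed F₁) (h₂ : IsClosed F₂)
    (hd : Disjoint F₁ F₂) {a b : Z} (hC₁ : IsPreconnected C₁) (hC₂ : IsPreconnected C₂)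
    (ha₁ : a ∈ C₁) (hb₁ : b ∈ C₁) (ha₂ : a ∈ C₂) (hb₂ : b ∈ C₂)
    (hd₁ : Disjoint C₁ F₁) (hd₂ : Disjoint C₂ F₂) : JoinedIn (F₁ ∪ F₂)ᶜ a b := by
  classical
  have := Uni_locPath Φ
  have hW : IsOpen (F₁ ∪ F₂)ᶜ := (h₁.union h₂).isOpen_compl
  have haW : a ∈ (F₁ ∪ F₂)ᶜ := fun h => h.elim (disjoint_left.1 hd₁ ha₁) (disjoint_left.1 hd₂ ha₂)
  have hbW : b ∈ (F₁ ∪ F₂)ᶜ := fun h => h.elim (disjoint_left.1 hd₁ hb₁) (disjoint_left.1 hd₂ hb₂)
  set U := connectedComponentIn (F₁ ∪ F₂)ᶜ a with hU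
  have hUo : IsOpen U := hW.connectedComponentIn
  suffices hb : b ∈ U by
    have hp : IsPathConnected U := hUo.isConnected_iff_isPathConnected.1
      (isConnected_connectedComponentIn_iff.2 haW)
    exact (hp.joinedIn _ (mem_connectedComponentIn haW) _ hb).mono
      (connectedComponentIn_subset _ _)
  by_contra hb
  rcases F₁.eq_empty_or_nonempty with rfl | n₁
  · exact hb (hC₂.subset_connectedComponentIn (F := (∅ ∪ F₂)ᶜ) ha₂
      (fun z hz h => Or.elim h id (disjoint_left.1 hd₂ hz)) hb₂)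
  rcases F₂.eq_empty_or_nonempty with rfl | n₂
  · exact hb (hC₁.subset_connectedComponentIn (F := (F₁ ∪ ∅)ᶜ) ha₁
      (fun z hz h => Or.elim h (disjoint_left.1 hd₁ hz) id) hb₁)
  have p₁ : ∀ z, z ∉ F₁ → 0 < infDist z F₁ := fun z hz => (h₁.notMem_iff_infDist_pos n₁).1 hz
  have p₂ : ∀ z, z ∉ F₂ → 0 < infDist z F₂ := fun z hz => (h₂.notMem_iff_infDist_pos n₂).1 hz
  set m : Z → ℝ := fun z => infDist z F₁ * infDist z F₂ with hm
  have hmc : Continuous m := (continuous_infDist_pt F₁).mul (continuous_infDist_pt F₂)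
  have hm0 : ∀ z ∈ (F₁ ∪ F₂)ᶜ, 0 < m z := fun z hz =>
    mul_pos (p₁ z fun h => hz (Or.inl h)) (p₂ z fun h => hz (Or.inr h))
  set s : Z → ℝ := fun z => if z ∈ U then m z else -m z with hs
  have hsc : Continuous s := by
    rw [continuous_iff_continuousAt]
    intro z
    by_cases hzU : z ∈ U
    · refine hmc.continuousAt.congr ?_
      filter_upwards [hUo.mem_nhds hzU] with w hw
      simp only [hs, if_pos hw]
    by_cases hzW : z ∈ (F₁ ∪ F₂)ᶜ
    · refine hmc.neg.continuousAt.congr ?_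
      filter_upwards [hW.connectedComponentIn.mem_nhds (mem_connectedComponentIn hzW)] with w hw
      have hw' : w ∉ U := fun h => hzU (by
        rw [hU, connectedComponentIn_eq h, ← connectedComponentIn_eq hw]
        exact mem_connectedComponentIn hzW)
      simp only [hs, if_neg hw', Pi.neg_apply]
    · have hz0 : m z = 0 := by
        rcases not_not.1 hzW with h | h
        · simp [hm, infDist_zero_of_mem h]
        · simp [hm, infDist_zero_of_mem h]
      have hsz : s z = 0 := by simp [hs, hz0]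
      rw [ContinuousAt, hsz]
      have h1 : Tendsto (fun w => |m w|) (𝓝 z) (𝓝 0) := by
        have := hmc.abs.continuousAt (x := z)
        rwa [ContinuousAt, hz0, abs_zero] at this
      refine squeeze_zero_norm (fun w => ?_) h1
      simp only [hs]
      split_ifs <;> simp
  have hs0 : ∀ z ∈ (F₁ ∪ F₂)ᶜ, s z ≠ 0 := fun z hz => by
    have := hm0 z hz
    simp only [hs]
    split_ifs
    · exact this.ne'
    · exact (neg_neg_iff_pos.2 this).ne
  set g : Z → ℂ := fun z => ((infDist z F₂ - infDist z F₁ : ℝ) : ℂ) + (s z : ℂ) * Complex.I with hg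
  have hgc : Continuous g := by
    have := continuous_infDist_pt F₁
    have := continuous_infDist_pt F₂
    simp only [hg]
    fun_prop
  have hre : ∀ z, (g z).re = infDist z F₂ - infDist z F₁ := fun z => by simp [hg]
  have him : ∀ z, (g z).im = s z := fun z => by simp [hg]
  have g2 : ∀ z, z ∉ F₂ → g z ∈ Complex.slitPlane := fun z hz => by
    by_cases h : z ∈ F₁
    · left
      rw [hre, infDist_zero_of_mem h, sub_zero]
      exact p₂ z hz
    · right
      rw [him]
      exact hs0 z fun h' => h'.elim h hz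
  have g1 : ∀ z, z ∉ F₁ → -g z ∈ Complex.slitPlane := fun z hz => by
    by_cases h : z ∈ F₂
    · left
      rw [Complex.neg_re, hre, infDist_zero_of_mem h, zero_sub, neg_neg]
      exact p₁ z hz
    · right
      rw [Complex.neg_im, him]
      exact neg_ne_zero.2 (hs0 z fun h' => h'.elim hz h)
  have g0 : ∀ z, g z ≠ 0 := fun z => by
    by_cases h : z ∈ F₂
    · exact neg_ne_zero.1 (Complex.slitPlane_ne_zero (g1 z fun h' => disjoint_left.1 hd h' h))
    · exact Complex.slitPlane_ne_zero (g2 z h)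
  obtain ⟨L, hL, hE⟩ := exists_log_sphere Φ hgc g0
  have e2 := Uni_const hC₂ (g := fun z => L z - Complex.log (g z)) (c := 1)
    (hL.continuousOn.sub (hgc.continuousOn.clog fun z hz => g2 z (disjoint_left.1 hd₂ hz)))
    (fun z _ => by rw [Complex.exp_sub, hE, Complex.exp_log (g0 z), div_self (g0 z)]) ha₂ hb₂
  have e1 := Uni_const hC₁ (g := fun z => L z - Complex.log (-g z)) (c := -1)
    (hL.continuousOn.sub (hgc.neg.continuousOn.clog fun z hz => g1 z (disjoint_left.1 hd₁ hz)))
    (fun z _ => by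
      rw [Complex.exp_sub, hE, Complex.exp_log (neg_ne_zero.2 (g0 z)), div_neg, div_self (g0 z)])
    ha₁ hb₁
  have e3 : Complex.log (g a) - Complex.log (-g a) = Complex.log (g b) - Complex.log (-g b) := by
    linear_combination e1 - e2
  have e4 := congrArg Complex.im e3
  have ia : 0 < (g a).im := by
    rw [him]
    have haU : a ∈ U := mem_connectedComponentIn haW
    simp only [hs, if_pos haU]
    exact hm0 a haW
  have ib : (g b).im < 0 := by
    rw [him]
    simp only [hs, if_neg hb]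
    exact neg_neg_iff_pos.2 (hm0 b hbW)
  rw [Complex.sub_im, Complex.sub_im, Complex.log_im, Complex.log_im, Complex.log_im,
    Complex.log_im, Complex.arg_neg_eq_arg_sub_pi_of_im_pos ia,
    Complex.arg_neg_eq_arg_add_pi_of_im_neg ib] at e4
  linarith [Real.pi_pos]

/-- a connected set missing a closed set can be replaced by a path. -/
theorem joinedIn_compl_of_preconnected (Φ : Z ≃ₜ 𝕊) {F C : Set Z} (hF : IsClosed F)
    (hC : IsPreconnected C) (hd : Disjoint C F) {a b : Z} (ha : a ∈ C) (hb : b ∈ C) :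
    JoinedIn Fᶜ a b := by
  have := phragmen_brouwer Φ hF isClosed_empty (disjoint_empty F) hC hC ha hb ha hb hd
    (disjoint_empty C)
  rwa [union_empty] at this

/-- **Unicoherence**, for points: a closed set separating `a` from `b` contains a continuum
separating them. -/
theorem exists_sep_continuum_pt (Φ : Z ≃ₜ 𝕊) {F : Set Z} (hF : IsClosed F) {a b : Z}
    (hsep : ¬ JoinedIn Fᶜ a b) :
    ∃ K ⊆ F, IsCompact K ∧ IsConnected K ∧
      ∀ C, IsPreconnected C → a ∈ C → b ∈ C → (C ∩ K).Nonempty := by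
  have := Uni_compact Φ
  have := Uni_connected Φ
  obtain ⟨K, hKF, hK⟩ := zorn_superset_nonempty {K : Set Z | IsClosed K ∧ ¬ JoinedIn Kᶜ a b}
    (fun c hc hch hne => ⟨⋂₀ c, ⟨isClosed_sInter fun K hK => (hc hK).1, fun hj => by
      have hcp : IsCompact (range hj.somePath) := isCompact_range hj.somePath.continuous
      have : Nonempty c := hne.to_subtype
      obtain ⟨K, hK⟩ := hcp.elim_directed_family_closed (fun K : c => (K : Set Z))
        (fun K => (hc K.2).1) (by
          rw [← sInter_eq_iInter, ← disjoint_iff_inter_eq_empty, disjoint_left]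
          rintro _ ⟨t, rfl⟩
          exact hj.somePath_mem t)
        (fun K K' => by
          rcases hch.total K.2 K'.2 with h | h
          · exact ⟨K, subset_rfl, h⟩
          · exact ⟨K', h, subset_rfl⟩)
      refine (hc K.2).2 ⟨hj.somePath, fun t ht => ?_⟩
      have : hj.somePath t ∈ range hj.somePath ∩ (K : Set Z) := ⟨mem_range_self t, ht⟩
      rw [hK] at this
      exact this⟩, fun K hK => sInter_subset_of_mem hK⟩) F ⟨hF, hsep⟩
  have hsepK : ∀ C, IsPreconnected C → a ∈ C → b ∈ C → (C ∩ K).Nonempty := fun C hC ha hb => by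
    by_contra h
    exact hK.prop.2 (joinedIn_compl_of_preconnected Φ hK.prop.1 hC
      (disjoint_iff_inter_eq_empty.2 (not_nonempty_iff_eq_empty.1 h)) ha hb)
  refine ⟨K, hKF, hK.prop.1.isCompact,
    ⟨by simpa using hsepK univ isPreconnected_univ (mem_univ a) (mem_univ b), ?_⟩, hsepK⟩
  rw [isPreconnected_iff_subset_of_fully_disjoint_closed hK.prop.1]
  intro u v hu hv huv hd
  by_contra hcon
  rw [not_or] at hcon
  have key : ∀ w : Set Z, IsClosed w → ¬ K ⊆ w → JoinedIn (K ∩ w)ᶜ a b := fun w hw h => by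
    by_contra h'
    exact h ((hK.le_of_le (y := K ∩ w) ⟨hK.prop.1.inter hw, h'⟩ inter_subset_left).trans
      inter_subset_right)
  have j1 := key u hu hcon.1
  have j2 := key v hv hcon.2
  have := phragmen_brouwer Φ (hK.prop.1.inter hu) (hK.prop.1.inter hv)
    (hd.mono inter_subset_right inter_subset_right)
    (isPreconnected_range j1.somePath.continuous) (isPreconnected_range j2.somePath.continuous)
    j1.somePath.source_mem_range j1.somePath.target_mem_range
    j2.somePath.source_mem_range j2.somePath.target_mem_range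
    (disjoint_left.2 (by rintro _ ⟨t, rfl⟩; exact j1.somePath_mem t))
    (disjoint_left.2 (by rintro _ ⟨t, rfl⟩; exact j2.somePath_mem t))
  rw [← inter_union_distrib_left, inter_eq_left.2 huv] at this
  exact hK.prop.2 this

/-- **Unicoherence**: a closed set `F` separating the connected sets `A`, `B` (both disjoint from
`F`) contains a continuum meeting every connected set that meets `A` and `B`. -/
theorem exists_sep_continuum (Φ : Z ≃ₜ 𝕊) {F A B : Set Z} (hF : IsClosed F)
    (hA : IsConnected A) (hB : IsConnected B) (hAF : Disjoint A F) (hBF : Disjoint B F)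
    (hsep : ∀ a ∈ A, ∀ b ∈ B, ¬ JoinedIn Fᶜ a b) :
    ∃ K ⊆ F, IsCompact K ∧ IsConnected K ∧
      ∀ C, IsPreconnected C → (C ∩ A).Nonempty → (C ∩ B).Nonempty → (C ∩ K).Nonempty := by
  obtain ⟨a, ha⟩ := hA.nonempty
  obtain ⟨b, hb⟩ := hB.nonempty
  obtain ⟨K, hKF, hc, hK, h⟩ := exists_sep_continuum_pt Φ hF (hsep a ha b hb)
  refine ⟨K, hKF, hc, hK, fun C hC ⟨x, hxC, hxA⟩ ⟨y, hyC, hyB⟩ => ?_⟩
  obtain ⟨z, hz, hzK⟩ := h (A ∪ C ∪ B)
    ((hA.isPreconnected.union x hxA hxC hC).union y (Or.inr hyC) hyB hB.isPreconnected)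
    (Or.inl (Or.inl ha)) (Or.inr hb)
  rcases hz with (hz | hz) | hz
  · exact absurd (hKF hzK) (disjoint_left.1 hAF hz)
  · exact ⟨z, hz, hzK⟩
  · exact absurd (hKF hzK) (disjoint_left.1 hBF hz)

/-- level sets: if `w < t` on `A` and `t < w` on `B`, the level set `{w = t}` contains a continuum
separating `A` from `B`. -/
theorem exists_level_continuum (Φ : Z ≃ₜ 𝕊) {w : Z → ℝ} (hw : Continuous w) {t : ℝ}
    {A B : Set Z} (hA : IsConnected A) (hB : IsConnected B) (hAt : ∀ z ∈ A, w z < t)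
    (hBt : ∀ z ∈ B, t < w z) :
    ∃ K : Set Z, (∀ z ∈ K, w z = t) ∧ IsCompact K ∧ IsConnected K ∧
      ∀ C, IsPreconnected C → (C ∩ A).Nonempty → (C ∩ B).Nonempty → (C ∩ K).Nonempty := by
  obtain ⟨K, hK, h⟩ := exists_sep_continuum Φ (F := {z | w z = t})
    (isClosed_eq hw continuous_const) hA hB
    (disjoint_left.2 fun z hz h => (hAt z hz).ne h)
    (disjoint_left.2 fun z hz h => (hBt z hz).ne' h) (fun a ha b hb hj => by
      have h1 := (isPreconnected_range hj.somePath.continuous).intermediate_value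
        hj.somePath.source_mem_range hj.somePath.target_mem_range hw.continuousOn
        ⟨(hAt a ha).le, (hBt b hb).le⟩
      obtain ⟨_, ⟨s, rfl⟩, hs⟩ := h1
      exact hj.somePath_mem s hs)
  exact ⟨K, fun z hz => hK hz, h⟩

end Crest.Agent.R193
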