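import Crest.Agent.R193.VisLen

/-! Row 193, block [Z]: Lipschitz bounds, expansion, cross-ratios, multiplicity of cells. -/

set_option autoImplicit false

namespace Crest.Agent.R193

namespace Visual

variable {G Z : Type} [Group G] [MetricSpace Z] [MulAction G Z] (V : Visual G Z)

/-- `g⁻¹` is `C / sz g`-Lipschitz. -/
theorem expand_le (g : G) (ξ η : Z) : dist (g⁻¹ • ξ) (g⁻¹ • η) * V.sz g ≤ V.C * dist ξ η := by
  have h := V.F1u g ξ η
  have hs := V.sz_pos g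
  have h1 : V.sz g * V.sz g ≤ V.rho g ξ * V.rho g η :=
    mul_le_mul (V.sz_le_rho g ξ) (V.sz_le_rho g η) hs.le (V.rho_pos g ξ).le
  have h2 := mul_le_mul_of_nonneg_left h1 (dist_nonneg (x := g⁻¹ • ξ) (y := g⁻¹ • η))
  refine le_of_mul_le_mul_right ?_ hs
  nlinarith

/-- sharper upper bound: only one of the two `rho`'s is replaced by `sz`. -/
theorem expand_le' (g : G) (ξ η : Z) :
    dist (g⁻¹ • ξ) (g⁻¹ • η) * V.rho g η ≤ V.C * dist ξ η := by
  have h := V.F1u g ξ η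
  have hs := V.sz_pos g
  have h1 : V.sz g * V.rho g η ≤ V.rho g ξ * V.rho g η :=
    mul_le_mul_of_nonneg_right (V.sz_le_rho g ξ) (V.rho_pos g η).le
  have h2 := mul_le_mul_of_nonneg_left h1 (dist_nonneg (x := g⁻¹ • ξ) (y := g⁻¹ • η))
  refine le_of_mul_le_mul_right ?_ hs
  nlinarith

theorem dist_smul_le (g : G) (ξ η : Z) :
    dist (g • ξ) (g • η) ≤ V.C * V.a ^ V.len g * dist ξ η := by
  have h := V.expand_le g⁻¹ ξ η
  rw [inv_inv, V.sz_inv] at h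
  have h1 := V.sz_mul_pow g
  have h2 : 0 < V.a ^ V.len g := pow_pos V.a_pos _
  calc dist (g • ξ) (g • η) = dist (g • ξ) (g • η) * V.sz g * V.a ^ V.len g := by
        rw [mul_assoc, h1, mul_one]
    _ ≤ V.C * dist ξ η * V.a ^ V.len g := by gcongr
    _ = _ := by ring

/-- every `g` contracts by at most `sz g / C`. -/
theorem le_dist_smul (g : G) (ξ η : Z) : V.sz g * dist ξ η ≤ V.C * dist (g • ξ) (g • η) := by
  have h := V.expand_le g (g • ξ) (g • η)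
  rw [inv_smul_smul, inv_smul_smul] at h
  linarith

include V in
theorem continuous_smul (g : G) : Continuous fun z : Z => g • z := by
  have h0 : 0 ≤ V.C * V.a ^ V.len g := (mul_pos V.C_pos (pow_pos V.a_pos _)).le
  exact (LipschitzWith.of_dist_le_mul (K := ⟨_, h0⟩) (V.dist_smul_le g)).continuous

include V in
theorem continuousConstSMul : ContinuousConstSMul G Z := ⟨V.continuous_smul⟩

/-- the action of `g` as a homeomorphism -/
def homeo (g : G) : Z ≃ₜ Z where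
  toEquiv := MulAction.toPerm g
  continuous_toFun := V.continuous_smul g
  continuous_invFun := V.continuous_smul g⁻¹

@[simp] theorem homeo_apply (g : G) (z : Z) : V.homeo g z = g • z := rfl

@[simp] theorem homeo_symm_apply (g : G) (z : Z) : (V.homeo g).symm z = g⁻¹ • z := rfl

/-- expansion when one point is in the `R`-cell of `g`. -/
theorem le_expand' {g : G} {ξ : Z} {R : ℝ} (hξ : V.rho g ξ ≤ R * V.sz g) (η : Z) :
    dist ξ η ≤ V.C * R * V.rho g η * dist (g⁻¹ • ξ) (g⁻¹ • η) := by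
  have h := V.F1l g ξ η
  have hs := V.sz_pos g
  have hC := V.C_pos
  have hη := V.rho_pos g η
  have h2 : V.C * (dist (g⁻¹ • ξ) (g⁻¹ • η) * (V.rho g ξ * V.rho g η)) ≤
      V.C * (dist (g⁻¹ • ξ) (g⁻¹ • η) * (R * V.sz g * V.rho g η)) := by gcongr
  refine le_of_mul_le_mul_left ?_ hs
  nlinarith

/-- expansion by `1 / sz g` (up to `C R²`) on the `R`-cell of `g`. -/
theorem le_expand {g : G} {ξ η : Z} {R : ℝ} (hξ : V.rho g ξ ≤ R * V.sz g)
    (hη : V.rho g η ≤ R * V.sz g) :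
    dist ξ η ≤ V.C * R ^ 2 * V.sz g * dist (g⁻¹ • ξ) (g⁻¹ • η) := by
  have hR : 0 < R := pos_of_mul_pos_right ((V.rho_pos g ξ).trans_le hξ |>.trans_le (le_of_eq (mul_comm _ _))) (V.sz_pos g).le
  have hC := V.C_pos
  calc dist ξ η ≤ _ := V.le_expand' hξ η
    _ ≤ V.C * R * (R * V.sz g) * dist (g⁻¹ • ξ) (g⁻¹ • η) := by gcongr
    _ = _ := by ring

theorem rho_inv_u (g : G) (ξ : Z) : V.rho g⁻¹ (g⁻¹ • ξ) * V.rho g ξ ≤ V.C * V.sz g := by
  simpa [V.rho2_one, V.rho_one] using V.F2u g 1 ξ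

theorem rho_inv_l (g : G) (ξ : Z) : V.sz g ≤ V.C * (V.rho g⁻¹ (g⁻¹ • ξ) * V.rho g ξ) := by
  simpa [V.rho2_one, V.rho_one] using V.F2l g 1 ξ

/-- `g⁻¹` maps the complement of the `R`-cell of `g` into the `C/R`-ball around `ctr g⁻¹`. -/
theorem rho_inv_le_of_far {g : G} {ξ : Z} {R : ℝ} (hR : 0 < R) (h : R * V.sz g ≤ V.rho g ξ) :
    V.rho g⁻¹ (g⁻¹ • ξ) ≤ V.C / R := by
  have h1 := V.rho_inv_u g ξ
  have hs := V.sz_pos g
  have h2 := mul_le_mul_of_nonneg_left h (V.rho_pos g⁻¹ (g⁻¹ • ξ)).le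
  rw [le_div_iff₀ hR]
  refine le_of_mul_le_mul_right ?_ hs
  nlinarith

/-- `g` maps the complement of the `e`-ball around `ctr g⁻¹` into the `C/e`-cell of `g`. -/
theorem rho_le_of_inv_far {g : G} {ξ : Z} {e : ℝ} (he : 0 < e) (h : e ≤ V.rho g⁻¹ (g⁻¹ • ξ)) :
    V.rho g ξ ≤ V.C / e * V.sz g := by
  have h1 := V.rho_inv_u g ξ
  have h2 := mul_le_mul_of_nonneg_right h (V.rho_pos g ξ).le
  rw [div_mul_eq_mul_div, le_div_iff₀ he]
  nlinarith

/-- `g⁻¹` maps the `R`-cell of `g` to points `1/(C R)`-far from `ctr g⁻¹` (in the sense of `rho`). -/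
theorem le_rho_inv_of_near {g : G} {ξ : Z} {R : ℝ} (h : V.rho g ξ ≤ R * V.sz g) :
    1 ≤ V.C * R * V.rho g⁻¹ (g⁻¹ • ξ) := by
  have h1 := V.rho_inv_l g ξ
  have hs := V.sz_pos g
  have hC := V.C_pos
  have h0 := V.rho_pos g⁻¹ (g⁻¹ • ξ)
  have h2 : V.C * (V.rho g⁻¹ (g⁻¹ • ξ) * V.rho g ξ) ≤ V.C * (V.rho g⁻¹ (g⁻¹ • ξ) * (R * V.sz g)) := by
    gcongr
  refine le_of_mul_le_mul_right ?_ hs
  nlinarith

/-- points `e`-close to `ctr g⁻¹` come from outside the `1/(C e)`-cell of `g`. -/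
theorem le_rho_of_inv_near {g : G} {ξ : Z} {e : ℝ} (h : V.rho g⁻¹ (g⁻¹ • ξ) ≤ e) :
    V.sz g ≤ V.C * e * V.rho g ξ := by
  have h1 := V.rho_inv_l g ξ
  have hC := V.C_pos
  have h0 := V.rho_pos g ξ
  calc V.sz g ≤ _ := h1
    _ ≤ V.C * (e * V.rho g ξ) := by gcongr
    _ = _ := by ring

/-- contraction away from the cell: both points `t`-far from `ctr g`. -/
theorem contract_le {g : G} {ξ η : Z} {t : ℝ} (ht : 0 < t) (hξ : t ≤ V.rho g ξ)
    (hη : t ≤ V.rho g η) : dist (g⁻¹ • ξ) (g⁻¹ • η) ≤ V.C * V.sz g * dist ξ η / t ^ 2 := by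
  have h := V.F1u g ξ η
  have h1 : t * t ≤ V.rho g ξ * V.rho g η := mul_le_mul hξ hη ht.le (V.rho_pos g ξ).le
  have h2 := mul_le_mul_of_nonneg_left h1 (dist_nonneg (x := g⁻¹ • ξ) (y := g⁻¹ • η))
  rw [le_div_iff₀ (by positivity)]
  nlinarith

/-- cross-ratios are distorted by at most `C^4` (the form `CRBound` of block T). -/
theorem cross_ratio (g : G) (a b c d : Z) :
    dist (g • a) (g • b) * dist (g • c) (g • d) * (dist a c * dist b d) ≤
      V.C ^ 4 * (dist a b * dist c d * (dist (g • a) (g • c) * dist (g • b) (g • d))) := by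
  have h1 := V.F1u g⁻¹ a b
  have h2 := V.F1u g⁻¹ c d
  have h3 := V.F1l g⁻¹ a c
  have h4 := V.F1l g⁻¹ b d
  rw [inv_inv] at h1 h2 h3 h4
  have hs := V.sz_pos g⁻¹
  have hC := V.C_pos
  have ha := V.rho_pos g⁻¹ a
  have hb := V.rho_pos g⁻¹ b
  have hc := V.rho_pos g⁻¹ c
  have hd := V.rho_pos g⁻¹ d
  have h12 := mul_le_mul h1 h2 (by positivity) (by positivity)
  have h34 := mul_le_mul h3 h4 (by positivity) (by positivity)
  have h := mul_le_mul h12 h34 (by positivity) (by positivity)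
  refine le_of_mul_le_mul_right ?_ (show 0 < V.sz g⁻¹ ^ 2 *
    (V.rho g⁻¹ a * V.rho g⁻¹ b * V.rho g⁻¹ c * V.rho g⁻¹ d) by positivity)
  calc _ = _ := by ring
    _ ≤ _ := h
    _ = _ := by ring

/-- cells of comparable size at comparable distance are at bounded word distance. -/
theorem exists_len_le_of_rho2 (R : ℝ) : ∃ L : ℕ, ∀ g h : G, V.rho2 g h ≤ R * V.sz g →
    V.rho2 g h ≤ R * V.sz h → V.len (g⁻¹ * h) ≤ L := by
  have hC := V.C_pos
  obtain ⟨L, hL⟩ := V.exists_len_le (e := (V.C * (R ^ 2 + 1))⁻¹) (by positivity)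
  refine ⟨L, fun g h h1 h2 => hL _ ?_⟩
  have h3 := V.F3l g h
  have hg := V.sz_pos g
  have hh := V.sz_pos h
  have hk := V.sz_pos (g⁻¹ * h)
  have h0 := V.rho2_pos g h
  have h4 : V.rho2 g h ^ 2 ≤ (R ^ 2 + 1) * (V.sz g * V.sz h) := by
    have := mul_le_mul h1 h2 h0.le (h0.le.trans h1)
    nlinarith [mul_pos hg hh]
  rw [inv_le_iff_one_le_mul₀ (by positivity)]
  refine le_of_mul_le_mul_right ?_ (mul_pos hg hh)
  calc 1 * (V.sz g * V.sz h) ≤ V.C * (V.sz (g⁻¹ * h) * V.rho2 g h ^ 2) := by linarith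
    _ ≤ V.C * (V.sz (g⁻¹ * h) * ((R ^ 2 + 1) * (V.sz g * V.sz h))) := by gcongr
    _ = _ := by ring

/-- elements at word distance `≤ L` have comparable cells. -/
theorem rho2_le_of_len {g h : G} {L : ℕ} (hL : V.len (g⁻¹ * h) ≤ L) :
    V.rho2 g h ≤ V.C * V.a ^ L * V.sz g := by
  have h1 := V.F3u g h
  have h2 := V.sz_le_of_len hL
  have h3 := V.inv_pow_le_sz hL
  have hg := V.sz_pos g
  have hC := V.one_le_C
  have hp : 0 < V.a ^ L := pow_pos V.a_pos _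
  have h0 := V.rho2_pos g h
  have h4 : V.rho2 g h ^ 2 ≤ V.a ^ L * (V.C * (V.sz g * (V.a ^ L * V.sz g))) := by
    calc V.rho2 g h ^ 2 = V.a ^ L * ((V.a ^ L)⁻¹ * V.rho2 g h ^ 2) := by field_simp
      _ ≤ V.a ^ L * (V.sz (g⁻¹ * h) * V.rho2 g h ^ 2) := by gcongr
      _ ≤ V.a ^ L * (V.C * (V.sz g * V.sz h)) := by gcongr
      _ ≤ _ := by gcongr
  have hb : 0 ≤ V.C * V.a ^ L * V.sz g := by positivity
  refine (pow_le_pow_iff_left₀ h0.le hb two_ne_zero).1 (h4.trans ?_)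
  have h5 : 0 ≤ (V.a ^ L * V.sz g) ^ 2 := by positivity
  have h6 : V.C ≤ V.C ^ 2 := by nlinarith
  calc _ = V.C * (V.a ^ L * V.sz g) ^ 2 := by ring
    _ ≤ V.C ^ 2 * (V.a ^ L * V.sz g) ^ 2 := by gcongr
    _ = _ := by ring

theorem rho_le_of_len {g h : G} {L : ℕ} (hL : V.len (g⁻¹ * h) ≤ L) (ξ : Z) :
    V.rho g ξ ≤ (V.C * V.a ^ L * V.a ^ L + 1) * V.rho h ξ := by
  have h1 := V.rho_le_rho2_add g h ξ
  have h2 := V.rho2_le_of_len hL
  have h3 : V.sz g ≤ V.a ^ L * V.sz h := V.sz_le_of_len (by rwa [V.len_inv_mul_comm])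
  have h4 := V.sz_le_rho h ξ
  have hC := V.C_pos
  have hp : 0 < V.a ^ L := pow_pos V.a_pos _
  have h5 : V.C * V.a ^ L * V.sz g ≤ V.C * V.a ^ L * (V.a ^ L * V.rho h ξ) := by
    gcongr; exact h3.trans (by gcongr)
  nlinarith

/-- a set of group elements of word-diameter `≤ L` has at most `|B_L|` elements. -/
theorem ncard_le_of_len {A : Set G} {L : ℕ} (hA : ∀ g ∈ A, ∀ h ∈ A, V.len (g⁻¹ * h) ≤ L) :
    A.Finite ∧ A.ncard ≤ (V.ballF L).card := by
  rcases A.eq_empty_or_nonempty with rfl | ⟨g, hg⟩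
  · simp
  have hsub : A ⊆ (fun k => g * k) '' (V.ballF L : Set G) := fun h hh =>
    ⟨g⁻¹ * h, by simpa using hA g hg h hh, by simp⟩
  have hf : ((fun k => g * k) '' (V.ballF L : Set G)).Finite := (V.ballF L).finite_toSet.image _
  refine ⟨hf.subset hsub, (Set.ncard_le_ncard hsub hf).trans ?_⟩
  simpa using Set.ncard_image_le (f := fun k => g * k) (V.ballF L).finite_toSet

/-- BOUNDED MULTIPLICITY: boundedly many cells of size `≈ r` within distance `R r` of `ξ`. -/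
theorem card_cells {R : ℝ} (hR : 0 ≤ R) : ∃ N : ℕ, ∀ (ξ : Z) (r : ℝ),
    {g : G | r ≤ R * V.sz g ∧ V.rho g ξ ≤ R * r}.Finite ∧
    {g : G | r ≤ R * V.sz g ∧ V.rho g ξ ≤ R * r}.ncard ≤ N := by
  obtain ⟨L, hL⟩ := V.exists_len_le_of_rho2 (2 * R ^ 2)
  refine ⟨_, fun ξ r => V.ncard_le_of_len (L := L) fun g hg h hh => ?_⟩
  obtain ⟨g1, g2⟩ := hg
  obtain ⟨h1, h2⟩ := hh
  have h3 := V.rho2_le_rho_add g h ξ
  exact hL g h (by nlinarith [mul_le_mul_of_nonneg_left g1 hR])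
    (by nlinarith [mul_le_mul_of_nonneg_left h1 hR])

/-- bounded multiplicity at one level -/
theorem card_level {R : ℝ} (hR : 0 ≤ R) : ∃ N : ℕ, ∀ (ξ : Z) (n : ℕ),
    ((V.level n).filter fun g => dist ξ (V.ctr g) ≤ R * (V.a ^ n)⁻¹).card ≤ N := by
  classical
  obtain ⟨N, hN⟩ := V.card_cells (R := R + 1) (by linarith)
  refine ⟨N, fun ξ n => ?_⟩
  obtain ⟨hf, hc⟩ := hN ξ (V.a ^ n)⁻¹
  rw [← Set.ncard_coe_finset]
  refine (Set.ncard_le_ncard (fun g hg => ?_) hf).trans hc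
  simp only [Finset.coe_filter, mem_level, Set.mem_setOf_eq] at hg
  have hp : 0 < (V.a ^ n)⁻¹ := inv_pos.2 (pow_pos V.a_pos _)
  have e := V.sz_eq hg.1
  refine ⟨by rw [e]; nlinarith, ?_⟩
  rw [← e]
  exact V.rho_le (by linarith) (by rw [e]; nlinarith [hg.2])

end Visual

end Crest.Agent.R193
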