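import Crest.Agent.R193.Defs
import Crest.Agent.R193.VisBasic

/-! Row 193, block [B]: bounded combinatorial modulus gives cut-off functions of bounded energy. -/

set_option autoImplicit false

namespace Crest.Agent.R193

open Metric Set

/-- The truncated distance function of a monotone subadditive cost. -/
theorem exists_cutoff {Z : Type} [MetricSpace Z] (Lc : Set Z → ℝ) (hnn : ∀ A, 0 ≤ Lc A)
    (hsub : ∀ A B, Lc (A ∪ B) ≤ Lc A + Lc B) (B O : Set Z) (hBO : B ⊆ O)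
    (hlen : ∀ a ∈ B, ∀ z, z ∉ O → ∀ γ : Path a z, 1 ≤ Lc (range γ)) :
    ∃ f : Z → ℝ, (∀ z, 0 ≤ f z ∧ f z ≤ 1) ∧ (∀ z ∈ B, f z = 1) ∧ (∀ z, z ∉ O → f z = 0) ∧
      ∀ (w w' : Z) (γ : Path w w'), dist (f w) (f w') ≤ Lc (range γ) := by
  let P : Z → Set ℝ := fun z =>
    {t | t = 1 ∨ (z ∈ B ∧ t = 0) ∨ ∃ a ∈ B, ∃ γ : Path a z, t = Lc (range γ)}
  have hne : ∀ z, (P z).Nonempty := fun z => ⟨1, Or.inl rfl⟩
  have hlb : ∀ z, ∀ t ∈ P z, (0 : ℝ) ≤ t := by
    rintro z t (rfl | ⟨-, rfl⟩ | ⟨a, -, γ, rfl⟩)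
    · exact zero_le_one
    · exact le_rfl
    · exact hnn _
  have hbd : ∀ z, BddBelow (P z) := fun z => ⟨0, hlb z⟩
  have h0 : ∀ z, 0 ≤ sInf (P z) := fun z => le_csInf (hne z) (hlb z)
  have h1 : ∀ z, sInf (P z) ≤ 1 := fun z => csInf_le (hbd z) (Or.inl rfl)
  have key : ∀ (w w' : Z) (γ : Path w w'), sInf (P w') - Lc (range γ) ≤ sInf (P w) := by
    intro w w' γ
    refine le_csInf (hne w) ?_
    rintro t (rfl | ⟨hw, rfl⟩ | ⟨a, ha, γ0, rfl⟩)
    · have := h1 w'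
      have := hnn (range γ)
      linarith
    · have : sInf (P w') ≤ Lc (range γ) := csInf_le (hbd w') (Or.inr (Or.inr ⟨w, hw, γ, rfl⟩))
      linarith
    · have h2 : sInf (P w') ≤ Lc (range (γ0.trans γ)) :=
        csInf_le (hbd w') (Or.inr (Or.inr ⟨a, ha, γ0.trans γ, rfl⟩))
      rw [Path.trans_range] at h2
      have := hsub (range γ0) (range γ)
      linarith
  refine ⟨fun z => 1 - sInf (P z), fun z => ⟨by linarith [h1 z], by linarith [h0 z]⟩,
    fun z hz => ?_, fun z hz => ?_, fun w w' γ => ?_⟩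
  · have : sInf (P z) ≤ 0 := csInf_le (hbd z) (Or.inr (Or.inl ⟨hz, rfl⟩))
    have := h0 z
    show 1 - sInf (P z) = 1
    linarith
  · have : 1 ≤ sInf (P z) := by
      refine le_csInf (hne z) ?_
      rintro t (rfl | ⟨hw, rfl⟩ | ⟨a, ha, γ0, rfl⟩)
      · exact le_rfl
      · exact absurd (hBO hw) hz
      · exact hlen a ha z hz γ0
    have := h1 z
    show 1 - sInf (P z) = 0
    linarith
  · have k1 := key w w' γ
    have k2 := key w' w γ.symm
    rw [Path.symm_range] at k2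
    rw [Real.dist_eq, abs_le]
    constructor <;> linarith

/-- double counting with Cauchy-Schwarz -/
theorem sum_sq_le_of_card {α β : Type} (S : Finset α) (T : Finset β) (ρ : β → ℝ)
    (R : α → β → Prop) [∀ z x, Decidable (R z x)] (m1 m2 : ℕ)
    (h1 : ∀ z ∈ S, (T.filter (R z)).card ≤ m1)
    (h2 : ∀ x ∈ T, (S.filter (fun z => R z x)).card ≤ m2) :
    ∑ z ∈ S, (∑ x ∈ T.filter (R z), ρ x) ^ 2 ≤ (m1 : ℝ) * m2 * ∑ x ∈ T, ρ x ^ 2 := by
  calc ∑ z ∈ S, (∑ x ∈ T.filter (R z), ρ x) ^ 2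
      ≤ ∑ z ∈ S, (m1 : ℝ) * ∑ x ∈ T.filter (R z), ρ x ^ 2 := by
        refine Finset.sum_le_sum fun z hz => ?_
        refine (sq_sum_le_card_mul_sum_sq).trans ?_
        have : ((T.filter (R z)).card : ℝ) ≤ m1 := by exact_mod_cast h1 z hz
        exact mul_le_mul_of_nonneg_right this (Finset.sum_nonneg fun _ _ => sq_nonneg _)
    _ = (m1 : ℝ) * ∑ x ∈ T, ((S.filter (fun z => R z x)).card : ℝ) * ρ x ^ 2 := by
        rw [← Finset.mul_sum]
        congr 1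
        simp only [Finset.sum_filter]
        rw [Finset.sum_comm]
        refine Finset.sum_congr rfl fun x _ => ?_
        rw [← Finset.sum_filter, Finset.sum_const, nsmul_eq_mul]
    _ ≤ (m1 : ℝ) * ∑ x ∈ T, (m2 : ℝ) * ρ x ^ 2 := by
        refine mul_le_mul_of_nonneg_left (Finset.sum_le_sum fun x hx => ?_) (Nat.cast_nonneg _)
        have : ((S.filter (fun z => R z x)).card : ℝ) ≤ m2 := by exact_mod_cast h2 x hx
        exact mul_le_mul_of_nonneg_right this (sq_nonneg _)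
    _ = _ := by rw [← Finset.mul_sum]; ring

theorem bblock : BStmt := by
  classical
  intro G Z _ _ _ V _ hD hL hU
  obtain ⟨L, hL1, hL⟩ := hL
  have hC := V.one_le_C
  have ha := V.one_lt_a
  set R : ℝ := V.C + 3 * V.a with hR
  have hR1 : 1 ≤ R := by linarith
  have hd0 : 0 < (V.C * R * (R + 1))⁻¹ := by positivity
  obtain ⟨K, M, hK, hU⟩ := hU _ hd0
  set R1 : ℝ := V.C * (2 * L + 1) * V.a ^ 2 + K with hR1'
  have hR10 : 0 ≤ R1 := by positivity
  obtain ⟨m1, hm1⟩ := V.card_level hR10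
  obtain ⟨m2, hm2⟩ := hD (2 * V.C * R ^ 2 * R1)
  refine ⟨(m1 : ℝ) * m2 * M, 1, one_pos, fun ξ r δ hδ hδr hr1 => ?_⟩
  have hr : 0 < r := hδ.trans_le hδr
  obtain ⟨g, hg1, hg2, hg3⟩ := V.exists_cell ξ hr hr1
  have hs := V.sz_pos g
  obtain ⟨N, hN1, hN2⟩ := V.exists_scale (div_pos hδ hr) ((div_le_one hr).2 hδr)
  obtain ⟨T, ρ, hT, hρ, hM, hU⟩ := hU N
  have hp : 0 < (V.a ^ N)⁻¹ := inv_pos.2 (pow_pos V.a_pos _)
  -- points of `ball ξ (3 r)` lie in the `R`-cell of `g`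
  have hnear : ∀ z, dist z ξ ≤ 3 * r → V.rho g z ≤ R * V.sz g := by
    intro z hz
    refine V.rho_le hR1 ?_
    have := dist_triangle z ξ (V.ctr g)
    rw [hR]
    nlinarith
  let Lc : Set Z → ℝ := fun A =>
    ∑ x ∈ T.filter (fun x => ∃ w ∈ A, dist (g⁻¹ • w) (V.ctr x) ≤ K * V.sz x), ρ x
  have hnn : ∀ A, 0 ≤ Lc A := fun A => Finset.sum_nonneg fun x _ => hρ x
  have hsub : ∀ A B, Lc (A ∪ B) ≤ Lc A + Lc B := by
    intro A B
    simp only [Lc, Finset.sum_filter, ← Finset.sum_add_distrib]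
    refine Finset.sum_le_sum fun x _ => ?_
    have := hρ x
    split_ifs with h1 h2 h3 h4 h5 h6 h7 <;> try linarith
    obtain ⟨w, hw | hw, hw'⟩ := h1
    · exact absurd ⟨w, hw, hw'⟩ h2
    · exact absurd ⟨w, hw, hw'⟩ h4
  have hlen : ∀ a ∈ ball ξ r, ∀ z, z ∉ ball ξ (2 * r) → ∀ γ : Path a z, 1 ≤ Lc (range γ) := by
    intro a ha' z hz γ
    rw [mem_ball] at ha'
    rw [mem_ball, not_lt] at hz
    have haz : r ≤ dist a z := by
      have := dist_triangle_left z ξ a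
      linarith
    have h1 := hnear a (by linarith)
    have h2 := V.le_expand' h1 z
    have h3 : V.rho g z ≤ (R + 1) * dist a z := by
      have h4 := V.rho_le_add g z a
      rw [dist_comm z a] at h4
      have h5 : R * V.sz g ≤ R * dist a z :=
        mul_le_mul_of_nonneg_left (hg1.trans haz) (by linarith)
      linarith
    have h6 : (V.C * R * (R + 1))⁻¹ ≤ dist (g⁻¹ • a) (g⁻¹ • z) := by
      rw [inv_le_iff_one_le_mul₀ (by positivity)]
      have hpos : 0 < dist a z := hr.trans_le haz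
      refine le_of_mul_le_mul_right ?_ hpos
      calc 1 * dist a z = dist a z := one_mul _
        _ ≤ V.C * R * V.rho g z * dist (g⁻¹ • a) (g⁻¹ • z) := h2
        _ ≤ V.C * R * ((R + 1) * dist a z) * dist (g⁻¹ • a) (g⁻¹ • z) := by gcongr
        _ = _ := by ring
    have h7 := hU _ _ (γ.map (V.continuous_smul g⁻¹)) h6
    refine h7.trans (le_of_eq (Finset.sum_congr ?_ fun _ _ => rfl))
    refine Finset.filter_congr fun x _ => ?_
    simp
  obtain ⟨f, hf01, hf1, hf0, hf⟩ := exists_cutoff Lc hnn hsub (ball ξ r) (ball ξ (2 * r))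
    (ball_subset_ball (by linarith)) hlen
  refine ⟨f, hf01, hf1, hf0, fun S hS => ?_⟩
  let Rel : Z → G → Prop := fun z x => dist (g⁻¹ • z) (V.ctr x) ≤ R1 * (V.a ^ N)⁻¹
  let S' := S.filter (fun z => dist z ξ ≤ 3 * r)
  have hδs : δ ≤ V.a ^ 2 * (V.a ^ N)⁻¹ * V.sz g := by
    rw [div_le_iff₀ hr] at hN2
    calc δ ≤ V.a * (V.a ^ N)⁻¹ * r := hN2
      _ ≤ V.a * (V.a ^ N)⁻¹ * (V.a * V.sz g) := by gcongr
      _ = _ := by ring
  have hsδ : V.sz g * (V.a ^ N)⁻¹ ≤ δ := by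
    rw [le_div_iff₀ hr] at hN1
    calc V.sz g * (V.a ^ N)⁻¹ ≤ r * (V.a ^ N)⁻¹ := by gcongr
      _ ≤ δ := by linarith
  have hosc : ∀ z, diam (f '' ball z δ) ≤ ∑ x ∈ T.filter (Rel z), ρ x := by
    intro z
    refine diam_le_of_forall_dist_le (Finset.sum_nonneg fun x _ => hρ x) ?_
    rintro _ ⟨w, hw, rfl⟩ _ ⟨w', hw', rfl⟩
    obtain ⟨γ, hγ⟩ := hL w w'
    refine (hf w w' γ).trans (Finset.sum_le_sum_of_subset_of_nonneg ?_ fun x _ _ => hρ x)
    intro x hx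
    rw [Finset.mem_filter] at hx ⊢
    obtain ⟨hxT, _, ⟨t, rfl⟩, ht⟩ := hx
    refine ⟨hxT, ?_⟩
    rw [V.sz_eq (hT x hxT)] at ht
    rw [mem_ball] at hw hw'
    have e1 : dist w w' ≤ 2 * δ := by
      have := dist_triangle_right w w' z
      linarith
    have e2 : dist z (γ t) ≤ (2 * L + 1) * δ := by
      have h1 := dist_triangle_right z (γ t) w
      have h2 := hγ t
      have h3 : L * dist w w' ≤ L * (2 * δ) := mul_le_mul_of_nonneg_left e1 (by linarith)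
      rw [dist_comm z w] at h1
      linarith
    have e3 : dist (g⁻¹ • z) (g⁻¹ • γ t) ≤ V.C * (2 * L + 1) * V.a ^ 2 * (V.a ^ N)⁻¹ := by
      refine le_of_mul_le_mul_right ?_ hs
      calc _ ≤ V.C * dist z (γ t) := V.expand_le g z (γ t)
        _ ≤ V.C * ((2 * L + 1) * δ) := by gcongr
        _ ≤ V.C * ((2 * L + 1) * (V.a ^ 2 * (V.a ^ N)⁻¹ * V.sz g)) := by gcongr
        _ = _ := by ring
    have e4 := dist_triangle (g⁻¹ • z) (g⁻¹ • γ t) (V.ctr x)
    show dist (g⁻¹ • z) (V.ctr x) ≤ R1 * (V.a ^ N)⁻¹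
    rw [hR1', add_mul]
    linarith
  have hfar : ∀ z, ¬ dist z ξ ≤ 3 * r → diam (f '' ball z δ) = 0 := by
    intro z hz
    refine le_antisymm (diam_le_of_forall_dist_le le_rfl ?_) diam_nonneg
    have : ∀ w ∈ ball z δ, f w = 0 := by
      intro w hw
      refine hf0 w fun h => hz ?_
      rw [mem_ball] at hw h
      have := dist_triangle_left z ξ w
      linarith
    rintro _ ⟨w, hw, rfl⟩ _ ⟨w', hw', rfl⟩
    rw [this w hw, this w' hw', dist_self]
  have hc1 : ∀ z ∈ S', (T.filter (Rel z)).card ≤ m1 := by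
    intro z _
    refine (Finset.card_le_card ?_).trans (hm1 (g⁻¹ • z) N)
    intro x hx
    rw [Finset.mem_filter] at hx ⊢
    exact ⟨V.mem_level.2 (hT x hx.1), hx.2⟩
  have hc2 : ∀ x ∈ T, (S'.filter (fun z => Rel z x)).card ≤ m2 := by
    intro x _
    rcases (S'.filter (fun z => Rel z x)).eq_empty_or_nonempty with h | ⟨z0, hz0⟩
    · rw [h]; simp
    refine hm2 z0 δ _ hδ (fun u hu v hv => hS u ?_ v ?_) fun z hz => ?_
    · exact (Finset.mem_filter.1 (Finset.mem_filter.1 hu).1).1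
    · exact (Finset.mem_filter.1 (Finset.mem_filter.1 hv).1).1
    · rw [Finset.mem_filter] at hz hz0
      have h1 := hnear z (Finset.mem_filter.1 hz.1).2
      have h2 := hnear z0 (Finset.mem_filter.1 hz0.1).2
      have h3 := V.le_expand h1 h2
      have h4 : dist (g⁻¹ • z) (g⁻¹ • z0) ≤ 2 * R1 * (V.a ^ N)⁻¹ := by
        have h5 := dist_triangle_right (g⁻¹ • z) (g⁻¹ • z0) (V.ctr x)
        have h6 : dist (g⁻¹ • z) (V.ctr x) ≤ R1 * (V.a ^ N)⁻¹ := hz.2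
        have h7 : dist (g⁻¹ • z0) (V.ctr x) ≤ R1 * (V.a ^ N)⁻¹ := hz0.2
        linarith
      calc dist z z0 ≤ _ := h3
        _ ≤ V.C * R ^ 2 * V.sz g * (2 * R1 * (V.a ^ N)⁻¹) := by gcongr
        _ = 2 * V.C * R ^ 2 * R1 * (V.sz g * (V.a ^ N)⁻¹) := by ring
        _ ≤ _ := by gcongr
  calc ∑ z ∈ S, diam (f '' ball z δ) ^ 2 = ∑ z ∈ S', diam (f '' ball z δ) ^ 2 := by
        refine (Finset.sum_filter_of_ne fun z _ h => ?_).symm
        by_contra h'
        exact h (by rw [hfar z h']; simp)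
    _ ≤ ∑ z ∈ S', (∑ x ∈ T.filter (Rel z), ρ x) ^ 2 :=
        Finset.sum_le_sum fun z _ => pow_le_pow_left₀ diam_nonneg (hosc z) 2
    _ ≤ (m1 : ℝ) * m2 * ∑ x ∈ T, ρ x ^ 2 := sum_sq_le_of_card S' T ρ Rel m1 m2 hc1 hc2
    _ ≤ _ := by gcongr

end Crest.Agent.R193
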