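import Crest.Agent.R193.CBasic

/-! Row 193 [C]: finite weighted families. -/

set_option autoImplicit false

namespace Crest.Agent.R193.Core

open Set

namespace Fam

variable {Z : Type} (F : Fam Z)

theorem CMass_ite_nonneg {w : ℝ} (hw : 0 ≤ w) (p : Prop) [Decidable p] :
    0 ≤ if p then w else 0 := by
  split_ifs
  exacts [hw, le_rfl]

theorem CMass_ite_le {w : ℝ} (hw : 0 ≤ w) {p q : Prop} [Decidable p] [Decidable q]
    (h : w ≠ 0 → p → q) : (if p then w else 0) ≤ if q then w else 0 := by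
  by_cases h0 : w = 0
  · simp [h0]
  · split_ifs with h1 h2
    exacts [le_rfl, absurd (h h0 h1) h2, hw, le_rfl]

theorem CMass_ite_le_sum {κ : Type} (T : Finset κ) {w : ℝ} (hw : 0 ≤ w) {p : Prop} [Decidable p]
    {q : κ → Prop} [DecidablePred q] (h : w ≠ 0 → p → ∃ t ∈ T, q t) :
    (if p then w else 0) ≤ ∑ t ∈ T, if q t then w else 0 := by
  by_cases h0 : w = 0
  · simp [h0]
  · by_cases h1 : p
    · obtain ⟨t, ht, hq⟩ := h h0 h1
      refine le_trans ?_ (Finset.single_le_sum (f := fun t => if q t then w else 0)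
        (fun t _ => CMass_ite_nonneg hw _) ht)
      rw [if_pos h1, if_pos hq]
    · rw [if_neg h1]
      exact Finset.sum_nonneg fun t _ => CMass_ite_nonneg hw _

theorem mass_nonneg (p : F.ι → Prop) : 0 ≤ F.mass p := by
  classical
  exact Finset.sum_nonneg fun i _ => CMass_ite_nonneg (F.w_nonneg i) _

theorem mass_mono {p q : F.ι → Prop} (h : ∀ i, F.w i ≠ 0 → p i → q i) : F.mass p ≤ F.mass q := by
  classical
  exact Finset.sum_le_sum fun i _ => CMass_ite_le (F.w_nonneg i) (h i)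

theorem mass_true : F.mass (fun _ => True) = F.tot := by
  simp [mass, tot]

theorem mass_le_tot (p : F.ι → Prop) : F.mass p ≤ F.tot := by
  rw [← F.mass_true]
  exact F.mass_mono fun _ _ _ => trivial

theorem tot_nonneg : 0 ≤ F.tot := Finset.sum_nonneg fun i _ => F.w_nonneg i

theorem mass_or_le (p q : F.ι → Prop) : F.mass (fun i => p i ∨ q i) ≤ F.mass p + F.mass q := by
  classical
  unfold mass
  rw [← Finset.sum_add_distrib]
  refine Finset.sum_le_sum fun i _ => ?_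
  have := F.w_nonneg i
  by_cases h1 : p i <;> by_cases h2 : q i <;> simp [h1, h2, this]

/-- union bound -/
theorem mass_le_sum {κ : Type} (T : Finset κ) (p : F.ι → Prop) (q : κ → F.ι → Prop)
    (h : ∀ i, F.w i ≠ 0 → p i → ∃ t ∈ T, q t i) : F.mass p ≤ ∑ t ∈ T, F.mass (q t) := by
  classical
  unfold mass
  rw [Finset.sum_comm]
  exact Finset.sum_le_sum fun i _ => CMass_ite_le_sum T (F.w_nonneg i) (h i)

theorem exists_of_mass_pos {p : F.ι → Prop} (h : 0 < F.mass p) : ∃ i, F.w i ≠ 0 ∧ p i := by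
  by_contra hn
  have h1 : F.mass p ≤ F.mass fun _ => False := F.mass_mono fun i hi hp => hn ⟨i, hi, hp⟩
  have h2 : (F.mass fun _ => False) = 0 := by simp [mass]
  linarith

theorem mass2_nonneg (p : F.ι → F.ι → Prop) : 0 ≤ F.mass2 p := by
  classical
  exact Finset.sum_nonneg fun i _ => Finset.sum_nonneg fun j _ =>
    CMass_ite_nonneg (mul_nonneg (F.w_nonneg i) (F.w_nonneg j)) _

theorem mass2_mono {p q : F.ι → F.ι → Prop}
    (h : ∀ i j, F.w i ≠ 0 → F.w j ≠ 0 → p i j → q i j) : F.mass2 p ≤ F.mass2 q := by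
  classical
  exact Finset.sum_le_sum fun i _ => Finset.sum_le_sum fun j _ =>
    CMass_ite_le (mul_nonneg (F.w_nonneg i) (F.w_nonneg j)) fun h0 =>
      h i j (left_ne_zero_of_mul h0) (right_ne_zero_of_mul h0)

theorem mass2_prod (p q : F.ι → Prop) : F.mass2 (fun i j => p i ∧ q j) = F.mass p * F.mass q := by
  unfold mass2 mass
  rw [Finset.sum_mul_sum]
  refine Finset.sum_congr rfl fun i _ => Finset.sum_congr rfl fun j _ => ?_
  by_cases h1 : p i <;> by_cases h2 : q j <;> simp [h1, h2]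

/-- union bound for pairs -/
theorem mass2_le_sum {κ : Type} (T : Finset κ) (p : F.ι → F.ι → Prop) (q : κ → F.ι → F.ι → Prop)
    (h : ∀ i j, F.w i ≠ 0 → F.w j ≠ 0 → p i j → ∃ t ∈ T, q t i j) :
    F.mass2 p ≤ ∑ t ∈ T, F.mass2 (q t) := by
  classical
  unfold mass2
  rw [Finset.sum_comm (s := T)]
  refine Finset.sum_le_sum fun i _ => ?_
  rw [Finset.sum_comm (s := T)]
  exact Finset.sum_le_sum fun j _ =>
    CMass_ite_le_sum T (mul_nonneg (F.w_nonneg i) (F.w_nonneg j)) fun h0 =>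
      h i j (left_ne_zero_of_mul h0) (right_ne_zero_of_mul h0)

end Fam

namespace CD

variable {G Z : Type} [Group G] [MetricSpace Z] [MulAction G Z] (C : CD G Z)

theorem P_nonneg (F : Fam Z) (x : G) : 0 ≤ C.P F x := F.mass_nonneg _

theorem Eg_nonneg (F : Fam Z) (T : Finset G) : 0 ≤ C.Eg F T := Finset.sum_nonneg fun _ _ => sq_nonneg _

/-- cells with `P = 0` do not count -/
theorem Eg_mono (F : Fam Z) {T T' : Finset G} (h : ∀ x ∈ T, 0 < C.P F x → x ∈ T') :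
    C.Eg F T ≤ C.Eg F T' := by
  classical
  unfold Eg
  rw [← Finset.sum_filter_of_ne (p := fun x => 0 < C.P F x) fun x _ hx =>
    (C.P_nonneg F x).lt_of_ne' fun h0 => hx (by rw [h0]; norm_num)]
  exact Finset.sum_le_sum_of_subset_of_nonneg
    (fun x hx => h x (Finset.mem_filter.1 hx).1 (Finset.mem_filter.1 hx).2) fun _ _ _ => sq_nonneg _

/-- bounded overlap -/
theorem sum_Eg_le (F : Fam Z) {κ : Type} (A : Finset κ) (T : κ → Finset G) (U : Finset G) (m : ℕ)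
    (hU : ∀ t ∈ A, ∀ x ∈ T t, 0 < C.P F x → x ∈ U)
    (hm : ∀ x, ∀ A' ⊆ A, (∀ t ∈ A', x ∈ T t) → A'.card ≤ m) :
    ∑ t ∈ A, C.Eg F (T t) ≤ m * C.Eg F U := by
  classical
  calc ∑ t ∈ A, C.Eg F (T t) ≤ ∑ t ∈ A, C.Eg F (U.filter fun x => x ∈ T t) :=
        Finset.sum_le_sum fun t ht => C.Eg_mono F fun x hx h0 =>
          Finset.mem_filter.2 ⟨hU t ht x hx h0, hx⟩
    _ = ∑ x ∈ U, ((A.filter fun t => x ∈ T t).card : ℝ) * C.P F x ^ 2 := by
        simp only [Eg, Finset.sum_filter]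
        rw [Finset.sum_comm]
        refine Finset.sum_congr rfl fun x _ => ?_
        rw [← Finset.sum_filter, Finset.sum_const, nsmul_eq_mul]
    _ ≤ ∑ x ∈ U, (m : ℝ) * C.P F x ^ 2 :=
        Finset.sum_le_sum fun x _ => mul_le_mul_of_nonneg_right
          (Nat.cast_le.2 (hm x _ (Finset.filter_subset _ _) fun t ht => (Finset.mem_filter.1 ht).2))
          (sq_nonneg _)
    _ = m * C.Eg F U := by rw [Eg, Finset.mul_sum]

/-- covering by finitely many sets -/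
theorem Eg_le_sum (F : Fam Z) {κ : Type} (A : Finset κ) (T : κ → Finset G) (U : Finset G)
    (hU : ∀ x ∈ U, 0 < C.P F x → ∃ t ∈ A, x ∈ T t) : C.Eg F U ≤ ∑ t ∈ A, C.Eg F (T t) := by
  classical
  calc C.Eg F U = ∑ x ∈ U, if True then C.P F x ^ 2 else 0 := by simp [Eg]
    _ ≤ ∑ x ∈ U, ∑ t ∈ A, if x ∈ T t then C.P F x ^ 2 else 0 :=
        Finset.sum_le_sum fun x hx => Fam.CMass_ite_le_sum A (sq_nonneg _) fun h0 _ =>
          hU x hx ((C.P_nonneg F x).lt_of_ne' fun h1 => h0 (by rw [h1]; norm_num))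
    _ = ∑ t ∈ A, C.Eg F (U.filter fun x => x ∈ T t) := by
        rw [Finset.sum_comm]
        simp only [Eg, Finset.sum_filter]
    _ ≤ ∑ t ∈ A, C.Eg F (T t) :=
        Finset.sum_le_sum fun t _ => C.Eg_mono F fun x hx _ => (Finset.mem_filter.1 hx).2

/-- union bound + Cauchy-Schwarz (`sq_sum_le_card_mul_sum_sq`) -/
theorem sq_le_card_mul (F : Fam Z) (p : F.ι → Prop) (T : Finset G)
    (h : ∀ i, F.w i ≠ 0 → p i → ∃ y ∈ T, C.hit F y i) :
    F.mass p ^ 2 ≤ T.card * C.Eg F T := (pow_le_pow_left₀ (F.mass_nonneg p) (F.mass_le_sum T p (fun y => C.hit F y) h) 2).trans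
    sq_sum_le_card_mul_sum_sq

/-- transfer: apply `sq_le_card_mul` with `T ∩ (f t)·ball r` (`card_near`), then `sum_Eg_le`:
a cell `y` is within `r` of at most `b^r` of the `f t` (`f` is injective on `A`, `len_inv`). -/
theorem transfer (F : Fam Z) {κ : Type} (A : Finset κ) (f : κ → G) (hf : Set.InjOn f A)
    (p : κ → F.ι → Prop) (T : Finset G) (r : ℕ)
    (h : ∀ t ∈ A, ∀ i, F.w i ≠ 0 → p t i → ∃ y ∈ T, C.len ((f t)⁻¹ * y) ≤ r ∧ C.hit F y i) :
    ∑ t ∈ A, F.mass (p t) ^ 2 ≤ ((C.b ^ r : ℕ) : ℝ) ^ 2 * C.Eg F T := by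
  classical
  have h1 : ∀ t ∈ A, F.mass (p t) ^ 2 ≤ ((C.b ^ r : ℕ) : ℝ) *
      C.Eg F (T.filter fun y => C.len ((f t)⁻¹ * y) ≤ r) := by
    intro t ht
    refine (C.sq_le_card_mul F (p t) (T.filter fun y => C.len ((f t)⁻¹ * y) ≤ r) ?_).trans ?_
    · intro i hi hp
      obtain ⟨y, hy, hy1, hy2⟩ := h t ht i hi hp
      exact ⟨y, Finset.mem_filter.2 ⟨hy, hy1⟩, hy2⟩
    · refine mul_le_mul_of_nonneg_right ?_ (C.Eg_nonneg F _)
      exact_mod_cast C.card_near (f t) _ r fun y hy => (Finset.mem_filter.1 hy).2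
  have h2 := C.sum_Eg_le F A (fun t => T.filter fun y => C.len ((f t)⁻¹ * y) ≤ r) T (C.b ^ r)
    (fun t _ x hx _ => (Finset.mem_filter.1 hx).1) (by
      intro x A' hA' hx
      rw [← Finset.card_image_of_injOn (hf.mono (Finset.coe_subset.2 hA'))]
      refine C.card_near x _ r fun y hy => ?_
      obtain ⟨t, ht, rfl⟩ := Finset.mem_image.1 hy
      have := (Finset.mem_filter.1 (hx t ht)).2
      rwa [← C.len_inv, mul_inv_rev, inv_inv] at this)
  calc ∑ t ∈ A, F.mass (p t) ^ 2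
      ≤ ∑ t ∈ A, ((C.b ^ r : ℕ) : ℝ) * C.Eg F (T.filter fun y => C.len ((f t)⁻¹ * y) ≤ r) :=
        Finset.sum_le_sum h1
    _ = ((C.b ^ r : ℕ) : ℝ) * ∑ t ∈ A, C.Eg F (T.filter fun y => C.len ((f t)⁻¹ * y) ≤ r) := by
        rw [Finset.mul_sum]
    _ ≤ ((C.b ^ r : ℕ) : ℝ) * (((C.b ^ r : ℕ) : ℝ) * C.Eg F T) :=
        mul_le_mul_of_nonneg_left h2 (Nat.cast_nonneg _)
    _ = _ := by ring

/-- trivial lower bound: a nonempty set hits a cell of every level (`B5`). -/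
theorem LB_trivial (d : ℝ) (n : ℕ) : C.LB d n (1 / ((C.b ^ n : ℕ) : ℝ)) := by
  intro F hF
  have hb : (0 : ℝ) < ((C.b ^ n : ℕ) : ℝ) := by
    exact_mod_cast pow_pos (lt_of_lt_of_le one_pos C.one_le_b) n
  have h1 := C.sq_le_card_mul F (fun _ => True) (C.sph n) (by
    intro i hi _
    obtain ⟨-, ξ, hξ, -⟩ := hF i hi
    obtain ⟨x, hx, hx'⟩ := C.B5 ξ n
    refine ⟨x, (C.mem_sph n x).2 hx, ξ, hξ, ?_⟩
    show (C.len x : ℝ) - C.δ ≤ C.B x ξ
    rw [hx]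
    exact hx')
  rw [F.mass_true] at h1
  have h2 : ((C.sph n).card : ℝ) ≤ ((C.b ^ n : ℕ) : ℝ) := by exact_mod_cast C.card_sph n
  rw [one_div, inv_mul_le_iff₀ hb]
  exact h1.trans (mul_le_mul_of_nonneg_right h2 (C.Eg_nonneg F _))

theorem CM2_one (F : Fam Z) (p : G) (k N : ℕ) (hp : C.len p ≤ k) :
    ∑ z ∈ C.sph N, F.mass (fun i => (C.tr p (F.K i) ∩ C.Sh z C.δ).Nonempty) ^ 2 ≤
      ((C.b ^ (5 * k + 6 * C.δ) : ℕ) : ℝ) ^ 2 * C.Eg F (C.sph N) := by
  refine C.transfer F (C.sph N) (fun z => p * z) (fun z _ z' _ h => mul_left_cancel h) _ _ _ ?_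
  rintro z hz i - ⟨_, ⟨ζ, hζ, rfl⟩, hs⟩
  have hzN : C.len z = N := (C.mem_sph N z).1 hz
  have hs' : (C.len z : ℝ) - C.δ ≤ C.B z (p⁻¹ • ζ) := hs
  have h1 := C.B_tr_ge p⁻¹ z (p⁻¹ • ζ)
  rw [inv_inv, smul_inv_smul, C.len_inv] at h1
  have hk : (C.len p : ℝ) ≤ k := by exact_mod_cast hp
  have h2 : (C.len (p * z) : ℝ) ≤ C.len p + C.len z := by exact_mod_cast C.len_mul p z
  have h3 : (C.len z : ℝ) ≤ C.len p + C.len (p * z) := by
    have := C.len_mul p⁻¹ (p * z)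
    rw [inv_mul_cancel_left, C.len_inv] at this
    exact_mod_cast this
  have hδ : (0 : ℝ) ≤ C.δ := Nat.cast_nonneg _
  have hk0 : (0 : ℝ) ≤ k := Nat.cast_nonneg _
  have hN : (C.len z : ℝ) = N := by exact_mod_cast hzN
  obtain ⟨y, hy, hy1, hy2⟩ := C.cmp (p * z) ζ (2 * k + 2 * C.δ) (by linarith)
    (show (C.len (p * z) : ℝ) - (2 * k + 2 * C.δ) ≤ C.B (p * z) ζ by linarith) N
  refine ⟨y, (C.mem_sph N y).2 hy, ?_, ζ, hζ, hy1⟩
  have h4 : |(C.len (p * z) : ℝ) - N| ≤ k := abs_le.2 ⟨by linarith, by linarith⟩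
  have h5 : (C.len ((p * z)⁻¹ * y) : ℝ) ≤ ((5 * k + 6 * C.δ : ℕ) : ℝ) := by
    push_cast
    linarith
  exact_mod_cast h5

/-- Two translated members meet with small probability.  For `z ∈ sph N` let
`q p z i := (tr p (K i) ∩ Sh z δ).Nonempty`.  A common point lies in some `Sh z δ`, `z ∈ sph N`
(`B5`), so `mass2 ≤ ∑_z mass (q p z) * mass (q p' z) ≤ (∑ mass(q p z)^2 + ∑ mass(q p' z)^2)/2`.
`transfer` with `f z = p * z`: if `ζ ∈ Sh z δ` then `B (p z) (pζ) ≥ N - 2δ - len p`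
(`B_tr_ge` with `g = p⁻¹`), so `pζ ∈ Sh (p z) (2k+2δ)`, and `cmp` to level `N` gives `y` with
`len ((p z)⁻¹ y) ≤ k + 2(2k+2δ) + 2δ`. -/
theorem cross (F : Fam Z) (p p' : G) (k N : ℕ) (hp : C.len p ≤ k) (hp' : C.len p' ≤ k) :
    F.mass2 (fun i j => (C.tr p (F.K i) ∩ C.tr p' (F.K j)).Nonempty) ≤
      ((C.b ^ (5 * k + 6 * C.δ) : ℕ) : ℝ) ^ 2 * C.Eg F (C.sph N) := by
  have h1 := F.mass2_le_sum (C.sph N)
    (fun i j => (C.tr p (F.K i) ∩ C.tr p' (F.K j)).Nonempty)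
    (fun z i j => (C.tr p (F.K i) ∩ C.Sh z C.δ).Nonempty ∧
      (C.tr p' (F.K j) ∩ C.Sh z C.δ).Nonempty) (by
      rintro i j - - ⟨ξ, hξ, hξ'⟩
      obtain ⟨x, hx, hx'⟩ := C.B5 ξ N
      have hs : ξ ∈ C.Sh x C.δ := by
        show (C.len x : ℝ) - C.δ ≤ C.B x ξ
        rw [hx]
        exact hx'
      exact ⟨x, (C.mem_sph N x).2 hx, ⟨ξ, hξ, hs⟩, ⟨ξ, hξ', hs⟩⟩)
  simp only [F.mass2_prod] at h1
  have h2 := C.CM2_one F p k N hp
  have h3 := C.CM2_one F p' k N hp'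
  have h4 : ∑ z ∈ C.sph N, F.mass (fun i => (C.tr p (F.K i) ∩ C.Sh z C.δ).Nonempty) *
      F.mass (fun j => (C.tr p' (F.K j) ∩ C.Sh z C.δ).Nonempty) ≤
      ∑ z ∈ C.sph N, (F.mass (fun i => (C.tr p (F.K i) ∩ C.Sh z C.δ).Nonempty) ^ 2 +
        F.mass (fun j => (C.tr p' (F.K j) ∩ C.Sh z C.δ).Nonempty) ^ 2) / 2 :=
    Finset.sum_le_sum fun z _ => by
      nlinarith [sq_nonneg (F.mass (fun i => (C.tr p (F.K i) ∩ C.Sh z C.δ).Nonempty) -
        F.mass (fun j => (C.tr p' (F.K j) ∩ C.Sh z C.δ).Nonempty))]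
  rw [← Finset.sum_div, Finset.sum_add_distrib] at h4
  linarith

end CD

end Crest.Agent.R193.Core
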