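import Crest.Agent.R193.CTop
import Crest.Agent.R193.CMass

/-! Row 193 [C]: many thick cells below a good cell. -/

set_option autoImplicit false

namespace Crest.Agent.R193.Core

open Set

namespace CD

variable {G Z : Type} [Group G] [MetricSpace Z] [MulAction G Z] (C : CD G Z)

open Classical in
/-- cells at depth `j` below `v` whose shadow meets the annulus `|dist_v (ξ, ·) - r| ≤ σ` -/
noncomputable def Ann (v : G) (ξ : Z) (r : ℝ) (j : ℕ) (σ : ℝ) : Finset G :=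
  (C.sph (C.len v + j)).filter fun x =>
    ∃ ζ ∈ C.Sh x C.δ, |dist (v⁻¹ • ξ) (v⁻¹ • ζ) - r| ≤ σ

private theorem helper78_mem_Ann (v : G) (ξ : Z) (r : ℝ) (j : ℕ) (σ : ℝ) (x : G) :
    x ∈ C.Ann v ξ r j σ ↔ C.len x = C.len v + j ∧
      ∃ ζ ∈ C.Sh x C.δ, |dist (v⁻¹ • ξ) (v⁻¹ • ζ) - r| ≤ σ := by
  classical
  unfold Ann
  rw [Finset.mem_filter, C.mem_sph]

/-- `near_sub`, `B1` -/
theorem Ann_sub (v : G) {ξ : Z} (hξ : ξ ∈ C.Sh v C.δ) (r σ : ℝ) (h : r + σ ≤ C.d0) (j : ℕ) :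
    C.Ann v ξ r j σ ⊆ C.Nb v (5 * C.δ) j := by
  intro x hx
  obtain ⟨hl, ζ, hζ, hd⟩ := (C.helper78_mem_Ann v ξ r j σ x).1 hx
  rw [C.mem_Nb]
  refine ⟨hl, ?_⟩
  have h1 : ζ ∈ C.Sh v (4 * C.δ) := C.near_sub v hξ (by have := (abs_le.1 hd).2; linarith)
  have h2 := C.B1' x v ζ
  simp only [Sh, mem_ofPred_eq] at h1 hζ
  rw [hl] at hζ
  push_cast at hζ
  have hδ : (0 : ℝ) ≤ C.δ := Nat.cast_nonneg _
  have hj : (0 : ℝ) ≤ j := Nat.cast_nonneg _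
  have h3 : (C.len v : ℝ) - 4 * C.δ ≤ min (C.B x ζ) (C.B v ζ) := le_min (by linarith) h1
  linarith

/-- two points of `Sh x δ` are at `v`-distance `≤ a^(3δ - j)` (`dist_tr_le`). -/
theorem Ann_disj (v x : G) (ξ : Z) (r r' σ σ' : ℝ) (j j' : ℕ) (h : x ∈ C.Ann v ξ r j σ)
    (h' : x ∈ C.Ann v ξ r' j' σ') : |r - r'| ≤ σ + σ' + C.a ^ (3 * (C.δ : ℝ) - j) := by
  obtain ⟨hl, ζ, hζ, hd⟩ := (C.helper78_mem_Ann v ξ r j σ x).1 h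
  obtain ⟨-, ζ', hζ', hd'⟩ := (C.helper78_mem_Ann v ξ r' j' σ' x).1 h'
  have h1 := C.dist_tr_le v x ζ ζ' _ hζ hζ'
  have he : 2 * (C.δ : ℝ) + C.len v - ((C.len x : ℝ) - C.δ) = 3 * (C.δ : ℝ) - j := by
    rw [hl]; push_cast; ring
  rw [he] at h1
  have h2 := dist_triangle (v⁻¹ • ξ) (v⁻¹ • ζ) (v⁻¹ • ζ')
  have h3 := dist_triangle_right (v⁻¹ • ξ) (v⁻¹ • ζ) (v⁻¹ • ζ')
  obtain ⟨a1, a2⟩ := abs_le.1 hd
  obtain ⟨a3, a4⟩ := abs_le.1 hd'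
  exact abs_le.2 ⟨by linarith, by linarith⟩

/-- For charged `i` through `v` choose `ξ i ∈ K i ∩ Sh v δ`; pigeonhole (`mass_le_sum`) the member
of the cover containing `v⁻¹ ξ i`: some class `q` has mass `≥ P v / n0 > 0`; `ξ` = the point of one
member of the class.  `ring0` gives a point at `v`-distance `d0` from `ξ i`, hence `≥ 3 d0/4` from
`ξ`; `Cont.ivt` on `K i`. -/
theorem ann_centre {F : Fam Z} (hF : C.Good F) {n0 : ℕ} (𝓑 : Fin n0 → Set Z)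
    (h0 : Cov (C.d0 / 4) 𝓑) (hn0 : 1 ≤ n0) (v : G) (hv : 8 * C.δ + 2 ≤ C.len v)
    (hP : 0 < C.P F v) :
    ∃ ξ ∈ C.Sh v C.δ, ∃ q : F.ι → Prop, C.P F v / n0 ≤ F.mass q ∧
      ∀ i, F.w i ≠ 0 → q i → ∀ r, C.d0 / 4 ≤ r → r ≤ 3 * C.d0 / 4 →
        ∃ ζ ∈ F.K i, dist (v⁻¹ • ξ) (v⁻¹ • ζ) = r := by
  let q : Fin n0 → F.ι → Prop := fun k i => ∃ ζ ∈ F.K i, ζ ∈ C.Sh v C.δ ∧ v⁻¹ • ζ ∈ 𝓑 k
  have hsum : C.P F v ≤ ∑ k : Fin n0, F.mass (q k) := by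
    refine F.mass_le_sum Finset.univ _ q fun i _ hi => ?_
    obtain ⟨ζ, h1, h2⟩ := hi
    obtain ⟨k, hk⟩ := h0.2.2 (v⁻¹ • ζ)
    exact ⟨k, Finset.mem_univ _, ζ, h1, h2, hk⟩
  have hn : (0 : ℝ) < n0 := by exact_mod_cast hn0
  obtain ⟨k, -, hk⟩ : ∃ k ∈ (Finset.univ : Finset (Fin n0)), C.P F v / n0 ≤ F.mass (q k) := by
    refine Finset.exists_le_of_sum_le ⟨⟨0, hn0⟩, Finset.mem_univ _⟩ ?_
    rw [Finset.sum_const, Finset.card_univ, Fintype.card_fin, nsmul_eq_mul,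
      mul_div_cancel₀ _ hn.ne']
    exact hsum
  obtain ⟨i₀, -, ξ, -, hξ, hξk⟩ := F.exists_of_mass_pos (lt_of_lt_of_le (div_pos hP hn) hk)
  refine ⟨ξ, hξ, q k, hk, fun i hi hq r hr1 hr2 => ?_⟩
  obtain ⟨ζ, hζK, hζ, hζk⟩ := hq
  have hd := h0.2.1 k _ hξk _ hζk
  obtain ⟨ζ', hζ'K, hζ'⟩ := Good.far' C hF hi v hv
  obtain ⟨K', hK', -, -, -, -, z, hz, hzd⟩ := C.ring0 v (hF i hi).1 hζK hζ hζ'K hζ'
  have ht := dist_triangle_left (v⁻¹ • ζ) (v⁻¹ • z) (v⁻¹ • ξ)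
  exact Cont.ivt (f := fun z => dist (v⁻¹ • ξ) (v⁻¹ • z)) (hF i hi).1
    (continuous_const.dist (C.cont _)) hζK (hK' hz) (by linarith) (by linarith)

/-- If `y ∈ Nb p (8δ) J` has `P y > 0` pick `ζ ∈ Sh y δ`; `B2`: `B p ζ ≥ len p - 9δ`;
`dist_tr_le` with the witness of `p ∈ Ann`: `v`-distance `≤ a^(11δ - j)`.  Overlap: `p, p'` of the
same length with a common `y` have `len (p⁻¹p') ≤ 18δ`.  `sum_Eg_le`. -/
theorem ann_step (F : Fam Z) (v : G) (ξ : Z) (r σ : ℝ) (j J : ℕ) :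
    ∑ p ∈ C.Ann v ξ r j σ, C.Eg F (C.Nb p (8 * C.δ) J) ≤
      ((C.b ^ (18 * C.δ) : ℕ) : ℝ) *
        C.Eg F (C.Ann v ξ r (j + J) (σ + C.a ^ (11 * (C.δ : ℝ) - j))) := by
  have hδ : (0 : ℝ) ≤ C.δ := Nat.cast_nonneg _
  refine C.sum_Eg_le F _ _ _ _ (fun p hp y hy hP => ?_) (fun y A' hA' hy => ?_)
  · obtain ⟨hl, ζ₀, hζ₀, hd⟩ := (C.helper78_mem_Ann v ξ r j σ p).1 hp
    obtain ⟨hly, hg⟩ := (C.mem_Nb _ _ _ _).1 hy
    obtain ⟨i, -, ζ, -, hζ⟩ := F.exists_of_mass_pos hP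
    rw [C.helper78_mem_Ann]
    refine ⟨by rw [hly, hl, add_assoc], ζ, hζ, ?_⟩
    have h2 := C.B2' p y ζ
    rw [C.gp_comm p y] at h2
    simp only [Sh, mem_ofPred_eq] at hζ hζ₀
    rw [hly] at hζ
    push_cast at hζ
    have hJ : (0 : ℝ) ≤ J := Nat.cast_nonneg _
    have h3 : (C.len p : ℝ) - 8 * C.δ ≤ min (C.gp y p) (C.B y ζ) := le_min hg (by linarith)
    have h1 := C.dist_tr_le v p ζ₀ ζ ((C.len p : ℝ) - 9 * C.δ) (by linarith) (by linarith)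
    have he : 2 * (C.δ : ℝ) + C.len v - ((C.len p : ℝ) - 9 * C.δ) = 11 * (C.δ : ℝ) - j := by
      rw [hl]; push_cast; ring
    rw [he] at h1
    have h4 := dist_triangle (v⁻¹ • ξ) (v⁻¹ • ζ₀) (v⁻¹ • ζ)
    have h5 := dist_triangle_right (v⁻¹ • ξ) (v⁻¹ • ζ₀) (v⁻¹ • ζ)
    obtain ⟨a1, a2⟩ := abs_le.1 hd
    exact abs_le.2 ⟨by linarith, by linarith⟩
  · refine C.card_le_of_pair A' _ fun p hp p' hp' => ?_
    obtain ⟨hl, -⟩ := (C.helper78_mem_Ann v ξ r j σ p).1 (hA' hp)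
    obtain ⟨hl', -⟩ := (C.helper78_mem_Ann v ξ r j σ p').1 (hA' hp')
    obtain ⟨-, hg⟩ := (C.mem_Nb _ _ _ _).1 (hy p hp)
    obtain ⟨-, hg'⟩ := (C.mem_Nb _ _ _ _).1 (hy p' hp')
    have h1 := C.hyp' p y p'
    rw [C.gp_comm p y] at h1
    have hpp : (C.len p' : ℝ) = C.len p := by rw [hl, hl']
    have h3 : (C.len p : ℝ) - 8 * C.δ ≤ min (C.gp y p) (C.gp y p') :=
      le_min hg (by rw [← hpp]; exact hg')
    have h4 := C.len_eq p p'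
    have h5 : (C.len (p⁻¹ * p') : ℝ) ≤ ((18 * C.δ : ℕ) : ℝ) := by push_cast; linarith
    exact_mod_cast h5

/-- One annulus.  Let `E i = Eg (Ann v ξ r (L0 + i J) (i σ1))`, `σ1 = a^(11δ - L0)`,
`Emin = P v² / (n0² b^(L0+10δ))`.  `E 0 ≥ Emin` (`hq`, `B5`, `sq_le_card_mul`, `Ann_sub`,
`card_Nb`).  If no cell of these annuli (`i < s`) is thick with `P ≥ τ P v`, then
`E i ≤ (C2/Λ) b^(18δ) E (i+1) + card · τ² P v² ≤ E (i+1)/4 + Emin/2` (`hnt`, `ann_step`,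
`Eg_mono`, `a^(11δ - j) ≤ σ1`), so `E i ≥ 2^i Emin`, and `E s ≤ C1 P v² < 2^s Emin`. -/
theorem ann_one (F : Fam Z) (Th : G → Prop) (J L0 s n0 : ℕ) (Λ C2 C1 τ r : ℝ) (hC2 : 0 < C2)
    (hΛ : 4 * C2 * (C.b ^ (18 * C.δ) : ℕ) ≤ Λ)
    (hnt : ∀ p, 8 * C.δ + 2 ≤ C.len p → ¬ Th p →
      Λ * C.P F p ^ 2 ≤ C2 * C.Eg F (C.Nb p (8 * C.δ) J))
    (hn0 : 1 ≤ n0) (v : G) (hv : 8 * C.δ + 2 ≤ C.len v) (hP : 0 < C.P F v)
    {ξ : Z} (hξ : ξ ∈ C.Sh v C.δ) (q : F.ι → Prop) (hq : C.P F v / n0 ≤ F.mass q)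
    (hq' : ∀ i, F.w i ≠ 0 → q i → ∃ ζ ∈ F.K i, dist (v⁻¹ • ξ) (v⁻¹ • ζ) = r)
    (hr : r + s * C.a ^ (11 * (C.δ : ℝ) - L0) ≤ C.d0) (hτ0 : 0 ≤ τ)
    (hτ : 2 * ((C.b ^ (L0 + s * J + 10 * C.δ) : ℕ) : ℝ) * τ ^ 2 *
      ((n0 : ℝ) ^ 2 * (C.b ^ (L0 + 10 * C.δ) : ℕ)) ≤ 1)
    (hC1 : C1 * ((n0 : ℝ) ^ 2 * (C.b ^ (L0 + 10 * C.δ) : ℕ)) < 2 ^ s)
    (hE : C.Eg F (C.Nb v (5 * C.δ) (L0 + s * J)) ≤ C1 * C.P F v ^ 2) :
    ∃ i, i < s ∧ ∃ p ∈ C.Ann v ξ r (L0 + i * J) (i * C.a ^ (11 * (C.δ : ℝ) - L0)),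
      Th p ∧ τ * C.P F v ≤ C.P F p := by
  classical
  set σ1 : ℝ := C.a ^ (11 * (C.δ : ℝ) - L0) with hσ1
  have ha0 : 0 < C.a := lt_trans one_pos C.one_lt_a
  have hσ : 0 < σ1 := Real.rpow_pos_of_pos ha0 _
  have hb0 : 0 < C.b := lt_of_lt_of_le one_pos C.one_le_b
  have hbp : ∀ n : ℕ, (0 : ℝ) < ((C.b ^ n : ℕ) : ℝ) := fun n => by exact_mod_cast pow_pos hb0 n
  have hn0' : (0 : ℝ) < n0 := by exact_mod_cast hn0
  set N : ℝ := (n0 : ℝ) ^ 2 * (C.b ^ (L0 + 10 * C.δ) : ℕ) with hN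
  have hN0 : 0 < N := mul_pos (pow_pos hn0' 2) (hbp _)
  have hΛ0 : 0 < Λ := lt_of_lt_of_le (mul_pos (mul_pos (by norm_num) hC2) (hbp _)) hΛ
  set A : ℕ → Finset G := fun i => C.Ann v ξ r (L0 + i * J) (i * σ1) with hA
  have hmem : ∀ (j : ℕ) (σ : ℝ) (x : G), x ∈ C.Ann v ξ r j σ ↔ C.len x = C.len v + j ∧
      ∃ ζ ∈ C.Sh x C.δ, |dist (v⁻¹ • ξ) (v⁻¹ • ζ) - r| ≤ σ := by
    intro j σ x
    simp only [Ann, Finset.mem_filter, C.mem_sph]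
  have hsub : ∀ i, i ≤ s → A i ⊆ C.Nb v (5 * C.δ) (L0 + i * J) := by
    intro i hi
    refine C.Ann_sub v hξ r _ (le_trans ?_ hr) _
    have : (i : ℝ) ≤ s := by exact_mod_cast hi
    nlinarith
  have hcard : ∀ i, i ≤ s → ((A i).card : ℝ) ≤ ((C.b ^ (L0 + i * J + 10 * C.δ) : ℕ) : ℝ) := by
    intro i hi
    have h1 := C.card_Nb v (5 * C.δ) (L0 + i * J)
    have h2 : ((5 * C.δ : ℕ) : ℝ) = 5 * (C.δ : ℝ) := by push_cast; ring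
    have h3 : L0 + i * J + 2 * (5 * C.δ) = L0 + i * J + 10 * C.δ := by ring
    rw [h2, h3] at h1
    exact_mod_cast (Finset.card_le_card (hsub i hi)).trans h1
  set Em : ℝ := C.P F v ^ 2 / N with hEm
  have hEm0 : 0 < Em := div_pos (pow_pos hP 2) hN0
  have hE0 : Em ≤ C.Eg F (A 0) := by
    have h1 := C.sq_le_card_mul F q (A 0) (by
      intro i hi hqi
      obtain ⟨ζ, hζ, hd⟩ := hq' i hi hqi
      obtain ⟨x, hx, hx'⟩ := C.B5 ζ (C.len v + (L0 + 0 * J))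
      have hs : ζ ∈ C.Sh x C.δ := by
        show (C.len x : ℝ) - C.δ ≤ C.B x ζ
        rw [hx]
        exact hx'
      refine ⟨x, (hmem _ _ x).2 ⟨hx, ζ, hs, ?_⟩, ζ, hζ, hs⟩
      simp [hd])
    have h2 := hcard 0 (Nat.zero_le _)
    rw [zero_mul, add_zero] at h2
    have h3 : (C.P F v / n0) ^ 2 ≤ F.mass q ^ 2 :=
      pow_le_pow_left₀ (div_pos hP hn0').le hq 2
    have h4 := h3.trans (h1.trans (mul_le_mul_of_nonneg_right h2 (C.Eg_nonneg F _)))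
    rw [div_pow, div_le_iff₀ (pow_pos hn0' 2)] at h4
    rw [hEm, div_le_iff₀ hN0, hN]
    linarith
  by_contra hcon
  have hno : ∀ i, i < s → ∀ p ∈ A i, Th p → C.P F p < τ * C.P F v := by
    intro i hi p hp hT
    by_contra h
    exact hcon ⟨i, hi, p, hp, hT, not_lt.1 h⟩
  have hstep : ∀ i, i < s → C.Eg F (A i) ≤ C.Eg F (A (i + 1)) / 4 + Em / 2 := by
    intro i hi
    have h1 : ∀ p ∈ A i, C.P F p ^ 2 ≤
        C2 / Λ * C.Eg F (C.Nb p (8 * C.δ) J) + τ ^ 2 * C.P F v ^ 2 := by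
      intro p hp
      have hE' : 0 ≤ C2 / Λ * C.Eg F (C.Nb p (8 * C.δ) J) :=
        mul_nonneg (div_pos hC2 hΛ0).le (C.Eg_nonneg F _)
      by_cases hT : Th p
      · have h2 := pow_le_pow_left₀ (C.P_nonneg F p) (hno i hi p hp hT).le 2
        rw [mul_pow] at h2
        linarith
      · have hl : 8 * C.δ + 2 ≤ C.len p := by
          rw [((hmem _ _ p).1 hp).1]
          omega
        have h2 := hnt p hl hT
        have h3 : C.P F p ^ 2 ≤ C2 / Λ * C.Eg F (C.Nb p (8 * C.δ) J) := by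
          rw [div_mul_eq_mul_div, le_div_iff₀ hΛ0]
          linarith
        have : 0 ≤ τ ^ 2 * C.P F v ^ 2 := by positivity
        linarith
    have h2 : C.Eg F (A i) ≤ C2 / Λ * ∑ p ∈ A i, C.Eg F (C.Nb p (8 * C.δ) J) +
        (A i).card * (τ ^ 2 * C.P F v ^ 2) := by
      refine (Finset.sum_le_sum h1).trans (le_of_eq ?_)
      rw [Finset.sum_add_distrib, Finset.sum_const, nsmul_eq_mul, Finset.mul_sum]
    have h3 := C.ann_step F v ξ r (i * σ1) (L0 + i * J) J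
    have h4 : C.Eg F (C.Ann v ξ r (L0 + i * J + J)
        (i * σ1 + C.a ^ (11 * (C.δ : ℝ) - ((L0 + i * J : ℕ) : ℝ)))) ≤ C.Eg F (A (i + 1)) := by
      refine C.Eg_mono F fun x hx _ => ?_
      obtain ⟨hx1, ζ, hζ, hx2⟩ := (hmem _ _ x).1 hx
      refine (hmem _ _ x).2 ⟨by rw [hx1]; ring, ζ, hζ, hx2.trans ?_⟩
      have h5 : C.a ^ (11 * (C.δ : ℝ) - ((L0 + i * J : ℕ) : ℝ)) ≤ σ1 := by
        refine Real.rpow_le_rpow_of_exponent_le C.one_lt_a.le ?_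
        have : (L0 : ℝ) ≤ ((L0 + i * J : ℕ) : ℝ) := by exact_mod_cast Nat.le_add_right _ _
        linarith
      push_cast at h5 ⊢
      linarith
    have h5 : C2 / Λ * ∑ p ∈ A i, C.Eg F (C.Nb p (8 * C.δ) J) ≤ C.Eg F (A (i + 1)) / 4 := by
      have h6 := h3.trans (mul_le_mul_of_nonneg_left h4 (hbp _).le)
      have h7 : C2 / Λ * ((C.b ^ (18 * C.δ) : ℕ) : ℝ) ≤ 1 / 4 := by
        rw [div_mul_eq_mul_div, div_le_iff₀ hΛ0]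
        linarith
      calc _ ≤ C2 / Λ * (((C.b ^ (18 * C.δ) : ℕ) : ℝ) * C.Eg F (A (i + 1))) :=
            mul_le_mul_of_nonneg_left h6 (div_pos hC2 hΛ0).le
        _ = C2 / Λ * ((C.b ^ (18 * C.δ) : ℕ) : ℝ) * C.Eg F (A (i + 1)) := by ring
        _ ≤ 1 / 4 * C.Eg F (A (i + 1)) := mul_le_mul_of_nonneg_right h7 (C.Eg_nonneg F _)
        _ = _ := by ring
    have h6 : ((A i).card : ℝ) * (τ ^ 2 * C.P F v ^ 2) ≤ Em / 2 := by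
      have h7 : ((C.b ^ (L0 + i * J + 10 * C.δ) : ℕ) : ℝ) ≤
          ((C.b ^ (L0 + s * J + 10 * C.δ) : ℕ) : ℝ) := by
        have : i * J ≤ s * J := Nat.mul_le_mul_right _ hi.le
        exact_mod_cast Nat.pow_le_pow_right hb0 (by omega)
      have h8 := (hcard i hi.le).trans h7
      have h9 : ((C.b ^ (L0 + s * J + 10 * C.δ) : ℕ) : ℝ) * τ ^ 2 ≤ 1 / (2 * N) := by
        rw [le_div_iff₀ (by positivity)]
        linarith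
      calc _ ≤ ((C.b ^ (L0 + s * J + 10 * C.δ) : ℕ) : ℝ) * (τ ^ 2 * C.P F v ^ 2) :=
            mul_le_mul_of_nonneg_right h8 (by positivity)
        _ = ((C.b ^ (L0 + s * J + 10 * C.δ) : ℕ) : ℝ) * τ ^ 2 * C.P F v ^ 2 := by ring
        _ ≤ 1 / (2 * N) * C.P F v ^ 2 := mul_le_mul_of_nonneg_right h9 (by positivity)
        _ = Em / 2 := by rw [hEm]; field_simp
    linarith
  have hgrow : ∀ i, i ≤ s → 2 ^ i * Em ≤ C.Eg F (A i) := by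
    intro i
    induction i with
    | zero => intro _; simpa using hE0
    | succ i ih =>
      intro hi
      have h1 := ih (Nat.le_of_succ_le hi)
      have h2 := hstep i hi
      have h3 : (1 : ℝ) ≤ 2 ^ i := one_le_pow₀ (by norm_num)
      have h4 : Em ≤ 2 ^ i * Em := le_mul_of_one_le_left hEm0.le h3
      rw [pow_succ]
      linarith
  have h1 := hgrow s le_rfl
  have h2 : C.Eg F (A s) ≤ C.Eg F (C.Nb v (5 * C.δ) (L0 + s * J)) :=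
    C.Eg_mono F fun x hx _ => hsub s le_rfl hx
  have h3 : C1 * C.P F v ^ 2 < 2 ^ s * Em := by
    have h4 : C1 * C.P F v ^ 2 = C1 * N * Em := by rw [hEm]; field_simp
    rw [h4]
    exact mul_lt_mul_of_pos_right hC1 hEm0
  linarith

/-- `ann_centre`, then `ann_one` for the radii `r t = d0/4 + (t + 1/2) d0/(2M)`;
injectivity by `Ann_disj`; the geometric clauses by `Ann_sub`, `mem_Nb`. -/
theorem many_thick {F : Fam Z} (hF : C.Good F) (Th : G → Prop) (J M L0 s : ℕ) (Λ C2 C1 τ : ℝ)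
    (hC2 : 0 < C2) (hΛ : 4 * C2 * (C.b ^ (18 * C.δ) : ℕ) ≤ Λ)
    (hnt : ∀ p, 8 * C.δ + 2 ≤ C.len p → ¬ Th p →
      Λ * C.P F p ^ 2 ≤ C2 * C.Eg F (C.Nb p (8 * C.δ) J))
    {n0 : ℕ} (𝓑 : Fin n0 → Set Z) (h0 : Cov (C.d0 / 4) 𝓑) (hn0 : 1 ≤ n0) (hM : 1 ≤ M)
    (v : G) (hv : 8 * C.δ + 2 ≤ C.len v) (hP : 0 < C.P F v)
    (hs : s * C.a ^ (11 * (C.δ : ℝ) - L0) ≤ C.d0 / (8 * M))
    (hL0 : C.a ^ (3 * (C.δ : ℝ) - L0) < C.d0 / (4 * M)) (hτ0 : 0 ≤ τ)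
    (hτ : 2 * ((C.b ^ (L0 + s * J + 10 * C.δ) : ℕ) : ℝ) * τ ^ 2 *
      ((n0 : ℝ) ^ 2 * (C.b ^ (L0 + 10 * C.δ) : ℕ)) ≤ 1)
    (hC1 : C1 * ((n0 : ℝ) ^ 2 * (C.b ^ (L0 + 10 * C.δ) : ℕ)) < 2 ^ s)
    (hE : C.Eg F (C.Nb v (5 * C.δ) (L0 + s * J)) ≤ C1 * C.P F v ^ 2) :
    ∃ p : Fin M → G, Function.Injective p ∧ ∀ t, Th (p t) ∧ τ * C.P F v ≤ C.P F (p t) ∧
      C.len v ≤ C.len (p t) ∧ C.len (p t) ≤ C.len v + (L0 + s * J) ∧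
      (C.len v : ℝ) - 5 * C.δ ≤ C.gp (p t) v := by
  obtain ⟨ξ, hξ, q, hq, hq'⟩ := C.ann_centre hF 𝓑 h0 hn0 v hv hP
  have hd0 := C.d0_pos
  have hM' : (1 : ℝ) ≤ M := by exact_mod_cast hM
  obtain ⟨u, hu⟩ : ∃ u : ℝ, u = C.d0 / (8 * M) := ⟨_, rfl⟩
  have hu0 : 0 < u := by rw [hu]; positivity
  have hu1 : C.d0 = 8 * M * u := by rw [hu]; field_simp
  have hu2 : C.d0 / (4 * M) = 2 * u := by rw [hu]; field_simp; ring
  rw [← hu] at hs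
  rw [hu2] at hL0
  obtain ⟨σ, hσ⟩ : ∃ σ : ℝ, σ = C.a ^ (11 * (C.δ : ℝ) - L0) := ⟨_, rfl⟩
  have hσ0 : 0 ≤ σ := by rw [hσ]; exact (Real.rpow_pos_of_pos C.a_pos _).le
  have hiσ : ∀ i : ℕ, i < s → (i : ℝ) * σ ≤ u := by
    intro i hi
    have h1 : (i : ℝ) ≤ s := by exact_mod_cast hi.le
    rw [← hσ] at hs
    exact (mul_le_mul_of_nonneg_right h1 hσ0).trans hs
  have hr : ∀ t : Fin M, C.d0 / 4 ≤ C.d0 / 4 + (4 * (t : ℕ) + 2) * u ∧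
      C.d0 / 4 + (4 * (t : ℕ) + 2) * u ≤ 3 * C.d0 / 4 := by
    intro t
    have h1 : (((t : ℕ) : ℝ) + 1) ≤ M := by exact_mod_cast t.2
    have h2 : (0 : ℝ) ≤ (t : ℕ) := Nat.cast_nonneg _
    constructor
    · nlinarith
    · nlinarith
  have hud : u ≤ C.d0 / 4 := by nlinarith
  have key : ∀ t : Fin M, ∃ i, i < s ∧
      ∃ p ∈ C.Ann v ξ (C.d0 / 4 + (4 * (t : ℕ) + 2) * u) (L0 + i * J) (i * σ),
        Th p ∧ τ * C.P F v ≤ C.P F p := by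
    intro t
    rw [hσ]
    exact C.ann_one F Th J L0 s n0 Λ C2 C1 τ _ hC2 hΛ hnt hn0 v hv hP hξ q hq
      (fun i hi hqi => hq' i hi hqi _ (hr t).1 (hr t).2) (by linarith [(hr t).2]) hτ0 hτ hC1 hE
  choose ι hι p hp hTh hPp using key
  refine ⟨p, fun t t' htt => ?_, fun t => ?_⟩
  · have h1 := C.Ann_disj v (p t) ξ _ _ _ _ _ _ (hp t) (htt ▸ hp t')
    have h2 : C.a ^ (3 * (C.δ : ℝ) - ((L0 + ι t * J : ℕ) : ℝ)) ≤ C.a ^ (3 * (C.δ : ℝ) - L0) := by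
      refine Real.rpow_le_rpow_of_exponent_le C.one_lt_a.le ?_
      have : (L0 : ℝ) ≤ ((L0 + ι t * J : ℕ) : ℝ) := by exact_mod_cast Nat.le_add_right _ _
      linarith
    have h3 := hiσ _ (hι t)
    have h4 := hiσ _ (hι t')
    obtain ⟨h5, h6⟩ := abs_le.1 h1
    have h7 : (((t : ℕ) : ℝ)) < (t' : ℕ) + 1 := by nlinarith
    have h8 : (((t' : ℕ) : ℝ)) < (t : ℕ) + 1 := by nlinarith
    have h9 : (t : ℕ) < (t' : ℕ) + 1 := by exact_mod_cast h7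
    have h10 : (t' : ℕ) < (t : ℕ) + 1 := by exact_mod_cast h8
    exact Fin.ext (by omega)
  · have h1 := C.Ann_sub v hξ _ _ (by linarith [(hr t).2, hiσ _ (hι t)]) _ (hp t)
    rw [C.mem_Nb] at h1
    have h2 : ι t * J ≤ s * J := Nat.mul_le_mul_right _ (hι t).le
    exact ⟨hTh t, hPp t, by omega, by omega, h1.2⟩

end CD

end Crest.Agent.R193.Core
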