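import Crest.Agent.R193.CDefs

/-! Row 193 [C]: arithmetic of Gromov products. All proofs: unfold, `min` case splits (`min_le_iff`, `le_min_iff`, `rcases le_total`), `abs_le`, `linarith`. -/

set_option autoImplicit false

namespace Crest.Agent.R193.Core

open Set

namespace CD

variable {G Z : Type} [Group G] [MetricSpace Z] [MulAction G Z] (C : CD G Z)

theorem a_pos : 0 < C.a := lt_trans one_pos C.one_lt_a

theorem d0_pos : 0 < C.d0 := Real.rpow_pos_of_pos C.a_pos _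

theorem gp_comm (x y : G) : C.gp x y = C.gp y x := by
  have h : C.len (y⁻¹ * x) = C.len (x⁻¹ * y) := by
    rw [← C.len_inv (x⁻¹ * y), mul_inv_rev, inv_inv]
  simp only [gp, gpOf, h]
  ring

theorem gp_le_left (x y : G) : C.gp x y ≤ C.len x := by
  have h : C.len y ≤ C.len x + C.len (x⁻¹ * y) := by
    simpa using C.len_mul x (x⁻¹ * y)
  have h' : (C.len y : ℝ) ≤ C.len x + C.len (x⁻¹ * y) := by exact_mod_cast h
  simp only [gp, gpOf]
  linarith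

theorem gp_le_right (x y : G) : C.gp x y ≤ C.len y := by
  rw [C.gp_comm]
  exact C.gp_le_left y x

theorem gp_nonneg (x y : G) : 0 ≤ C.gp x y := by
  have h : C.len (x⁻¹ * y) ≤ C.len x + C.len y := by
    simpa [C.len_inv] using C.len_mul x⁻¹ y
  have h' : (C.len (x⁻¹ * y) : ℝ) ≤ C.len x + C.len y := by exact_mod_cast h
  simp only [gp, gpOf]
  linarith

theorem len_eq (x y : G) : (C.len (x⁻¹ * y) : ℝ) = C.len x + C.len y - 2 * C.gp x y := by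
  simp only [gp, gpOf]
  ring

theorem hyp' (x y z : G) : min (C.gp x y) (C.gp y z) - C.δ ≤ C.gp x z := C.hyp x y z

theorem B1' (x y : G) (ξ : Z) : min (C.B x ξ) (C.B y ξ) - C.δ ≤ C.gp x y := C.B1 x y ξ

theorem B2' (x y : G) (ξ : Z) : min (C.gp x y) (C.B y ξ) - C.δ ≤ C.B x ξ := C.B2 x y ξ

theorem B6' (g w : G) (ξ : Z) :
    |C.B (g⁻¹ * w) (g⁻¹ • ξ) - (C.B w ξ + C.len g - C.gp g w - C.B g ξ)| ≤ C.δ := C.B6 g w ξ

/-- `B6` with `w = 1` (`B 1 ξ = 0`, `gp x 1 = 0`). -/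
theorem B_inv (x : G) (ξ : Z) : |C.B x⁻¹ (x⁻¹ • ξ) - (C.len x - C.B x ξ)| ≤ C.δ := by
  have h := C.B6' x 1 ξ
  have h1 : C.B 1 ξ = 0 := le_antisymm (by simpa [C.len_one] using C.B_le 1 ξ) (C.B_nonneg 1 ξ)
  have h2 : C.gp x 1 = 0 :=
    le_antisymm (by simpa [C.len_one] using C.gp_le_right x 1) (C.gp_nonneg x 1)
  rw [mul_one, h1, h2] at h
  simpa using h

/-- `B6`, `gp g w ≤ len g`, `B g ξ ≤ len g`. -/
theorem B_tr_ge (g w : G) (ξ : Z) : C.B w ξ - C.len g - C.δ ≤ C.B (g⁻¹ * w) (g⁻¹ • ξ) := by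
  have h := abs_le.1 (C.B6' g w ξ)
  have h1 := C.gp_le_left g w
  have h2 := C.B_le g ξ
  linarith [h.1]

/-- `B3` and monotonicity of `rpow` -/
theorem dist_le_of_B (x : G) (ξ ζ : Z) (s : ℝ) (h1 : s ≤ C.B x ξ) (h2 : s ≤ C.B x ζ) :
    dist ξ ζ ≤ C.a ^ ((C.δ : ℝ) - s) := by
  refine (C.B3 x ξ ζ).trans (Real.rpow_le_rpow_of_exponent_le C.one_lt_a.le ?_)
  have := le_min h1 h2
  linarith

/-- `B_tr_ge` and `dist_le_of_B` at the vertex `v⁻¹ * x`. -/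
theorem dist_tr_le (v x : G) (ξ ζ : Z) (s : ℝ) (h1 : s ≤ C.B x ξ) (h2 : s ≤ C.B x ζ) :
    dist (v⁻¹ • ξ) (v⁻¹ • ζ) ≤ C.a ^ (2 * (C.δ : ℝ) + C.len v - s) := by
  have h3 := C.B_tr_ge v x ξ
  have h4 := C.B_tr_ge v x ζ
  have := C.dist_le_of_B (v⁻¹ * x) (v⁻¹ • ξ) (v⁻¹ • ζ) (s - C.len v - C.δ) (by linarith)
    (by linarith)
  convert this using 2
  ring

theorem mem_sph (n : ℕ) (x : G) : x ∈ C.sph n ↔ C.len x = n := by
  simp only [sph, Finset.mem_filter, C.mem_ball]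
  exact ⟨fun h => h.2, fun h => ⟨h.le, h⟩⟩

theorem card_sph (n : ℕ) : (C.sph n).card ≤ C.b ^ n := by
  exact (Finset.card_filter_le _ _).trans (C.card_ball n)

theorem mem_Nb (v x : G) (ρ : ℝ) (j : ℕ) :
    x ∈ C.Nb v ρ j ↔ C.len x = C.len v + j ∧ (C.len v : ℝ) - ρ ≤ C.gp x v := by
  simp only [Nb, Finset.mem_filter, C.mem_sph]

theorem mem_Sig (k : ℕ) (l : G → ℝ) (D : ℕ) (x : G) :
    x ∈ C.Sig k l D ↔ C.len x ≤ k ∧ (D : ℝ) ≤ C.len x - l x ∧ (C.len x : ℝ) - l x < D + 1 := by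
  simp only [Sig, Finset.mem_filter, C.mem_ball]

/-- comparison: take `y` from `B5`; `B1` gives `gp x y ≥ min (len x) m - t - δ`; `len_eq`. -/
theorem cmp (x : G) (ξ : Z) (t : ℝ) (ht : (C.δ : ℝ) ≤ t) (h : ξ ∈ C.Sh x t) (m : ℕ) :
    ∃ y, C.len y = m ∧ ξ ∈ C.Sh y C.δ ∧
      (C.len (x⁻¹ * y) : ℝ) ≤ |(C.len x : ℝ) - m| + 2 * t + 2 * C.δ := by
  obtain ⟨y, hy, hB⟩ := C.B5 ξ m
  refine ⟨y, hy, by simpa only [Sh, mem_ofPred_eq, hy] using hB, ?_⟩
  have h0 : (C.len x : ℝ) - t ≤ C.B x ξ := h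
  have h1 := C.B1' x y ξ
  rw [C.len_eq, hy]
  have h2 := le_abs_self ((C.len x : ℝ) - m)
  have h3 := neg_abs_le ((C.len x : ℝ) - m)
  rcases min_choice (C.B x ξ) (C.B y ξ) with h4 | h4 <;> rw [h4] at h1 <;> linarith

/-- `y ↦ x⁻¹ * y` injects into `ball r`. -/
theorem card_near (x : G) (T : Finset G) (r : ℕ) (h : ∀ y ∈ T, C.len (x⁻¹ * y) ≤ r) :
    T.card ≤ C.b ^ r := by
  refine le_trans ?_ (C.card_ball r)
  refine Finset.card_le_card_of_injOn (fun y => x⁻¹ * y) (fun y hy => ?_) fun y _ z _ hyz => ?_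
  · exact Finset.mem_coe.2 ((C.mem_ball r _).2 (h y hy))
  · exact mul_left_cancel hyz

theorem card_le_of_pair (T : Finset G) (r : ℕ) (h : ∀ x ∈ T, ∀ y ∈ T, C.len (x⁻¹ * y) ≤ r) :
    T.card ≤ C.b ^ r := by
  rcases T.eq_empty_or_nonempty with rfl | ⟨x, hx⟩
  · simp
  · exact C.card_near x T r (h x hx)

/-- `len (v⁻¹ x) = len v + len x - 2 gp ≤ j + 2ρ`. -/
theorem card_Nb (v : G) (ρ j : ℕ) : (C.Nb v ρ j).card ≤ C.b ^ (j + 2 * ρ) := by
  refine C.card_near v _ _ fun y hy => ?_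
  obtain ⟨h1, h2⟩ := (C.mem_Nb v y ρ j).1 hy
  have h3 := C.len_eq v y
  rw [C.gp_comm] at h2
  have h4 : (C.len y : ℝ) = C.len v + j := by exact_mod_cast h1
  have : (C.len (v⁻¹ * y) : ℝ) ≤ j + 2 * ρ := by linarith
  exact_mod_cast this

/-- if both points had `B x · > 4δ+1` then `B3` gives `dist < d0` (strict monotonicity of rpow). -/
theorem big_far {ξ ζ : Z} (h : C.d0 ≤ dist ξ ζ) (x : G) :
    C.B x ξ ≤ 4 * C.δ + 1 ∨ C.B x ζ ≤ 4 * C.δ + 1 := by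
  by_contra hc
  push Not at hc
  have h1 := C.B3 x ξ ζ
  have h2 : (C.δ : ℝ) - min (C.B x ξ) (C.B x ζ) < -(3 * (C.δ : ℝ) + 1) := by
    have := lt_min hc.1 hc.2
    linarith
  have h3 := Real.rpow_lt_rpow_of_exponent_lt C.one_lt_a h2
  exact absurd (h.trans h1) (not_le.2 h3)

/-- `B_inv` gives `B x⁻¹ (x⁻¹ξ) ≤ 2δ`; `B4` (from `x⁻¹ζ` to `x⁻¹ξ`, `s = 3δ+1`) gives
`B x⁻¹ (x⁻¹ζ) ≤ 3δ`; `B_inv` again. -/
theorem near_sub (x : G) {ξ ζ : Z} (hξ : ξ ∈ C.Sh x C.δ)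
    (h : dist (x⁻¹ • ξ) (x⁻¹ • ζ) ≤ C.d0) : ζ ∈ C.Sh x (4 * C.δ) := by
  have h0 : (C.len x : ℝ) - C.δ ≤ C.B x ξ := hξ
  have h1 := abs_le.1 (C.B_inv x ξ)
  have h2 := abs_le.1 (C.B_inv x ζ)
  have h3 := C.B4 x⁻¹ (x⁻¹ • ζ) (x⁻¹ • ξ) (3 * (C.δ : ℝ) + 1) (by rw [dist_comm]; exact h)
  show (C.len x : ℝ) - 4 * C.δ ≤ C.B x ζ
  rcases min_choice (C.B x⁻¹ (x⁻¹ • ζ)) (3 * (C.δ : ℝ) + 1) with h4 | h4 <;> rw [h4] at h3 <;>
    linarith [h1.1, h1.2, h2.1, h2.2]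

theorem adm_const (c : ℝ) : C.Adm fun _ => c := by
  intro x y
  have h1 := min_le_left c (C.gp x y)
  have h2 : (0 : ℝ) ≤ C.δ := Nat.cast_nonneg _
  show min c (C.gp x y) - C.δ ≤ c
  linarith

theorem Adm.add {l : G → ℝ} (h : C.Adm l) {s : ℝ} (hs : 0 ≤ s) : C.Adm fun x => l x + s := by
  intro x y
  have h1 := h x y
  show min (l y + s) (C.gp x y) - C.δ ≤ l x + s
  have h2 := min_le_left (l y + s) (C.gp x y)
  have h3 := min_le_right (l y + s) (C.gp x y)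
  rcases le_total (l y) (C.gp x y) with h4 | h4
  · rw [min_eq_left h4] at h1; linarith
  · rw [min_eq_right h4] at h1; linarith

theorem adm_cone (ξ : Z) (c : ℝ) : C.Adm fun x => min (C.B x ξ) c := by
  intro x y
  have h1 := C.B2' x y ξ
  have h2 : (0 : ℝ) ≤ C.δ := Nat.cast_nonneg _
  show min (min (C.B y ξ) c) (C.gp x y) - C.δ ≤ min (C.B x ξ) c
  have h3 := min_le_left (min (C.B y ξ) c) (C.gp x y)
  have h4 := min_le_right (min (C.B y ξ) c) (C.gp x y)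
  have h5 := min_le_left (C.B y ξ) c
  have h6 := min_le_right (C.B y ξ) c
  have h7 : min (min (C.B y ξ) c) (C.gp x y) ≤ min (C.gp x y) (C.B y ξ) :=
    le_min h4 (h3.trans h5)
  exact le_min (by linarith) (by linarith)

theorem Adm.max {l l' : G → ℝ} (h : C.Adm l) (h' : C.Adm l') :
    C.Adm fun x => max (l x) (l' x) := by
  intro x y
  have h1 := h x y
  have h2 := h' x y
  show min (Max.max (l y) (l' y)) (C.gp x y) - C.δ ≤ Max.max (l x) (l' x)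
  have h3 := le_max_left (l x) (l' x)
  have h4 := le_max_right (l x) (l' x)
  rcases le_total (l y) (l' y) with h5 | h5
  · rw [max_eq_right h5]; linarith
  · rw [max_eq_left h5]; linarith

/-- induction on `T` with `Adm.max` -/
theorem adm_finset_max {κ : Type} (T : Finset κ) (f : κ → G → ℝ) (hf : ∀ t ∈ T, C.Adm (f t))
    {l : G → ℝ} (hl : C.Adm l) :
    ∃ l' : G → ℝ, C.Adm l' ∧ (∀ x, l x ≤ l' x) ∧ (∀ t ∈ T, ∀ x, f t x ≤ l' x) ∧
      ∀ x, l' x = l x ∨ ∃ t ∈ T, l' x = f t x := by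
  classical
  induction T using Finset.induction_on with
  | empty => exact ⟨l, hl, fun _ => le_rfl, by simp, fun _ => Or.inl rfl⟩
  | insert t T _ ih =>
    obtain ⟨l', h1, h2, h3, h4⟩ := ih fun s hs => hf s (Finset.mem_insert_of_mem hs)
    refine ⟨fun x => Max.max (l' x) (f t x), Adm.max C h1 (hf t (Finset.mem_insert_self _ _)),
      fun x => (h2 x).trans (le_max_left _ _), fun s hs x => ?_, fun x => ?_⟩
    · rcases Finset.mem_insert.1 hs with rfl | hs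
      · exact le_max_right _ _
      · exact (h3 s hs x).trans (le_max_left _ _)
    · rcases le_total (l' x) (f t x) with h5 | h5
      · exact Or.inr ⟨t, Finset.mem_insert_self _ _, max_eq_right h5⟩
      · rcases h4 x with h6 | ⟨s, hs, h6⟩
        · exact Or.inl ((max_eq_left h5).trans h6)
        · exact Or.inr ⟨s, Finset.mem_insert_of_mem hs, (max_eq_left h5).trans h6⟩

/-- use `Adm` for `(v, x)` and for `(x, v)`. -/
theorem Adm.close {l : G → ℝ} (h : C.Adm l) {x v : G} (hv : l v + C.δ < C.gp x v) :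
    |l x - l v| ≤ C.δ := by
  have h1 := h x v
  have h2 := h v x
  have h0 : (0 : ℝ) ≤ C.δ := Nat.cast_nonneg _
  rw [C.gp_comm v x] at h2
  rw [min_eq_left (by linarith)] at h1
  rw [abs_le]
  refine ⟨by linarith, ?_⟩
  rcases le_total (l x) (C.gp x v) with h4 | h4
  · rw [min_eq_left h4] at h2; linarith
  · rw [min_eq_right h4] at h2; linarith

/-- a wide window is covered by `2δ+1` unit windows: `i = ⌊len x - l x - D - s⌋₊`. -/
theorem mem_Sig_of_wide (k : ℕ) (l : G → ℝ) (D : ℕ) (s : ℝ) (x : G) (hx : C.len x ≤ k)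
    (h1 : (D : ℝ) + s ≤ C.len x - l x) (h2 : (C.len x : ℝ) - l x < D + s + 2 * C.δ + 1) :
    ∃ i ∈ Finset.range (2 * C.δ + 1), x ∈ C.Sig k (fun y => l y + (s + i)) D := by
  have h0 : 0 ≤ (C.len x : ℝ) - l x - D - s := by linarith
  have h3 := Nat.floor_le h0
  have h4 := Nat.lt_floor_add_one ((C.len x : ℝ) - l x - D - s)
  refine ⟨⌊(C.len x : ℝ) - l x - D - s⌋₊, Finset.mem_range.2 ?_, ?_⟩
  · rw [Nat.floor_lt h0]
    push_cast
    linarith
  · rw [C.mem_Sig]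
    exact ⟨hx, by linarith, by linarith⟩

end CD

end Crest.Agent.R193.Core
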