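import Crest.Agent.R193.CMass

/-! Row 193 [C]: duality between families and admissible weights. -/

set_option autoImplicit false

namespace Crest.Agent.R193.Core

open Set

open Classical in
/-- Finite duality.  The incidence vectors `1_{inc K}` restricted to `T` form a finite subset of
`EuclideanSpace ℝ T`; let `u` be the point of minimal norm of their convex hull (compact, or
`exists_norm_eq_iInf_of_complete_convex` / `norm_eq_iInf_iff_real_inner_le_zero`).  A point of the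
hull is `∑ wᵢ 1_{inc Kᵢ}` (`Finset.mem_convexHull'` / `convexHull_eq`), a family of total weight 1,
so `‖u‖² ≥ e`; `⟪u, 1_{inc K}⟫ ≥ ‖u‖²`; take `ρ = u / ‖u‖²` (extended by `0`), `u ≥ 0`.
If `𝒦` is empty take `ρ = 0`. -/
theorem duality {G Z : Type} (T : Finset G) (𝒦 : Set Z → Prop) (inc : G → Set Z → Prop) (e : ℝ)
    (he : 0 < e)
    (h : ∀ F : Fam Z, (∀ i, 𝒦 (F.K i)) → F.tot = 1 →
      e ≤ ∑ x ∈ T, F.mass (fun i => inc x (F.K i)) ^ 2) :
    ∃ ρ : G → ℝ, (∀ x, 0 ≤ ρ x) ∧ ∑ x ∈ T, ρ x ^ 2 ≤ 1 / e ∧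
      ∀ K, 𝒦 K → 1 ≤ ∑ x ∈ T.filter (fun x => inc x K), ρ x := by
  by_cases hne : ∃ K, 𝒦 K
  swap
  · refine ⟨fun _ => 0, fun _ => le_rfl, ?_, fun K hK => (hne ⟨K, hK⟩).elim⟩
    simp only [ne_eq, OfNat.ofNat_ne_zero, not_false_eq_true, zero_pow, Finset.sum_const_zero]
    positivity
  obtain ⟨K0, hK0⟩ := hne
  let vec : Set Z → EuclideanSpace ℝ T := fun K =>
    WithLp.toLp 2 fun x : T => if inc x K then (1 : ℝ) else 0
  let S : Set (EuclideanSpace ℝ T) := vec '' {K | 𝒦 K}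
  have hSfin : S.Finite := by
    have hfin : (Set.range fun p : T → Prop =>
        (WithLp.toLp 2 fun x : T => if p x then (1 : ℝ) else 0 : EuclideanSpace ℝ T)).Finite :=
      Set.finite_range _
    refine hfin.subset ?_
    rintro _ ⟨K, -, rfl⟩
    exact ⟨fun x => inc x K, rfl⟩
  have hcpt : IsCompact (convexHull ℝ S) := hSfin.isCompact_convexHull ℝ
  have hSne : (convexHull ℝ S).Nonempty := ⟨vec K0, subset_convexHull ℝ S ⟨K0, hK0, rfl⟩⟩
  obtain ⟨u, hu, hmin⟩ := exists_norm_eq_iInf_of_complete_convex hSne hcpt.isComplete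
    (convex_convexHull ℝ S) 0
  rw [norm_eq_iInf_iff_real_inner_le_zero (convex_convexHull ℝ S) hu] at hmin
  obtain ⟨ι, _, w, z, hw0, hw1, hz, hsum⟩ := mem_convexHull_iff_exists_fintype.1 hu
  choose K hK hKz using hz
  have hux : ∀ x : T, u x = ∑ i, if inc x (K i) then w i else 0 := by
    intro x
    rw [← hsum]
    simp only [WithLp.ofLp_sum, WithLp.ofLp_smul, Finset.sum_apply, Pi.smul_apply, smul_eq_mul]
    refine Finset.sum_congr rfl fun i _ => ?_
    rw [← hKz i]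
    simp [vec]
  have hu0 : ∀ x : T, 0 ≤ u x := by
    intro x
    rw [hux]
    refine Finset.sum_nonneg fun i _ => ?_
    split_ifs
    · exact hw0 i
    · exact le_rfl
  have hnorm : ‖u‖ ^ 2 = ∑ x : T, u x ^ 2 := by
    rw [EuclideanSpace.real_norm_sq_eq]
  have hE : e ≤ ‖u‖ ^ 2 := by
    have := h ⟨ι, w, K, hw0⟩ hK hw1
    rw [hnorm]
    refine this.trans (le_of_eq ?_)
    rw [← Finset.sum_coe_sort]
    refine Finset.sum_congr rfl fun x _ => ?_
    rw [hux x]
    rfl
  have hpos : 0 < ‖u‖ ^ 2 := he.trans_le hE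
  refine ⟨fun x => if hx : x ∈ T then u ⟨x, hx⟩ / ‖u‖ ^ 2 else 0, ?_, ?_, ?_⟩
  · intro x
    dsimp only
    split_ifs with hx
    · exact div_nonneg (hu0 _) hpos.le
    · exact le_rfl
  · rw [← Finset.sum_coe_sort]
    have : ∀ x : T, (if hx : (x : G) ∈ T then u ⟨x, hx⟩ / ‖u‖ ^ 2 else 0) ^ 2 =
        u x ^ 2 / (‖u‖ ^ 2) ^ 2 := by
      intro x
      rw [dif_pos x.2, div_pow]
    simp only [this]
    rw [← Finset.sum_div, ← hnorm]
    calc ‖u‖ ^ 2 / (‖u‖ ^ 2) ^ 2 = 1 / ‖u‖ ^ 2 := by field_simp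
      _ ≤ 1 / e := one_div_le_one_div_of_le he hE
  · intro K' hK'
    have h1 := hmin (vec K') (subset_convexHull ℝ S ⟨K', hK', rfl⟩)
    have h2 : ‖u‖ ^ 2 ≤ inner ℝ u (vec K') := by
      rw [zero_sub, inner_neg_left, inner_sub_right, real_inner_self_eq_norm_sq] at h1
      linarith
    have h3 : inner ℝ u (vec K') = ∑ x : T, if inc x K' then u x else 0 := by
      rw [PiLp.inner_apply]
      refine Finset.sum_congr rfl fun x _ => ?_
      simp only [vec]
      split_ifs <;> simp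
    rw [Finset.sum_filter, ← Finset.sum_coe_sort]
    have h4 : ∀ x : T, (if inc (x : G) K' then
        (if hx : (x : G) ∈ T then u ⟨x, hx⟩ / ‖u‖ ^ 2 else 0) else 0) =
        (if inc x K' then u x else 0) / ‖u‖ ^ 2 := by
      intro x
      rw [dif_pos x.2]
      split_ifs <;> simp
    simp only [h4]
    rw [← Finset.sum_div, ← h3, le_div_iff₀ hpos, one_mul]
    exact h2

end Crest.Agent.R193.Core
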