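import Crest.Agent.R193.CBasic

/-! Row 193 [C]: continua. -/

set_option autoImplicit false

namespace Crest.Agent.R193.Core

open Set

/-- intermediate values on a preconnected set (`IsPreconnected.intermediate_value`). -/
theorem Cont.ivt {Z : Type} [TopologicalSpace Z] {K : Set Z} (hK : Cont K) {f : Z → ℝ}
    (hf : Continuous f) {x y : Z} (hx : x ∈ K) (hy : y ∈ K) {r : ℝ} (h1 : f x ≤ r) (h2 : r ≤ f y) :
    ∃ z ∈ K, f z = r := by
  obtain ⟨z, hz, h⟩ := hK.2.intermediate_value hx hy hf.continuousOn ⟨h1, h2⟩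
  exact ⟨z, hz, h⟩

/-- Boundary bumping.  Let `A = K ∩ {f ≤ r}` (compact), `K'` the component of `x` in `A`
(`connectedComponentIn`, closed hence compact).  If `K'` misses `{f = r}`, then since the component
is the intersection of its clopen neighbourhoods in the compact Hausdorff space `A`
(`connectedComponent_eq_iInter_isClopen`) and `A ∩ {f = r}` is compact, some relatively clopen
`U ⊆ A` contains `x` and misses `{f = r}`; `U ⊆ {f < r}` is closed in `K` and open in `K`,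
nonempty, and misses `y` or (`f y = r`) `y ∉ U`: contradiction with preconnectedness of `K`. -/
theorem Cont.bump {Z : Type} [MetricSpace Z] {K : Set Z} (hK : Cont K) {f : Z → ℝ}
    (hf : Continuous f) {x y : Z} (hx : x ∈ K) (hy : y ∈ K) {r : ℝ} (h1 : f x ≤ r) (h2 : r ≤ f y) :
    ∃ K' : Set Z, K' ⊆ K ∧ Cont K' ∧ x ∈ K' ∧ (∀ z ∈ K', f z ≤ r) ∧ ∃ z ∈ K', f z = r := by
  classical
  set A : Set Z := K ∩ {z | f z ≤ r} with hA
  have hAc : IsCompact A := hK.1.inter_right (isClosed_le hf continuous_const)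
  have : CompactSpace A := isCompact_iff_compactSpace.1 hAc
  let x' : A := ⟨x, hx, h1⟩
  refine ⟨Subtype.val '' connectedComponent x', ?_, ⟨?_, ?_⟩, ⟨x', mem_connectedComponent, rfl⟩,
    ?_, ?_⟩
  · rintro _ ⟨z, -, rfl⟩
    exact z.2.1
  · exact (isClosed_connectedComponent.isCompact).image continuous_subtype_val
  · exact isPreconnected_connectedComponent.image _ continuous_subtype_val.continuousOn
  · rintro _ ⟨z, -, rfl⟩
    exact z.2.2
  by_contra hno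
  have hF : IsCompact {z : A | f z = r} :=
    (isClosed_eq (hf.comp continuous_subtype_val) continuous_const).isCompact
  have hemp : {z : A | f z = r} ∩
      ⋂ s : {s : Set A // IsClopen s ∧ x' ∈ s}, (s : Set A) = ∅ := by
    rw [← connectedComponent_eq_iInter_isClopen]
    refine eq_empty_of_forall_notMem fun z hz => hno ⟨z, ⟨z, hz.2, rfl⟩, hz.1⟩
  obtain ⟨t, ht⟩ := hF.elim_finite_subfamily_closed
    (fun s : {s : Set A // IsClopen s ∧ x' ∈ s} => (s : Set A)) (fun s => s.2.1.isClosed)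
    (by rw [← hemp])
  set U : Set A := ⋂ s ∈ t, (s : Set A) with hU
  have hUc : IsClopen U := isClopen_biInter_finset fun s _ => s.2.1
  have hxU : x' ∈ U := mem_iInter₂.2 fun s _ => s.2.2
  have hUF : ∀ z ∈ U, f z ≠ r := fun z hz h => by
    have : z ∈ ({z : A | f z = r} ∩ U) := ⟨h, hz⟩
    rw [ht] at this
    exact this
  have c1 : IsClosed (Subtype.val '' U) :=
    (hUc.isClosed.isCompact.image continuous_subtype_val).isClosed
  have c2 : IsClosed ({z | r ≤ f z} ∪ Subtype.val '' Uᶜ) :=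
    (isClosed_le continuous_const hf).union
      (hUc.compl.isClosed.isCompact.image continuous_subtype_val).isClosed
  have hcov : K ⊆ Subtype.val '' U ∪ ({z | r ≤ f z} ∪ Subtype.val '' Uᶜ) := by
    intro z hz
    rcases le_total (f z) r with h | h
    · by_cases hz' : (⟨z, hz, h⟩ : A) ∈ U
      · exact Or.inl ⟨_, hz', rfl⟩
      · exact Or.inr (Or.inr ⟨_, hz', rfl⟩)
    · exact Or.inr (Or.inl h)
  have hdis : K ∩ (Subtype.val '' U ∩ ({z | r ≤ f z} ∪ Subtype.val '' Uᶜ)) = ∅ := by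
    refine eq_empty_of_forall_notMem ?_
    rintro _ ⟨-, ⟨z, hz, rfl⟩, h | ⟨w, hw, h⟩⟩
    · exact hUF z hz (le_antisymm z.2.2 h)
    · exact hw (Subtype.ext h ▸ hz)
  rcases isPreconnected_iff_subset_of_disjoint_closed.1 hK.2 _ _ c1 c2 hcov hdis with h | h
  · obtain ⟨z, hz, hzy⟩ := h hy
    exact hUF z hz (le_antisymm z.2.2 (hzy ▸ h2))
  · rcases h hx with h | ⟨w, hw, h⟩
    · exact hUF x' hxU (le_antisymm h1 h)
    · exact hw ((Subtype.ext h : w = x') ▸ hxU)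

/-- a finite cover by small continua (compactness: finite subcover of the balls `ball ξ l`,
`ULC` at `θ/2`). -/
theorem exists_cov {Z : Type} [MetricSpace Z] [CompactSpace Z] [Nonempty Z] (h : ULC Z) (θ : ℝ)
    (hθ : 0 < θ) : ∃ (nb : ℕ) (𝓑 : Fin nb → Set Z), 1 ≤ nb ∧ Cov θ 𝓑 := by
  classical
  obtain ⟨l, hl, h⟩ := h (θ / 2) (half_pos hθ)
  choose D hD1 hD2 hD3 using h
  obtain ⟨t, ht⟩ := isCompact_univ.elim_finite_subcover (fun ξ : Z => Metric.ball ξ l)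
    (fun _ => Metric.isOpen_ball) (fun ξ _ => mem_iUnion.2 ⟨ξ, Metric.mem_ball_self hl⟩)
  have hcov : ∀ ξ : Z, ∃ k : Fin t.card, ξ ∈ D (t.equivFin.symm k) := by
    intro ξ
    obtain ⟨c, hc, hξ⟩ := mem_iUnion₂.1 (ht (mem_univ ξ))
    refine ⟨t.equivFin ⟨c, hc⟩, ?_⟩
    rw [Equiv.symm_apply_apply]
    exact hD2 c (Metric.ball_subset_closedBall hξ)
  refine ⟨t.card, fun k => D (t.equivFin.symm k), ?_, fun k => hD1 _, fun k ξ hξ ζ hζ => ?_, hcov⟩
  · obtain ⟨k, -⟩ := hcov (Classical.arbitrary Z)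
    exact k.pos
  · have h1 := Metric.mem_ball.1 (hD3 _ hξ)
    have h2 := Metric.mem_ball.1 (hD3 _ hζ)
    have h3 := dist_triangle_right ξ ζ (t.equivFin.symm k : Z)
    linarith

namespace CD

variable {G Z : Type} [Group G] [MetricSpace Z] [MulAction G Z] (C : CD G Z)

theorem mem_tr (p : G) (K : Set Z) (z : Z) : z ∈ C.tr p K ↔ p • z ∈ K := by
  constructor
  · rintro ⟨w, hw, rfl⟩
    simpa using hw
  · intro h
    exact ⟨_, h, by simp⟩

theorem tr_cont (p : G) {K : Set Z} (hK : Cont K) : Cont (C.tr p K) := by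
  exact ⟨hK.1.image (C.cont p⁻¹), hK.2.image _ (C.cont p⁻¹).continuousOn⟩

/-- `bump` for `f z = dist (x⁻¹ξ) (x⁻¹z)` and `r = d0`: `f ζ ≥ d0` since otherwise `near_sub`
puts `ζ` in `Sh x (4δ)`; the points of `K'` lie in `Sh x (4δ)` by `near_sub`. -/
theorem ring0 (x : G) {K : Set Z} (hK : Cont K) {ξ ζ : Z} (hξ : ξ ∈ K) (hξ' : ξ ∈ C.Sh x C.δ)
    (hζ : ζ ∈ K) (hζ' : C.B x ζ < C.len x - 4 * C.δ) :
    ∃ K' : Set Z, K' ⊆ K ∧ Cont K' ∧ ξ ∈ K' ∧ K' ⊆ C.Sh x (4 * C.δ) ∧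
      (∀ z ∈ K', dist (x⁻¹ • ξ) (x⁻¹ • z) ≤ C.d0) ∧
      ∃ z ∈ K', dist (x⁻¹ • ξ) (x⁻¹ • z) = C.d0 := by
  have hf : Continuous fun z : Z => dist (x⁻¹ • ξ) (x⁻¹ • z) := continuous_const.dist (C.cont x⁻¹)
  have h2 : C.d0 ≤ dist (x⁻¹ • ξ) (x⁻¹ • ζ) := by
    by_contra h
    have h3 : (C.len x : ℝ) - 4 * C.δ ≤ C.B x ζ := C.near_sub x hξ' (not_le.1 h).le
    linarith
  obtain ⟨K', h3, h4, h5, h6, h7⟩ := hK.bump hf hξ hζ (r := C.d0)
    (by simpa using C.d0_pos.le) h2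
  exact ⟨K', h3, h4, h5, fun z hz => C.near_sub x hξ' (h6 z hz), h6, h7⟩

/-- `big_far`. -/
theorem Good.far {F : Fam Z} (hF : C.Good F) {i : F.ι} (hi : F.w i ≠ 0) (x : G) :
    ∃ ζ ∈ F.K i, C.B x ζ ≤ 4 * C.δ + 1 := by
  obtain ⟨-, ξ, hξ, ζ, hζ, h⟩ := hF i hi
  rcases C.big_far h x with h1 | h1
  · exact ⟨ξ, hξ, h1⟩
  · exact ⟨ζ, hζ, h1⟩

/-- `Good.far` -/
theorem Good.far' {F : Fam Z} (hF : C.Good F) {i : F.ι} (hi : F.w i ≠ 0) (x : G)
    (hx : 8 * C.δ + 2 ≤ C.len x) : ∃ ζ ∈ F.K i, C.B x ζ < C.len x - 4 * C.δ := by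
  obtain ⟨ζ, hζ, h⟩ := Good.far C hF hi x
  have h1 : (8 : ℝ) * C.δ + 2 ≤ C.len x := by exact_mod_cast hx
  exact ⟨ζ, hζ, by linarith⟩

end CD

end Crest.Agent.R193.Core
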