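import Mathlib

/-! Row 193 (S0294): the `K₃,₃` lemma (van Kampen parity).  There is no drawing of `K₃,₃` in the
plane (or in the two-sphere minus a point) in which disjoint edges have disjoint images. -/

set_option autoImplicit false

open Set Filter Topology Metric

noncomputable section
namespace Crest.Agent.R193

/-- the total change of a continuous logarithm of `c • γ` along `[0, 1]` depends only on `γ`. -/
theorem K33_wind (γ : ℝ → ℂ) : ∃ w : ℂ, ∀ (L : ℝ → ℂ) (c : ℂ), Continuous L →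
    (∀ s, Complex.exp (L s) = c * γ s) → L 1 - L 0 = w := by
  by_cases h : ∃ (L : ℝ → ℂ) (c : ℂ), Continuous L ∧ ∀ s, Complex.exp (L s) = c * γ s
  · obtain ⟨L₀, c₀, hL₀, h₀⟩ := h
    refine ⟨L₀ 1 - L₀ 0, fun L c hL h1 => ?_⟩
    have hk : ∀ s, Complex.exp (L s - L₀ s) = c / c₀ := fun s => by
      have h2 : c₀ * γ s ≠ 0 := h₀ s ▸ Complex.exp_ne_zero _
      rw [Complex.exp_sub, h1, h₀, mul_div_mul_right _ _ (right_ne_zero_of_mul h2)]
    have := Complex.isCoveringMap_exp.const_of_comp (g := fun s => L s - L₀ s) (hL.sub hL₀)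
      (fun s t => Subtype.ext (by simp only [hk])) 1 0
    linear_combination this
  · exact ⟨0, fun L c hL h1 => absurd ⟨L, c, hL, h1⟩ h⟩

theorem K33_log {f : ℝ × ℝ → ℂ} (hf : Continuous f) (h0 : ∀ p, f p ≠ 0) :
    ∃ L : ℝ × ℝ → ℂ, Continuous L ∧ ∀ p, Complex.exp (L p) = f p := by
  obtain ⟨F, ⟨-, hF⟩, -⟩ := Complex.isCoveringMapOn_exp.existsUnique_continuousMap_lifts
    (⟨f, hf⟩ : C(ℝ × ℝ, ℂ)) (a₀ := 0) (e₀ := Complex.log (f 0)) (Complex.exp_log (h0 0)) h0
  exact ⟨F, F.continuous, fun p => congrFun hF p⟩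

/-- **`K₃,₃` lemma** in the plane. -/
theorem k33 (a b : Fin 3 → ℂ) (e : ∀ i j, Path (a i) (b j))
    (h : ∀ i j k l, i ≠ k → j ≠ l → Disjoint (range (e i j)) (range (e k l))) : False := by
  choose W hW using K33_wind
  set WA : Fin 3 → Fin 3 → Fin 3 → ℂ := fun i j k => W fun s => (e i j).extend s - a k with hWA
  set WB : Fin 3 → Fin 3 → Fin 3 → ℂ := fun i j l => W fun s => (e i j).extend s - b l with hWB
  have key : ∀ i j k l, i ≠ k → j ≠ l →
      (WA i j k + WB k l j = WA k l i + WB i j l) ∧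
      (a i - a k ≠ 0 ∧ Complex.exp (WA i j k) = (b j - a k) / (a i - a k)) ∧
      (a i - b l ≠ 0 ∧ Complex.exp (WB i j l) = (b j - b l) / (a i - b l)) := by
    intro i j k l hik hjl
    have hne : ∀ p : ℝ × ℝ, (e i j).extend p.1 - (e k l).extend p.2 ≠ 0 := fun p hp => by
      have hd := disjoint_left.1 (h i j k l hik hjl)
      refine @hd ((e i j).extend p.1) ?_ ?_
      · rw [← Path.extend_range]; exact mem_range_self _
      · rw [sub_eq_zero.1 hp, ← Path.extend_range]; exact mem_range_self _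
    obtain ⟨L, hL, hE⟩ := K33_log (f := fun p => (e i j).extend p.1 - (e k l).extend p.2)
      (((e i j).continuous_extend.comp continuous_fst).sub
        ((e k l).continuous_extend.comp continuous_snd)) hne
    have e1 : L (1, 0) - L (0, 0) = WA i j k :=
      hW _ (fun s => L (s, 0)) 1 (by fun_prop) fun s => by simp [hE]
    have e2 : L (1, 1) - L (0, 1) = WB i j l :=
      hW _ (fun s => L (s, 1)) 1 (by fun_prop) fun s => by simp [hE]
    have e3 : L (0, 1) - L (0, 0) = WA k l i :=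
      hW _ (fun s => L (0, s)) (-1) (by fun_prop) fun s => by simp [hE]
    have e4 : L (1, 1) - L (1, 0) = WB k l j :=
      hW _ (fun s => L (1, s)) (-1) (by fun_prop) fun s => by simp [hE]
    refine ⟨by linear_combination e3 + e2 - e1 - e4, ⟨by simpa using hne (0, 0), ?_⟩,
      ⟨by simpa using hne (0, 1), ?_⟩⟩
    · rw [← e1, Complex.exp_sub, hE, hE]; simp
    · rw [← e2, Complex.exp_sub, hE, hE]; simp
  have hcol : ∀ j l l' : Fin 3, j ≠ l → j ≠ l' →
      Complex.exp (WA 0 j 1 + WA 0 j 2 + WA 1 j 2 + WB 2 l j + WB 2 l' j) =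
        -Complex.exp (WA 1 j 0 + WA 2 j 0 + WA 2 j 1 + WB 0 l j + WB 0 l' j) := by
    intro j l l' h1 h2
    obtain ⟨n01, a01⟩ := (key 0 j 1 l (by decide) h1).2.1
    obtain ⟨n02, a02⟩ := (key 0 j 2 l (by decide) h1).2.1
    obtain ⟨n12, a12⟩ := (key 1 j 2 l (by decide) h1).2.1
    obtain ⟨n10, a10⟩ := (key 1 j 0 l (by decide) h1).2.1
    obtain ⟨n20, a20⟩ := (key 2 j 0 l (by decide) h1).2.1
    obtain ⟨n21, a21⟩ := (key 2 j 1 l (by decide) h1).2.1
    obtain ⟨m2, b2⟩ := (key 2 l 0 j (by decide) h1.symm).2.2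
    obtain ⟨-, b2'⟩ := (key 2 l' 0 j (by decide) h2.symm).2.2
    obtain ⟨m0, b0⟩ := (key 0 l 1 j (by decide) h1.symm).2.2
    obtain ⟨-, b0'⟩ := (key 0 l' 1 j (by decide) h2.symm).2.2
    simp only [Complex.exp_add, a01, a02, a12, a10, a20, a21, b2, b2', b0, b0']
    field_simp
    ring
  have c0 := hcol 0 1 2 (by decide) (by decide)
  have c1 := hcol 1 0 2 (by decide) (by decide)
  have c2 := hcol 2 0 1 (by decide) (by decide)
  have k := fun i j k l h1 h2 => (key i j k l h1 h2).1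
  have hS : (WA 0 0 1 + WA 0 0 2 + WA 1 0 2 + WB 2 1 0 + WB 2 2 0) +
      (WA 0 1 1 + WA 0 1 2 + WA 1 1 2 + WB 2 0 1 + WB 2 2 1) +
      (WA 0 2 1 + WA 0 2 2 + WA 1 2 2 + WB 2 0 2 + WB 2 1 2) =
      (WA 1 0 0 + WA 2 0 0 + WA 2 0 1 + WB 0 1 0 + WB 0 2 0) +
      (WA 1 1 0 + WA 2 1 0 + WA 2 1 1 + WB 0 0 1 + WB 0 2 1) +
      (WA 1 2 0 + WA 2 2 0 + WA 2 2 1 + WB 0 0 2 + WB 0 1 2) := by
    linear_combination (1 / 2 : ℂ) * (
      k 0 0 1 1 (by decide) (by decide) + k 0 0 1 2 (by decide) (by decide) +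
      k 0 1 1 0 (by decide) (by decide) + k 0 1 1 2 (by decide) (by decide) +
      k 0 2 1 0 (by decide) (by decide) + k 0 2 1 1 (by decide) (by decide) +
      k 0 0 2 1 (by decide) (by decide) + k 0 0 2 2 (by decide) (by decide) +
      k 0 1 2 0 (by decide) (by decide) + k 0 1 2 2 (by decide) (by decide) +
      k 0 2 2 0 (by decide) (by decide) + k 0 2 2 1 (by decide) (by decide) +
      k 1 0 2 1 (by decide) (by decide) + k 1 0 2 2 (by decide) (by decide) +
      k 1 1 2 0 (by decide) (by decide) + k 1 1 2 2 (by decide) (by decide) +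
      k 1 2 2 0 (by decide) (by decide) + k 1 2 2 1 (by decide) (by decide))
  have hE := congrArg Complex.exp hS
  rw [Complex.exp_add, Complex.exp_add, c0, c1, c2] at hE
  conv_rhs at hE => rw [Complex.exp_add, Complex.exp_add]
  have x0 := Complex.exp_ne_zero (WA 1 0 0 + WA 2 0 0 + WA 2 0 1 + WB 0 1 0 + WB 0 2 0)
  have x1 := Complex.exp_ne_zero (WA 1 1 0 + WA 2 1 0 + WA 2 1 1 + WB 0 0 1 + WB 0 2 1)
  have x2 := Complex.exp_ne_zero (WA 1 2 0 + WA 2 2 0 + WA 2 2 1 + WB 0 0 2 + WB 0 1 2)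
  exact mul_ne_zero (mul_ne_zero x0 x1) x2 (by linear_combination (-1 / 2 : ℂ) * hE)

/-- the `K₃,₃` lemma for sets joining the vertices by paths. -/
theorem k33_joinedIn (a b : Fin 3 → ℂ) (C : Fin 3 → Fin 3 → Set ℂ)
    (hC : ∀ i j, JoinedIn (C i j) (a i) (b j))
    (h : ∀ i j k l, i ≠ k → j ≠ l → Disjoint (C i j) (C k l)) : False :=
  k33 a b (fun i j => (hC i j).somePath) fun i j k l hik hjl =>
    (h i j k l hik hjl).mono (range_subset_iff.2 (hC i j).somePath_mem)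
      (range_subset_iff.2 (hC k l).somePath_mem)

theorem K33_thick {K : Set ℂ} (hK : IsPreconnected K) {δ : ℝ} (hδ : 0 < δ) :
    IsPreconnected (thickening δ K) := by
  have e : thickening δ K = ⋃ x ∈ K, (K ∪ ball x δ) := by
    ext z
    simp only [mem_iUnion, mem_union, exists_prop]
    constructor
    · intro hz
      obtain ⟨x, hx, hd⟩ := mem_thickening_iff.1 hz
      exact ⟨x, hx, Or.inr hd⟩
    · rintro ⟨x, hx, hz | hz⟩
      · exact self_subset_thickening hδ K hz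
      · exact mem_thickening_iff.2 ⟨x, hx, hz⟩
  rcases K.eq_empty_or_nonempty with rfl | ⟨y, hy⟩
  · simpa using isPreconnected_empty
  · rw [e, biUnion_eq_iUnion]
    refine isPreconnected_iUnion ⟨y, mem_iInter.2 fun x => Or.inl hy⟩ fun x => ?_
    exact hK.union x.1 x.2 (mem_ball_self hδ) (convex_ball _ _).isPreconnected

/-- the `K₃,₃` lemma for continua in the plane. -/
theorem k33_continua (a b : Fin 3 → ℂ) (C : Fin 3 → Fin 3 → Set ℂ)
    (hc : ∀ i j, IsCompact (C i j)) (hp : ∀ i j, IsPreconnected (C i j))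
    (ha : ∀ i j, a i ∈ C i j) (hb : ∀ i j, b j ∈ C i j)
    (h : ∀ i j k l, i ≠ k → j ≠ l → Disjoint (C i j) (C k l)) : False := by
  have h1 : ∀ q : (Fin 3 × Fin 3) × (Fin 3 × Fin 3), ∀ᶠ δ in 𝓝[>] (0 : ℝ),
      q.1.1 ≠ q.2.1 → q.1.2 ≠ q.2.2 →
        Disjoint (thickening δ (C q.1.1 q.1.2)) (thickening δ (C q.2.1 q.2.2)) := by
    rintro ⟨⟨i, j⟩, k, l⟩
    by_cases hik : i = k
    · exact Eventually.of_forall fun _ h' => absurd hik h'
    by_cases hjl : j = l
    · exact Eventually.of_forall fun _ _ h' => absurd hjl h'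
    obtain ⟨δ, hδ, hd⟩ := (h i j k l hik hjl).exists_thickenings (hc i j) (hc k l).isClosed
    filter_upwards [Ioo_mem_nhdsGT hδ] with ε hε _ _
    exact hd.mono (thickening_mono hε.2.le _) (thickening_mono hε.2.le _)
  obtain ⟨δ, hδ, hd⟩ := ((eventually_mem_nhdsWithin (a := (0 : ℝ)) (s := Ioi 0)).and
    (eventually_all.2 h1)).exists
  refine k33_joinedIn a b (fun i j => thickening δ (C i j)) (fun i j => ?_)
    fun i j k l hik hjl => hd ((i, j), (k, l)) hik hjl
  have hA := self_subset_thickening hδ _ (ha i j)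
  exact ((isOpen_thickening.isConnected_iff_isPathConnected).1
    ⟨⟨_, hA⟩, K33_thick (hp i j) hδ⟩).joinedIn _ hA _ (self_subset_thickening hδ _ (hb i j))

variable {Z : Type*} [TopologicalSpace Z]

/-- a space homeomorphic to `S²`, minus a point, injects continuously in the plane. -/
theorem exists_injOn_compl (Φ : Z ≃ₜ sphere (0 : EuclideanSpace ℝ (Fin 3)) 1) (p : Z) :
    ∃ φ : Z → ℂ, ContinuousOn φ {p}ᶜ ∧ InjOn φ {p}ᶜ := by
  have : Fact (Module.finrank ℝ (EuclideanSpace ℝ (Fin 3)) = 2 + 1) := ⟨by simp⟩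
  let σ := stereographic' 2 (Φ p)
  have hm : MapsTo Φ {p}ᶜ σ.source := fun z hz => by
    rw [stereographic'_source]
    exact fun h' => hz (Φ.injective h')
  let ψ : EuclideanSpace ℝ (Fin 2) ≃ₗᵢ[ℝ] ℂ := Complex.orthonormalBasisOneI.repr.symm
  refine ⟨ψ ∘ σ ∘ Φ, ψ.continuous.comp_continuousOn
    (σ.continuousOn.comp Φ.continuous.continuousOn hm), ?_⟩
  exact ψ.injective.comp_injOn (σ.injOn.comp Φ.injective.injOn hm)

/-- the `K₃,₃` lemma for continua in a subset `U` that injects continuously in the plane. -/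
theorem k33_of_injOn {U : Set Z} {φ : Z → ℂ} (hφ : ContinuousOn φ U) (hi : InjOn φ U)
    (a b : Fin 3 → Z) (C : Fin 3 → Fin 3 → Set Z) (hU : ∀ i j, C i j ⊆ U)
    (hc : ∀ i j, IsCompact (C i j)) (hp : ∀ i j, IsPreconnected (C i j))
    (ha : ∀ i j, a i ∈ C i j) (hb : ∀ i j, b j ∈ C i j)
    (h : ∀ i j k l, i ≠ k → j ≠ l → Disjoint (C i j) (C k l)) : False :=
  k33_continua (φ ∘ a) (φ ∘ b) (fun i j => φ '' C i j)
    (fun i j => (hc i j).image_of_continuousOn (hφ.mono (hU i j)))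
    (fun i j => (hp i j).image φ (hφ.mono (hU i j)))
    (fun i j => mem_image_of_mem φ (ha i j)) (fun i j => mem_image_of_mem φ (hb i j))
    fun i j k l hik hjl => (h i j k l hik hjl).image hi (hU i j) (hU k l)

/-- **`K₃,₃` lemma** for continua on the two-sphere missing a point `p`. -/
theorem k33_sphere (Φ : Z ≃ₜ sphere (0 : EuclideanSpace ℝ (Fin 3)) 1) (p : Z)
    (a b : Fin 3 → Z) (C : Fin 3 → Fin 3 → Set Z) (hpC : ∀ i j, p ∉ C i j)
    (hc : ∀ i j, IsCompact (C i j)) (hp : ∀ i j, IsPreconnected (C i j))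
    (ha : ∀ i j, a i ∈ C i j) (hb : ∀ i j, b j ∈ C i j)
    (h : ∀ i j k l, i ≠ k → j ≠ l → Disjoint (C i j) (C k l)) : False := by
  obtain ⟨φ, hφ, hi⟩ := exists_injOn_compl Φ p
  exact k33_of_injOn hφ hi a b C (fun i j z hz h' => hpC i j (h' ▸ hz)) hc hp ha hb h

/-- the same with vertex continua `A i`, `B j` and edge continua `E i j` meeting `A i` and `B j`. -/
theorem k33_sphere_sets (Φ : Z ≃ₜ sphere (0 : EuclideanSpace ℝ (Fin 3)) 1) (p : Z)
    (A B : Fin 3 → Set Z) (E : Fin 3 → Fin 3 → Set Z)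
    (hA : ∀ i, IsCompact (A i) ∧ IsPreconnected (A i) ∧ p ∉ A i)
    (hB : ∀ j, IsCompact (B j) ∧ IsPreconnected (B j) ∧ p ∉ B j)
    (hE : ∀ i j, IsCompact (E i j) ∧ IsPreconnected (E i j) ∧ p ∉ E i j)
    (hEA : ∀ i j, (E i j ∩ A i).Nonempty) (hEB : ∀ i j, (E i j ∩ B j).Nonempty)
    (h : ∀ i j k l, i ≠ k → j ≠ l → Disjoint (A i ∪ E i j ∪ B j) (A k ∪ E k l ∪ B l)) :
    False := by
  have hA' : ∀ i, (A i).Nonempty := fun i => (hEA i 0).mono inter_subset_right
  have hB' : ∀ j, (B j).Nonempty := fun j => (hEB 0 j).mono inter_subset_right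
  choose a ha using hA'
  choose b hb using hB'
  refine k33_sphere Φ p a b (fun i j => A i ∪ E i j ∪ B j) (fun i j => ?_)
    (fun i j => ((hA i).1.union (hE i j).1).union (hB j).1) (fun i j => ?_)
    (fun i j => Or.inl (Or.inl (ha i))) (fun i j => Or.inr (hb j)) h
  · rintro ((h' | h') | h')
    exacts [(hA i).2.2 h', (hE i j).2.2 h', (hB j).2.2 h']
  · obtain ⟨x, hx1, hx2⟩ := hEA i j
    obtain ⟨y, hy1, hy2⟩ := hEB i j
    exact ((hA i).2.1.union x hx2 hx1 (hE i j).2.1).union y (Or.inr hy1) hy2 (hB j).2.1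

end Crest.Agent.R193
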