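import Crest.Agent.R193.VisProp
import Crest.Agent.R193.CDual
import Crest.Agent.R193.CTop
import Crest.Agent.R193.K33

/-! Row 193, block [C]: from `Visual` to the additive interface `CD`; `ULC`, `K33`;
reduction of `CStmt` to the lower bound `LB`. -/

set_option autoImplicit false

namespace Crest.Agent.R193

open Metric Set

namespace Visual

variable {G Z : Type} [Group G] [MetricSpace Z] [MulAction G Z] (V : Visual G Z)

theorem card_ballF (n : ℕ) : (V.ballF n).card ≤ (V.ballF 1).card ^ n := by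
  classical
  induction n with
  | zero =>
    rw [pow_zero, Finset.card_le_one]
    intro x hx y hy
    rw [mem_ballF, Nat.le_zero, V.len_eq_zero] at hx hy
    rw [hx, hy]
  | succ n ih =>
    have hsub : V.ballF (n + 1) ⊆ Finset.image₂ (· * ·) (V.ballF n) (V.ballF 1) := by
      intro g hg
      rw [mem_ballF] at hg
      rcases le_or_gt (V.len g) n with h | h
      · exact Finset.mem_image₂.2 ⟨g, by simpa using h, 1, by simp [V.len_one], mul_one g⟩
      obtain ⟨p, p0, p1, p2⟩ := V.exists_geodesic g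
      have h1 := p2 0 n (Nat.zero_le _) h.le
      have h2 := p2 n _ h.le le_rfl
      rw [p1 _ le_rfl] at h2
      rw [p0, inv_one, one_mul] at h1
      exact Finset.mem_image₂.2 ⟨p n, by simp [h1], (p n)⁻¹ * g, by simp [h2]; omega, by simp⟩
    calc _ ≤ _ := Finset.card_le_card hsub
      _ ≤ _ := Finset.card_image₂_le _ _ _
      _ ≤ _ := by rw [pow_succ]; exact Nat.mul_le_mul_right _ ih

/-- `-log_a` -/
noncomputable def lg (t : ℝ) : ℝ := -Real.logb V.a t

theorem lg_anti {s t : ℝ} (hs : 0 < s) (h : s ≤ t) : V.lg t ≤ V.lg s :=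
  neg_le_neg (Real.logb_le_logb_of_le V.one_lt_a hs h)

theorem lg_mul {s t : ℝ} (hs : 0 < s) (ht : 0 < t) : V.lg (s * t) = V.lg s + V.lg t := by
  simp only [lg, Real.logb_mul hs.ne' ht.ne']; ring

theorem lg_one : V.lg 1 = 0 := by simp [lg]

theorem lg_rpow (s : ℝ) : V.lg (V.a ^ (-s)) = s := by
  simp [lg, Real.logb_rpow V.a_pos V.one_lt_a.ne']

theorem rpow_lg {t : ℝ} (ht : 0 < t) : V.a ^ (-V.lg t) = t := by
  simp [lg, Real.rpow_logb V.a_pos V.one_lt_a.ne' ht]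

theorem lg_inv_pow (n : ℕ) : V.lg (V.a ^ n)⁻¹ = n := by
  rw [← V.lg_rpow n, Real.rpow_neg V.a_pos.le, Real.rpow_natCast]

theorem lg_sz (g : G) : V.lg (V.sz g) = V.len g := V.lg_inv_pow _

theorem lg_add {x s t : ℝ} (hx : 0 < x) (hs : 0 < s) (ht : 0 < t) (h : x ≤ s + t) :
    min (V.lg s) (V.lg t) + V.lg 2 ≤ V.lg x := by
  rcases le_total s t with h1 | h1
  · have := V.lg_anti hx (show x ≤ 2 * t by linarith)
    rw [V.lg_mul two_pos ht] at this
    linarith [min_le_right (V.lg s) (V.lg t)]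
  · have := V.lg_anti hx (show x ≤ 2 * s by linarith)
    rw [V.lg_mul two_pos hs] at this
    linarith [min_le_left (V.lg s) (V.lg t)]

theorem lg_C : V.lg V.C ≤ 0 := V.lg_one ▸ V.lg_anti one_pos V.one_le_C

theorem lg_two : V.lg 2 ≤ 0 := V.lg_one ▸ V.lg_anti one_pos one_le_two

theorem lg_rho2 (g h : G) : Core.gpOf V.len g h + V.lg V.C ≤ V.lg (V.rho2 g h) ∧
    V.lg (V.rho2 g h) + V.lg V.C ≤ Core.gpOf V.len g h := by
  have hg := V.sz_pos g
  have hh := V.sz_pos h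
  have hk := V.sz_pos (g⁻¹ * h)
  have hr := V.rho2_pos g h
  have hC := V.C_pos
  have h1 := V.lg_anti (by positivity) (V.F3u g h)
  have h2 := V.lg_anti (by positivity) (V.F3l g h)
  rw [sq] at h1 h2
  rw [V.lg_mul hC (by positivity)] at h2
  simp only [V.lg_mul, hg, hh, hk, hr, hC, mul_pos, V.lg_sz] at h1 h2
  have := V.lg_C
  unfold Core.gpOf
  constructor <;> linarith

theorem rho2_tri (g h k : G) : V.rho2 g k ≤ V.rho2 g h + V.rho2 h k := by
  have h1 := V.sz_le_rho2 g h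
  have h2 := V.sz_le_rho2' h k
  have h3 := V.dist_le_rho2 g h
  have h4 := V.dist_le_rho2 h k
  have h5 := V.rho2_pos g h
  have h6 := V.rho2_pos h k
  have h7 := dist_triangle (V.ctr g) (V.ctr h) (V.ctr k)
  exact V.rho2_le (by linarith) (by linarith) (by linarith)

/-- the error constant -/
noncomputable def del : ℕ := ⌈-(2 * V.lg V.C + V.lg 2)⌉₊ + 1

theorem del_ge : -(2 * V.lg V.C + V.lg 2) ≤ (V.del : ℝ) := by
  have := Nat.le_ceil (-(2 * V.lg V.C + V.lg 2))
  simp only [del, Nat.cast_add, Nat.cast_one]; linarith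

/-- the additive interface of a visual boundary -/
noncomputable def toCD : Core.CD G Z where
  len := V.len
  B x ξ := V.lg (V.rho x ξ)
  a := V.a
  δ := V.del
  b := (V.ballF 1).card
  ball := V.ballF
  one_lt_a := V.one_lt_a
  one_le_b := Finset.card_pos.2 ⟨1, by simp [V.len_one]⟩
  one_le_δ := by simp [del]
  len_one := V.len_one
  len_inv := V.len_inv
  len_mul := V.len_mul
  mem_ball _ _ := V.mem_ballF
  card_ball := V.card_ballF
  hyp x y z := by
    have h := V.lg_add (V.rho2_pos _ _) (V.rho2_pos _ _) (V.rho2_pos _ _) (V.rho2_tri x y z)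
    have h1 := min_le_min (V.lg_rho2 x y).1 (V.lg_rho2 y z).1
    rw [min_add_add_right] at h1
    linarith [(V.lg_rho2 x z).2, V.del_ge]
  B_nonneg x ξ := V.lg_one ▸ V.lg_anti (V.rho_pos x ξ) (V.rho_le_one x ξ)
  B_le x ξ := V.lg_sz x ▸ V.lg_anti (V.sz_pos x) (V.sz_le_rho x ξ)
  B1 x y ξ := by
    have h := V.lg_add (V.rho2_pos _ _) (V.rho_pos _ _) (V.rho_pos _ _) (V.rho2_le_rho_add x y ξ)
    linarith [(V.lg_rho2 x y).2, V.del_ge, V.lg_C]
  B2 x y ξ := by
    have h := V.lg_add (V.rho_pos _ _) (V.rho2_pos _ _) (V.rho_pos _ _) (V.rho_le_rho2_add x y ξ)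
    have h1 := min_le_min (V.lg_rho2 x y).1
      (show V.lg (V.rho y ξ) + V.lg V.C ≤ V.lg (V.rho y ξ) by linarith [V.lg_C])
    rw [min_add_add_right] at h1
    linarith [V.del_ge, V.lg_C]
  B3 x ξ ζ := by
    rcases eq_or_lt_of_le (dist_nonneg (x := ξ) (y := ζ)) with h0 | h0
    · rw [← h0]; exact (Real.rpow_pos_of_pos V.a_pos _).le
    have h := V.lg_add h0 (V.rho_pos _ _) (V.rho_pos _ _) (V.dist_le_rho_add x ξ ζ)
    rw [← V.rpow_lg h0]
    exact Real.rpow_le_rpow_of_exponent_le V.one_lt_a.le (by linarith [V.del_ge, V.lg_C])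
  B4 x ξ ζ s hs := by
    have h := V.lg_add (V.rho_pos x ζ) (V.rho_pos x ξ) (Real.rpow_pos_of_pos V.a_pos (-s))
      ((V.rho_le_add x ζ ξ).trans (by rw [dist_comm]; linarith))
    rw [V.lg_rpow] at h
    linarith [V.del_ge, V.lg_C]
  B5 ξ n := by
    refine ⟨V.ray ξ n, V.len_ray ξ n, ?_⟩
    have h := V.lg_anti (V.rho_pos _ _) (V.rho_ray ξ n)
    rw [V.lg_mul V.C_pos (V.sz_pos _), V.lg_sz, V.len_ray] at h
    linarith [V.del_ge, V.lg_C, V.lg_two]
  B6 g w ξ := by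
    have hg := V.sz_pos g
    have h3 := V.rho_pos (g⁻¹ * w) (g⁻¹ • ξ)
    have h4 := V.rho_pos g ξ
    have h5 := V.rho_pos w ξ
    have hr := V.rho2_pos g w
    have hC := V.C_pos
    have h1 := V.lg_anti (by positivity) (V.F2u g w ξ)
    have h2 := V.lg_anti (by positivity) (V.F2l g w ξ)
    rw [V.lg_mul hC (by positivity)] at h2
    simp only [V.lg_mul, hg, h3, h4, h5, hr, hC, mul_pos, V.lg_sz] at h1 h2
    obtain ⟨k1, k2⟩ := V.lg_rho2 g w
    rw [abs_le]
    constructor <;> linarith [V.del_ge, V.lg_two]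
  cont := V.continuous_smul

theorem dist_le_of_mem_Sh {x : G} {ξ : Z} {t : ℝ} (h : ξ ∈ V.toCD.Sh x t) :
    dist ξ (V.ctr x) ≤ V.a ^ t * V.sz x := by
  have h1 : (V.len x : ℝ) - t ≤ V.lg (V.rho x ξ) := h
  refine (V.dist_le_rho x ξ).trans ?_
  rw [← V.rpow_lg (V.rho_pos x ξ), ← V.rpow_lg (V.sz_pos x), V.lg_sz, ← Real.rpow_add V.a_pos]
  exact Real.rpow_le_rpow_of_exponent_le V.one_lt_a.le (by linarith)

end Visual

theorem k33_of_S2 {Z : Type} [MetricSpace Z] (hZ : Nonempty (Z ≃ₜ S2)) : Core.K33 Z :=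
  fun p A B E hA hB hE hEA hEB h => k33_sphere_sets hZ.some p A B E
    (fun i => ⟨(hA i).1.1, (hA i).1.2, (hA i).2⟩) (fun i => ⟨(hB i).1.1, (hB i).1.2, (hB i).2⟩)
    (fun i j => ⟨(hE i j).1.1, (hE i j).1.2, (hE i j).2⟩) hEA hEB h

theorem ulc_of_S2 {Z : Type} [MetricSpace Z] (hZ : Nonempty (Z ≃ₜ S2)) : Core.ULC Z := by
  haveI := compact_of_S2 hZ
  haveI := lpc_of_S2 hZ
  intro θ hθ
  obtain ⟨δ, hδ, h⟩ := unif_lpc (Z := Z) (ε := θ / 2) (by linarith)
  refine ⟨δ / 2, by linarith, fun ξ => ⟨closure (pathComponentIn (ball ξ (θ / 2)) ξ),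
    ⟨isClosed_closure.isCompact, (isPathConnected_pathComponentIn
      (mem_ball_self (by linarith))).isConnected.isPreconnected.closure⟩, fun z hz => ?_, ?_⟩⟩
  · exact subset_closure (h ξ z (by rw [mem_closedBall, dist_comm] at hz; linarith))
  · exact ((closure_mono pathComponentIn_subset).trans closure_ball_subset_closedBall).trans
      (closedBall_subset_ball (by linarith))

/-- the statement proved by the core -/
def CoreStmt : Prop :=
  ∀ (G Z : Type) [Group G] [MetricSpace Z] [MulAction G Z] [CompactSpace Z] [Nonempty Z]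
    (C : Core.CD G Z), Core.K33 Z → Core.ULC Z →
    ∀ d : ℝ, 0 < d → ∃ e : ℝ, 0 < e ∧ ∀ N : ℕ, C.LB d N e

theorem cblock_of_core (h : CoreStmt) : CStmt := by
  classical
  intro G Z _ _ _ V hZ d0 hd0
  haveI := compact_of_S2 hZ
  haveI := nontrivial_of_S2 hZ
  obtain ⟨e, he, hLB⟩ := h G Z V.toCD (k33_of_S2 hZ) (ulc_of_S2 hZ) d0 hd0
  refine ⟨V.a ^ (V.del : ℝ), 1 / e, Real.rpow_pos_of_pos V.a_pos _, fun N => ?_⟩
  obtain ⟨ρ, h0, h1, h2⟩ := Core.duality (V.toCD.sph N)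
    (fun K : Set Z => Core.Cont K ∧ ∃ ξ ∈ K, ∃ ζ ∈ K, d0 ≤ dist ξ ζ)
    (fun x K => (K ∩ V.toCD.Sh x V.toCD.δ).Nonempty) e he (fun F hF h1 => by
      have := hLB N F fun i _ => hF i
      rwa [h1, one_pow, mul_one] at this)
  refine ⟨V.toCD.sph N, ρ, fun x hx => (V.toCD.mem_sph N x).1 hx, h0, h1, fun a b γ hab => ?_⟩
  refine (h2 (range γ) ⟨⟨isCompact_range γ.continuous, isPreconnected_range γ.continuous⟩,
    a, ⟨0, γ.source⟩, b, ⟨1, γ.target⟩, hab⟩).trans
    (Finset.sum_le_sum_of_subset_of_nonneg (fun x hx => ?_) fun x _ _ => h0 x)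
  simp only [Finset.mem_filter] at hx ⊢
  obtain ⟨hx, _, ⟨t, rfl⟩, ht⟩ := hx
  exact ⟨hx, t, V.dist_le_of_mem_Sh ht⟩

end Crest.Agent.R193
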