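import Crest.Agent.R193.CTop
import Crest.Agent.R193.VisBasic
import Crest.Agent.R193.K33
import Crest.Agent.R193.CVisAux

/-! Row 193 [C]: the additive interface from `Visual`; the topological inputs from `S2`. -/

set_option autoImplicit false

namespace Crest.Agent.R193.Core

open Set

/-- `k33_sphere_sets`. -/
theorem k33_of_S2 {Z : Type} [MetricSpace Z] (Φ : Z ≃ₜ S2) : K33 Z :=
  R193.k33_of_S2 ⟨Φ⟩

/-- `Φ` and `Φ.symm` are uniformly continuous (compact spaces).  `D = Φ ⁻¹' (closed cap)`; a small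
closed cap `{y ∈ S2 | dist y y₀ ≤ r}` (`r < 1`) is compact and preconnected, e.g. as the image of
the convex set `closedBall y₀ r ⊆ ℝ³ \ {0}` under `x ↦ x/‖x‖` (this image contains the cap of
radius `r` and lies in the cap of radius `2r`; any such set will do). -/
theorem ulc_of_S2 {Z : Type} [MetricSpace Z] (Φ : Z ≃ₜ S2) : ULC Z :=
  R193.ulc_of_S2 ⟨Φ⟩

section
variable {G Z : Type} [Group G] [MetricSpace Z] [MulAction G Z] (V : Visual G Z)

/-- the ball of radius `n+1` is contained in `ball n * ({1} ∪ S ∪ S⁻¹)`; or: it is the image of the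
lists of length `n` over `{1} ∪ S ∪ S⁻¹`. -/
theorem card_ball_le (n : ℕ) : (V.finite_len n).toFinset.card ≤ (2 * V.S.card + 1) ^ n := by
  classical
  refine (V.card_ballF n).trans (Nat.pow_le_pow_left ?_ n)
  have : V.ballF 1 ⊆ insert 1 (V.S ∪ V.S.image fun s => s⁻¹) := by
    intro g hg
    rw [Visual.mem_ballF, V.len_le_one_iff] at hg
    simp only [Finset.mem_insert, Finset.mem_union, Finset.mem_image]
    rcases hg with h | h | h
    · exact Or.inl h
    · exact Or.inr (Or.inl h)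
    · exact Or.inr (Or.inr ⟨_, h, inv_inv g⟩)
  have h1 := Finset.card_le_card this
  have h2 := Finset.card_insert_le 1 (V.S ∪ V.S.image fun s => s⁻¹)
  have h3 := Finset.card_union_le V.S (V.S.image fun s => s⁻¹)
  have h4 := Finset.card_image_le (s := V.S) (f := fun s => s⁻¹)
  omega

/-- logarithmic form of `F3u`, `F3l`: `-log_a (rho2 g h)` is the Gromov product up to
`log_a C / 2`  (`sz g = a^(-len g)`). -/
theorem log_rho2 (g h : G) :
    |(-Real.logb V.a (V.rho2 g h)) - gpOf V.len g h| ≤ Real.logb V.a V.C := by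
  obtain ⟨h1, h2⟩ := V.lg_rho2 g h
  simp only [Visual.lg] at h1 h2
  rw [abs_le]; constructor <;> linarith

/-- `B x ξ = -log_a (rho x ξ)`, `δ = ⌈3 log_a (2C)⌉₊ + 1`, `b = 2|S|+1`.  `hyp`, `B1`–`B4`: the
triangle inequality gives `rho2 x z ≤ 2 max (rho2 x y) (rho2 y z)`,
`rho2 x y ≤ 2 max (rho x ξ) (rho y ξ)`, `rho x ξ ≤ 2 max (rho2 x y) (rho y ξ)`,
`dist ξ ζ ≤ 2 max (rho x ξ) (rho x ζ)`, `rho x ζ ≤ 2 max (rho x ξ) (dist ξ ζ)`; take `logb`, use
`log_rho2`.  `B5`: `ray ξ n` (`ray_len 0 n`, `ray_ctr`).  `B6`: `F2u`, `F2l`, `log_rho2`. -/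
theorem exists_CD : ∃ C : CD G Z, (∀ x, C.len x = V.len x) ∧
    ∀ x ξ, ξ ∈ C.Sh x C.δ → dist ξ (V.ctr x) ≤ V.a ^ C.δ * V.sz x :=
  ⟨V.toCD, fun _ => rfl, fun x ξ h => by
    simpa only [Real.rpow_natCast] using V.dist_le_of_mem_Sh h⟩

end

end Crest.Agent.R193.Core
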