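import Mathlib
import Crest.Prelude.Def_WordHyperbolic

/-! Row 193, block [Z]: the abstract interface between a hyperbolic group and its boundary.

`Z` is the boundary with a visual metric (`dist ξ η ≍ a^{-(ξ|η)}`), `ctr g` is a boundary point
whose ray from `1` passes near `g`, so that `rho g ξ ≍ a^{-(g|ξ)}` and `rho2 g h ≍ a^{-(g|h)}`.
The three change-of-base-point formulas `F1`, `F2`, `F3` are the multiplicative form of
`(y|z)_g = (y|z)_1 + |g| - (g|y)_1 - (g|z)_1`. -/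

set_option autoImplicit false

namespace Crest.Agent.R193

open Crest.GroupTheory

/-- The two-sphere of the statement. -/
abbrev S2 : Type := Metric.sphere (0 : EuclideanSpace ℝ (Fin 3)) 1

/-- Data of a visual boundary. -/
structure VData (G Z : Type) where
  /-- the finite generating set -/
  S : Finset G
  /-- the visual parameter -/
  a : ℝ
  /-- the multiplicative constant -/
  C : ℝ
  /-- centre of the cell (shadow) of `g` -/
  ctr : G → Z
  /-- a geodesic ray from `1` to `ξ` -/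
  ray : Z → ℕ → G

namespace VData

variable {G Z : Type} [Group G] [MetricSpace Z] (V : VData G Z)

/-- word length `|g|` -/
noncomputable def len (g : G) : ℕ := wordLength (V.S : Set G) g

/-- size `a^{-|g|}` of the cell of `g` -/
noncomputable def sz (g : G) : ℝ := (V.a ^ V.len g)⁻¹

/-- `rho g ξ ≍ a^{-(g|ξ)}` -/
noncomputable def rho (g : G) (ξ : Z) : ℝ := max (V.sz g) (dist ξ (V.ctr g))

/-- `rho2 g h ≍ a^{-(g|h)}` -/
noncomputable def rho2 (g h : G) : ℝ := max (max (V.sz g) (V.sz h)) (dist (V.ctr g) (V.ctr h))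

end VData

/-- A hyperbolic group acting on its boundary with a visual metric. -/
structure Visual (G Z : Type) [Group G] [MetricSpace Z] [MulAction G Z] extends VData G Z where
  closure_S : Subgroup.closure (S : Set G) = ⊤
  one_lt_a : 1 < a
  one_le_C : 1 ≤ C
  dist_le_one : ∀ ξ η : Z, dist ξ η ≤ 1
  F1u : ∀ (g : G) (ξ η : Z), dist (g⁻¹ • ξ) (g⁻¹ • η) * (toVData.rho g ξ * toVData.rho g η) ≤
    C * (toVData.sz g * dist ξ η)
  F1l : ∀ (g : G) (ξ η : Z), toVData.sz g * dist ξ η ≤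
    C * (dist (g⁻¹ • ξ) (g⁻¹ • η) * (toVData.rho g ξ * toVData.rho g η))
  F2u : ∀ (g h : G) (ξ : Z), toVData.rho (g⁻¹ * h) (g⁻¹ • ξ) * (toVData.rho2 g h * toVData.rho g ξ) ≤
    C * (toVData.sz g * toVData.rho h ξ)
  F2l : ∀ (g h : G) (ξ : Z), toVData.sz g * toVData.rho h ξ ≤
    C * (toVData.rho (g⁻¹ * h) (g⁻¹ • ξ) * (toVData.rho2 g h * toVData.rho g ξ))
  F3u : ∀ g h : G, toVData.sz (g⁻¹ * h) * toVData.rho2 g h ^ 2 ≤ C * (toVData.sz g * toVData.sz h)
  F3l : ∀ g h : G, toVData.sz g * toVData.sz h ≤ C * (toVData.sz (g⁻¹ * h) * toVData.rho2 g h ^ 2)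
  ray_zero : ∀ ξ : Z, ray ξ 0 = 1
  ray_len : ∀ (ξ : Z) (m n : ℕ), m ≤ n → toVData.len ((ray ξ m)⁻¹ * ray ξ n) = n - m
  ray_ctr : ∀ (ξ : Z) (n : ℕ), dist ξ (ctr (ray ξ n)) ≤ C * (a ^ n)⁻¹

end Crest.Agent.R193
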