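import Mathlib
import Crest.Prelude.Def_WordHyperbolic
import Crest.Prelude.Def_CayleyBoundary
import Crest.Prelude.Def_HyperbolicThreeSpace
import Crest.Agent.R193.Vis

/-! Row 193 (Cannon): interfaces between the blocks.

`[Z]` hyperbolic group => `Visual` boundary with its metric properties,
`[C]` core: bounded combinatorial 2-modulus (`UBw`),
`[B]` bridge `UBw => UB` (cut-off functions of bounded energy at all scales),
`[U]` `UB` => local quasisymmetric chart,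
`[T]` chart => the action is conjugate to a (locally) conformal one,
`[H]` Poincare extension.  `Final.lean` assembles the six statements. -/

set_option autoImplicit false

namespace Crest.Agent.R193

open Crest.GroupTheory Crest.HyperbolicSpace Metric

/-- `e`-separated triple. -/
def Sep3 {Z : Type} [MetricSpace Z] (e : ℝ) (a b c : Z) : Prop :=
  e ≤ dist a b ∧ e ≤ dist b c ∧ e ≤ dist a c

/-- properness of the action on triples -/
def Prop3 (G Z : Type) [Group G] [MetricSpace Z] [MulAction G Z] : Prop :=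
  ∀ e : ℝ, 0 < e → {g : G | ∃ a b c : Z, Sep3 e a b c ∧ Sep3 e (g • a) (g • b) (g • c)}.Finite

/-- cocompactness of the action on triples -/
def Coc3 (G Z : Type) [Group G] [MetricSpace Z] [MulAction G Z] : Prop :=
  ∃ e : ℝ, 0 < e ∧ ∀ a b c : Z, a ≠ b → b ≠ c → a ≠ c → ∃ g : G, Sep3 e (g • a) (g • b) (g • c)

/-- uniform linear distortion of cross-ratios -/
def CRBound (G Z : Type) [Group G] [MetricSpace Z] [MulAction G Z] : Prop :=
  ∃ C : ℝ, 0 < C ∧ ∀ (g : G) (a b c d : Z),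
    dist (g • a) (g • b) * dist (g • c) (g • d) * (dist a c * dist b d) ≤
      C * (dist a b * dist c d * (dist (g • a) (g • c) * dist (g • b) (g • d)))

/-- a finite set is `r`-separated -/
def Sepd {Z : Type} [MetricSpace Z] (r : ℝ) (S : Finset Z) : Prop :=
  ∀ x ∈ S, ∀ y ∈ S, x ≠ y → r ≤ dist x y

/-- doubling, in packing form -/
def Doubling (Z : Type) [MetricSpace Z] : Prop :=
  ∀ A : ℝ, ∃ m : ℕ, ∀ (ξ : Z) (r : ℝ) (S : Finset Z), 0 < r → Sepd r S →
    (∀ z ∈ S, dist z ξ ≤ A * r) → S.card ≤ m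

/-- linear local connectedness 1, with paths -/
def LLC1 (Z : Type) [MetricSpace Z] : Prop :=
  ∃ L : ℝ, 1 ≤ L ∧ ∀ a b : Z, ∃ γ : Path a b, ∀ t, dist (γ t) a ≤ L * dist a b

/-- linear local connectedness 2, with paths -/
def LLC2 (Z : Type) [MetricSpace Z] : Prop :=
  ∃ L : ℝ, 1 ≤ L ∧ ∀ (ξ a b : Z) (r : ℝ), 0 < r → L * r ≤ dist a ξ → L * r ≤ dist b ξ →
    ∃ γ : Path a b, ∀ t, r ≤ dist (γ t) ξ

/-- `En f δ M`: the scale-`δ` energy of `f` is at most `M`. -/
def En {Z : Type} [MetricSpace Z] (f : Z → ℝ) (δ M : ℝ) : Prop :=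
  ∀ S : Finset Z, Sepd δ S → ∑ z ∈ S, (diam (f '' ball z δ)) ^ 2 ≤ M

/-- Cut-off functions of bounded energy for all small rings and all finer scales. -/
def UB (Z : Type) [MetricSpace Z] : Prop :=
  ∃ M r0 : ℝ, 0 < r0 ∧ ∀ (ξ : Z) (r δ : ℝ), 0 < δ → δ ≤ r → r ≤ r0 →
    ∃ f : Z → ℝ, (∀ z, 0 ≤ f z ∧ f z ≤ 1) ∧ (∀ z ∈ ball ξ r, f z = 1) ∧
      (∀ z, z ∉ ball ξ (2 * r) → f z = 0) ∧ En f δ M

open Classical in
/-- Output of the core: bounded combinatorial 2-modulus of the paths of diameter `≥ d0`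
with respect to the level-`N` cells `closedBall (ctr x) (K * sz x)`, `len x = N`. -/
def UBw {G Z : Type} [Group G] [MetricSpace Z] [MulAction G Z] (V : Visual G Z) : Prop :=
  ∀ d0 : ℝ, 0 < d0 → ∃ K M : ℝ, 0 < K ∧ ∀ N : ℕ, ∃ (T : Finset G) (ρ : G → ℝ),
    (∀ x ∈ T, V.toVData.len x = N) ∧ (∀ x, 0 ≤ ρ x) ∧ ∑ x ∈ T, ρ x ^ 2 ≤ M ∧
    ∀ (a b : Z) (γ : Path a b), d0 ≤ dist a b →
      1 ≤ ∑ x ∈ T.filter (fun x => ∃ t, dist (γ t) (V.ctr x) ≤ K * V.toVData.sz x), ρ x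

/-- A local quasisymmetric chart. -/
structure QSChart {Z : Type} [MetricSpace Z] (F : OpenPartialHomeomorph Z ℂ) : Prop where
  ne : F.source.Nonempty
  bdd : ∀ T : ℝ, ∃ M : ℝ, ∀ a ∈ F.source, ∀ b ∈ F.source, ∀ c ∈ F.source,
    dist a b ≤ T * dist a c → dist (F a) (F b) ≤ M * dist (F a) (F c)
  small : ∀ ε : ℝ, 0 < ε → ∃ τ : ℝ, 0 < τ ∧ ∀ a ∈ F.source, ∀ b ∈ F.source, ∀ c ∈ F.source,
    dist a b ≤ τ * dist a c → dist (F a) (F b) ≤ ε * dist (F a) (F c)

/-- In the coordinate `k : ℂ → Z \ {η}` every group element is locally holomorphic or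
antiholomorphic off its pole. -/
def HConf (G : Type) {Z : Type} [Group G] [MulAction G Z] (η : Z) (k : ℂ → Z) : Prop :=
  ∀ g : G, ∃ f : ℂ → ℂ, (∀ z, g • k z ≠ η → k (f z) = g • k z) ∧
    ∀ z, g • k z ≠ η → AnalyticAt ℂ f z ∨ AnalyticAt ℂ (fun w => (starRingEnd ℂ) (f w)) z

/-- the conclusion of S0294 -/
def Concl (G : Type) [Group G] : Prop :=
  ∃ ρ : G →* isometryGroup3,
    (∀ K : Set UpperHalfSpace3, IsCompact K →
      Set.Finite {g : G | ∃ x ∈ K, (ρ g : Equiv.Perm UpperHalfSpace3) x ∈ K}) ∧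
    (∃ K : Set UpperHalfSpace3, IsCompact K ∧
      ∀ x : UpperHalfSpace3, ∃ g : G, (ρ g : Equiv.Perm UpperHalfSpace3) x ∈ K) ∧
    Finite ρ.ker

/-- [Z1] existence of the visual boundary -/
def ZExStmt : Prop :=
  ∀ (G : Type) [Group G] (S : Finset G), Subgroup.closure (S : Set G) = ⊤ →
    (∃ δ : ℝ, 0 ≤ δ ∧ ∀ w x y z : G,
      min (gromovProduct (S : Set G) w x y) (gromovProduct (S : Set G) w y z) - δ ≤
        gromovProduct (S : Set G) w x z) →
    Nonempty (CayleyBoundary (S : Set G) ≃ₜ S2) →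
    ∃ (Z : Type) (_ : MetricSpace Z) (_ : MulAction G Z),
      Nonempty (Visual G Z) ∧ Nonempty (Z ≃ₜ S2)

/-- [Z2] metric and dynamical consequences -/
def ZPropStmt : Prop :=
  ∀ (G Z : Type) [Group G] [MetricSpace Z] [MulAction G Z], Visual G Z → Nonempty (Z ≃ₜ S2) →
    (∀ g : G, Continuous fun z : Z => g • z) ∧ Prop3 G Z ∧ Coc3 G Z ∧ CRBound G Z ∧
      Doubling Z ∧ LLC1 Z ∧ LLC2 Z

/-- [C] the core -/
def CStmt : Prop :=
  ∀ (G Z : Type) [Group G] [MetricSpace Z] [MulAction G Z] (V : Visual G Z),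
    Nonempty (Z ≃ₜ S2) → UBw V

/-- [B] the bridge -/
def BStmt : Prop :=
  ∀ (G Z : Type) [Group G] [MetricSpace Z] [MulAction G Z] (V : Visual G Z),
    Nonempty (Z ≃ₜ S2) → Doubling Z → LLC1 Z → UBw V → UB Z

/-- [U] the chart -/
def UStmt : Prop :=
  ∀ (Z : Type) [MetricSpace Z], Nonempty (Z ≃ₜ S2) → Doubling Z → LLC1 Z → LLC2 Z → UB Z →
    ∃ F : OpenPartialHomeomorph Z ℂ, QSChart F

/-- [T] Sullivan-Tukia -/
def TStmt : Prop :=
  ∀ (G Z : Type) [Group G] [Countable G] [MetricSpace Z] [CompactSpace Z] [MulAction G Z],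
    (∀ g : G, Continuous fun z : Z => g • z) → CRBound G Z → Coc3 G Z →
    ∀ F : OpenPartialHomeomorph Z ℂ, QSChart F →
      ∃ (η : Z) (k : ℂ → Z), Topology.IsEmbedding k ∧ Set.range k = {η}ᶜ ∧ HConf G η k

/-- [H] Poincare extension -/
def HStmt : Prop :=
  ∀ (G Z : Type) [Group G] [MetricSpace Z] [CompactSpace Z] [MulAction G Z],
    (∀ g : G, Continuous fun z : Z => g • z) → Prop3 G Z → Coc3 G Z →
    ∀ (η : Z) (k : ℂ → Z), Topology.IsEmbedding k → Set.range k = {η}ᶜ → HConf G η k → Concl G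

theorem countable_of_closure {G : Type} [Group G] (S : Finset G)
    (hS : Subgroup.closure (S : Set G) = ⊤) : Countable G := by
  let f : FreeGroup (S : Set G) →* G := FreeGroup.lift (fun x => (x : G))
  have hf : Function.Surjective f := by
    rw [← MonoidHom.range_eq_top, FreeGroup.range_lift_eq_closure, Subtype.range_coe, hS]
  have : Countable (FreeGroup (S : Set G)) := by
    have : Function.Surjective (FreeGroup.mk (α := (S : Set G))) :=
      fun x => by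
        obtain ⟨l, hl⟩ := Quot.exists_rep x
        exact ⟨l, hl⟩
    exact this.countable
  exact hf.countable

/-- Assembly. -/
theorem final (hZ1 : ZExStmt) (hZ2 : ZPropStmt) (hC : CStmt) (hB : BStmt) (hU : UStmt)
    (hT : TStmt) (hH : HStmt)
    (G : Type) [Group G] (S : Finset G) (hS : Subgroup.closure (S : Set G) = ⊤)
    (hδ : ∃ δ : ℝ, 0 ≤ δ ∧ ∀ w x y z : G,
      min (gromovProduct (S : Set G) w x y) (gromovProduct (S : Set G) w y z) - δ ≤
        gromovProduct (S : Set G) w x z)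
    (hB' : Nonempty (CayleyBoundary (S : Set G) ≃ₜ S2)) : Concl G := by
  obtain ⟨Z, iM, iA, ⟨V⟩, hZ⟩ := hZ1 G S hS hδ hB'
  obtain ⟨hc, hp, hco, hcr, hd, h1, h2⟩ := hZ2 G Z V hZ
  obtain ⟨Φ⟩ := hZ
  have : CompactSpace Z := Φ.symm.compactSpace
  have : Countable G := countable_of_closure S hS
  obtain ⟨F, hF⟩ := hU Z ⟨Φ⟩ hd h1 h2 (hB G Z V ⟨Φ⟩ hd h1 (hC G Z V ⟨Φ⟩))
  obtain ⟨η, k, hk, hr, hconf⟩ := hT G Z hc hcr hco F hF
  exact hH G Z hc hp hco η k hk hr hconf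

end Crest.Agent.R193
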