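import Crest.Agent.R193.CMain
import Crest.Agent.R193.CVis
import Crest.Agent.R193.Defs

/-! Row 193 [C]: the block statement. -/

set_option autoImplicit false

namespace Crest.Agent.R193

open Core

theorem coreStmt : CoreStmt := by
  intro G Z _ _ _ _ _ C hK hU d hd
  obtain ⟨e, he, h⟩ := C.core_LB hK hU
  exact C.LB_any e he h d hd

theorem cblock : CStmt := cblock_of_core coreStmt

end Crest.Agent.R193
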