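import Crest.Agent.R193.CMass

/-! Row 193 [C]: finite combinatorics (no geometry). -/

set_option autoImplicit false

namespace Crest.Agent.R193.Core

open Set

/-- Selection.  Normalise `q a i = w i 1[A a i] / mass (A a)` and average over
`f : α → ι` with the product weight `∏ a, q a (f a)` (`Finset.prod_univ_sum`): total weight 1, and
the weight of `{f | Bad a a' (f a) (f a')}` is at most `η / μ²` for `a ≠ a'` (or argue greedily
by induction on a Finset of `α`). -/
theorem Fam.select {Z : Type} (F : Fam Z) {α : Type} [Fintype α] (A : α → F.ι → Prop)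
    (Bad : α → α → F.ι → F.ι → Prop) (μ η : ℝ) (hμ : 0 < μ) (hA : ∀ a, μ ≤ F.mass (A a))
    (hB : ∀ a a', a ≠ a' → F.mass2 (Bad a a') ≤ η)
    (h : (Fintype.card α : ℝ) ^ 2 * η < μ ^ 2) :
    ∃ f : α → F.ι, (∀ a, F.w (f a) ≠ 0 ∧ A a (f a)) ∧
      ∀ a a', a ≠ a' → ¬ Bad a a' (f a) (f a') := by
  classical
  have hm : ∀ a, 0 < F.mass (A a) := fun a => hμ.trans_le (hA a)
  set q : α → F.ι → ℝ := fun a i => (if A a i then F.w i else 0) / F.mass (A a) with hq
  have hq0 : ∀ a i, 0 ≤ q a i := by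
    intro a i
    refine div_nonneg ?_ (hm a).le
    split_ifs
    · exact F.w_nonneg i
    · exact le_rfl
  have hq1 : ∀ a, ∑ i, q a i = 1 := by
    intro a
    simp only [hq]
    rw [← Finset.sum_div]
    exact div_self (hm a).ne'
  have hqle : ∀ a i, q a i ≤ F.w i / μ := by
    intro a i
    simp only [hq]
    refine div_le_div₀ (F.w_nonneg i) ?_ hμ (hA a)
    split_ifs
    · exact le_rfl
    · exact F.w_nonneg i
  have htot : ∑ f : α → F.ι, ∏ a, q a (f a) = 1 := by
    have := Finset.prod_univ_sum (fun _ : α => (Finset.univ : Finset F.ι)) q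
    rw [Fintype.piFinset_univ] at this
    rw [← this]
    simp [hq1]
  -- two-dimensional marginals
  have hmarg : ∀ a a', a ≠ a' → ∀ i j,
      ∑ f : α → F.ι, (if f a = i ∧ f a' = j then ∏ b, q b (f b) else 0) = q a i * q a' j := by
    intro a a' haa i j
    set r : α → F.ι → ℝ := fun b k =>
      if (b = a → k = i) ∧ (b = a' → k = j) then q b k else 0 with hr
    have h1 : ∀ f : α → F.ι,
        (if f a = i ∧ f a' = j then ∏ b, q b (f b) else 0) = ∏ b, r b (f b) := by
      intro f
      split_ifs with hf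
      · refine Finset.prod_congr rfl fun b _ => ?_
        simp only [hr]
        rw [if_pos]
        exact ⟨fun h => h ▸ hf.1, fun h => h ▸ hf.2⟩
      · symm
        rcases not_and_or.1 hf with hf | hf
        · refine Finset.prod_eq_zero (Finset.mem_univ a) ?_
          simp only [hr]
          rw [if_neg]
          exact fun h => hf (h.1 trivial)
        · refine Finset.prod_eq_zero (Finset.mem_univ a') ?_
          simp only [hr]
          rw [if_neg]
          exact fun h => hf (h.2 trivial)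
    simp_rw [h1]
    have := Finset.prod_univ_sum (fun _ : α => (Finset.univ : Finset F.ι)) r
    rw [Fintype.piFinset_univ] at this
    rw [← this]
    have h2 : ∀ b, ∑ k, r b k = if b = a then q a i else if b = a' then q a' j else 1 := by
      intro b
      by_cases hb : b = a
      · subst hb
        simp [hr, haa]
      · by_cases hb' : b = a'
        · subst hb'
          simp [hr, hb]
        · simp [hr, hb, hb', hq1]
    simp_rw [h2]
    rw [Finset.prod_eq_mul_of_mem a a' (Finset.mem_univ _) (Finset.mem_univ _) haa]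
    · simp [haa.symm]
    · intro c _ hc
      simp [hc.1, hc.2]
  have hpair : ∀ a a', ∑ f : α → F.ι,
      (if a ≠ a' ∧ Bad a a' (f a) (f a') then ∏ b, q b (f b) else 0) ≤ max η 0 / μ ^ 2 := by
    intro a a'
    by_cases haa : a = a'
    · simp only [haa, ne_eq, not_true_eq_false, false_and, if_false, Finset.sum_const_zero]
      exact div_nonneg (le_max_right _ _) (by positivity)
    have h1 : ∀ f : α → F.ι,
        (if a ≠ a' ∧ Bad a a' (f a) (f a') then ∏ b, q b (f b) else 0) =
          ∑ i, ∑ j, if Bad a a' i j then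
            (if f a = i ∧ f a' = j then ∏ b, q b (f b) else 0) else 0 := by
      intro f
      rw [Finset.sum_eq_single (f a), Finset.sum_eq_single (f a')]
      · simp [haa]
      · intro j _ hj
        simp [hj.symm]
      · simp
      · intro i _ hi
        simp [hi.symm]
      · simp
    simp_rw [h1]
    rw [Finset.sum_comm]
    have h2 : ∀ i, ∑ f : α → F.ι, ∑ j, (if Bad a a' i j then
        (if f a = i ∧ f a' = j then ∏ b, q b (f b) else 0) else 0) ≤
        ∑ j, (if Bad a a' i j then F.w i * F.w j else 0) / μ ^ 2 := by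
      intro i
      rw [Finset.sum_comm]
      refine Finset.sum_le_sum fun j _ => ?_
      by_cases hb : Bad a a' i j
      · simp only [hb, if_true]
        rw [hmarg a a' haa i j]
        calc q a i * q a' j ≤ (F.w i / μ) * (F.w j / μ) :=
              mul_le_mul (hqle a i) (hqle a' j) (hq0 a' j)
                (div_nonneg (F.w_nonneg i) hμ.le)
          _ = F.w i * F.w j / μ ^ 2 := by field_simp
      · simp [hb]
    refine (Finset.sum_le_sum fun i _ => h2 i).trans ?_
    simp_rw [← Finset.sum_div]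
    refine div_le_div_of_nonneg_right ?_ (by positivity)
    have := hB a a' haa
    unfold Fam.mass2 at this
    exact le_trans (le_of_eq (by congr)) (this.trans (le_max_left _ _))
  by_contra hcon
  push Not at hcon
  have hle : ∀ f : α → F.ι, ∏ a, q a (f a) ≤ ∑ a, ∑ a',
      (if a ≠ a' ∧ Bad a a' (f a) (f a') then ∏ b, q b (f b) else 0) := by
    intro f
    have hp : 0 ≤ ∏ b, q b (f b) := Finset.prod_nonneg fun b _ => hq0 b _
    have hnn : ∀ a a', 0 ≤ (if a ≠ a' ∧ Bad a a' (f a) (f a') then ∏ b, q b (f b) else 0) := by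
      intro a a'
      split_ifs
      · exact hp
      · exact le_rfl
    by_cases hz : ∏ b, q b (f b) = 0
    · rw [hz]
      exact Finset.sum_nonneg fun a _ => Finset.sum_nonneg fun a' _ => by
        have := hnn a a'
        rwa [hz] at this
    have hf : ∀ a, F.w (f a) ≠ 0 ∧ A a (f a) := by
      intro a
      have hne : q a (f a) ≠ 0 := fun h0 => hz (Finset.prod_eq_zero (Finset.mem_univ a) h0)
      simp only [hq] at hne
      by_cases hAa : A a (f a)
      · refine ⟨fun h0 => hne ?_, hAa⟩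
        simp [hAa, h0]
      · exact absurd (by simp [hAa]) hne
    obtain ⟨a, a', haa, hbad⟩ := hcon f hf
    calc ∏ b, q b (f b)
        = (if a ≠ a' ∧ Bad a a' (f a) (f a') then ∏ b, q b (f b) else 0) := by
          rw [if_pos ⟨haa, hbad⟩]
      _ ≤ ∑ a', (if a ≠ a' ∧ Bad a a' (f a) (f a') then ∏ b, q b (f b) else 0) :=
          Finset.single_le_sum (f := fun a' =>
            (if a ≠ a' ∧ Bad a a' (f a) (f a') then ∏ b, q b (f b) else 0))
            (fun a' _ => hnn a a') (Finset.mem_univ a')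
      _ ≤ _ := Finset.single_le_sum (f := fun a => ∑ a',
            (if a ≠ a' ∧ Bad a a' (f a) (f a') then ∏ b, q b (f b) else 0))
            (fun a _ => Finset.sum_nonneg fun a' _ => hnn a a') (Finset.mem_univ a)
  have h1 : (1 : ℝ) ≤ (Fintype.card α : ℝ) ^ 2 * (max η 0 / μ ^ 2) := by
    calc (1 : ℝ) = ∑ f : α → F.ι, ∏ a, q a (f a) := htot.symm
      _ ≤ ∑ f : α → F.ι, ∑ a, ∑ a',
          (if a ≠ a' ∧ Bad a a' (f a) (f a') then ∏ b, q b (f b) else 0) :=
          Finset.sum_le_sum fun f _ => hle f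
      _ = ∑ a, ∑ a', ∑ f : α → F.ι,
          (if a ≠ a' ∧ Bad a a' (f a) (f a') then ∏ b, q b (f b) else 0) := by
          rw [Finset.sum_comm]
          exact Finset.sum_congr rfl fun a _ => Finset.sum_comm
      _ ≤ ∑ _a : α, ∑ _a' : α, max η 0 / μ ^ 2 :=
          Finset.sum_le_sum fun a _ => Finset.sum_le_sum fun a' _ => hpair a a'
      _ = (Fintype.card α : ℝ) ^ 2 * (max η 0 / μ ^ 2) := by
          simp [Finset.sum_const, Finset.card_univ]
          ring
  have hμ2 : 0 < μ ^ 2 := by positivity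
  rw [← mul_div_assoc, le_div_iff₀ hμ2, one_mul] at h1
  rcases le_total η 0 with hη | hη
  · rw [max_eq_right hη] at h1
    linarith
  · rw [max_eq_left hη] at h1
    linarith

open Classical in
/-- Triple count.  Put `m = mass h`.  Sum `w k₁ w k₂ w k₃` over triples in `h`:
`m³ ≤ ∑_c (ok c) ∏_i mass (A c i) + (1/Λ) ∑ w w w (six terms S)`; the first sum is
`≤ card κ · γ m · m · m ≤ m³/2`, each of the six terms is `m · Q`. So `Λ m³ / 2 ≤ 6 m Q`. -/
theorem Fam.triple_count {Z : Type} (F : Fam Z) {κ : Type} [Fintype κ] (h : F.ι → Prop)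
    (S : F.ι → F.ι → ℝ) (hS : ∀ i j, 0 ≤ S i j) (ok : κ → Prop) (A : κ → Fin 3 → F.ι → Prop)
    (hAh : ∀ c i k, A c i k → h k) (γ Λ : ℝ) (hγ : 0 ≤ γ) (hΛ : 0 ≤ Λ)
    (hκ : (Fintype.card κ : ℝ) * γ ≤ 1 / 2)
    (hthin : ∀ c, ok c → ∃ i, F.mass (A c i) < γ * F.mass h)
    (htri : ∀ k : Fin 3 → F.ι, (∀ i, F.w (k i) ≠ 0 ∧ h (k i)) →
      (∃ c, ok c ∧ ∀ i, A c i (k i)) ∨
        (Λ ≤ S (k 0) (k 1) + S (k 0) (k 2) ∨ Λ ≤ S (k 1) (k 0) + S (k 1) (k 2) ∨
          Λ ≤ S (k 2) (k 0) + S (k 2) (k 1))) :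
    Λ * F.mass h ^ 2 ≤ 12 * ∑ i, ∑ j, if h i ∧ h j then F.w i * F.w j * S i j else 0 := by
  set u : F.ι → ℝ := fun i => if h i then F.w i else 0 with hu
  have hu0 : ∀ i, 0 ≤ u i := fun i => by
    simp only [hu]; split_ifs; exacts [F.w_nonneg i, le_rfl]
  have hm : F.mass h = ∑ i, u i := rfl
  set m := F.mass h with hmdef
  have hm0 : 0 ≤ m := F.mass_nonneg h
  set Q : ℝ := ∑ i, ∑ j, u i * u j * S i j with hQ
  have hQeq : (∑ i, ∑ j, if h i ∧ h j then F.w i * F.w j * S i j else 0) = Q := by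
    refine Finset.sum_congr rfl fun i _ => Finset.sum_congr rfl fun j _ => ?_
    by_cases h1 : h i <;> by_cases h2 : h j <;> simp [hu, h1, h2]
  rw [hQeq]
  have hQ0 : 0 ≤ Q := Finset.sum_nonneg fun i _ => Finset.sum_nonneg fun j _ =>
    mul_nonneg (mul_nonneg (hu0 i) (hu0 j)) (hS i j)
  set a : κ → Fin 3 → F.ι → ℝ := fun c i k => if ok c ∧ A c i k then F.w k else 0 with ha
  have ha0 : ∀ c i k, 0 ≤ a c i k := fun c i k => by
    simp only [ha]; split_ifs; exacts [F.w_nonneg k, le_rfl]
  -- pointwise inequality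
  have key : ∀ i j k, Λ * (u i * u j * u k) ≤ Λ * ∑ c, a c 0 i * a c 1 j * a c 2 k +
      u i * u j * u k * (S i j + S i k + S j i + S j k + S k i + S k j) := by
    intro i j k
    have h1 : 0 ≤ Λ * ∑ c, a c 0 i * a c 1 j * a c 2 k := mul_nonneg hΛ
      (Finset.sum_nonneg fun c _ => mul_nonneg (mul_nonneg (ha0 _ _ _) (ha0 _ _ _)) (ha0 _ _ _))
    have hw : 0 ≤ u i * u j * u k := mul_nonneg (mul_nonneg (hu0 i) (hu0 j)) (hu0 k)
    have s1 := hS i j; have s2 := hS i k; have s3 := hS j i; have s4 := hS j k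
    have s5 := hS k i; have s6 := hS k j
    by_cases hz : u i * u j * u k = 0
    · rw [hz]; simpa using h1
    have hi : u i ≠ 0 := fun e => hz (by simp [e])
    have hj : u j ≠ 0 := fun e => hz (by simp [e])
    have hk : u k ≠ 0 := fun e => hz (by simp [e])
    have aux : ∀ l, u l ≠ 0 → F.w l ≠ 0 ∧ h l ∧ u l = F.w l := fun l hl => by
      by_cases h' : h l
      · have e : u l = F.w l := by simp [hu, h']
        exact ⟨e ▸ hl, h', e⟩
      · exact absurd (by simp [hu, h']) hl
    rcases htri ![i, j, k] (fun l => by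
        fin_cases l
        · exact ⟨(aux i hi).1, (aux i hi).2.1⟩
        · exact ⟨(aux j hj).1, (aux j hj).2.1⟩
        · exact ⟨(aux k hk).1, (aux k hk).2.1⟩) with ⟨c, hc, hA⟩ | hr
    · have e : a c 0 i * a c 1 j * a c 2 k = u i * u j * u k := by
        have a0 : A c 0 i := hA 0
        have a1 : A c 1 j := hA 1
        have a2 : A c 2 k := hA 2
        simp only [ha, hc, a0, a1, a2, and_self, if_true, (aux i hi).2.2, (aux j hj).2.2,
          (aux k hk).2.2]
      have h2 : u i * u j * u k ≤ ∑ c, a c 0 i * a c 1 j * a c 2 k := by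
        rw [← e]
        exact Finset.single_le_sum (f := fun c => a c 0 i * a c 1 j * a c 2 k)
          (fun c _ => mul_nonneg (mul_nonneg (ha0 _ _ _) (ha0 _ _ _)) (ha0 _ _ _))
          (Finset.mem_univ c)
      have h3 := mul_le_mul_of_nonneg_left h2 hΛ
      have h4 : 0 ≤ u i * u j * u k * (S i j + S i k + S j i + S j k + S k i + S k j) :=
        mul_nonneg hw (by linarith)
      linarith
    · have h5 : Λ ≤ S i j + S i k + S j i + S j k + S k i + S k j := by
        simp only [Matrix.cons_val_zero, Matrix.cons_val_one, Matrix.cons_val] at hr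
        rcases hr with hr | hr | hr <;> linarith
      have h6 := mul_le_mul_of_nonneg_left h5 hw
      linarith
  have hsum := Finset.sum_le_sum fun i (_ : i ∈ Finset.univ) => Finset.sum_le_sum
    fun j (_ : j ∈ Finset.univ) => Finset.sum_le_sum fun k (_ : k ∈ Finset.univ) => key i j k
  have prod3 : ∀ f g l : F.ι → ℝ, ∑ i, ∑ j, ∑ k, f i * g j * l k =
      (∑ i, f i) * (∑ j, g j) * ∑ k, l k := fun f g l => by
    rw [Finset.sum_mul_sum, Finset.sum_mul]
    refine Finset.sum_congr rfl fun i _ => ?_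
    rw [Finset.sum_mul]
    refine Finset.sum_congr rfl fun j _ => ?_
    rw [Finset.mul_sum]
  have e1 : ∑ i, ∑ j, ∑ k, Λ * (u i * u j * u k) = Λ * m ^ 3 := by
    simp only [← Finset.mul_sum]
    rw [show (∑ i, ∑ j, u i * u j * ∑ k, u k) = ∑ i, ∑ j, ∑ k, u i * u j * u k by
      simp only [Finset.mul_sum], prod3, ← hm]; ring
  have e2 : ∑ i, ∑ j, ∑ k, ∑ c, a c 0 i * a c 1 j * a c 2 k ≤ m ^ 3 / 2 := by
    have : ∑ i, ∑ j, ∑ k, ∑ c, a c 0 i * a c 1 j * a c 2 k =
        ∑ c, (∑ i, a c 0 i) * (∑ j, a c 1 j) * ∑ k, a c 2 k := by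
      simp only [← prod3]
      rw [Finset.sum_comm (s := (Finset.univ : Finset κ))]
      refine Finset.sum_congr rfl fun i _ => ?_
      rw [Finset.sum_comm (s := (Finset.univ : Finset κ))]
      refine Finset.sum_congr rfl fun j _ => ?_
      rw [Finset.sum_comm (s := (Finset.univ : Finset κ))]
    rw [this]
    have hc : ∀ c, (∑ i, a c 0 i) * (∑ j, a c 1 j) * ∑ k, a c 2 k ≤ γ * m ^ 3 := by
      intro c
      by_cases hok : ok c
      · have hma : ∀ l, ∑ i, a c l i = F.mass (A c l) := fun l => by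
          simp only [ha, hok, true_and, Fam.mass]
        have hle : ∀ l, F.mass (A c l) ≤ m := fun l => F.mass_mono fun k _ hk => hAh c l k hk
        have hnn : ∀ l, 0 ≤ F.mass (A c l) := fun l => F.mass_nonneg _
        obtain ⟨l, hl⟩ := hthin c hok
        rw [hma, hma, hma]
        have b0 := hle 0; have b1 := hle 1; have b2 := hle 2
        have n0 := hnn 0; have n1 := hnn 1; have n2 := hnn 2
        have hgm : 0 ≤ γ * m := mul_nonneg hγ hm0
        fin_cases l
        · calc _ ≤ (γ * m) * m * m := by gcongr; exact hl.le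
            _ = _ := by ring
        · calc _ ≤ m * (γ * m) * m := by gcongr; exact hl.le
            _ = _ := by ring
        · calc _ ≤ m * m * (γ * m) := by gcongr; exact hl.le
            _ = _ := by ring
      · have : ∑ i, a c 0 i = 0 := by simp [ha, hok]
        rw [this]; simp only [zero_mul]; positivity
    calc _ ≤ ∑ _c : κ, γ * m ^ 3 := Finset.sum_le_sum fun c _ => hc c
      _ = (Fintype.card κ : ℝ) * γ * m ^ 3 := by simp [mul_assoc]
      _ ≤ 1 / 2 * m ^ 3 := by gcongr
      _ = _ := by ring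
  have t1 : ∑ i, ∑ j, ∑ k, u i * u j * u k * S i j = m * Q := by
    rw [hm, hQ, Finset.mul_sum]
    refine Finset.sum_congr rfl fun i _ => ?_
    rw [Finset.mul_sum]
    refine Finset.sum_congr rfl fun j _ => ?_
    rw [Finset.sum_mul]
    exact Finset.sum_congr rfl fun k _ => by ring
  have sw12 : ∀ f : F.ι → F.ι → F.ι → ℝ, ∑ i, ∑ j, ∑ k, f i j k = ∑ j, ∑ i, ∑ k, f i j k :=
    fun f => Finset.sum_comm
  have sw23 : ∀ f : F.ι → F.ι → F.ι → ℝ, ∑ i, ∑ j, ∑ k, f i j k = ∑ i, ∑ k, ∑ j, f i j k :=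
    fun f => Finset.sum_congr rfl fun i _ => Finset.sum_comm
  have t2 : ∑ i, ∑ j, ∑ k, u i * u j * u k * S i k = m * Q := by
    rw [sw23, ← t1]
    exact Finset.sum_congr rfl fun _ _ => Finset.sum_congr rfl fun _ _ =>
      Finset.sum_congr rfl fun _ _ => by ring
  have t3 : ∑ i, ∑ j, ∑ k, u i * u j * u k * S j i = m * Q := by
    rw [sw12, ← t1]
    exact Finset.sum_congr rfl fun _ _ => Finset.sum_congr rfl fun _ _ =>
      Finset.sum_congr rfl fun _ _ => by ring
  have t4 : ∑ i, ∑ j, ∑ k, u i * u j * u k * S j k = m * Q := by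
    rw [sw12, sw23, ← t1]
    exact Finset.sum_congr rfl fun _ _ => Finset.sum_congr rfl fun _ _ =>
      Finset.sum_congr rfl fun _ _ => by ring
  have t5 : ∑ i, ∑ j, ∑ k, u i * u j * u k * S k i = m * Q := by
    rw [sw23, sw12, ← t1]
    exact Finset.sum_congr rfl fun _ _ => Finset.sum_congr rfl fun _ _ =>
      Finset.sum_congr rfl fun _ _ => by ring
  have t6 : ∑ i, ∑ j, ∑ k, u i * u j * u k * S k j = m * Q := by
    rw [sw12, sw23, sw12, ← t1]
    exact Finset.sum_congr rfl fun _ _ => Finset.sum_congr rfl fun _ _ =>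
      Finset.sum_congr rfl fun _ _ => by ring
  have e3 : ∑ i, ∑ j, ∑ k, (Λ * ∑ c, a c 0 i * a c 1 j * a c 2 k +
      u i * u j * u k * (S i j + S i k + S j i + S j k + S k i + S k j)) =
      Λ * (∑ i, ∑ j, ∑ k, ∑ c, a c 0 i * a c 1 j * a c 2 k) + 6 * (m * Q) := by
    simp only [mul_add, Finset.sum_add_distrib, t1, t2, t3, t4, t5, t6, ← Finset.mul_sum]
    ring
  rw [e1, e3] at hsum
  have h7 : Λ * m ^ 3 ≤ 12 * (m * Q) := by
    have := mul_le_mul_of_nonneg_left e2 hΛ
    linarith
  rcases hm0.eq_or_lt with h0 | h0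
  · rw [← h0]; simp; linarith
  · have : m * (Λ * m ^ 2) ≤ m * (12 * Q) := by nlinarith
    exact le_of_mul_le_mul_left this h0

/-- Greedy independent subset: strong induction on `T`; take `v` of maximal weight and delete
everything related to it. -/
theorem exists_indep {κ : Type} (T : Finset κ) (W : κ → ℝ) (hW : ∀ t, 0 ≤ W t)
    (R : κ → κ → Prop) (hR : ∀ s t, R s t → R t s) (hrefl : ∀ t, R t t) (m : ℕ)
    (hm : ∀ v ∈ T, ∀ T' ⊆ T, (∀ t ∈ T', R v t) → T'.card ≤ m) :
    ∃ T' ⊆ T, (∀ s ∈ T', ∀ t ∈ T', s ≠ t → ¬ R s t) ∧ ∑ t ∈ T, W t ≤ m * ∑ t ∈ T', W t := by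
  classical
  induction' hn : T.card using Nat.strong_induction_on with n ih generalizing T
  rcases T.eq_empty_or_nonempty with rfl | hne
  · exact ⟨∅, Finset.Subset.refl _, by simp, by simp⟩
  obtain ⟨v, hv, hmax⟩ := T.exists_max_image W hne
  have hvD : v ∈ T.filter (fun t => R v t) := Finset.mem_filter.2 ⟨hv, hrefl v⟩
  have hlt : (T.filter (fun t => ¬ R v t)).card < n := by
    rw [← hn]
    refine Finset.card_lt_card ⟨Finset.filter_subset _ _, fun h => ?_⟩
    exact (Finset.mem_filter.1 (h hv)).2 (hrefl v)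
  obtain ⟨T', hT', hind, hsum⟩ := ih _ hlt (T.filter (fun t => ¬ R v t))
    (fun u hu T'' hT'' h => hm u (Finset.mem_filter.1 hu).1 T''
      (hT''.trans (Finset.filter_subset _ _)) h) rfl
  have hvT' : v ∉ T' := fun h => (Finset.mem_filter.1 (hT' h)).2 (hrefl v)
  refine ⟨insert v T', ?_, ?_, ?_⟩
  · exact Finset.insert_subset hv (hT'.trans (Finset.filter_subset _ _))
  · intro s hs t ht hst
    rcases Finset.mem_insert.1 hs with rfl | hs'
    · rcases Finset.mem_insert.1 ht with rfl | ht'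
      · exact absurd rfl hst
      · exact (Finset.mem_filter.1 (hT' ht')).2
    · rcases Finset.mem_insert.1 ht with rfl | ht'
      · exact fun h => (Finset.mem_filter.1 (hT' hs')).2 (hR _ _ h)
      · exact hind s hs' t ht' hst
  · rw [Finset.sum_insert hvT', ← Finset.sum_filter_add_sum_filter_not T (fun t => R v t)]
    have hc : (T.filter (fun t => R v t)).card ≤ m :=
      hm v hv _ (Finset.filter_subset _ _) (fun t ht => (Finset.mem_filter.1 ht).2)
    have h1 : ∑ t ∈ T.filter (fun t => R v t), W t ≤ (T.filter (fun t => R v t)).card • W v :=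
      Finset.sum_le_card_nsmul _ _ _ (fun t ht => hmax t (Finset.mem_filter.1 ht).1)
    rw [nsmul_eq_mul] at h1
    have h2 : ((T.filter (fun t => R v t)).card : ℝ) * W v ≤ m * W v :=
      mul_le_mul_of_nonneg_right (by exact_mod_cast hc) (hW v)
    rw [mul_add]
    linarith

/-- Greedy choice of four pairwise unrelated elements. -/
theorem exists_four {κ : Type} (T : Finset κ) (R : κ → κ → Prop) (hR : ∀ s t, R s t → R t s)
    (m : ℕ) (hm : ∀ v ∈ T, ∀ T' ⊆ T, (∀ t ∈ T', R t v) → T'.card ≤ m) (hT : 3 * m < T.card) :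
    ∃ q : Fin 4 → κ, (∀ i, q i ∈ T) ∧ ∀ i j, i ≠ j → ¬ R (q i) (q j) := by
  classical
  have hb : ∀ v ∈ T, (T.filter (fun t => R t v)).card ≤ m := fun v hv =>
    hm v hv _ (Finset.filter_subset _ _) (fun t ht => (Finset.mem_filter.1 ht).2)
  have key : ∀ a ∈ T, ∀ b ∈ T, ∀ c ∈ T, ∃ d ∈ T, ¬ R d a ∧ ¬ R d b ∧ ¬ R d c := by
    intro a ha b hb' c hc
    by_contra hcon
    push Not at hcon
    have hsub : T ⊆ T.filter (fun t => R t a) ∪ T.filter (fun t => R t b) ∪
        T.filter (fun t => R t c) := by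
      intro d hd
      simp only [Finset.mem_union, Finset.mem_filter]
      by_cases h1 : R d a
      · exact Or.inl (Or.inl ⟨hd, h1⟩)
      by_cases h2 : R d b
      · exact Or.inl (Or.inr ⟨hd, h2⟩)
      exact Or.inr ⟨hd, hcon d hd h1 h2⟩
    have h1 := Finset.card_le_card hsub
    have h2 := Finset.card_union_le (T.filter (fun t => R t a) ∪ T.filter (fun t => R t b))
      (T.filter (fun t => R t c))
    have h3 := Finset.card_union_le (T.filter (fun t => R t a)) (T.filter (fun t => R t b))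
    have := hb a ha
    have := hb b hb'
    have := hb c hc
    omega
  obtain ⟨a, ha⟩ : T.Nonempty := Finset.card_pos.1 (by omega)
  obtain ⟨b, hb', hba, -, -⟩ := key a ha a ha a ha
  obtain ⟨c, hc, hca, hcb, -⟩ := key a ha b hb' b hb'
  obtain ⟨d, hd, hda, hdb, hdc⟩ := key a ha b hb' c hc
  have hab : ¬ R a b := fun h => hba (hR _ _ h)
  have hac : ¬ R a c := fun h => hca (hR _ _ h)
  have hbc : ¬ R b c := fun h => hcb (hR _ _ h)
  have had : ¬ R a d := fun h => hda (hR _ _ h)
  have hbd : ¬ R b d := fun h => hdb (hR _ _ h)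
  have hcd : ¬ R c d := fun h => hdc (hR _ _ h)
  refine ⟨![a, b, c, d], ?_, ?_⟩
  · intro i
    fin_cases i <;> simpa
  · intro i j hij
    fin_cases i <;> fin_cases j <;> first | exact absurd rfl hij | simpa

/-- Doubling chain: if no level has `E (m+1)`-competitors bounded by `4 E`, build
`l₀, l₁, …` with energies `≥ 4^m E0`, contradiction at `m0`. -/
theorem exists_near_max {κ : Type} (H : ℕ → κ → Prop) (E : κ → ℝ) (E0 A : ℝ) (m0 : ℕ)
    (l0 : κ) (h0 : H 0 l0) (hE0 : E0 ≤ E l0) (hpos : 0 < E0)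
    (hA : ∀ l, H m0 l → E l ≤ A) (hm0 : A < 4 ^ m0 * E0) :
    ∃ m, m < m0 ∧ ∃ l, H m l ∧ E0 ≤ E l ∧ ∀ l', H (m + 1) l' → E l' ≤ 4 * E l := by
  by_contra hcon
  push Not at hcon
  have key : ∀ m, m ≤ m0 → ∃ l, H m l ∧ 4 ^ m * E0 ≤ E l := by
    intro m
    induction m with
    | zero => intro _; exact ⟨l0, h0, by simpa using hE0⟩
    | succ m ih =>
      intro hm
      obtain ⟨l, hl, hle⟩ := ih (by omega)
      have h1 : (1 : ℝ) ≤ 4 ^ m := one_le_pow₀ (by norm_num)
      obtain ⟨l', hl', hlt⟩ := hcon m (by omega) l hl (by nlinarith)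
      refine ⟨l', hl', ?_⟩
      rw [pow_succ]
      linarith
  obtain ⟨l, hl, hle⟩ := key m0 le_rfl
  have := hA l hl
  linarith

end Crest.Agent.R193.Core
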