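import Mathlib

/-! Row 193, block [C] (core): definitions.

`CD` is the additive ("Gromov product") interface: `len x = |x|`, `gp x y = (x|y)₁` (exact),
`B x ξ ≈ (x|ξ)₁` for a boundary point `ξ`; `δ` is one constant for all errors.
`Fam` is a finite weighted family of subsets ("curves") of `Z`. -/

set_option autoImplicit false

namespace Crest.Agent.R193.Core

open Set

/-- Gromov product at the base point `1`. -/
noncomputable def gpOf {G : Type} [Group G] (len : G → ℕ) (x y : G) : ℝ :=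
  ((len x : ℝ) + len y - len (x⁻¹ * y)) / 2

/-- additive interface for the core -/
structure CD (G Z : Type) [Group G] [MetricSpace Z] [MulAction G Z] where
  len : G → ℕ
  B : G → Z → ℝ
  a : ℝ
  δ : ℕ
  b : ℕ
  ball : ℕ → Finset G
  one_lt_a : 1 < a
  one_le_b : 1 ≤ b
  one_le_δ : 1 ≤ δ
  len_one : len 1 = 0
  len_inv : ∀ g, len g⁻¹ = len g
  len_mul : ∀ g h, len (g * h) ≤ len g + len h
  mem_ball : ∀ n g, g ∈ ball n ↔ len g ≤ n
  card_ball : ∀ n, (ball n).card ≤ b ^ n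
  hyp : ∀ x y z, min (gpOf len x y) (gpOf len y z) - δ ≤ gpOf len x z
  B_nonneg : ∀ x ξ, 0 ≤ B x ξ
  B_le : ∀ x ξ, B x ξ ≤ len x
  B1 : ∀ x y ξ, min (B x ξ) (B y ξ) - δ ≤ gpOf len x y
  B2 : ∀ x y ξ, min (gpOf len x y) (B y ξ) - δ ≤ B x ξ
  B3 : ∀ x ξ ζ, dist ξ ζ ≤ a ^ ((δ : ℝ) - min (B x ξ) (B x ζ))
  B4 : ∀ x ξ ζ (s : ℝ), dist ξ ζ ≤ a ^ (-s) → min (B x ξ) s - δ ≤ B x ζ
  B5 : ∀ ξ (n : ℕ), ∃ x, len x = n ∧ (n : ℝ) - δ ≤ B x ξ
  B6 : ∀ g w ξ, |B (g⁻¹ * w) (g⁻¹ • ξ) - (B w ξ + len g - gpOf len g w - B g ξ)| ≤ δ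
  cont : ∀ g : G, Continuous fun z : Z => g • z

/-- continuum -/
def Cont {Z : Type} [TopologicalSpace Z] (K : Set Z) : Prop := IsCompact K ∧ IsPreconnected K

/-- the `K₃,₃` property (holds on the two-sphere) -/
def K33 (Z : Type) [TopologicalSpace Z] : Prop :=
  ∀ (p : Z) (A B : Fin 3 → Set Z) (E : Fin 3 → Fin 3 → Set Z),
    (∀ i, Cont (A i) ∧ p ∉ A i) → (∀ j, Cont (B j) ∧ p ∉ B j) →
    (∀ i j, Cont (E i j) ∧ p ∉ E i j) →
    (∀ i j, (E i j ∩ A i).Nonempty) → (∀ i j, (E i j ∩ B j).Nonempty) →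
    (∀ i j k l, i ≠ k → j ≠ l → Disjoint (A i ∪ E i j ∪ B j) (A k ∪ E k l ∪ B l)) → False

/-- uniform local connectedness by continua -/
def ULC (Z : Type) [MetricSpace Z] : Prop :=
  ∀ θ : ℝ, 0 < θ → ∃ l : ℝ, 0 < l ∧ ∀ ξ : Z, ∃ D : Set Z, Cont D ∧
    Metric.closedBall ξ l ⊆ D ∧ D ⊆ Metric.ball ξ θ

/-- a finite cover by continua of diameter `≤ θ` -/
def Cov {Z : Type} [MetricSpace Z] (θ : ℝ) {nb : ℕ} (𝓑 : Fin nb → Set Z) : Prop :=
  (∀ k, Cont (𝓑 k)) ∧ (∀ k, ∀ ξ ∈ 𝓑 k, ∀ ζ ∈ 𝓑 k, dist ξ ζ ≤ θ) ∧ ∀ ξ, ∃ k, ξ ∈ 𝓑 k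

/-- finite weighted family of sets -/
structure Fam (Z : Type) where
  ι : Type
  [fin : Fintype ι]
  w : ι → ℝ
  K : ι → Set Z
  w_nonneg : ∀ i, 0 ≤ w i

attribute [instance] Fam.fin

namespace Fam

variable {Z : Type} (F : Fam Z)

open Classical in
/-- weight of an event -/
noncomputable def mass (p : F.ι → Prop) : ℝ := ∑ i, if p i then F.w i else 0

open Classical in
/-- product weight of an event for pairs -/
noncomputable def mass2 (p : F.ι → F.ι → Prop) : ℝ :=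
  ∑ i, ∑ j, if p i j then F.w i * F.w j else 0

/-- total weight -/
noncomputable def tot : ℝ := ∑ i, F.w i

/-- all charged members are continua of diameter `≥ d` -/
def GoodD [MetricSpace Z] (d : ℝ) : Prop :=
  ∀ i, F.w i ≠ 0 → Cont (F.K i) ∧ ∃ ξ ∈ F.K i, ∃ ζ ∈ F.K i, d ≤ dist ξ ζ

end Fam

namespace CD

variable {G Z : Type} [Group G] [MetricSpace Z] [MulAction G Z] (C : CD G Z)

/-- Gromov product -/
noncomputable def gp (x y : G) : ℝ := gpOf C.len x y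

/-- shadow -/
def Sh (x : G) (t : ℝ) : Set Z := {ξ | (C.len x : ℝ) - t ≤ C.B x ξ}

/-- the fixed diameter -/
noncomputable def d0 : ℝ := C.a ^ (-(3 * (C.δ : ℝ) + 1))

/-- the set `K` seen from `p` -/
def tr (_C : CD G Z) (p : G) (K : Set Z) : Set Z := (fun z => p⁻¹ • z) '' K

/-- the member `i` passes through the cell `x` -/
def hit (F : Fam Z) (x : G) (i : F.ι) : Prop := (F.K i ∩ C.Sh x C.δ).Nonempty

/-- weight of the members through the cell `x` -/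
noncomputable def P (F : Fam Z) (x : G) : ℝ := F.mass (C.hit F x)

/-- energy on a finite set of cells -/
noncomputable def Eg (F : Fam Z) (T : Finset G) : ℝ := ∑ x ∈ T, C.P F x ^ 2

/-- sphere -/
def sph (n : ℕ) : Finset G := (C.ball n).filter fun x => C.len x = n

/-- good family -/
def Good (F : Fam Z) : Prop := F.GoodD C.d0

/-- lower bound for the level-`n` energy of families of `d`-big continua -/
def LB (d : ℝ) (n : ℕ) (e : ℝ) : Prop :=
  ∀ F : Fam Z, F.GoodD d → e * F.tot ^ 2 ≤ C.Eg F (C.sph n)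

/-- admissible cut level -/
def Adm (l : G → ℝ) : Prop := ∀ x y, min (l y) (C.gp x y) - C.δ ≤ l x

open Classical in
/-- the cells at height `[D, D+1)` over the cut level `l` -/
noncomputable def Sig (k : ℕ) (l : G → ℝ) (D : ℕ) : Finset G :=
  (C.ball k).filter fun x => (D : ℝ) ≤ C.len x - l x ∧ (C.len x : ℝ) - l x < D + 1

open Classical in
/-- cells at depth `j` below the `ρ`-neighbourhood of `v` -/
noncomputable def Nb (v : G) (ρ : ℝ) (j : ℕ) : Finset G :=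
  (C.sph (C.len v + j)).filter fun x => (C.len v : ℝ) - ρ ≤ C.gp x v

/-- `A` bounds the energy of all admissible cuts with levels in `[k0, k]` -/
def Bd (F : Fam Z) (k1 D : ℕ) (k0 k A : ℝ) : Prop :=
  ∀ l : G → ℝ, C.Adm l → (∀ x, k0 ≤ l x ∧ l x ≤ k) → C.Eg F (C.Sig k1 l D) ≤ A

/-- the cell `p` is thick of class `β` -/
def ThickAt (F : Fam Z) (γ : ℝ) (p : G) (β : Fin 3 → Set Z) : Prop :=
  (∀ i j, i ≠ j → Disjoint (β i) (β j)) ∧ (∀ i, ∀ z ∈ β i, C.B p⁻¹ z ≤ 6 * C.δ) ∧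
    ∀ i, γ * C.P F p ≤ F.mass fun k => C.hit F p k ∧ (C.tr p (F.K k) ∩ β i).Nonempty ∧
      ∀ j, j ≠ i → Disjoint (C.tr p (F.K k)) (β j)

/-- the cell `p` is thick -/
def Thick (F : Fam Z) (γ : ℝ) {nb : ℕ} (𝓑 : Fin nb → Set Z) (p : G) : Prop :=
  ∃ c : Fin 3 → Fin nb, C.ThickAt F γ p fun i => 𝓑 (c i)

/-- a node near `v` -/
def Node (F : Fam Z) (v : G) (R I : ℕ) (ε : ℝ) : Prop :=
  ∃ ξ : Z, (C.len v : ℝ) - R ≤ C.B v ξ ∧
    ε * C.P F v ≤ F.mass fun k => ∃ ζ ∈ F.K k, dist ξ ζ ≤ C.a ^ (-((C.len v : ℝ) + I))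

end CD

end Crest.Agent.R193.Core
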