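import Crest.Agent.R193.CTop
import Crest.Agent.R193.CComb

/-! Row 193 [C]: four separated thick cells of one class contradict `K₃,₃`. -/

set_option autoImplicit false

namespace Crest.Agent.R193.Core

open Set

namespace CD

variable {G Z : Type} [Group G] [MetricSpace Z] [MulAction G Z] (C : CD G Z)

/-- `y p = p⁻¹ * v` is injective in `p`, `len y ≤ L + 10δ` (`len_eq`),
`gp y p⁻¹ = (len y + len p - len v)/2 ≥ len y - 5δ`, `hyp`: `gp y p0⁻¹ ≥ len y - 6δ`.  Two `y` of the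
same length are within `14δ`; count the fibres of `len ∘ y` (`Finset.card_le_mul_card_image` or
`card_eq_sum_card_fiberwise`), `card_le_of_pair`. -/
theorem sep_count (v p0 : G) (L : ℕ) (T : Finset G)
    (hT : ∀ p ∈ T, C.len v ≤ C.len p ∧ C.len p ≤ C.len v + L ∧
      (C.len v : ℝ) - 5 * C.δ ≤ C.gp p v ∧ ((L + 10 * C.δ : ℕ) : ℝ) < C.gp p⁻¹ p0⁻¹) :
    T.card ≤ (L + 10 * C.δ + 1) * C.b ^ (14 * C.δ) := by
  classical
  have key : ∀ p ∈ T, (C.len (p⁻¹ * v) : ℝ) ≤ L + 10 * C.δ ∧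
      (C.len (p⁻¹ * v) : ℝ) - 6 * C.δ ≤ C.gp (p⁻¹ * v) p0⁻¹ := by
    intro p hp
    obtain ⟨h1, h2, h3, h4⟩ := hT p hp
    have h2' : (C.len p : ℝ) ≤ C.len v + L := by exact_mod_cast h2
    have e1 := C.len_eq p v
    have e2 := C.len_eq (p⁻¹ * v) p⁻¹
    have e3 : (p⁻¹ * v)⁻¹ * p⁻¹ = v⁻¹ := by group
    rw [e3, C.len_inv, C.len_inv] at e2
    have e4 := C.hyp' (p⁻¹ * v) p⁻¹ p0⁻¹
    have hδ : (0 : ℝ) ≤ C.δ := Nat.cast_nonneg _
    push_cast at h4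
    refine ⟨by linarith, ?_⟩
    rcases min_choice (C.gp (p⁻¹ * v) p⁻¹) (C.gp p⁻¹ p0⁻¹) with h5 | h5 <;> rw [h5] at e4 <;>
      linarith
  have h := Finset.card_le_mul_card_image_of_maps_to (s := T)
    (t := Finset.range (L + 10 * C.δ + 1)) (f := fun p => C.len (p⁻¹ * v))
    (fun p hp => Finset.mem_range.2 (Nat.lt_succ_of_le (by exact_mod_cast (key p hp).1)))
    (C.b ^ (14 * C.δ)) (fun l _ => by
      have hinj : Function.Injective fun p : G => p⁻¹ * v := fun p q hpq =>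
        inv_injective (mul_right_cancel hpq)
      rw [← Finset.card_image_of_injective _ hinj]
      refine C.card_le_of_pair _ _ fun x hx y hy => ?_
      obtain ⟨p, hp, rfl⟩ := Finset.mem_image.1 hx
      obtain ⟨q, hq, rfl⟩ := Finset.mem_image.1 hy
      obtain ⟨hp1, hp2⟩ := Finset.mem_filter.1 hp
      obtain ⟨hq1, hq2⟩ := Finset.mem_filter.1 hq
      have a1 := (key p hp1).2
      have a2 := (key q hq1).2
      have a3 := C.hyp' (p⁻¹ * v) p0⁻¹ (q⁻¹ * v)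
      rw [C.gp_comm p0⁻¹] at a3
      have a4 := C.len_eq (p⁻¹ * v) (q⁻¹ * v)
      have a5 : (C.len (p⁻¹ * v) : ℝ) = C.len (q⁻¹ * v) := by rw [hp2, hq2]
      have : (C.len ((p⁻¹ * v)⁻¹ * (q⁻¹ * v)) : ℝ) ≤ 14 * C.δ := by
        rcases min_choice (C.gp (p⁻¹ * v) p0⁻¹) (C.gp (q⁻¹ * v) p0⁻¹) with h5 | h5 <;>
          rw [h5] at a3 <;> linarith
      exact_mod_cast this)
  rwa [Finset.card_range, mul_comm] at h

/-- pigeonhole on the class (`Finset.exists_lt_card_fiber_of_mul_lt_card_of_maps_to`),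
`exists_four` with `R p p' = (L + 10δ < gp p⁻¹ p'⁻¹)`, `sep_count`. -/
theorem four_cells {κ : Type} [Fintype κ] (Th : κ → G → Prop) (v : G) (L M : ℕ) (p : Fin M → G)
    (hp : Function.Injective p)
    (hM : Fintype.card κ * (3 * ((L + 10 * C.δ + 1) * C.b ^ (14 * C.δ))) < M)
    (h : ∀ t, (∃ c, Th c (p t)) ∧ C.len v ≤ C.len (p t) ∧ C.len (p t) ≤ C.len v + L ∧
      (C.len v : ℝ) - 5 * C.δ ≤ C.gp (p t) v) :
    ∃ (c : κ) (t : Fin 4 → Fin M), (∀ m, Th c (p (t m))) ∧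
      ∀ m n, m ≠ n → C.gp (p (t m))⁻¹ (p (t n))⁻¹ ≤ ((L + 10 * C.δ : ℕ) : ℝ) := by
  classical
  choose c hc using fun t => (h t).1
  obtain ⟨c0, -, hc0⟩ := Finset.exists_lt_card_fiber_of_mul_lt_card_of_maps_to
    (s := (Finset.univ : Finset (Fin M))) (t := (Finset.univ : Finset κ)) (f := c)
    (n := 3 * ((L + 10 * C.δ + 1) * C.b ^ (14 * C.δ))) (fun _ _ => Finset.mem_univ _)
    (by simpa using hM)
  obtain ⟨q, hq1, hq2⟩ := exists_four _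
    (fun s t : Fin M => ((L + 10 * C.δ : ℕ) : ℝ) < C.gp (p s)⁻¹ (p t)⁻¹)
    (fun s t hst => by rwa [C.gp_comm]) ((L + 10 * C.δ + 1) * C.b ^ (14 * C.δ))
    (fun t0 _ T' _ hT' => by
      rw [← Finset.card_image_of_injective _ hp]
      refine C.sep_count v (p t0) L _ fun x hx => ?_
      obtain ⟨t, ht, rfl⟩ := Finset.mem_image.1 hx
      exact ⟨(h t).2.1, (h t).2.2.1, (h t).2.2.2, hT' t ht⟩) hc0
  refine ⟨c0, q, fun m => ?_, fun m n hmn => not_lt.1 (hq2 m n hmn)⟩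
  rw [← (Finset.mem_filter.1 (hq1 m)).2]
  exact hc _

/-- The far set.  Every charged `K i` has `ζ` with `B p ζ ≤ 4δ+1` (`Good.far`), so
`B p⁻¹ (p⁻¹ζ) ≥ len p - 5δ - 1` (`B_inv`).  Fix one such point `ξ` (from a charged member, `hP`)
and `D` from `hD`; all such points are within `a^(6δ+1-len p) ≤ lam` of `ξ` (`dist_le_of_B`);
`B4` with `s = I + δ` bounds `B p⁻¹` on `D`. -/
theorem far_set {F : Fam Z} (hF : C.Good F) (p : G) (hP : 0 < C.P F p) (I : ℕ) (lam : ℝ)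
    (hD : ∀ ξ : Z, ∃ D : Set Z, Cont D ∧ Metric.closedBall ξ lam ⊆ D ∧
      D ⊆ Metric.ball ξ (C.a ^ (-((I : ℝ) + C.δ))))
    (hlam : C.a ^ (6 * (C.δ : ℝ) + 1 - C.len p) ≤ lam) (hlen : I + 6 * C.δ + 1 ≤ C.len p) :
    ∃ D : Set Z, Cont D ∧ D.Nonempty ∧ (∀ z ∈ D, (I : ℝ) ≤ C.B p⁻¹ z) ∧
      ∀ i, F.w i ≠ 0 → (C.tr p (F.K i) ∩ D).Nonempty := by
  have key : ∀ i, F.w i ≠ 0 → ∃ z ∈ C.tr p (F.K i), (C.len p : ℝ) - 5 * C.δ - 1 ≤ C.B p⁻¹ z := by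
    intro i hi
    obtain ⟨ζ, hζ, h⟩ := Good.far C hF hi p
    refine ⟨p⁻¹ • ζ, ⟨ζ, hζ, rfl⟩, ?_⟩
    have := abs_le.1 (C.B_inv p ζ)
    linarith [this.1]
  obtain ⟨i0, hi0, -⟩ := F.exists_of_mass_pos hP
  obtain ⟨ξ, -, hξ⟩ := key i0 hi0
  obtain ⟨D, hD1, hD2, hD3⟩ := hD ξ
  have hl0 : 0 ≤ lam := (Real.rpow_pos_of_pos C.a_pos _).le.trans hlam
  have hlen' : (I : ℝ) + 6 * C.δ + 1 ≤ C.len p := by exact_mod_cast hlen
  refine ⟨D, hD1, ⟨ξ, hD2 (Metric.mem_closedBall_self hl0)⟩, fun z hz => ?_, fun i hi => ?_⟩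
  · have h1 : dist ξ z ≤ C.a ^ (-((I : ℝ) + C.δ)) := by
      rw [dist_comm]; exact (Metric.mem_ball.1 (hD3 hz)).le
    have h2 := C.B4 p⁻¹ ξ z _ h1
    rw [min_eq_right (by linarith)] at h2
    linarith
  · obtain ⟨z, hz, h⟩ := key i hi
    refine ⟨z, hz, hD2 (Metric.mem_closedBall.2 ?_)⟩
    refine (C.dist_le_of_B p⁻¹ z ξ _ h hξ).trans (le_trans (le_of_eq ?_) hlam)
    congr 1
    ring

/-- For `z ∈ D`: `B1` gives `B p⁻¹ z ≤ κ + δ`; `B_inv`, `B2`: `B v (p z) ≥ len v - κ - 6δ`;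
`B6` (`g = p⁻¹`, `w = p'⁻¹`): `B (p p'⁻¹) (p z) ≥ len v + I + δ`, so any two points of `p D` are
within `a^-(len v + I)` (`dist_le_of_B`).  If `D` is empty the mass is `0`; otherwise use
`hnode` at `ξ = p z₀` and `mass_mono`. -/
theorem node_avoid (F : Fam Z) (v p p' : G) (κ I : ℕ) (ε : ℝ) (hε : 0 ≤ ε)
    (hsep : C.gp p⁻¹ p'⁻¹ ≤ κ) (hp : C.len v ≤ C.len p)
    (hp' : (C.len v : ℝ) - 5 * C.δ ≤ C.gp p v) (hnode : ¬ C.Node F v (κ + 6 * C.δ) I ε)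
    (D : Set Z) (hD : ∀ z ∈ D, ((I + 2 * κ + 3 * C.δ : ℕ) : ℝ) ≤ C.B p'⁻¹ z) :
    F.mass (fun i => (C.tr p (F.K i) ∩ D).Nonempty) ≤ ε * C.P F v := by
  have hδ : (1 : ℝ) ≤ C.δ := by exact_mod_cast C.one_le_δ
  have hκ : (0 : ℝ) ≤ κ := Nat.cast_nonneg _
  have hI : (0 : ℝ) ≤ I := Nat.cast_nonneg _
  have hpv : (C.len v : ℝ) ≤ C.len p := by exact_mod_cast hp
  have h1 : ∀ z ∈ D, C.B p⁻¹ z ≤ κ + C.δ := by
    intro z hz
    have h := hD z hz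
    push_cast at h
    have h2 := C.B1' p⁻¹ p'⁻¹ z
    rcases min_choice (C.B p⁻¹ z) (C.B p'⁻¹ z) with h4 | h4 <;> rw [h4] at h2 <;> linarith
  have h2 : ∀ z ∈ D, (C.len v : ℝ) - (κ + 6 * C.δ : ℕ) ≤ C.B v (p • z) := by
    intro z hz
    have h3 := abs_le.1 (C.B_inv p (p • z))
    rw [inv_smul_smul] at h3
    have h4 := C.B2' v p (p • z)
    rw [C.gp_comm v p] at h4
    have h5 := h1 z hz
    push_cast
    rcases min_choice (C.gp p v) (C.B p (p • z)) with h6 | h6 <;> rw [h6] at h4 <;>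
      linarith [h3.1, h3.2]
  have h3 : ∀ z ∈ D, (C.len v : ℝ) + I + C.δ ≤ C.B (p * p'⁻¹) (p • z) := by
    intro z hz
    have h := hD z hz
    push_cast at h
    have h4 := abs_le.1 (C.B6' p⁻¹ p'⁻¹ z)
    rw [inv_inv, C.len_inv] at h4
    linarith [h4.1, h1 z hz]
  rcases D.eq_empty_or_nonempty with rfl | ⟨z0, hz0⟩
  · have : F.mass (fun i => (C.tr p (F.K i) ∩ (∅ : Set Z)).Nonempty) = 0 := by
      simp [Fam.mass]
    rw [this]
    exact mul_nonneg hε (C.P_nonneg F v)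
  · by_contra hc
    refine hnode ⟨p • z0, h2 z0 hz0, (not_le.1 hc).le.trans (F.mass_mono ?_)⟩
    rintro i - ⟨z, hz, hzD⟩
    refine ⟨p • z, (C.mem_tr p _ z).1 hz, ?_⟩
    refine (C.dist_le_of_B (p * p'⁻¹) _ _ _ (h3 z0 hz0) (h3 z hzD)).trans (le_of_eq ?_)
    congr 1
    ring

/-- Final contradiction.  `D m` from `far_set` with `I + 2κ + 3δ`.  The `D m` are pairwise disjoint
(`B1`, `hsep`) and miss the `β i` (`B ≤ 6δ` there).  For `(m, i) : Fin 3 × Fin 3` let `A (m,i)` be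
the event of `ThickAt (q m.castSucc)` for `i` together with `Disjoint (tr (q m) K) (D n)` for all
`n ≠ m` in `Fin 4`; mass `≥ μ` (`node_avoid`, `mass_or_le`/`mass_le_sum`).  `Fam.select` with
`Bad (m,i) (n,j) k k' = (tr (q m) (K k) ∩ tr (q n) (K k')).Nonempty ∧ m ≠ n` and `cross`.
Apply `hK` with `A = D ∘ castSucc`, `B = β`, `E m i = tr (q m) (K (f (m,i)))` and a point of
`D 3`. -/
theorem final_contra (hK : K33 Z) {F : Fam Z} (hF : C.Good F) (β : Fin 3 → Set Z)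
    (hβ : ∀ i, Cont (β i)) (γ μ ε lam : ℝ) (κ I k N : ℕ) (v : G) (q : Fin 4 → G)
    (hth : ∀ m, C.ThickAt F γ (q m) β) (hsep : ∀ m n, m ≠ n → C.gp (q m)⁻¹ (q n)⁻¹ ≤ κ)
    (hq : ∀ m, C.len v ≤ C.len (q m) ∧ C.len (q m) ≤ k ∧
      (C.len v : ℝ) - 5 * C.δ ≤ C.gp (q m) v)
    (hκ : 2 * C.δ ≤ κ) (hε : 0 ≤ ε) (hnode : ¬ C.Node F v (κ + 6 * C.δ) I ε) (hμ : 0 < μ)
    (hγ : 0 ≤ γ) (hmass : ∀ m, μ + 3 * (ε * C.P F v) ≤ γ * C.P F (q m))
    (hD : ∀ ξ : Z, ∃ D : Set Z, Cont D ∧ Metric.closedBall ξ lam ⊆ D ∧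
      D ⊆ Metric.ball ξ (C.a ^ (-(((I + 2 * κ + 3 * C.δ : ℕ) : ℝ) + C.δ))))
    (hlam : C.a ^ (6 * (C.δ : ℝ) + 1 - C.len v) ≤ lam)
    (hlen : I + 2 * κ + 9 * C.δ + 1 ≤ C.len v)
    (hη : 81 * (((C.b ^ (5 * k + 6 * C.δ) : ℕ) : ℝ) ^ 2 * C.Eg F (C.sph N)) < μ ^ 2) : False := by
  classical
  have hδ : (1 : ℝ) ≤ C.δ := by exact_mod_cast C.one_le_δ
  have hκ' : 2 * (C.δ : ℝ) ≤ κ := by exact_mod_cast hκ
  have hεP : 0 ≤ ε * C.P F v := mul_nonneg hε (C.P_nonneg F v)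
  have hP : ∀ m, 0 < C.P F (q m) := fun m => by
    refine (C.P_nonneg F _).lt_of_ne fun h => ?_
    have := hmass m
    rw [← h, mul_zero] at this
    linarith
  choose D hDc hDn hDB hDK using fun m => C.far_set hF (q m) (hP m) (I + 2 * κ + 3 * C.δ) lam hD
    (le_trans (Real.rpow_le_rpow_of_exponent_le C.one_lt_a.le (by
      have : (C.len v : ℝ) ≤ C.len (q m) := by exact_mod_cast (hq m).1
      linarith)) hlam) (by have := (hq m).1; omega)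
  have hI : (0 : ℝ) ≤ I := Nat.cast_nonneg I
  have hDD : ∀ m n, m ≠ n → Disjoint (D m) (D n) := fun m n hmn => disjoint_left.2 fun z h1 h2 => by
    have e1 := hDB m z h1
    have e2 := hDB n z h2
    have e3 := C.B1' (q m)⁻¹ (q n)⁻¹ z
    have e4 := hsep m n hmn
    have e5 := le_min e1 e2
    push_cast at e5
    linarith
  have hDβ : ∀ m i, Disjoint (D m) (β i) := fun m i => disjoint_left.2 fun z h1 h2 => by
    have e1 := hDB m z h1
    have e2 := (hth m).2.1 i z h2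
    push_cast at e1
    linarith
  let A : Fin 3 × Fin 3 → F.ι → Prop := fun a k =>
    (C.hit F (q a.1.castSucc) k ∧ (C.tr (q a.1.castSucc) (F.K k) ∩ β a.2).Nonempty ∧
      ∀ j, j ≠ a.2 → Disjoint (C.tr (q a.1.castSucc) (F.K k)) (β j)) ∧
    ∀ n, n ≠ a.1.castSucc → Disjoint (C.tr (q a.1.castSucc) (F.K k)) (D n)
  have hA : ∀ a, μ ≤ F.mass (A a) := fun a => by
    have e1 := (hth a.1.castSucc).2.2 a.2
    have e2 := e1.trans ((F.mass_mono (q := fun k => A a k ∨ ∃ n ∈ Finset.univ.erase a.1.castSucc,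
      (C.tr (q a.1.castSucc) (F.K k) ∩ D n).Nonempty) fun k _ hk => by
        by_cases h : ∀ n, n ≠ a.1.castSucc → Disjoint (C.tr (q a.1.castSucc) (F.K k)) (D n)
        · exact Or.inl ⟨hk, h⟩
        · push Not at h
          obtain ⟨n, hn, h⟩ := h
          exact Or.inr ⟨n, by simpa using hn, not_disjoint_iff_nonempty_inter.1 h⟩).trans
      (F.mass_or_le _ _))
    have e3 := F.mass_le_sum (Finset.univ.erase a.1.castSucc)
      (fun k => ∃ n ∈ Finset.univ.erase a.1.castSucc,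
        (C.tr (q a.1.castSucc) (F.K k) ∩ D n).Nonempty)
      (fun n k => (C.tr (q a.1.castSucc) (F.K k) ∩ D n).Nonempty) fun _ _ h => h
    have e4 := Finset.sum_le_card_nsmul (Finset.univ.erase a.1.castSucc)
      (fun n => F.mass fun k => (C.tr (q a.1.castSucc) (F.K k) ∩ D n).Nonempty) (ε * C.P F v)
      fun n hn => C.node_avoid F v (q a.1.castSucc) (q n) κ I ε hε
        (hsep _ _ (Finset.ne_of_mem_erase hn).symm) (hq _).1 (hq _).2.2 hnode (D n) (hDB n)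
    rw [Finset.card_erase_of_mem (Finset.mem_univ _), Finset.card_univ, Fintype.card_fin,
      nsmul_eq_mul] at e4
    have e5 := hmass a.1.castSucc
    have e6 : ((3 + 1 - 1 : ℕ) : ℝ) = 3 := by norm_num
    rw [e6] at e4
    linarith
  obtain ⟨f, hf, hbad⟩ := F.select A (fun a a' k k' =>
      (C.tr (q a.1.castSucc) (F.K k) ∩ C.tr (q a'.1.castSucc) (F.K k')).Nonempty ∧ a.1 ≠ a'.1)
    μ _ hμ hA (fun a a' _ => (F.mass2_mono fun _ _ _ _ h => h.1).trans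
      (C.cross F _ _ k N (hq _).2.1 (hq _).2.1)) (by
      rw [Fintype.card_prod, Fintype.card_fin]
      norm_num
      simpa using hη)
  obtain ⟨p, hp⟩ := hDn (Fin.last 3)
  have hne : ∀ m : Fin 3, Fin.last 3 ≠ m.castSucc := fun m => (Fin.castSucc_lt_last m).ne'
  refine hK p (fun m => D m.castSucc) β (fun m i => C.tr (q m.castSucc) (F.K (f (m, i))))
    (fun m => ⟨hDc _, disjoint_left.1 (hDD _ _ (hne m)) hp⟩)
    (fun i => ⟨hβ i, disjoint_left.1 (hDβ _ i) hp⟩)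
    (fun m i => ⟨C.tr_cont _ (hF _ (hf (m, i)).1).1,
      disjoint_right.1 ((hf (m, i)).2.2 _ (hne m)) hp⟩)
    (fun m i => hDK _ _ (hf (m, i)).1) (fun m i => (hf (m, i)).2.1.2.1)
    fun m i n j hmn hij => ?_
  have hmn' : m.castSucc ≠ n.castSucc := fun h => hmn (Fin.castSucc_injective _ h)
  simp only [disjoint_union_left, disjoint_union_right]
  refine ⟨⟨⟨⟨hDD _ _ hmn', (hf (m, i)).2.2 _ hmn'.symm⟩, (hDβ _ i).symm⟩,
    ⟨⟨((hf (n, j)).2.2 _ hmn').symm, ?_⟩, ((hf (n, j)).2.1.2.2 i hij).symm⟩⟩,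
    ⟨⟨hDβ _ j, (hf (m, i)).2.1.2.2 j hij.symm⟩, (hth 0).1 i j hij⟩⟩
  by_contra h
  exact hbad (m, i) (n, j) (fun e => hmn (congrArg Prod.fst e))
    ⟨not_disjoint_iff_nonempty_inter.1 h, hmn⟩

end CD

end Crest.Agent.R193.Core
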