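import Crest.Agent.R193.CNode

/-! Row 193 [C]: a good cell. -/

set_option autoImplicit false

namespace Crest.Agent.R193.Core

open Set

namespace CD

variable {G Z : Type} [Group G] [MetricSpace Z] [MulAction G Z] (C : CD G Z)

/-- For `v ∈ Sig`, `x ∈ Nb v (5δ) j`: `Adm.close` gives `|l x - l v| ≤ δ`, so `x` is in the wide
window with `s = j - δ` (`mem_Sig_of_wide`).  Overlap: `v, v'` with a common `x` have the same
length and `gp v v' ≥ len v - 6δ`, so `len (v⁻¹v') ≤ 12δ`.  `sum_Eg_le`, `Eg_le_sum`, `hA`. -/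
theorem depth_bound (F : Fam Z) (k1 D k0 k j : ℕ) (A : ℝ) (hD : 6 * C.δ < D) (hj : C.δ ≤ j)
    (hk1 : k + D + j ≤ k1) {l : G → ℝ} (hl : C.Adm l) (hl' : ∀ x, (k0 : ℝ) ≤ l x ∧ l x ≤ k)
    (hA : C.Bd F k1 D k0 (k + j + C.δ) A) :
    ∑ v ∈ C.Sig k1 l D, C.Eg F (C.Nb v (5 * C.δ) j) ≤
      ((C.b ^ (12 * C.δ) : ℕ) : ℝ) * (2 * C.δ + 1) * A := by
  classical
  have hD' : 6 * (C.δ : ℝ) < D := by exact_mod_cast hD
  have hj' : (C.δ : ℝ) ≤ j := by exact_mod_cast hj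
  have hk1' : (k : ℝ) + D + j ≤ k1 := by exact_mod_cast hk1
  set U : Finset G := (C.ball k1).filter fun x =>
    (D : ℝ) + ((j : ℝ) - C.δ) ≤ C.len x - l x ∧
      (C.len x : ℝ) - l x < D + ((j : ℝ) - C.δ) + 2 * C.δ + 1 with hU
  have h1 := C.sum_Eg_le F (C.Sig k1 l D) (fun v => C.Nb v (5 * C.δ) j) U (C.b ^ (12 * C.δ))
    (by
      intro v hv x hx _
      obtain ⟨-, hv2, hv3⟩ := (C.mem_Sig k1 l D v).1 hv
      obtain ⟨hx1, hx2⟩ := (C.mem_Nb v x _ j).1 hx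
      have hx1' : (C.len x : ℝ) = C.len v + j := by exact_mod_cast hx1
      have hc := abs_le.1 (Adm.close C hl (x := x) (v := v) (by linarith))
      have hk := (hl' v).2
      refine Finset.mem_filter.2 ⟨(C.mem_ball _ _).2 ?_, by linarith [hc.2], by linarith [hc.1]⟩
      have : (C.len x : ℝ) < k1 + 1 := by linarith
      have : C.len x < k1 + 1 := by exact_mod_cast this
      omega)
    (by
      intro x A' _ hA'
      apply C.card_le_of_pair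
      intro t ht t' ht'
      obtain ⟨h1, h2⟩ := (C.mem_Nb t x _ j).1 (hA' t ht)
      obtain ⟨h3, h4⟩ := (C.mem_Nb t' x _ j).1 (hA' t' ht')
      have h5 : (C.len t : ℝ) = C.len t' := by
        have : C.len t = C.len t' := by omega
        exact_mod_cast this
      have h6 := C.hyp' t x t'
      rw [C.gp_comm t x] at h6
      have h7 : (C.len t : ℝ) - 5 * C.δ ≤ min (C.gp x t) (C.gp x t') :=
        le_min h2 (by linarith)
      have h8 := C.len_eq t t'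
      have : (C.len (t⁻¹ * t') : ℝ) ≤ 12 * C.δ := by linarith
      exact_mod_cast this)
  have h2 := C.Eg_le_sum F (Finset.range (2 * C.δ + 1))
    (fun i : ℕ => C.Sig k1 (fun y => l y + (((j : ℝ) - C.δ) + i)) D) U (by
      intro x hx _
      obtain ⟨hx1, hx2, hx3⟩ := Finset.mem_filter.1 hx
      exact C.mem_Sig_of_wide k1 l D _ x ((C.mem_ball _ _).1 hx1) hx2 hx3)
  have h3 : ∑ i ∈ Finset.range (2 * C.δ + 1),
      C.Eg F (C.Sig k1 (fun y => l y + (((j : ℝ) - C.δ) + i)) D) ≤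
        (Finset.range (2 * C.δ + 1)).card • A := by
    apply Finset.sum_le_card_nsmul
    intro i hi
    have hi0 : (0 : ℝ) ≤ i := Nat.cast_nonneg i
    have hi1 : (i : ℝ) ≤ 2 * C.δ := by
      have : i ≤ 2 * C.δ := by have := Finset.mem_range.1 hi; omega
      exact_mod_cast this
    refine hA _ (Adm.add C hl (by linarith)) fun x => ?_
    have := hl' x
    constructor <;> linarith [this.1, this.2]
  rw [Finset.card_range, nsmul_eq_mul] at h3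
  push_cast at h3
  calc _ ≤ _ := h1
    _ ≤ ((C.b ^ (12 * C.δ) : ℕ) : ℝ) * ((2 * C.δ + 1) * A) :=
        mul_le_mul_of_nonneg_left (h2.trans h3) (Nat.cast_nonneg _)
    _ = _ := by ring

/-- `T = D + I + 2δ + L`.  `exists_near_max` with `H m l = Adm l ∧ k0 ≤ l ≤ k0 + m T`,
`E l = Eg F (Sig k1 l D)`, `l0 = k0` (`Sig = sph (k0+D)`, `LB_trivial`), `E0 = 1/b^(k0+D)`.
With `k = k0 + m T`, `E = E l`: `Bd F k1 D k0 (k+T) (4E)`.  The `P²`-weights of the nodes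
(`node_bound`), of the `v` with too much energy at depth `L` (`depth_bound`, Markov) and of the `v`
with `P v² < E0/(4 b^k1)` (`card ≤ b^k1`) are each `≤ E/4`; so some `v ∈ Sig` is none of these. -/
theorem exists_good {F : Fam Z} (hF : C.Good F) (htot : F.tot = 1) (k1 D R I L k0 m0 : ℕ)
    (CA ε : ℝ) (hε : 0 < ε) (hD : R + 3 * C.δ < D) (hD' : 6 * C.δ < D) (hI : 2 * C.δ ≤ I)
    (hL : C.δ ≤ L) (hk0 : C.a ^ (-(k0 : ℝ)) ≤ C.d0 / 2)
    (hI' : 16 * (((C.b ^ (2 * R + 5 * C.δ + 1) : ℕ) : ℝ) * (C.b ^ (2 * D + 6 * C.δ) : ℕ) *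
      (2 * C.δ + 1)) ≤ ((I : ℝ) + 1 - 2 * C.δ) * ε ^ 2)
    (hm0 : CA * (C.b ^ (k0 + D) : ℕ) < 4 ^ m0)
    (hk1 : k0 + (m0 + 1) * (D + I + 2 * C.δ + L) + D ≤ k1) (hA : C.Bd F k1 D k0 k1 CA) :
    ∃ v : G, k0 ≤ C.len v ∧ C.len v + L ≤ k1 ∧
      1 / (4 * ((C.b ^ (k0 + D) : ℕ) : ℝ) * (C.b ^ k1 : ℕ)) ≤ C.P F v ^ 2 ∧
      ¬ C.Node F v R I ε ∧
      C.Eg F (C.Nb v (5 * C.δ) L) ≤
        16 * (((C.b ^ (12 * C.δ) : ℕ) : ℝ) * (2 * C.δ + 1)) * C.P F v ^ 2 := by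
  classical
  obtain ⟨T, hT⟩ : ∃ T : ℕ, T = D + I + 2 * C.δ + L := ⟨_, rfl⟩
  rw [← hT] at hk1
  have hbpow : ∀ n : ℕ, (0 : ℝ) < ((C.b ^ n : ℕ) : ℝ) := fun n => by
    have h1 : 0 < C.b := C.one_le_b
    exact_mod_cast pow_pos h1 n
  obtain ⟨E0, hE0⟩ : ∃ E0 : ℝ, E0 = 1 / ((C.b ^ (k0 + D) : ℕ) : ℝ) := ⟨_, rfl⟩
  have hE0pos : 0 < E0 := by rw [hE0]; exact one_div_pos.mpr (hbpow _)
  have hm0T : (m0 + 1) * T = m0 * T + T := by ring
  have h1 : E0 ≤ C.Eg F (C.Sig k1 (fun _ => (k0 : ℝ)) D) := by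
    have h := C.LB_trivial C.d0 (k0 + D) F hF
    rw [htot, one_pow, mul_one, ← hE0] at h
    refine h.trans (C.Eg_mono F fun x hx _ => ?_)
    rw [C.mem_sph] at hx
    rw [C.mem_Sig, hx]
    refine ⟨by omega, ?_, ?_⟩
    · push_cast; linarith
    · push_cast; linarith
  have h2 : ∀ l : G → ℝ, (C.Adm l ∧ ∀ x, (k0 : ℝ) ≤ l x ∧ l x ≤ ((k0 + m0 * T : ℕ) : ℝ)) →
      C.Eg F (C.Sig k1 l D) ≤ CA := by
    intro l hl
    refine hA l hl.1 fun x => ⟨(hl.2 x).1, (hl.2 x).2.trans ?_⟩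
    exact_mod_cast (by omega : k0 + m0 * T ≤ k1)
  have h3 : CA < 4 ^ m0 * E0 := by
    rw [hE0, mul_one_div, lt_div_iff₀ (hbpow _)]
    exact hm0
  obtain ⟨m, hm, l, ⟨hl, hl'⟩, hE, hmax⟩ := exists_near_max
    (fun (m : ℕ) (l : G → ℝ) => C.Adm l ∧ ∀ x, (k0 : ℝ) ≤ l x ∧ l x ≤ ((k0 + m * T : ℕ) : ℝ))
    (fun l => C.Eg F (C.Sig k1 l D)) E0 CA m0 (fun _ => (k0 : ℝ))
    ⟨C.adm_const _, fun x => ⟨le_rfl, by simp⟩⟩ h1 hE0pos h2 h3
  obtain ⟨k, hk⟩ : ∃ k : ℕ, k = k0 + m * T := ⟨_, rfl⟩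
  rw [← hk] at hl'
  have hmT : (m + 1) * T ≤ m0 * T := Nat.mul_le_mul_right T hm
  have hmT' : (m + 1) * T = m * T + T := by ring
  have hkk : k + T + T + D ≤ k1 := by omega
  obtain ⟨E, hEdef⟩ : ∃ E : ℝ, E = C.Eg F (C.Sig k1 l D) := ⟨_, rfl⟩
  simp only [← hEdef] at hE hmax
  have hBd : ∀ k' : ℝ, k' ≤ (k : ℝ) + T → C.Bd F k1 D k0 k' (4 * E) := by
    intro k' hk' l' hl1 hl2
    refine hmax l' ⟨hl1, fun x => ⟨(hl2 x).1, (hl2 x).2.trans (hk'.trans (le_of_eq ?_))⟩⟩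
    rw [hk]; push_cast; ring
  have hTr : (T : ℝ) = D + I + 2 * C.δ + L := by rw [hT]; push_cast; ring
  have hD0 : (0 : ℝ) ≤ D := Nat.cast_nonneg _
  have hI0 : (0 : ℝ) ≤ I := Nat.cast_nonneg _
  have hL0 : (0 : ℝ) ≤ L := Nat.cast_nonneg _
  have hδ0 : (0 : ℝ) ≤ C.δ := Nat.cast_nonneg _
  have hN := C.node_bound hF k1 D R I k0 k (4 * E) ε hε.le hD hI hk0 (by omega) hl hl'
    (hBd _ (by rw [hTr]; linarith))
  have hDp := C.depth_bound F k1 D k0 k L (4 * E) hD' hL (by omega) hl hl'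
    (hBd _ (by rw [hTr]; linarith))
  obtain ⟨K1, hK1⟩ : ∃ K1 : ℝ, K1 = ((C.b ^ (2 * R + 5 * C.δ + 1) : ℕ) : ℝ) *
      (C.b ^ (2 * D + 6 * C.δ) : ℕ) * (2 * C.δ + 1) := ⟨_, rfl⟩
  obtain ⟨K2, hK2⟩ : ∃ K2 : ℝ, K2 = ((C.b ^ (12 * C.δ) : ℕ) : ℝ) * (2 * C.δ + 1) := ⟨_, rfl⟩
  have hK1pos : 0 < K1 := by
    rw [hK1]; exact mul_pos (mul_pos (hbpow _) (hbpow _)) (by linarith)
  have hK2pos : 0 < K2 := by
    rw [hK2]; exact mul_pos (hbpow _) (by linarith)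
  rw [← hK1] at hN hI'
  rw [← hK2] at hDp ⊢
  obtain ⟨c, hc⟩ : ∃ c : ℝ, c = 1 / (4 * ((C.b ^ (k0 + D) : ℕ) : ℝ) * (C.b ^ k1 : ℕ)) := ⟨_, rfl⟩
  rw [← hc]
  have hcpos : 0 < c := by
    rw [hc]; exact one_div_pos.mpr (mul_pos (mul_pos (by norm_num) (hbpow _)) (hbpow _))
  -- the three exceptional sets
  have e1 : ∑ v ∈ (C.Sig k1 l D).filter (fun v => C.Node F v R I ε), C.P F v ^ 2 ≤ E / 4 := by
    have hS : 0 ≤ ∑ v ∈ (C.Sig k1 l D).filter (fun v => C.Node F v R I ε), C.P F v ^ 2 :=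
      Finset.sum_nonneg fun _ _ => sq_nonneg _
    have h4 := (mul_le_mul_of_nonneg_right hI' hS).trans hN
    refine le_of_mul_le_mul_left ?_ (show (0 : ℝ) < 16 * K1 by linarith)
    linarith
  have e2 : ∑ v ∈ (C.Sig k1 l D).filter
      (fun v => 16 * K2 * C.P F v ^ 2 < C.Eg F (C.Nb v (5 * C.δ) L)), C.P F v ^ 2 ≤ E / 4 := by
    refine le_of_mul_le_mul_left ?_ (show (0 : ℝ) < 16 * K2 by linarith)
    rw [Finset.mul_sum]
    have h4 : ∑ v ∈ (C.Sig k1 l D).filter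
        (fun v => 16 * K2 * C.P F v ^ 2 < C.Eg F (C.Nb v (5 * C.δ) L)), 16 * K2 * C.P F v ^ 2 ≤
        ∑ v ∈ (C.Sig k1 l D).filter
        (fun v => 16 * K2 * C.P F v ^ 2 < C.Eg F (C.Nb v (5 * C.δ) L)),
          C.Eg F (C.Nb v (5 * C.δ) L) :=
      Finset.sum_le_sum fun v hv => (Finset.mem_filter.mp hv).2.le
    have h5 : ∑ v ∈ (C.Sig k1 l D).filter
        (fun v => 16 * K2 * C.P F v ^ 2 < C.Eg F (C.Nb v (5 * C.δ) L)),
          C.Eg F (C.Nb v (5 * C.δ) L) ≤ ∑ v ∈ C.Sig k1 l D, C.Eg F (C.Nb v (5 * C.δ) L) :=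
      Finset.sum_le_sum_of_subset_of_nonneg (Finset.filter_subset _ _)
        fun v _ _ => C.Eg_nonneg F _
    linarith
  have e3 : ∑ v ∈ (C.Sig k1 l D).filter (fun v => C.P F v ^ 2 < c), C.P F v ^ 2 ≤ E / 4 := by
    have h4 : ∑ v ∈ (C.Sig k1 l D).filter (fun v => C.P F v ^ 2 < c), C.P F v ^ 2 ≤
        ((C.Sig k1 l D).filter (fun v => C.P F v ^ 2 < c)).card • c :=
      Finset.sum_le_card_nsmul _ _ _ fun v hv => (Finset.mem_filter.mp hv).2.le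
    have h5 : ((C.Sig k1 l D).filter (fun v => C.P F v ^ 2 < c)).card ≤ C.b ^ k1 := by
      refine le_trans (Finset.card_le_card fun v hv => ?_) (C.card_ball k1)
      rw [C.mem_ball]
      exact ((C.mem_Sig k1 l D v).mp (Finset.mem_filter.mp hv).1).1
    have h6 : (((C.Sig k1 l D).filter (fun v => C.P F v ^ 2 < c)).card : ℝ) ≤
        ((C.b ^ k1 : ℕ) : ℝ) := by exact_mod_cast h5
    have h7 : ((C.b ^ k1 : ℕ) : ℝ) * c = E0 / 4 := by
      have a1 := (hbpow k1).ne'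
      have a2 := (hbpow (k0 + D)).ne'
      rw [hc, hE0]; field_simp
    rw [nsmul_eq_mul] at h4
    have h8 := mul_le_mul_of_nonneg_right h6 hcpos.le
    linarith
  by_contra hcon
  have hall : ∀ v ∈ C.Sig k1 l D, C.Node F v R I ε ∨
      16 * K2 * C.P F v ^ 2 < C.Eg F (C.Nb v (5 * C.δ) L) ∨ C.P F v ^ 2 < c := by
    intro v hv
    by_contra hn
    rw [not_or, not_or, not_lt, not_lt] at hn
    obtain ⟨hv1, hv2, hv3⟩ := (C.mem_Sig k1 l D v).mp hv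
    obtain ⟨hl1, hl2⟩ := hl' v
    refine hcon ⟨v, ?_, ?_, hn.2.2, hn.1, hn.2.1⟩
    · have : (k0 : ℝ) ≤ C.len v := by linarith
      exact_mod_cast this
    · have : (C.len v : ℝ) < ((k + D + 1 : ℕ) : ℝ) := by push_cast; linarith
      have h' : C.len v < k + D + 1 := by exact_mod_cast this
      omega
  have hsum : E ≤ ∑ v ∈ (C.Sig k1 l D).filter (fun v => C.Node F v R I ε), C.P F v ^ 2 +
      ∑ v ∈ (C.Sig k1 l D).filter
        (fun v => 16 * K2 * C.P F v ^ 2 < C.Eg F (C.Nb v (5 * C.δ) L)), C.P F v ^ 2 +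
      ∑ v ∈ (C.Sig k1 l D).filter (fun v => C.P F v ^ 2 < c), C.P F v ^ 2 := by
    rw [hEdef, Finset.sum_filter, Finset.sum_filter, Finset.sum_filter, ← Finset.sum_add_distrib,
      ← Finset.sum_add_distrib]
    refine Finset.sum_le_sum fun v hv => ?_
    have hp : 0 ≤ C.P F v ^ 2 := sq_nonneg _
    have hh := hall v hv
    split_ifs with a1 a2 a3 <;> first | linarith | tauto
  linarith

end CD

end Crest.Agent.R193.Core
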