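import Crest.Agent.R193.CTop
import Crest.Agent.R193.CComb

/-! Row 193 [C]: a cell that is not thick multiplies the energy. -/

set_option autoImplicit false

namespace Crest.Agent.R193.Core

open Set

namespace CD

variable {G Z : Type} [Group G] [MetricSpace Z] [MulAction G Z] (C : CD G Z)

/-- `B_inv`: `B p⁻¹ (p⁻¹ξ) ≤ 5δ`; `B4` from `p⁻¹ζ` to `p⁻¹ξ` with `s = J`. -/
theorem thick_B (p : G) (J : ℕ) (hJ : 6 * C.δ < J) {ξ ζ : Z} (hξ : ξ ∈ C.Sh p (4 * C.δ))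
    (h : dist (p⁻¹ • ξ) (p⁻¹ • ζ) ≤ C.a ^ (-(J : ℝ))) : C.B p⁻¹ (p⁻¹ • ζ) ≤ 6 * C.δ := by
  have hξ1 : (C.len p : ℝ) - 4 * C.δ ≤ C.B p ξ := hξ
  have h1 := (abs_le.1 (C.B_inv p ξ)).2
  have h2 := C.B4 p⁻¹ (p⁻¹ • ζ) (p⁻¹ • ξ) J (by rwa [dist_comm])
  have hJ1 : 6 * (C.δ : ℝ) < J := by exact_mod_cast hJ
  rcases min_cases (C.B p⁻¹ (p⁻¹ • ζ)) (J : ℝ) with h3 | h3 <;> rw [h3.1] at h2 <;> linarith

/-- `B_tr_ge`: `B (p⁻¹y) (p⁻¹ξ) ≥ J - 2δ`; `B4`: `B (p⁻¹y) (p⁻¹ζ) ≥ J - 3δ`; `B1`: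
`gp p y ≥ len p - 5δ`; `thick_B`, `B_inv`: `B p ζ ≥ len p - 7δ`; `B6` (`g = p`, `w = y`):
`ζ ∈ Sh y (16δ)`; `cmp` with `m = len y`; `B1` for `Nb`. -/
theorem thick_near (p y : G) (J : ℕ) (hJ : 6 * C.δ < J) (hy : C.len y = C.len p + J) {ξ ζ : Z}
    (hξ : ξ ∈ C.Sh p (4 * C.δ)) (hξ' : ξ ∈ C.Sh y C.δ)
    (h : dist (p⁻¹ • ξ) (p⁻¹ • ζ) ≤ C.a ^ (-(J : ℝ))) :
    ∃ y' ∈ C.Nb p (8 * C.δ) J, ζ ∈ C.Sh y' C.δ ∧ C.len (y⁻¹ * y') ≤ 34 * C.δ := by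
  have hδ : (0 : ℝ) ≤ C.δ := Nat.cast_nonneg _
  have hJ1 : 6 * (C.δ : ℝ) < J := by exact_mod_cast hJ
  have hy1 : (C.len y : ℝ) = C.len p + J := by exact_mod_cast hy
  have hξ1 : (C.len p : ℝ) - 4 * C.δ ≤ C.B p ξ := hξ
  have hξ2 : (C.len y : ℝ) - C.δ ≤ C.B y ξ := hξ'
  have h1 := C.B_tr_ge p y ξ
  have h2 := C.B4 (p⁻¹ * y) (p⁻¹ • ξ) (p⁻¹ • ζ) J h
  have h2' : (J : ℝ) - 2 * C.δ ≤ min (C.B (p⁻¹ * y) (p⁻¹ • ξ)) J := le_min (by linarith) (by linarith)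
  have h3 := C.B1' p y ξ
  have h3' : (C.len p : ℝ) - 4 * C.δ ≤ min (C.B p ξ) (C.B y ξ) := le_min hξ1 (by linarith)
  have h4 := C.thick_B p J hJ hξ h
  have h5 := (abs_le.1 (C.B_inv p ζ)).1
  have h6 := (abs_le.1 (C.B6' p y ζ)).2
  have h7 : ζ ∈ C.Sh y (16 * C.δ) := by
    show (C.len y : ℝ) - 16 * C.δ ≤ C.B y ζ
    linarith
  obtain ⟨y', a1, a2, a3⟩ := C.cmp y ζ (16 * C.δ) (by linarith) h7 (C.len y)
  refine ⟨y', (C.mem_Nb _ _ _ _).2 ⟨a1.trans hy, ?_⟩, a2, ?_⟩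
  · have a4 : (C.len y' : ℝ) - C.δ ≤ C.B y' ζ := a2
    rw [a1] at a4
    have a5 := C.B1' y' p ζ
    have a6 : (C.len p : ℝ) - 7 * C.δ ≤ min (C.B y' ζ) (C.B p ζ) := le_min (by linarith) (by linarith)
    linarith
  · rw [sub_self, abs_zero] at a3
    have : (C.len (y⁻¹ * y') : ℝ) ≤ 34 * C.δ := by linarith
    exact_mod_cast this

/-- `ring0` at `p` (with `Good.far'`), `Cont.ivt` for `f z = dist (p⁻¹ξ₀) (p⁻¹z)` and the values
`t d0/Λ`; `y t` from `B5` at level `len p + J`; two points of one `Sh y δ` are at `p`-distance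
`≤ a^(3δ - J) < d0/Λ` (`dist_tr_le`), so `y` is injective. -/
theorem thick_pts {F : Fam Z} (hF : C.Good F) (Λ J : ℕ) (hΛ : 1 ≤ Λ)
    (hJ' : C.a ^ (3 * (C.δ : ℝ) - J) < C.d0 / Λ) (p : G) (hp : 8 * C.δ + 2 ≤ C.len p)
    (i : F.ι) (hi : F.w i ≠ 0) (hh : C.hit F p i) :
    ∃ (ξ : Fin Λ → Z) (y : Fin Λ → G), Function.Injective y ∧ ∀ t, ξ t ∈ F.K i ∧
      ξ t ∈ C.Sh p (4 * C.δ) ∧ ξ t ∈ C.Sh (y t) C.δ ∧ y t ∈ C.Nb p (8 * C.δ) J := by
  have hδ : (0 : ℝ) ≤ C.δ := Nat.cast_nonneg _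
  have hJ0 : (0 : ℝ) ≤ J := Nat.cast_nonneg _
  have hΛ0 : (0 : ℝ) < Λ := by exact_mod_cast hΛ
  have hd := C.d0_pos
  obtain ⟨ξ₀, hξ₀, hξ₀'⟩ := hh
  obtain ⟨ζ, hζ, hζ'⟩ := hF.far' C hi p hp
  obtain ⟨K', hK1, hK2, hK3, hK4, -, z₁, hz₁, hz₂⟩ := C.ring0 p (hF i hi).1 hξ₀ hξ₀' hζ hζ'
  have hf : Continuous fun z : Z => dist (p⁻¹ • ξ₀) (p⁻¹ • z) := continuous_const.dist (C.cont p⁻¹)
  have h1 : ∀ t : Fin Λ, ∃ z ∈ K', dist (p⁻¹ • ξ₀) (p⁻¹ • z) = ((t : ℕ) : ℝ) * (C.d0 / Λ) := by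
    intro t
    refine hK2.ivt hf hK3 hz₁ ?_ ?_
    · rw [dist_self]; positivity
    · rw [hz₂, ← mul_div_assoc, div_le_iff₀ hΛ0, mul_comm]
      have : ((t : ℕ) : ℝ) ≤ Λ := by exact_mod_cast t.2.le
      gcongr
  choose ξ hξ hξd using h1
  choose y hy hyB using fun t : Fin Λ => C.B5 (ξ t) (C.len p + J)
  have hyB' : ∀ t, (C.len p : ℝ) + J - C.δ ≤ C.B (y t) (ξ t) := fun t => by
    have := hyB t
    push_cast at this
    exact this
  refine ⟨ξ, y, fun s t hst => ?_, fun t => ⟨hK1 (hξ t), hK4 (hξ t), ?_, ?_⟩⟩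
  · have h2 := C.dist_tr_le p (y t) (ξ s) (ξ t) _ (hst ▸ hyB' s) (hyB' t)
    rw [show 2 * (C.δ : ℝ) + C.len p - (C.len p + J - C.δ) = 3 * C.δ - J by ring] at h2
    have h3 := abs_dist_sub_le (p⁻¹ • ξ s) (p⁻¹ • ξ t) (p⁻¹ • ξ₀)
    rw [dist_comm _ (p⁻¹ • ξ₀), dist_comm _ (p⁻¹ • ξ₀), hξd, hξd, ← sub_mul, abs_mul,
      abs_of_pos (div_pos hd hΛ0)] at h3
    have h4 : |((s : ℕ) : ℝ) - ((t : ℕ) : ℝ)| < 1 := by
      have := (h3.trans h2).trans_lt hJ'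
      rwa [mul_lt_iff_lt_one_left (div_pos hd hΛ0)] at this
    have h5 := abs_lt.1 h4
    have h6 : (s : ℕ) < t + 1 := by exact_mod_cast (show ((s : ℕ) : ℝ) < (t : ℕ) + 1 by linarith [h5.2])
    have h7 : (t : ℕ) < s + 1 := by exact_mod_cast (show ((t : ℕ) : ℝ) < (s : ℕ) + 1 by linarith [h5.1])
    exact Fin.ext (by omega)
  · show (C.len (y t) : ℝ) - C.δ ≤ C.B (y t) (ξ t)
    rw [hy t]
    exact hyB t
  · refine (C.mem_Nb _ _ _ _).2 ⟨hy t, ?_⟩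
    have a1 : (C.len p : ℝ) - 4 * C.δ ≤ C.B p (ξ t) := hK4 (hξ t)
    have a5 := C.B1' (y t) p (ξ t)
    have a6 : (C.len p : ℝ) - 4 * C.δ ≤ min (C.B (y t) (ξ t)) (C.B p (ξ t)) :=
      le_min (by linarith [hyB' t]) a1
    linarith

open Classical in
/-- `S i j ≤ #{(y, y') ∈ U × U : len (y⁻¹y') ≤ r, hit y i, hit y' j}`; sum with `w i * w j` gives
`∑_{(y,y')} P y * P y' ≤ ∑ (P y² + P y'²)/2 ≤ b^r Eg U` (`card_near`, `len_inv`). -/
theorem thick_pair (F : Fam Z) (U : Finset G) (r : ℕ) (h : F.ι → Prop) (S : F.ι → F.ι → ℝ)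
    (hS : ∀ i j, F.w i ≠ 0 → F.w j ≠ 0 → h i → h j → ∃ Y ⊆ U, S i j ≤ Y.card ∧
      ∀ y ∈ Y, C.hit F y i ∧ ∃ y' ∈ U, C.len (y⁻¹ * y') ≤ r ∧ C.hit F y' j) :
    (∑ i, ∑ j, if h i ∧ h j then F.w i * F.w j * S i j else 0) ≤
      ((C.b ^ r : ℕ) : ℝ) * C.Eg F U := by
  set a : G → F.ι → ℝ := fun y i => if C.hit F y i then F.w i else 0 with ha
  set n : G → G → ℝ := fun y y' => if C.len (y⁻¹ * y') ≤ r then 1 else 0 with hn
  have ha0 : ∀ y i, 0 ≤ a y i := fun y i => by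
    simp only [ha]
    split_ifs
    exacts [F.w_nonneg i, le_rfl]
  have hn0 : ∀ y y', 0 ≤ n y y' := fun y y' => by
    simp only [hn]
    split_ifs
    exacts [zero_le_one, le_rfl]
  have ht0 : ∀ y y' i j, 0 ≤ n y y' * (a y i * a y' j) := fun y y' i j =>
    mul_nonneg (hn0 _ _) (mul_nonneg (ha0 _ _) (ha0 _ _))
  have h1 : ∀ i j, (if h i ∧ h j then F.w i * F.w j * S i j else 0) ≤
      ∑ y ∈ U, ∑ y' ∈ U, n y y' * (a y i * a y' j) := by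
    intro i j
    have hnn : 0 ≤ ∑ y ∈ U, ∑ y' ∈ U, n y y' * (a y i * a y' j) :=
      Finset.sum_nonneg fun y _ => Finset.sum_nonneg fun y' _ => ht0 y y' i j
    split_ifs with hij
    · by_cases hi : F.w i = 0
      · simpa [hi] using hnn
      by_cases hj : F.w j = 0
      · simpa [hj] using hnn
      obtain ⟨Y, hYU, hSY, hY⟩ := hS i j hi hj hij.1 hij.2
      have hw : 0 ≤ F.w i * F.w j := mul_nonneg (F.w_nonneg i) (F.w_nonneg j)
      calc F.w i * F.w j * S i j ≤ F.w i * F.w j * Y.card := mul_le_mul_of_nonneg_left hSY hw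
        _ = ∑ _y ∈ Y, F.w i * F.w j := by rw [Finset.sum_const, nsmul_eq_mul, mul_comm]
        _ ≤ ∑ y ∈ Y, ∑ y' ∈ U, n y y' * (a y i * a y' j) := by
            refine Finset.sum_le_sum fun y hy => ?_
            obtain ⟨h2, y', hy', h3, h4⟩ := hY y hy
            refine le_trans (le_of_eq ?_)
              (Finset.single_le_sum (f := fun y' => n y y' * (a y i * a y' j))
                (fun z _ => ht0 y z i j) hy')
            simp only [ha, hn, if_pos h2, if_pos h3, if_pos h4, one_mul]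
        _ ≤ _ := Finset.sum_le_sum_of_subset_of_nonneg hYU fun y _ _ =>
            Finset.sum_nonneg fun y' _ => ht0 y y' i j
    · exact hnn
  have hP : ∀ y, C.P F y = ∑ i, a y i := fun y => by
    simp only [CD.P, Fam.mass, ha]
  have h2 : (∑ i, ∑ j, ∑ y ∈ U, ∑ y' ∈ U, n y y' * (a y i * a y' j)) =
      ∑ y ∈ U, ∑ y' ∈ U, n y y' * (C.P F y * C.P F y') := by
    calc (∑ i, ∑ j, ∑ y ∈ U, ∑ y' ∈ U, n y y' * (a y i * a y' j))
        = ∑ i, ∑ y ∈ U, ∑ y' ∈ U, ∑ j, n y y' * (a y i * a y' j) := by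
          refine Finset.sum_congr rfl fun i _ => ?_
          rw [Finset.sum_comm]
          exact Finset.sum_congr rfl fun y _ => Finset.sum_comm
      _ = ∑ y ∈ U, ∑ y' ∈ U, ∑ i, ∑ j, n y y' * (a y i * a y' j) := by
          rw [Finset.sum_comm]
          exact Finset.sum_congr rfl fun y _ => Finset.sum_comm
      _ = _ := by
          refine Finset.sum_congr rfl fun y _ => Finset.sum_congr rfl fun y' _ => ?_
          rw [hP, hP, Finset.sum_mul_sum, Finset.mul_sum]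
          exact Finset.sum_congr rfl fun i _ => (Finset.mul_sum _ _ _).symm
  have h3 : ∀ y, ∑ y' ∈ U, n y y' ≤ ((C.b ^ r : ℕ) : ℝ) := by
    intro y
    simp only [hn]
    rw [Finset.sum_boole]
    exact_mod_cast C.card_near y _ r fun z hz => (Finset.mem_filter.1 hz).2
  have hsym : ∀ y y', n y y' = n y' y := fun y y' => by
    have : C.len (y⁻¹ * y') = C.len (y'⁻¹ * y) := by
      rw [← C.len_inv, mul_inv_rev, inv_inv]
    simp only [hn, this]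
  have h4 : ∑ y ∈ U, ∑ y' ∈ U, n y y' * C.P F y ^ 2 ≤ ((C.b ^ r : ℕ) : ℝ) * C.Eg F U := by
    rw [CD.Eg, Finset.mul_sum]
    refine Finset.sum_le_sum fun y _ => ?_
    rw [← Finset.sum_mul]
    exact mul_le_mul_of_nonneg_right (h3 y) (sq_nonneg _)
  have h5 : ∑ y ∈ U, ∑ y' ∈ U, n y y' * C.P F y' ^ 2 ≤ ((C.b ^ r : ℕ) : ℝ) * C.Eg F U := by
    rw [Finset.sum_comm]
    simp_rw [fun y y' => hsym y' y]
    simpa only [hsym] using h4
  have h6 : ∑ y ∈ U, ∑ y' ∈ U, n y y' * (C.P F y * C.P F y') ≤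
      ((∑ y ∈ U, ∑ y' ∈ U, n y y' * C.P F y ^ 2) +
        ∑ y ∈ U, ∑ y' ∈ U, n y y' * C.P F y' ^ 2) / 2 := by
    rw [← Finset.sum_add_distrib, Finset.sum_div]
    refine Finset.sum_le_sum fun y _ => ?_
    rw [← Finset.sum_add_distrib, Finset.sum_div]
    refine Finset.sum_le_sum fun y' _ => ?_
    nlinarith [mul_nonneg (hn0 y y') (sq_nonneg (C.P F y - C.P F y'))]
  calc _ ≤ ∑ i, ∑ j, ∑ y ∈ U, ∑ y' ∈ U, n y y' * (a y i * a y' j) :=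
        Finset.sum_le_sum fun i _ => Finset.sum_le_sum fun j _ => h1 i j
    _ = _ := h2
    _ ≤ _ := by linarith

/-- Choose `ξ i, y i` by `thick_pts` for charged `i` through `p`.
`S i j = #{t | ∃ ζ ∈ K j, dist (p⁻¹ ξ i t) (p⁻¹ζ) ≤ a^-J}`.  Apply `Fam.triple_count` with
`κ = Fin 3 → Fin nb`, `ok c` = the first two clauses of `ThickAt`, `A c i` = the event of the third
clause.  If each member `k i` of a triple has a point `ξ (k i) t` at `p`-distance `> a^-J` from the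
other two, take `c i` with `p⁻¹ξ ∈ 𝓑 (c i)` (`thick_B` for the second clause); otherwise some
member has every point close to one of the other two, `Λ ≤ S + S`.  Finish with `thick_pair`
(`Y` = image under `y i` of the counted `t`, `thick_near`). -/
theorem nonthick {F : Fam Z} (hF : C.Good F) (Λ J : ℕ) (hΛ : 1 ≤ Λ) (hJ : 6 * C.δ < J)
    (hJ' : C.a ^ (3 * (C.δ : ℝ) - J) < C.d0 / Λ) {nb : ℕ} (𝓑 : Fin nb → Set Z)
    (hB : Cov (C.a ^ (-(J : ℝ)) / 2) 𝓑) (γ : ℝ) (hγ0 : 0 ≤ γ) (hγ : (nb : ℝ) ^ 3 * γ ≤ 1 / 2)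
    (p : G) (hp : 8 * C.δ + 2 ≤ C.len p) (h : ¬ C.Thick F γ 𝓑 p) :
    (Λ : ℝ) * C.P F p ^ 2 ≤
      12 * ((C.b ^ (34 * C.δ) : ℕ) : ℝ) * C.Eg F (C.Nb p (8 * C.δ) J) := by
  classical
  choose ξ y hinj hy using fun (i : F.ι) (hi : F.w i ≠ 0 ∧ C.hit F p i) =>
    C.thick_pts hF Λ J hΛ hJ' p hp i hi.1 hi.2
  have hapos : 0 < C.a ^ (-(J : ℝ)) := Real.rpow_pos_of_pos C.a_pos _
  obtain ⟨N, hN⟩ : ∃ N : (i : F.ι) → (F.w i ≠ 0 ∧ C.hit F p i) → F.ι → Finset (Fin Λ),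
      ∀ i hi j t, t ∈ N i hi j ↔
        ∃ ζ ∈ F.K j, dist (p⁻¹ • ξ i hi t) (p⁻¹ • ζ) ≤ C.a ^ (-(J : ℝ)) :=
    ⟨fun i hi j => Finset.univ.filter fun t =>
      ∃ ζ ∈ F.K j, dist (p⁻¹ • ξ i hi t) (p⁻¹ • ζ) ≤ C.a ^ (-(J : ℝ)), fun i hi j t => by
        simp only [Finset.mem_filter, Finset.mem_univ, true_and]⟩
  obtain ⟨S, hS0, hS⟩ : ∃ S : F.ι → F.ι → ℝ, (∀ i j, 0 ≤ S i j) ∧
      ∀ i hi j, S i j = (N i hi j).card := by
    refine ⟨fun i j => if hi : F.w i ≠ 0 ∧ C.hit F p i then ((N i hi j).card : ℝ) else 0,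
      fun i j => ?_, fun i hi j => dif_pos hi⟩
    beta_reduce
    split_ifs
    · exact Nat.cast_nonneg _
    · exact le_rfl
  have h1 := F.triple_count (κ := Fin 3 → Fin nb) (C.hit F p) S hS0
    (fun c => (∀ i j, i ≠ j → Disjoint (𝓑 (c i)) (𝓑 (c j))) ∧
      ∀ i, ∀ z ∈ 𝓑 (c i), C.B p⁻¹ z ≤ 6 * C.δ)
    (fun c i k => C.hit F p k ∧ (C.tr p (F.K k) ∩ 𝓑 (c i)).Nonempty ∧
      ∀ j, j ≠ i → Disjoint (C.tr p (F.K k)) (𝓑 (c j)))
    (fun c i k hk => hk.1) γ Λ hγ0 (Nat.cast_nonneg _)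
    (by
      rw [Fintype.card_fun, Fintype.card_fin, Fintype.card_fin]
      push_cast
      exact hγ)
    (by
      intro c hc
      by_contra hn
      push Not at hn
      exact h ⟨c, hc.1, hc.2, hn⟩)
    (by
      intro k hk
      by_cases H : ∀ i, ∃ t, ∀ j, j ≠ i → t ∉ N (k i) (hk i) (k j)
      · left
        choose t ht using H
        have far : ∀ i j, j ≠ i → ∀ ζ ∈ F.K (k j),
            ¬ dist (p⁻¹ • ξ (k i) (hk i) (t i)) (p⁻¹ • ζ) ≤ C.a ^ (-(J : ℝ)) :=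
          fun i j hij ζ hζ hd => ht i j hij ((hN _ _ _ _).2 ⟨ζ, hζ, hd⟩)
        choose c hc using fun i => hB.2.2 (p⁻¹ • ξ (k i) (hk i) (t i))
        refine ⟨c, ⟨fun i j hij => Set.disjoint_left.2 fun z hz hz' => ?_, fun i z hz => ?_⟩,
          fun i => ⟨(hk i).2, ⟨_, ⟨_, (hy _ (hk i) (t i)).1, rfl⟩, hc i⟩, fun j hij => ?_⟩⟩
        · refine far i j hij.symm _ (hy _ (hk j) (t j)).1 ?_
          have a1 := hB.2.1 _ _ (hc i) _ hz
          have a2 := hB.2.1 _ _ hz' _ (hc j)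
          linarith [dist_triangle (p⁻¹ • ξ (k i) (hk i) (t i)) z (p⁻¹ • ξ (k j) (hk j) (t j))]
        · have a1 := hB.2.1 _ _ (hc i) _ hz
          have a2 := C.thick_B p J hJ (hy _ (hk i) (t i)).2.1 (ζ := p • z)
            (by rw [inv_smul_smul]; linarith)
          rwa [inv_smul_smul] at a2
        · refine Set.disjoint_left.2 ?_
          rintro _ ⟨ζ, hζ, rfl⟩ hz
          refine far j i hij.symm ζ hζ ?_
          have a1 := hB.2.1 _ _ (hc j) _ hz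
          linarith
      · right
        push Not at H
        obtain ⟨i, hi⟩ := H
        have key : ∀ j1 j2 : Fin 3, (∀ j, j ≠ i → j = j1 ∨ j = j2) →
            (Λ : ℝ) ≤ S (k i) (k j1) + S (k i) (k j2) := by
          intro j1 j2 hj
          rw [hS _ (hk i), hS _ (hk i)]
          have a1 : (Finset.univ : Finset (Fin Λ)) ⊆
              N (k i) (hk i) (k j1) ∪ N (k i) (hk i) (k j2) := by
            intro t _
            obtain ⟨j, hji, hj'⟩ := hi t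
            rcases hj j hji with rfl | rfl
            · exact Finset.mem_union_left _ hj'
            · exact Finset.mem_union_right _ hj'
          have a2 := (Finset.card_le_card a1).trans (Finset.card_union_le _ _)
          rw [Finset.card_univ, Fintype.card_fin] at a2
          exact_mod_cast a2
        fin_cases i
        · exact Or.inl (key 1 2 (by decide))
        · exact Or.inr (Or.inl (key 0 2 (by decide)))
        · exact Or.inr (Or.inr (key 0 1 (by decide))))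
  have h2 := C.thick_pair F (C.Nb p (8 * C.δ) J) (34 * C.δ) (C.hit F p) S (by
    intro i j hi _ hi' _
    refine ⟨(N i ⟨hi, hi'⟩ j).image (y i ⟨hi, hi'⟩), ?_, ?_, ?_⟩
    · intro x hx
      obtain ⟨t, -, rfl⟩ := Finset.mem_image.1 hx
      exact (hy i _ t).2.2.2
    · rw [Finset.card_image_of_injective _ (hinj i _), hS i ⟨hi, hi'⟩]
    · intro x hx
      obtain ⟨t, ht, rfl⟩ := Finset.mem_image.1 hx
      obtain ⟨ζ, hζ, hd⟩ := (hN _ _ _ _).1 ht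
      obtain ⟨b1, b2, b3, b4⟩ := hy i ⟨hi, hi'⟩ t
      obtain ⟨y', c1, c2, c3⟩ := C.thick_near p _ J hJ ((C.mem_Nb _ _ _ _).1 b4).1 b2 b3 hd
      exact ⟨⟨_, b1, b3⟩, y', c1, c3, ζ, hζ, c2⟩)
  have h3 : C.P F p = F.mass (C.hit F p) := rfl
  rw [h3, mul_assoc]
  refine h1.trans (mul_le_mul_of_nonneg_left ?_ (by norm_num))
  convert h2

end CD

end Crest.Agent.R193.Core
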