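import Crest.Agent.R193.CRing
import Crest.Agent.R193.CThick
import Crest.Agent.R193.CGood
import Crest.Agent.R193.CAnn
import Crest.Agent.R193.CFin
import Crest.Agent.R193.CDual

/-! Row 193 [C]: choice of the parameters. -/

set_option autoImplicit false

namespace Crest.Agent.R193.Core

open Set

/-- Take `c` with `C1 n0² b^(10δ) < 2^c`, `s = b L0 + c` (`b^L0 ≤ 2^(b L0)`), `M` = the left side of
the second clause plus one (linear in `L0`), and `L0` large (`L0² / a^L0 → 0`,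
`tendsto_pow_const_div_const_pow_of_one_lt`). -/
theorem exists_params (a d C1 : ℝ) (ha : 1 < a) (hd : 0 < d) (b δ J n0 nb : ℕ) (hb : 1 ≤ b) :
    ∃ L0 s M : ℕ, δ ≤ L0 ∧ 1 ≤ M ∧
      nb ^ 3 * (3 * ((L0 + s * J + 10 * δ + 1) * b ^ (14 * δ))) < M ∧
      s * a ^ (11 * (δ : ℝ) - L0) ≤ d / (8 * M) ∧ a ^ (3 * (δ : ℝ) - L0) < d / (4 * M) ∧
      C1 * ((n0 : ℝ) ^ 2 * (b ^ (L0 + 10 * δ) : ℕ)) < 2 ^ s := by
  have ha0 : 0 < a := by linarith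
  obtain ⟨c, hc⟩ := pow_unbounded_of_one_lt (|C1| * ((n0 : ℝ) ^ 2 * (b : ℝ) ^ (10 * δ)))
    (by norm_num : (1 : ℝ) < 2)
  obtain ⟨α, hα⟩ : ∃ α : ℕ, α = nb ^ 3 * (3 * ((1 + b * J) * b ^ (14 * δ))) := ⟨_, rfl⟩
  obtain ⟨β, hβ⟩ : ∃ β : ℕ, β = nb ^ 3 * (3 * ((c * J + 10 * δ + 1) * b ^ (14 * δ))) + 1 :=
    ⟨_, rfl⟩
  have h0 := tendsto_pow_const_div_const_pow_of_one_lt 0 ha
  have h1 := tendsto_pow_const_div_const_pow_of_one_lt 1 ha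
  have h2 := tendsto_pow_const_div_const_pow_of_one_lt 2 ha
  have hA := (((h2.const_mul ((b : ℝ) * α)).add (h1.const_mul ((b : ℝ) * β + c * α))).add
    (h0.const_mul ((c : ℝ) * β))).const_mul (a ^ (11 * (δ : ℝ)))
  have hB := ((h1.const_mul (α : ℝ)).add (h0.const_mul (β : ℝ))).const_mul (a ^ (3 * (δ : ℝ)))
  simp only [mul_zero, add_zero] at hA hB
  have eA := hA.eventually (gt_mem_nhds (by positivity : (0 : ℝ) < d / 8))
  have eB := hB.eventually (gt_mem_nhds (by positivity : (0 : ℝ) < d / 4))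
  obtain ⟨L, ⟨hLA, hLB⟩, hLδ⟩ := ((eA.and eB).and (Filter.eventually_ge_atTop δ)).exists
  have hM : (0 : ℝ) < ((α * L + β : ℕ) : ℝ) := by
    have : 0 < α * L + β := by omega
    exact_mod_cast this
  have haL : 0 < a ^ L := pow_pos ha0 L
  refine ⟨L, b * L + c, α * L + β, hLδ, by omega, ?_, ?_, ?_, ?_⟩
  · rw [hα, hβ]
    have : nb ^ 3 * (3 * ((L + (b * L + c) * J + 10 * δ + 1) * b ^ (14 * δ))) =
        nb ^ 3 * (3 * ((1 + b * J) * b ^ (14 * δ))) * L +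
          nb ^ 3 * (3 * ((c * J + 10 * δ + 1) * b ^ (14 * δ))) := by ring
    omega
  · rw [le_div_iff₀ (by positivity), Real.rpow_sub ha0, Real.rpow_natCast]
    have : ((b * L + c : ℕ) : ℝ) * (a ^ (11 * (δ : ℝ)) / a ^ L) * (8 * ((α * L + β : ℕ) : ℝ)) =
        8 * (a ^ (11 * (δ : ℝ)) * ((b : ℝ) * α * ((L : ℝ) ^ 2 / a ^ L) +
          ((b : ℝ) * β + c * α) * ((L : ℝ) ^ 1 / a ^ L) +
          (c : ℝ) * β * ((L : ℝ) ^ 0 / a ^ L))) := by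
      push_cast
      field_simp
      ring
    rw [this]
    linarith
  · rw [lt_div_iff₀ (by positivity), Real.rpow_sub ha0, Real.rpow_natCast]
    have : (a ^ (3 * (δ : ℝ)) / a ^ L) * (4 * ((α * L + β : ℕ) : ℝ)) =
        4 * (a ^ (3 * (δ : ℝ)) * ((α : ℝ) * ((L : ℝ) ^ 1 / a ^ L) +
          (β : ℝ) * ((L : ℝ) ^ 0 / a ^ L))) := by
      push_cast
      field_simp
    rw [this]
    linarith
  · have hb2 : (b : ℝ) ^ L ≤ 2 ^ (b * L) := by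
      rw [pow_mul]
      have : (b : ℝ) ≤ 2 ^ b := by exact_mod_cast (Nat.lt_two_pow_self (n := b)).le
      exact pow_le_pow_left₀ (by positivity) this L
    have hbL : (0 : ℝ) < (b : ℝ) ^ L := by
      have : (0 : ℝ) < b := by exact_mod_cast hb
      positivity
    push_cast
    rw [pow_add, pow_add]
    calc C1 * ((n0 : ℝ) ^ 2 * ((b : ℝ) ^ L * (b : ℝ) ^ (10 * δ)))
        ≤ |C1| * ((n0 : ℝ) ^ 2 * ((b : ℝ) ^ L * (b : ℝ) ^ (10 * δ))) :=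
          mul_le_mul_of_nonneg_right (le_abs_self _) (by positivity)
      _ = (b : ℝ) ^ L * (|C1| * ((n0 : ℝ) ^ 2 * (b : ℝ) ^ (10 * δ))) := by ring
      _ < (b : ℝ) ^ L * 2 ^ c := mul_lt_mul_of_pos_left hc hbL
      _ ≤ 2 ^ (b * L) * 2 ^ c := mul_le_mul_of_nonneg_right hb2 (by positivity)

/-- `a^(c - n) → 0`. -/
theorem exists_rpow_lt (a c e : ℝ) (ha : 1 < a) (he : 0 < e) :
    ∃ n0 : ℕ, ∀ n : ℕ, n0 ≤ n → a ^ (c - n) < e := by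
  have ha0 : 0 < a := by linarith
  obtain ⟨n0, hn0⟩ := pow_unbounded_of_one_lt (a ^ c / e) ha
  refine ⟨n0, fun n hn => ?_⟩
  have h1 : a ^ n0 ≤ a ^ n := pow_le_pow_right₀ ha.le hn
  rw [Real.rpow_sub ha0, Real.rpow_natCast, div_lt_iff₀ (pow_pos ha0 n)]
  rw [div_lt_iff₀ he] at hn0
  nlinarith

namespace CD

variable {G Z : Type} [Group G] [MetricSpace Z] [MulAction G Z] (C : CD G Z)

set_option maxHeartbeats 1000000 in
/-- **Core.** -/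
theorem core_LB [CompactSpace Z] [Nonempty Z] (hK : K33 Z) (hU : ULC Z) :
    ∃ e : ℝ, 0 < e ∧ ∀ n, C.LB C.d0 n e := by
  by_contra hcon
  have ha := C.one_lt_a
  have hd0 := C.d0_pos
  have hb : 1 ≤ C.b := C.one_le_b
  have hbp : ∀ n : ℕ, (1 : ℝ) ≤ ((C.b ^ n : ℕ) : ℝ) := fun n => by
    exact_mod_cast Nat.one_le_pow _ _ hb
  have hbp' : ∀ n : ℕ, (0 : ℝ) < ((C.b ^ n : ℕ) : ℝ) := fun n => lt_of_lt_of_le one_pos (hbp n)
  obtain ⟨n0, 𝓑0, hn0, h𝓑0⟩ := exists_cov hU (C.d0 / 4) (by positivity)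
  -- `Λ`, `J`, the cover `𝓑`, `γ`
  set Λ : ℕ := 48 * C.b ^ (34 * C.δ) * C.b ^ (18 * C.δ) with hΛ
  have hΛ1 : 1 ≤ Λ := by
    have h1 : 1 ≤ C.b ^ (34 * C.δ) := Nat.one_le_pow _ _ hb
    have h2 : 1 ≤ C.b ^ (18 * C.δ) := Nat.one_le_pow _ _ hb
    rw [hΛ]; nlinarith
  have hΛp : (0 : ℝ) < Λ := by exact_mod_cast hΛ1
  obtain ⟨J0, hJ0⟩ := exists_rpow_lt C.a (3 * C.δ) (C.d0 / Λ) ha (by positivity)
  set J : ℕ := J0 + 6 * C.δ + 1 with hJdef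
  have hJ : 6 * C.δ < J := by omega
  have hJ' := hJ0 J (by omega)
  obtain ⟨nb, 𝓑, hnb, h𝓑⟩ := exists_cov hU (C.a ^ (-(J : ℝ)) / 2)
    (by have := Real.rpow_pos_of_pos C.a_pos (-(J : ℝ)); positivity)
  have hnbp : (0 : ℝ) < nb := by exact_mod_cast hnb
  set γ : ℝ := 1 / (2 * (nb : ℝ) ^ 3) with hγdef
  have hγ0 : 0 < γ := by positivity
  have hγ : (nb : ℝ) ^ 3 * γ ≤ 1 / 2 := by
    rw [hγdef]; field_simp; rfl
  set C1 : ℝ := 16 * (((C.b ^ (12 * C.δ) : ℕ) : ℝ) * (2 * C.δ + 1)) with hC1def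
  obtain ⟨L0, s, M, hL0δ, hM1, hM, hs, hL0, hC1⟩ :=
    exists_params C.a C.d0 C1 ha hd0 C.b C.δ J n0 nb hb
  set L : ℕ := L0 + s * J with hLdef
  have hn0p : (1 : ℝ) ≤ n0 := by exact_mod_cast hn0
  set X : ℝ := 2 * ((C.b ^ (L + 10 * C.δ) : ℕ) : ℝ) *
    ((n0 : ℝ) ^ 2 * (C.b ^ (L0 + 10 * C.δ) : ℕ)) with hXdef
  have hX1 : 1 ≤ X := by
    have h1 := hbp (L + 10 * C.δ)
    have h2 := hbp (L0 + 10 * C.δ)
    have h3 : (1 : ℝ) ≤ (n0 : ℝ) ^ 2 := one_le_pow₀ hn0p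
    have h4 : (1 : ℝ) ≤ (n0 : ℝ) ^ 2 * (C.b ^ (L0 + 10 * C.δ) : ℕ) := one_le_mul_of_one_le_of_one_le h3 h2
    rw [hXdef]; nlinarith
  set τ : ℝ := 1 / X with hτdef
  have hτ0 : 0 < τ := by positivity
  have hτ : 2 * ((C.b ^ (L0 + s * J + 10 * C.δ) : ℕ) : ℝ) * τ ^ 2 *
      ((n0 : ℝ) ^ 2 * (C.b ^ (L0 + 10 * C.δ) : ℕ)) ≤ 1 := by
    have : 2 * ((C.b ^ (L0 + s * J + 10 * C.δ) : ℕ) : ℝ) * τ ^ 2 *
      ((n0 : ℝ) ^ 2 * (C.b ^ (L0 + 10 * C.δ) : ℕ)) = X * τ ^ 2 := by rw [hXdef]; ring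
    rw [this, hτdef]
    have hX0 : 0 < X := by linarith
    rw [show X * (1 / X) ^ 2 = 1 / X by field_simp]
    exact (div_le_one hX0).2 hX1
  set κ : ℕ := L + 10 * C.δ with hκdef
  set R : ℕ := κ + 6 * C.δ with hRdef
  set D : ℕ := R + 3 * C.δ + 1 with hDdef
  set ε : ℝ := γ * τ / 6 with hεdef
  have hε : 0 < ε := by positivity
  set Y : ℝ := 16 * (((C.b ^ (2 * R + 5 * C.δ + 1) : ℕ) : ℝ) * (C.b ^ (2 * D + 6 * C.δ) : ℕ) *
      (2 * C.δ + 1)) with hYdef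
  obtain ⟨I0, hI0⟩ := exists_nat_ge (Y / ε ^ 2)
  set I : ℕ := I0 + 2 * C.δ with hIdef
  have hI' : Y ≤ ((I : ℝ) + 1 - 2 * C.δ) * ε ^ 2 := by
    rw [div_le_iff₀ (by positivity)] at hI0
    have : ((I : ℝ) + 1 - 2 * C.δ) = I0 + 1 := by rw [hIdef]; push_cast; ring
    rw [this]; nlinarith [sq_nonneg ε]
  obtain ⟨lam, hlam0, hlam⟩ := hU (C.a ^ (-(((I + 2 * κ + 3 * C.δ : ℕ) : ℝ) + C.δ)))
    (Real.rpow_pos_of_pos C.a_pos _)
  obtain ⟨ka, hka⟩ := exists_rpow_lt C.a 0 (C.d0 / 2) ha (by positivity)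
  obtain ⟨kb, hkb⟩ := exists_rpow_lt C.a (6 * C.δ + 1) lam ha hlam0
  set k0 : ℕ := ka + kb + (I + 2 * κ + 9 * C.δ + 1) + (8 * C.δ + 2) with hk0def
  have hk0 : C.a ^ (-(k0 : ℝ)) ≤ C.d0 / 2 := by
    have := hka k0 (by omega)
    rw [zero_sub] at this
    exact this.le
  set CA : ℝ := ((C.b ^ (26 * C.δ) : ℕ) : ℝ) ^ 2 * (C.b ^ (13 * C.δ + 1) : ℕ) with hCAdef
  obtain ⟨m0, hm0⟩ := pow_unbounded_of_one_lt (CA * (C.b ^ (k0 + D) : ℕ)) (by norm_num : (1 : ℝ) < 4)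
  set k1 : ℕ := k0 + (m0 + 1) * (D + I + 2 * C.δ + L) + D with hk1def
  set P0 : ℝ := 1 / (4 * ((C.b ^ (k0 + D) : ℕ) : ℝ) * (C.b ^ k1 : ℕ)) with hP0def
  have hP0 : 0 < P0 := by
    have := hbp' (k0 + D); have := hbp' k1; positivity
  set W : ℝ := ((C.b ^ (5 * k1 + 6 * C.δ) : ℕ) : ℝ) ^ 2 with hWdef
  have hW : 0 < W := by have := hbp' (5 * k1 + 6 * C.δ); positivity
  set η : ℝ := (γ * τ / 2) ^ 2 * P0 / (82 * W) with hηdef
  have hη : 0 < η := by positivity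
  obtain ⟨F, N, hF, htot, hN, hBd⟩ := C.record hcon η hη k1
  obtain ⟨v, hv1, hv2, hv3, hv4, hv5⟩ := C.exists_good hF htot k1 D R I L k0 m0 CA ε hε (by omega)
    (by omega) (by omega) (by omega) hk0 hI' hm0 le_rfl (hBd D k0 (by omega) (by omega))
  have hPv : 0 < C.P F v := by
    rcases (C.P_nonneg F v).lt_or_eq with h | h
    · exact h
    · exfalso
      have h5 : P0 ≤ C.P F v ^ 2 := hv3
      rw [← h] at h5
      have h6 : (0 : ℝ) ^ 2 = 0 := by norm_num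
      rw [h6] at h5
      exact absurd hP0 (not_lt.2 h5)
  obtain ⟨p, hpinj, hp⟩ := C.many_thick hF (C.Thick F γ 𝓑) J M L0 s Λ
    (12 * ((C.b ^ (34 * C.δ) : ℕ) : ℝ)) C1 τ (by have := hbp' (34 * C.δ); positivity)
    (by rw [hΛ]; push_cast; ring_nf; rfl)
    (fun p hp hth => C.nonthick hF Λ J hΛ1 hJ hJ' 𝓑 h𝓑 γ hγ0.le hγ p hp hth)
    𝓑0 h𝓑0 hn0 hM1 v (by omega) hPv hs hL0 hτ0.le hτ hC1 hv5
  obtain ⟨c, t, hc, hsep⟩ := C.four_cells (κ := Fin 3 → Fin nb)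
    (fun c p => C.ThickAt F γ p fun i => 𝓑 (c i)) v L M p hpinj
    (by rw [Fintype.card_fun]; simpa using hM)
    (fun t => ⟨(hp t).1, (hp t).2.2.1, (hp t).2.2.2.1, (hp t).2.2.2.2⟩)
  refine C.final_contra hK hF (fun i => 𝓑 (c i)) (fun i => h𝓑.1 _) γ (γ * τ / 2 * C.P F v) ε lam
    κ I k1 N v (fun m => p (t m)) hc hsep
    (fun m => ⟨(hp _).2.2.1, le_trans (hp _).2.2.2.1 hv2, (hp _).2.2.2.2⟩) (by omega) hε.le hv4
    (by positivity) hγ0.le (fun m => ?_) hlam (hkb _ (by omega)).le (by omega) ?_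
  · have h1 := mul_le_mul_of_nonneg_left (hp (t m)).2.1 hγ0.le
    have h2 : γ * τ / 2 * C.P F v + 3 * (γ * τ / 6 * C.P F v) = γ * (τ * C.P F v) := by ring
    exact le_of_eq_of_le h2 h1
  · have h1 : W * C.Eg F (C.sph N) ≤ W * η := mul_le_mul_of_nonneg_left hN hW.le
    have h2 : W * η = (γ * τ / 2) ^ 2 * P0 / 82 := by rw [hηdef]; field_simp
    have h3 : (γ * τ / 2) ^ 2 * P0 ≤ (γ * τ / 2) ^ 2 * C.P F v ^ 2 :=
      mul_le_mul_of_nonneg_left hv3 (sq_nonneg _)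
    have h4 : 0 < (γ * τ / 2) ^ 2 * P0 := by positivity
    rw [mul_pow]
    have h5 : 81 * (W * C.Eg F (C.sph N)) < (γ * τ / 2) ^ 2 * C.P F v ^ 2 := by
      clear_value W P0 η
      generalize (γ * τ / 2) ^ 2 * P0 = u at *
      linarith only [h1, h2, h3, h4]
    exact h5

end CD

end Crest.Agent.R193.Core
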