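import Crest.Agent.R193.CTop
import Crest.Agent.R193.CComb

/-! Row 193 [C]: nodes are rare on a nearly maximal cut. -/

set_option autoImplicit false

namespace Crest.Agent.R193.Core

open Set

namespace CD

variable {G Z : Type} [Group G] [MetricSpace Z] [MulAction G Z] (C : CD G Z)

open Classical in
/-- cells of the cone around the ray to `ξ` at level `n` -/
noncomputable def Cone (ξ : Z) (D n : ℕ) : Finset G :=
  (C.sph n).filter fun x => (n : ℝ) - D - 2 * C.δ ≤ C.B x ξ ∧ C.B x ξ ≤ (n : ℝ) - D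

/-- `B1`: `gp x x' ≥ n - D - 3δ`. -/
theorem card_Cone (ξ : Z) (D n : ℕ) : (C.Cone ξ D n).card ≤ C.b ^ (2 * D + 6 * C.δ) := by
  classical
  apply C.card_le_of_pair
  intro x hx y hy
  simp only [Cone, Finset.mem_filter, mem_sph] at hx hy
  have h1 := C.B1' x y ξ
  have h2 := C.len_eq x y
  have h3 : (n : ℝ) - D - 2 * C.δ ≤ min (C.B x ξ) (C.B y ξ) := le_min hx.2.1 hy.2.1
  have h4 : (C.len (x⁻¹ * y) : ℝ) ≤ ((2 * D + 6 * C.δ : ℕ) : ℝ) := by
    rw [h2, hx.1, hy.1]; push_cast; linarith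
  exact_mod_cast h4

/-- `K` has a point at distance `≥ d0/2` from `ξ`; `Cont.ivt` gives `ζ ∈ K` with
`dist ξ ζ = a^-(n - D - δ)`; `x` from `B5` for `ζ` at level `n`; `B4` gives the lower bound,
`B3` the upper bound (`B x ζ ≥ n - δ > n - D`). -/
theorem cone_hit {F : Fam Z} (hF : C.Good F) (ξ : Z) (D n : ℕ) (hD : C.δ < D) (s : ℝ)
    (hs : (n : ℝ) - D - C.δ ≤ s) (hn : C.a ^ (-((n : ℝ) - D - C.δ)) ≤ C.d0 / 2)
    (i : F.ι) (hi : F.w i ≠ 0) (h : ∃ ζ ∈ F.K i, dist ξ ζ ≤ C.a ^ (-s)) :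
    ∃ x ∈ C.Cone ξ D n, C.hit F x i := by
  classical
  obtain ⟨ζ0, hζ0, hd0⟩ := h
  obtain ⟨hK, p, hp, q, hq, hpq⟩ := hF i hi
  have hmono : C.a ^ (-s) ≤ C.a ^ (-((n : ℝ) - D - C.δ)) :=
    Real.rpow_le_rpow_of_exponent_le C.one_lt_a.le (by linarith)
  have hfar : ∃ η ∈ F.K i, C.d0 / 2 ≤ dist ξ η := by
    by_contra hc
    push Not at hc
    have h1 := hc p hp
    have h2 := hc q hq
    have h3 := dist_triangle_left p q ξ
    linarith
  obtain ⟨η, hη, hη'⟩ := hfar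
  obtain ⟨ζ, hζ, hζ'⟩ := hK.ivt (f := fun z => dist ξ z) (continuous_const.dist continuous_id)
    hζ0 hη (r := C.a ^ (-((n : ℝ) - D - C.δ))) (hd0.trans hmono) (hn.trans hη')
  obtain ⟨x, hx, hxB⟩ := C.B5 ζ n
  have hD' : (C.δ : ℝ) < D := by exact_mod_cast hD
  have hδ : (0 : ℝ) ≤ C.δ := Nat.cast_nonneg _
  refine ⟨x, ?_, ⟨ζ, hζ, ?_⟩⟩
  · simp only [Cone, Finset.mem_filter, mem_sph]
    refine ⟨hx, ?_, ?_⟩
    · have h4 := C.B4 x ζ ξ ((n : ℝ) - D - C.δ) (by rw [dist_comm]; exact hζ'.le)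
      have h5 : (n : ℝ) - D - C.δ ≤ min (C.B x ζ) ((n : ℝ) - D - C.δ) :=
        le_min (by linarith) le_rfl
      linarith
    · by_contra hc
      push Not at hc
      have h3 := C.B3 x ξ ζ
      have h5 : (n : ℝ) - D < min (C.B x ξ) (C.B x ζ) := lt_min hc (by linarith)
      have h6 : C.a ^ ((C.δ : ℝ) - min (C.B x ξ) (C.B x ζ)) < C.a ^ (-((n : ℝ) - D - C.δ)) :=
        Real.rpow_lt_rpow_of_exponent_lt C.one_lt_a (by linarith)
      have h7 : dist ξ ζ = C.a ^ (-((n : ℝ) - D - C.δ)) := hζ'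
      linarith
  · show (C.len x : ℝ) - C.δ ≤ C.B x ζ
    rw [hx]; exact hxB

/-- if `len v ≤ len w`: `l v + δ < gp w v`, `Adm.close`, so `len w ≤ len v + δ + 1`; `len_eq`. -/
theorem node_rel (k D R : ℕ) (hD : R + 3 * C.δ < D) {l : G → ℝ} (hl : C.Adm l) {v w : G}
    (hv : v ∈ C.Sig k l D) (hw : w ∈ C.Sig k l D)
    (h : min (C.len v : ℝ) (C.len w) - (R + 2 * C.δ) ≤ C.gp v w) :
    C.len (v⁻¹ * w) ≤ 2 * R + 5 * C.δ + 1 := by
  rw [mem_Sig] at hv hw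
  have hD1 : R + 3 * C.δ + 1 ≤ D := hD
  have hD' : (R : ℝ) + 3 * C.δ + 1 ≤ D := by exact_mod_cast hD1
  have h2 := C.len_eq v w
  have hc := C.gp_comm v w
  have h4 : (C.len (v⁻¹ * w) : ℝ) ≤ ((2 * R + 5 * C.δ + 1 : ℕ) : ℝ) := by
    push_cast
    rcases le_total (C.len v : ℝ) (C.len w) with hvw | hvw
    · rw [min_eq_left hvw] at h
      have h6 : l v + C.δ < C.gp w v := by linarith [hv.2.1]
      have h5 := (abs_le.1 (Adm.close C hl h6)).2
      linarith [hv.2.1, hw.2.2]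
    · rw [min_eq_right hvw] at h
      have h6 : l w + C.δ < C.gp v w := by linarith [hw.2.1]
      have h5 := (abs_le.1 (Adm.close C hl h6)).2
      linarith [hw.2.1, hv.2.2]
  exact_mod_cast h4

/-- otherwise `gp x v, gp x w ≥ min (len v) (len w) - R - δ` (`B1`) and `hyp` contradicts `h`. -/
theorem node_other (R : ℕ) {v w x : G} {ξ ζ : Z} (hv : (C.len v : ℝ) - R ≤ C.B v ξ)
    (hw : (C.len w : ℝ) - R ≤ C.B w ζ) (hx : (C.len v : ℝ) ≤ C.B x ξ)
    (h : ¬ (min (C.len v : ℝ) (C.len w) - (R + 2 * C.δ) ≤ C.gp v w)) : C.B x ζ < C.len v := by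
  by_contra hc
  push Not at hc
  apply h
  have h1 := C.B1' v x ξ
  have h2 := C.B1' x w ζ
  have h3 := C.hyp' v x w
  have hR : (0 : ℝ) ≤ R := Nat.cast_nonneg _
  have m1 := min_le_left (C.len v : ℝ) (C.len w)
  have m2 := min_le_right (C.len v : ℝ) (C.len w)
  have h4 : min (C.len v : ℝ) (C.len w) - R ≤ min (C.B v ξ) (C.B x ξ) :=
    le_min (by linarith) (by linarith)
  have h5 : min (C.len v : ℝ) (C.len w) - R ≤ min (C.B x ζ) (C.B w ζ) :=
    le_min (by linarith) (by linarith)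
  have h6 : min (C.len v : ℝ) (C.len w) - R - C.δ ≤ min (C.gp v x) (C.gp x w) :=
    le_min (by linarith) (by linarith)
  linarith

private theorem helper22_mem_Cone (ξ : Z) (D n : ℕ) (x : G) : x ∈ C.Cone ξ D n ↔
    C.len x = n ∧ (n : ℝ) - D - 2 * C.δ ≤ C.B x ξ ∧ C.B x ξ ≤ (n : ℝ) - D := by
  unfold Cone
  rw [Finset.mem_filter, mem_sph]

set_option maxHeartbeats 400000 in
private theorem helper22_core {F : Fam Z} (hF : C.Good F) (k1 D R I k0 k : ℕ) (A ε : ℝ)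
    (hε : 0 ≤ ε) (hD : R + 3 * C.δ < D) (hI : 2 * C.δ ≤ I)
    (hk0 : C.a ^ (-(k0 : ℝ)) ≤ C.d0 / 2) (hk1 : k + 2 * D + I ≤ k1) {l : G → ℝ} (hl : C.Adm l)
    (hl' : ∀ x, (k0 : ℝ) ≤ l x ∧ l x ≤ k) (hA : C.Bd F k1 D k0 (k + D + I + 2 * C.δ) A)
    (T : Finset G) (ξ : G → Z) (hS : ∀ v ∈ T, v ∈ C.Sig k1 l D)
    (h1 : ∀ v ∈ T, (C.len v : ℝ) - R ≤ C.B v (ξ v))
    (h2 : ∀ v ∈ T, ε * C.P F v ≤
      F.mass fun k => ∃ ζ ∈ F.K k, dist (ξ v) ζ ≤ C.a ^ (-((C.len v : ℝ) + I)))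
    (hind : ∀ v ∈ T, ∀ w ∈ T, v ≠ w →
      ¬ (min (C.len v : ℝ) (C.len w) - (R + 2 * C.δ) ≤ C.gp v w)) :
    ((I : ℝ) + 1 - 2 * C.δ) * ε ^ 2 * ∑ v ∈ T, C.P F v ^ 2 ≤
      ((C.b ^ (2 * D + 6 * C.δ) : ℕ) : ℝ) * ((2 * C.δ + 1) * A) := by
  classical
  obtain ⟨l', hl'A, hle, hf, hor⟩ := C.adm_finset_max T
    (fun v x => min (C.B x (ξ v)) ((C.len v : ℝ) + I)) (fun v _ => C.adm_cone _ _) hl
  have hDr : (R : ℝ) + 3 * C.δ < D := by exact_mod_cast hD
  have hδ0 : (0 : ℝ) ≤ C.δ := Nat.cast_nonneg _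
  have hR0 : (0 : ℝ) ≤ R := Nat.cast_nonneg _
  have hI0 : (0 : ℝ) ≤ I := Nat.cast_nonneg _
  have hlen : ∀ v ∈ T, C.len v ≤ k + D := by
    intro v hv
    have h3 := ((C.mem_Sig _ _ _ _).1 (hS v hv)).2.2
    have h4 := (hl' v).2
    have h5 : (C.len v : ℝ) < ((k + D + 1 : ℕ) : ℝ) := by push_cast; linarith
    exact Nat.lt_succ_iff.1 (by exact_mod_cast h5)
  have hl'b : ∀ x, (k0 : ℝ) ≤ l' x ∧ l' x ≤ k + D + I := by
    intro x
    refine ⟨(hl' x).1.trans (hle x), ?_⟩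
    rcases hor x with h | ⟨v, hv, h⟩
    · have := (hl' x).2
      linarith
    · have h3 : (C.len v : ℝ) ≤ k + D := by exact_mod_cast hlen v hv
      have h4 := min_le_right (C.B x (ξ v)) ((C.len v : ℝ) + I)
      linarith
  set U := (C.ball k1).filter fun x => (D : ℝ) + 0 ≤ C.len x - l' x ∧
    (C.len x : ℝ) - l' x < D + 0 + 2 * C.δ + 1 with hU
  have hUA : C.Eg F U ≤ (2 * C.δ + 1) * A := by
    refine (C.Eg_le_sum F (Finset.range (2 * C.δ + 1))
      (fun i => C.Sig k1 (fun y => l' y + (0 + i)) D) U fun x hx _ => ?_).trans ?_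
    · obtain ⟨h3, h4, h5⟩ := Finset.mem_filter.1 hx
      exact C.mem_Sig_of_wide k1 l' D 0 x ((C.mem_ball _ _).1 h3) h4 h5
    · refine (Finset.sum_le_card_nsmul _ _ A fun i hi => hA _ (hl'A.add C (by positivity))
        fun x => ?_).trans ?_
      · have h3 : (i : ℝ) ≤ 2 * C.δ := by exact_mod_cast Nat.lt_succ_iff.1 (Finset.mem_range.1 hi)
        have h4 : (0 : ℝ) ≤ i := Nat.cast_nonneg _
        have := hl'b x
        constructor <;> linarith [this.1, this.2]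
      · rw [Finset.card_range, nsmul_eq_mul]
        push_cast
        exact le_rfl
  have hcone : ∀ v ∈ T, ∀ i ∈ Finset.range (I + 1 - 2 * C.δ),
      ∀ x ∈ C.Cone (ξ v) D (C.len v + D + 2 * C.δ + i),
      C.len x = C.len v + D + 2 * C.δ + i ∧ 2 * C.δ + i ≤ I ∧
        (C.len v : ℝ) + i ≤ C.B x (ξ v) ∧ C.B x (ξ v) ≤ C.len v + 2 * C.δ + i := by
    intro v _ i hi x hx
    obtain ⟨h3, h4, h5⟩ := (helper22_mem_Cone C _ _ _ _).1 hx
    have h6 := Finset.mem_range.1 hi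
    push_cast at h4 h5
    exact ⟨h3, by omega, by linarith, by linarith⟩
  have hmem : ∀ v ∈ T, ∀ i ∈ Finset.range (I + 1 - 2 * C.δ),
      ∀ x ∈ C.Cone (ξ v) D (C.len v + D + 2 * C.δ + i), x ∈ U := by
    intro v hv i hi x hx
    obtain ⟨h3, h4, h5, h6⟩ := hcone v hv i hi x hx
    have h7 := hlen v hv
    have hi0 : (0 : ℝ) ≤ i := Nat.cast_nonneg _
    have h3r : (C.len x : ℝ) = C.len v + D + 2 * C.δ + i := by exact_mod_cast h3
    have h4r : 2 * (C.δ : ℝ) + i ≤ I := by exact_mod_cast h4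
    refine Finset.mem_filter.2 ⟨(C.mem_ball _ _).2 (by omega), ?_, ?_⟩
    · rcases hor x with h | ⟨w, hw, h⟩
      · have h8 := ((C.mem_Sig _ _ _ _).1 (hS v hv)).2.1
        have h9 := C.B1' x v (ξ v)
        have h10 : (C.len v : ℝ) - R ≤ min (C.B x (ξ v)) (C.B v (ξ v)) :=
          le_min (by linarith) (h1 v hv)
        have h11 : l v + C.δ < C.gp x v := by linarith
        have h12 := (abs_le.1 (Adm.close C hl h11)).2
        linarith
      · have h8 := min_le_left (C.B x (ξ w)) ((C.len w : ℝ) + I)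
        by_cases hvw : v = w
        · subst hvw
          linarith
        · have h9 : (C.len v : ℝ) ≤ C.B x (ξ v) := by linarith
          have := C.node_other R (h1 v hv) (h1 w hw) h9 (hind v hv w hw hvw)
          linarith
    · have h8 := hf v hv x
      have h9 : C.B x (ξ v) ≤ C.len v + I := by linarith
      rw [min_eq_left h9] at h8
      linarith
  have hdis : ∀ x, ∀ v ∈ T, ∀ i ∈ Finset.range (I + 1 - 2 * C.δ), ∀ w ∈ T,
      ∀ j ∈ Finset.range (I + 1 - 2 * C.δ), x ∈ C.Cone (ξ v) D (C.len v + D + 2 * C.δ + i) →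
      x ∈ C.Cone (ξ w) D (C.len w + D + 2 * C.δ + j) → v = w ∧ i = j := by
    intro x v hv i hi w hw j hj hx hx'
    obtain ⟨h3, -, h5, -⟩ := hcone v hv i hi x hx
    obtain ⟨h3', -, h5', -⟩ := hcone w hw j hj x hx'
    have hi0 : (0 : ℝ) ≤ i := Nat.cast_nonneg _
    have hj0 : (0 : ℝ) ≤ j := Nat.cast_nonneg _
    by_cases hvw : v = w
    · subst hvw
      exact ⟨rfl, by omega⟩
    · have h8 : (C.len v : ℝ) ≤ C.B x (ξ v) := by linarith
      have h9 : (C.len w : ℝ) ≤ C.B x (ξ w) := by linarith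
      have h6 := C.node_other R (h1 v hv) (h1 w hw) h8 (hind v hv w hw hvw)
      have h7 := C.node_other R (h1 w hw) (h1 v hv) h9 (hind w hw v hv (Ne.symm hvw))
      exfalso
      linarith
  have hsum := C.sum_Eg_le F (T ×ˢ Finset.range (I + 1 - 2 * C.δ))
    (fun t => C.Cone (ξ t.1) D (C.len t.1 + D + 2 * C.δ + t.2)) U 1
    (fun t ht x hx _ => hmem t.1 (Finset.mem_product.1 ht).1 t.2 (Finset.mem_product.1 ht).2 x hx)
    fun x A' hA' hx => Finset.card_le_one.2 fun t ht t' ht' => by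
      have h := hdis x t.1 (Finset.mem_product.1 (hA' ht)).1 t.2 (Finset.mem_product.1 (hA' ht)).2
        t'.1 (Finset.mem_product.1 (hA' ht')).1 t'.2 (Finset.mem_product.1 (hA' ht')).2
        (hx t ht) (hx t' ht')
      exact Prod.ext h.1 h.2
  have hlow : ∀ t ∈ T ×ˢ Finset.range (I + 1 - 2 * C.δ), ε ^ 2 * C.P F t.1 ^ 2 ≤
      ((C.b ^ (2 * D + 6 * C.δ) : ℕ) : ℝ) *
        C.Eg F (C.Cone (ξ t.1) D (C.len t.1 + D + 2 * C.δ + t.2)) := by
    rintro ⟨v, i⟩ ht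
    obtain ⟨hv, hi⟩ := Finset.mem_product.1 ht
    dsimp only at hv hi ⊢
    have hi0 : (0 : ℝ) ≤ i := Nat.cast_nonneg _
    have h4 : 2 * C.δ + i ≤ I := by
      have := Finset.mem_range.1 hi
      omega
    have h4r : 2 * (C.δ : ℝ) + i ≤ I := by exact_mod_cast h4
    have h3 := C.sq_le_card_mul F _ (C.Cone (ξ v) D (C.len v + D + 2 * C.δ + i))
      fun j hj h => C.cone_hit hF (ξ v) D (C.len v + D + 2 * C.δ + i) (by omega)
        ((C.len v : ℝ) + I) (by push_cast; linarith) (by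
          refine le_trans (Real.rpow_le_rpow_of_exponent_le C.one_lt_a.le ?_) hk0
          have h8 := ((C.mem_Sig _ _ _ _).1 (hS v hv)).2.1
          have h9 := (hl' v).1
          push_cast
          linarith) j hj h
    rw [← mul_pow]
    refine (pow_le_pow_left₀ (mul_nonneg hε (C.P_nonneg F v)) (h2 v hv) 2).trans (h3.trans ?_)
    exact mul_le_mul_of_nonneg_right (by exact_mod_cast C.card_Cone _ _ _) (C.Eg_nonneg _ _)
  have h3 := Finset.sum_le_sum hlow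
  rw [← Finset.mul_sum, ← Finset.mul_sum, Finset.sum_product] at h3
  simp only [Finset.sum_const, Finset.card_range, nsmul_eq_mul] at h3
  rw [← Finset.mul_sum, Nat.cast_sub (by omega)] at h3
  have h4 := mul_le_mul_of_nonneg_left (hsum.trans (by simpa using hUA))
    (Nat.cast_nonneg (α := ℝ) (C.b ^ (2 * D + 6 * C.δ)))
  refine le_trans (le_of_eq ?_) (h3.trans h4)
  push_cast
  ring

open Classical in
/-- Node bound.  `exists_indep` on the nodes with the relation of `node_rel` (`card_near`) gives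
`T'`; choose `ξ v`.  `l'` = max of `l` and the cones `min (B · (ξ v)) (len v + I)`
(`adm_finset_max`, `adm_cone`); `k0 ≤ l' ≤ k + D + I`.  For `v ∈ T'`, `0 ≤ i ≤ I - 2δ`,
`n = len v + D + 2δ + i`: a cell `x ∈ Cone (ξ v) D n` has `len v ≤ B x (ξ v) ≤ len v + I`,
`l x ≤ l v + δ ≤ len v` (`B1`, `Adm.close`), other cones are `< len v` (`node_other`), so
`l' x = B x (ξ v)` and `x` lies in the wide window (`mem_Sig_of_wide`, `s = 0`).  The cones for
different `(v, i)` are disjoint (levels; `node_other` twice).  `cone_hit`, `sq_le_card_mul`,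
`card_Cone`: `(ε P v)² ≤ b^(2D+6δ) Eg (Cone)`.  `sum_Eg_le` with `m = 1` and
`U` = the wide window in `ball k1`, `Eg_le_sum`, `hA` for `l' + i`. -/
theorem node_bound {F : Fam Z} (hF : C.Good F) (k1 D R I k0 k : ℕ) (A ε : ℝ) (hε : 0 ≤ ε)
    (hD : R + 3 * C.δ < D) (hI : 2 * C.δ ≤ I) (hk0 : C.a ^ (-(k0 : ℝ)) ≤ C.d0 / 2)
    (hk1 : k + 2 * D + I ≤ k1) {l : G → ℝ} (hl : C.Adm l) (hl' : ∀ x, (k0 : ℝ) ≤ l x ∧ l x ≤ k)
    (hA : C.Bd F k1 D k0 (k + D + I + 2 * C.δ) A) :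
    ((I : ℝ) + 1 - 2 * C.δ) * ε ^ 2 *
        ∑ v ∈ (C.Sig k1 l D).filter (fun v => C.Node F v R I ε), C.P F v ^ 2 ≤
      ((C.b ^ (2 * R + 5 * C.δ + 1) : ℕ) : ℝ) * (C.b ^ (2 * D + 6 * C.δ) : ℕ) *
        (2 * C.δ + 1) * A := by
  have hδ0 : (0 : ℝ) ≤ C.δ := Nat.cast_nonneg _
  have hR0 : (0 : ℝ) ≤ R := Nat.cast_nonneg _
  obtain ⟨T, hT, hind, hsum⟩ := exists_indep
    ((C.Sig k1 l D).filter (fun v => C.Node F v R I ε)) (fun v => C.P F v ^ 2)
    (fun _ => sq_nonneg _) (fun v w => min (C.len v : ℝ) (C.len w) - (R + 2 * C.δ) ≤ C.gp v w)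
    (fun v w h => by rwa [min_comm, C.gp_comm])
    (fun v => by
      have h := C.len_eq v v
      rw [inv_mul_cancel, C.len_one, Nat.cast_zero] at h
      rw [min_self]
      linarith)
    (C.b ^ (2 * R + 5 * C.δ + 1))
    fun v hv T' hT' h => C.card_near v T' _ fun y hy =>
      C.node_rel k1 D R hD hl (Finset.mem_filter.1 hv).1 (Finset.mem_filter.1 (hT' hy)).1 (h y hy)
  have hIr : 2 * (C.δ : ℝ) ≤ I := by exact_mod_cast hI
  have hc : 0 ≤ ((I : ℝ) + 1 - 2 * C.δ) * ε ^ 2 := mul_nonneg (by linarith) (sq_nonneg _)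
  have key : ((I : ℝ) + 1 - 2 * C.δ) * ε ^ 2 * ∑ v ∈ T, C.P F v ^ 2 ≤
      ((C.b ^ (2 * D + 6 * C.δ) : ℕ) : ℝ) * ((2 * C.δ + 1) * A) := by
    rcases T.eq_empty_or_nonempty with rfl | ⟨v₀, hv₀⟩
    · rw [Finset.sum_empty, mul_zero]
      have hA0 : 0 ≤ A := (C.Eg_nonneg _ _).trans (hA l hl fun x => ⟨(hl' x).1, by
        have h1 := (hl' x).2
        have h2 : (0 : ℝ) ≤ D := Nat.cast_nonneg _
        linarith⟩)
      positivity
    · have : Nonempty Z := ⟨(Finset.mem_filter.1 (hT hv₀)).2.choose⟩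
      choose! ξ h1 h2 using fun v (hv : v ∈ T) => (Finset.mem_filter.1 (hT hv)).2
      exact helper22_core C hF k1 D R I k0 k A ε hε hD hI hk0 hk1 hl hl' hA T ξ
        (fun v hv => (Finset.mem_filter.1 (hT hv)).1) h1 h2 hind
  have h1 := mul_le_mul_of_nonneg_left hsum hc
  have h2 := mul_le_mul_of_nonneg_left key
    (Nat.cast_nonneg (α := ℝ) (C.b ^ (2 * R + 5 * C.δ + 1)))
  refine h1.trans (le_trans (le_of_eq ?_) (h2.trans (le_of_eq ?_))) <;> ring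

end CD

end Crest.Agent.R193.Core
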