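import Crest.Agent.R193.CTop
import Crest.Agent.R193.CMass

/-! Row 193 [C]: the ring lemma and record lows. -/

set_option autoImplicit false

namespace Crest.Agent.R193.Core

open Set

namespace CD

variable {G Z : Type} [Group G] [MetricSpace Z] [MulAction G Z] (C : CD G Z)

/-- Let `w = x * z`.  `B6` (`g = x`, `w`) and `gp x w = (len x + len w - n)/2` give
`B w ζ ≥ (n + len x + len w)/2 - 6δ`; with `len w ≤ len x + n` and `B_le`: `ζ ∈ Sh w (6δ)` and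
`len w ≥ len x + n - 12δ`.  `cmp` to the level `len x + n`; `B1` for membership in `Nb`. -/
theorem ring_cell (x z : G) (n : ℕ) (hz : C.len z = n) {ζ : Z} (h1 : ζ ∈ C.Sh x (4 * C.δ))
    (h2 : x⁻¹ • ζ ∈ C.Sh z C.δ) :
    ∃ y ∈ C.Nb x (5 * C.δ) n, C.len ((x * z)⁻¹ * y) ≤ 26 * C.δ ∧ ζ ∈ C.Sh y C.δ := by
  have e0 : x⁻¹ * (x * z) = z := inv_mul_cancel_left x z
  have e1 := C.B6' x (x * z) ζ
  have e2 := C.len_eq x (x * z)
  rw [e0] at e1 e2
  rw [hz] at e2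
  have e3 : (C.len (x * z) : ℝ) ≤ C.len x + n := by
    have := C.len_mul x z
    rw [hz] at this
    exact_mod_cast this
  have e4 := C.B_le (x * z) ζ
  have h1' : (C.len x : ℝ) - 4 * C.δ ≤ C.B x ζ := h1
  have h2' : (n : ℝ) - C.δ ≤ C.B z (x⁻¹ • ζ) := by
    have : (C.len z : ℝ) - C.δ ≤ C.B z (x⁻¹ • ζ) := h2
    rwa [hz] at this
  have hδ : (0 : ℝ) ≤ C.δ := Nat.cast_nonneg _
  obtain ⟨e5, -⟩ := abs_le.1 e1
  obtain ⟨-, e6⟩ := abs_le.1 e1
  obtain ⟨y, hy1, hy2, hy3⟩ := C.cmp (x * z) ζ (6 * C.δ) (by linarith)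
    (show (C.len (x * z) : ℝ) - 6 * C.δ ≤ C.B (x * z) ζ by linarith) (C.len x + n)
  refine ⟨y, (C.mem_Nb _ _ _ _).2 ⟨hy1, ?_⟩, ?_, hy2⟩
  · have e7 := C.B1' y x ζ
    have hy2' : (C.len y : ℝ) - C.δ ≤ C.B y ζ := hy2
    rw [hy1] at hy2'
    push_cast at hy2'
    have hn : (0 : ℝ) ≤ n := Nat.cast_nonneg _
    have : (C.len x : ℝ) - 4 * C.δ ≤ min (C.B y ζ) (C.B x ζ) := le_min (by linarith) h1'
    linarith
  · have e8 : |(C.len (x * z) : ℝ) - ((C.len x + n : ℕ) : ℝ)| ≤ 12 * C.δ := by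
      push_cast
      exact abs_le.2 ⟨by linarith, by linarith⟩
    have : (C.len ((x * z)⁻¹ * y) : ℝ) ≤ ((26 * C.δ : ℕ) : ℝ) := by push_cast at *; linarith
    exact_mod_cast this

/-- Ring lemma.  For charged `i` with `hit F x i` choose `K' i` from `ring0`; apply `hLB` to the
family `F'` with the same index type, weights `if hit F x i then w i else 0` and sets
`tr x (K' i)` (good, total weight `P F x`); bound `Eg F' (sph n)` by `transfer` in `F` with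
`f z = x * z` and `ring_cell`. -/
theorem ring (F : Fam Z) (x : G) (n : ℕ) (e : ℝ) (hLB : C.LB C.d0 n e)
    (hK : ∀ i, F.w i ≠ 0 → Cont (F.K i) ∧ ∃ ζ ∈ F.K i, C.B x ζ < C.len x - 4 * C.δ) :
    e * C.P F x ^ 2 ≤ ((C.b ^ (26 * C.δ) : ℕ) : ℝ) ^ 2 * C.Eg F (C.Nb x (5 * C.δ) n) := by
  classical
  have hex : ∀ i, ∃ K' : Set Z, F.w i ≠ 0 → C.hit F x i → K' ⊆ F.K i ∧ Cont K' ∧
      K' ⊆ C.Sh x (4 * C.δ) ∧ ∃ ξ ∈ K', ∃ z ∈ K', dist (x⁻¹ • ξ) (x⁻¹ • z) = C.d0 := by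
    intro i
    by_cases h : F.w i ≠ 0 ∧ C.hit F x i
    · obtain ⟨hi, ξ, hξ, hξ'⟩ := h
      obtain ⟨hc, ζ, hζ, hζ'⟩ := hK i hi
      obtain ⟨K', h1, h2, h3, h4, -, z, hz, h5⟩ := C.ring0 x hc hξ hξ' hζ hζ'
      exact ⟨K', fun _ _ => ⟨h1, h2, h4, ξ, h3, z, hz, h5⟩⟩
    · exact ⟨∅, fun h1 h2 => absurd ⟨h1, h2⟩ h⟩
  choose K' hK' using hex
  let F' : Fam Z :=
    { ι := F.ι
      w := fun i => if C.hit F x i then F.w i else 0
      K := fun i => C.tr x (K' i)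
      w_nonneg := fun i => by
        split_ifs
        · exact F.w_nonneg i
        · exact le_rfl }
  have hgood : F'.GoodD C.d0 := by
    intro i hi
    have hi' : (if C.hit F x i then F.w i else 0) ≠ 0 := hi
    have h1 : C.hit F x i := by
      by_contra h
      exact hi' (if_neg h)
    rw [if_pos h1] at hi'
    obtain ⟨-, h2, -, ξ, hξ, z, hz, h3⟩ := hK' i hi' h1
    exact ⟨C.tr_cont x h2, x⁻¹ • ξ, ⟨ξ, hξ, rfl⟩, x⁻¹ • z, ⟨z, hz, rfl⟩, h3.ge⟩
  have htot : F'.tot = C.P F x := by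
    simp only [Fam.tot, P, Fam.mass, F']
  have h1 := hLB F' hgood
  rw [htot] at h1
  refine h1.trans (le_trans (le_of_eq ?_) (C.transfer F (C.sph n) (fun z => x * z)
    (fun a _ b _ h => mul_left_cancel h) (fun z i => C.hit F x i ∧ C.hit F' z i) _ (26 * C.δ) ?_))
  · refine Finset.sum_congr rfl fun z _ => ?_
    congr 1
    simp only [P, Fam.mass]
    refine Finset.sum_congr rfl fun i _ => ?_
    by_cases ha : C.hit F x i <;> by_cases hb : C.hit F' z i <;> simp [F', ha, hb]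
  · rintro z hz i hi ⟨ha, _, ⟨ζ, hζ, rfl⟩, hb⟩
    obtain ⟨h2, -, h3, -⟩ := hK' i hi ha
    obtain ⟨y, hy1, hy2, hy3⟩ := C.ring_cell x z n ((C.mem_sph n z).1 hz) (h3 hζ) hb
    exact ⟨y, hy1, hy2, ζ, h2 hζ, hy3⟩

/-- sum `ring` over `x ∈ T` with `n = N - len x`, then `sum_Eg_le` (`Nb x _ n ⊆ sph N`). -/
theorem ring_sum (F : Fam Z) (T : Finset G) (N m : ℕ) (e : ℝ)
    (hT : ∀ x ∈ T, C.len x ≤ N ∧ C.LB C.d0 (N - C.len x) e ∧
      ∀ i, F.w i ≠ 0 → Cont (F.K i) ∧ ∃ ζ ∈ F.K i, C.B x ζ < C.len x - 4 * C.δ)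
    (hm : ∀ y, ∀ T' ⊆ T, (∀ x ∈ T', (C.len x : ℝ) - 5 * C.δ ≤ C.gp y x) → T'.card ≤ m) :
    e * C.Eg F T ≤ ((C.b ^ (26 * C.δ) : ℕ) : ℝ) ^ 2 * m * C.Eg F (C.sph N) := by
  have h1 : e * C.Eg F T ≤ ∑ x ∈ T, ((C.b ^ (26 * C.δ) : ℕ) : ℝ) ^ 2 *
      C.Eg F (C.Nb x (5 * C.δ) (N - C.len x)) := by
    rw [Eg, Finset.mul_sum]
    exact Finset.sum_le_sum fun x hx => C.ring F x _ e (hT x hx).2.1 (hT x hx).2.2
  rw [← Finset.mul_sum] at h1
  have h2 := C.sum_Eg_le F T (fun x => C.Nb x (5 * C.δ) (N - C.len x)) (C.sph N) m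
    (fun x hx y hy _ => (C.mem_sph N y).2 (by
      have := ((C.mem_Nb _ _ _ _).1 hy).1
      have := (hT x hx).1
      omega))
    (fun y T' hT' h => hm y T' hT' fun x hx => ((C.mem_Nb _ _ _ _).1 (h x hx)).2)
  rw [mul_assoc]
  exact h1.trans (mul_le_mul_of_nonneg_left h2 (sq_nonneg _))

/-- For `x, x' ∈ T'` with `len x ≤ len x'`: `gp x x' ≥ len x - 6δ` (`hyp`), `Adm.close` gives
`len x' ≤ len x + δ + 1`, `len_eq`; then `card_le_of_pair`. -/
theorem sig_overlap (k D : ℕ) (hD : 7 * C.δ + 1 ≤ D) {l : G → ℝ} (hl : C.Adm l) (y : G)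
    (T' : Finset G) (hT' : T' ⊆ C.Sig k l D)
    (h : ∀ x ∈ T', (C.len x : ℝ) - 5 * C.δ ≤ C.gp y x) : T'.card ≤ C.b ^ (13 * C.δ + 1) := by
  have key : ∀ x ∈ T', ∀ x' ∈ T', C.len x ≤ C.len x' → C.len (x⁻¹ * x') ≤ 13 * C.δ + 1 := by
    intro x hx x' hx' hle
    have hle' : (C.len x : ℝ) ≤ C.len x' := by exact_mod_cast hle
    have hD' : (7 * C.δ + 1 : ℝ) ≤ D := by exact_mod_cast hD
    obtain ⟨-, a1, -⟩ := (C.mem_Sig _ _ _ _).1 (hT' hx)
    obtain ⟨-, -, a2⟩ := (C.mem_Sig _ _ _ _).1 (hT' hx')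
    have b1 := h x hx
    have b2 := h x' hx'
    have b3 := C.hyp' x y x'
    rw [C.gp_comm x y] at b3
    have b4 : (C.len x : ℝ) - 5 * C.δ ≤ min (C.gp y x) (C.gp y x') := le_min b1 (by linarith)
    have b5 : l x + C.δ < C.gp x' x := by rw [C.gp_comm x' x]; linarith
    have b6 := (abs_le.1 (Adm.close C hl b5)).2
    have b7 := C.len_eq x x'
    have : (C.len (x⁻¹ * x') : ℝ) ≤ ((13 * C.δ + 1 : ℕ) : ℝ) := by push_cast; linarith
    exact_mod_cast this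
  refine C.card_le_of_pair T' _ fun x hx x' hx' => ?_
  rcases le_total (C.len x) (C.len x') with hle | hle
  · exact key x hx x' hx' hle
  · have := key x' hx' x hx hle
    rwa [← C.len_inv, mul_inv_rev, inv_inv] at this

/-- Record low.  Let `η' = min η (1/b^k1)`, `N` minimal with `¬ LB d0 N η'` (`Nat.find`);
`LB_trivial` gives `k1 < N`.  A witness `F` has `Eg F (sph N) < η' tot²`, so `tot > 0`; divide the
weights by `tot`.  For `x ∈ Sig k1 l D`: `0 < 8δ+2 ≤ len x ≤ k1`, so `LB d0 (N - len x) η'` holds;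
`Good.far'`, `ring_sum`, `sig_overlap`, divide by `η'`. -/
theorem record (h : ¬ ∃ e : ℝ, 0 < e ∧ ∀ n, C.LB C.d0 n e) (η : ℝ) (hη : 0 < η) (k1 : ℕ) :
    ∃ (F : Fam Z) (N : ℕ), C.Good F ∧ F.tot = 1 ∧ C.Eg F (C.sph N) ≤ η ∧
      ∀ (D k0 : ℕ), 7 * C.δ + 1 ≤ D → 8 * C.δ + 2 ≤ k0 →
        C.Bd F k1 D k0 k1 (((C.b ^ (26 * C.δ) : ℕ) : ℝ) ^ 2 * (C.b ^ (13 * C.δ + 1) : ℕ)) := by
  classical
  have hb1 : (1 : ℝ) ≤ (C.b : ℝ) := by exact_mod_cast C.one_le_b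
  set η' : ℝ := min η (1 / ((C.b ^ k1 : ℕ) : ℝ)) with hη'
  have hη'0 : 0 < η' := lt_min hη (by push_cast; positivity)
  have hex : ∃ n, ¬ C.LB C.d0 n η' := by
    by_contra hcon
    push Not at hcon
    exact h ⟨η', hη'0, hcon⟩
  have hmono : ∀ n (e e' : ℝ), e' ≤ e → C.LB C.d0 n e → C.LB C.d0 n e' := fun n e e' he hL F hF =>
    (mul_le_mul_of_nonneg_right he (sq_nonneg _)).trans (hL F hF)
  have hk1 : k1 < Nat.find hex := by
    by_contra hcon
    push Not at hcon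
    refine Nat.find_spec hex (hmono _ _ _ ?_ (C.LB_trivial C.d0 _))
    refine (min_le_right _ _).trans ?_
    push_cast
    exact one_div_le_one_div_of_le (by positivity) (pow_le_pow_right₀ hb1 hcon)
  have hspec := Nat.find_spec hex
  have hmin : ∀ n, n < Nat.find hex → C.LB C.d0 n η' := fun n hn =>
    not_not.1 (Nat.find_min hex hn)
  generalize Nat.find hex = N at hk1 hspec hmin
  unfold LB at hspec
  push Not at hspec
  obtain ⟨F₀, hF₀, hlt⟩ := hspec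
  have htot : 0 < F₀.tot := by
    rcases F₀.tot_nonneg.eq_or_lt with h0 | h0
    · rw [← h0] at hlt
      have := C.Eg_nonneg F₀ (C.sph N)
      linarith
    · exact h0
  let F : Fam Z := ⟨F₀.ι, fun i => F₀.w i / F₀.tot, F₀.K,
    fun i => div_nonneg (F₀.w_nonneg i) htot.le⟩
  have hgood : C.Good F := fun i hi => hF₀ i fun h0 => hi (by simp [F, h0])
  have hP : ∀ x, C.P F x = C.P F₀ x / F₀.tot := by
    intro x
    unfold P Fam.mass
    rw [Finset.sum_div]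
    refine Finset.sum_congr rfl fun i _ => ?_
    by_cases hi : C.hit F₀ x i
    · have hi' : C.hit F x i := hi
      rw [if_pos hi, if_pos hi']
    · have hi' : ¬ C.hit F x i := hi
      rw [if_neg hi, if_neg hi', zero_div]
  have hE : C.Eg F (C.sph N) ≤ η' := by
    have e : C.Eg F (C.sph N) = C.Eg F₀ (C.sph N) / F₀.tot ^ 2 := by
      unfold Eg
      rw [Finset.sum_div]
      exact Finset.sum_congr rfl fun x _ => by rw [hP, div_pow]
    rw [e, div_le_iff₀ (by positivity)]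
    exact hlt.le
  refine ⟨F, N, hgood, ?_, hE.trans (min_le_left _ _), fun D k0 hD hk0 l hl hlb => ?_⟩
  · show ∑ i, F₀.w i / F₀.tot = 1
    rw [← Finset.sum_div]
    exact div_self htot.ne'
  · have key := C.ring_sum F (C.Sig k1 l D) N (C.b ^ (13 * C.δ + 1)) η' (fun x hx => ?_)
      (fun y T' hT' h' => C.sig_overlap k1 D hD hl y T' hT' h')
    · have h1 : (0 : ℝ) ≤ ((C.b ^ (26 * C.δ) : ℕ) : ℝ) ^ 2 * (C.b ^ (13 * C.δ + 1) : ℕ) := by
        positivity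
      have h2 := key.trans (mul_le_mul_of_nonneg_left hE h1)
      rw [mul_comm _ η'] at h2
      exact le_of_mul_le_mul_left h2 hη'0
    · obtain ⟨h1, h2, -⟩ := (C.mem_Sig k1 l D x).1 hx
      have h3 : 8 * C.δ + 2 ≤ C.len x := by
        have h4 := (hlb x).1
        have h5 : ((8 * C.δ + 2 : ℕ) : ℝ) ≤ k0 := by exact_mod_cast hk0
        have h6 : (0 : ℝ) ≤ D := Nat.cast_nonneg D
        have : ((8 * C.δ + 2 : ℕ) : ℝ) ≤ C.len x := by linarith
        exact_mod_cast this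
      exact ⟨by omega, hmin _ (by omega), fun i hi => ⟨(hgood i hi).1, hgood.far' C hi x h3⟩⟩

/-- Smaller diameters.  Choose `n1` with `a^(5δ - n1) < d`: two points at distance `≥ d` cannot
both have `B x · ≥ n1 - 4δ` when `len x = n1` (`dist_le_of_B`).  For `N ≥ n1`: `ring_sum` with
`T = sph n1`, `m = b^n1`, and `LB_trivial d n1`; for `N < n1`: `LB_trivial d N`. -/
theorem LB_any (e : ℝ) (he : 0 < e) (h : ∀ n, C.LB C.d0 n e) (d : ℝ) (hd : 0 < d) :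
    ∃ e' : ℝ, 0 < e' ∧ ∀ n, C.LB d n e' := by
  obtain ⟨n1, hn1⟩ : ∃ n1 : ℕ, C.a ^ (5 * (C.δ : ℝ) - n1) < d := by
    have h1 : Filter.Tendsto (fun n : ℕ => 5 * (C.δ : ℝ) - n) Filter.atTop Filter.atBot :=
      Filter.tendsto_atBot_add_const_left _ _
        (Filter.tendsto_neg_atTop_atBot.comp tendsto_natCast_atTop_atTop)
    exact (((tendsto_rpow_atBot_of_base_gt_one C.a C.one_lt_a).comp h1).eventually
      (gt_mem_nhds hd)).exists
  have hb : ∀ k : ℕ, (0 : ℝ) < ((C.b ^ k : ℕ) : ℝ) := fun k => by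
    have := C.one_le_b
    positivity
  set c : ℝ := ((C.b ^ (26 * C.δ) : ℕ) : ℝ) ^ 2 with hc
  have hc0 : 0 < c := pow_pos (hb _) 2
  set m : ℝ := ((C.b ^ n1 : ℕ) : ℝ) with hm
  have hm0 : 0 < m := hb _
  refine ⟨min (e / (c * m * m)) (1 / m), lt_min (by positivity) (by positivity),
    fun N F hF => ?_⟩
  rcases le_total n1 N with hN | hN
  · have h1 := C.ring_sum F (C.sph n1) N (C.b ^ n1) e (fun x hx => ?_)
      fun y T' hT' _ => (Finset.card_le_card hT').trans (C.card_sph n1)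
    · have h2 := C.LB_trivial d n1 F hF
      have h3 : e * (1 / m * F.tot ^ 2) ≤ c * m * C.Eg F (C.sph N) :=
        (mul_le_mul_of_nonneg_left h2 he.le).trans h1
      refine (mul_le_mul_of_nonneg_right (min_le_left _ _) (sq_nonneg _)).trans ?_
      rw [div_mul_eq_mul_div, div_le_iff₀ (by positivity)]
      have h4 := mul_le_mul_of_nonneg_right h3 hm0.le
      have h5 : e * (1 / m * F.tot ^ 2) * m = e * F.tot ^ 2 := by field_simp
      rw [h5] at h4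
      linarith
    · have hx' := (C.mem_sph n1 x).1 hx
      refine ⟨hx'.le.trans hN, h _, fun i hi => ?_⟩
      obtain ⟨hc, ξ, hξ, ζ, hζ, hd'⟩ := hF i hi
      refine ⟨hc, ?_⟩
      by_contra hcon
      push Not at hcon
      have := C.dist_le_of_B x ξ ζ _ (hcon ξ hξ) (hcon ζ hζ)
      rw [hx', show (C.δ : ℝ) - (n1 - 4 * C.δ) = 5 * C.δ - n1 by ring] at this
      linarith
  · refine le_trans (mul_le_mul_of_nonneg_right ((min_le_right _ _).trans ?_) (sq_nonneg _))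
      (C.LB_trivial d N F hF)
    refine one_div_le_one_div_of_le (hb N) ?_
    rw [hm]
    exact_mod_cast Nat.pow_le_pow_right C.one_le_b hN

end CD

end Crest.Agent.R193.Core
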