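import Crest.Agent.R193.EM2
import Crest.Agent.R193.VisBasic

/-! Row 193 [E], group layer: definitions of the invariant energy. -/

set_option autoImplicit false

open Set Filter Topology MeasureTheory Metric

namespace Crest.Agent.R193.E

/-- bounded real sequence -/
def SeqBdd (u : ℕ → ℝ) : Prop := ∃ M : ℝ, ∀ n, |u n| ≤ M

/-- Cesaro means -/
noncomputable def ces (u : ℕ → ℝ) (M : ℕ) : ℝ := (∑ n ∈ Finset.range M, u n) / M

/-- ultralimit of the Cesaro means -/
noncomputable def ulim (u : ℕ → ℝ) : ℝ := limUnder (hyperfilter ℕ : Filter ℕ) (ces u)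

theorem h58_hyp : (hyperfilter ℕ : Filter ℕ) ≤ atTop := by
  rw [← Nat.cofinite_eq_atTop]
  exact hyperfilter_le_cofinite

theorem h58_ces_le {u : ℕ → ℝ} {c : ℝ} (H : ∀ n, u n ≤ c) {M : ℕ} (hM : 1 ≤ M) : ces u M ≤ c := by
  have hM' : (0 : ℝ) < M := by exact_mod_cast hM
  rw [ces, div_le_iff₀ hM']
  have := Finset.sum_le_card_nsmul (Finset.range M) u c fun n _ => H n
  rw [Finset.card_range, nsmul_eq_mul] at this
  linarith

theorem h58_le_ces {u : ℕ → ℝ} {c : ℝ} (H : ∀ n, c ≤ u n) {M : ℕ} (hM : 1 ≤ M) : c ≤ ces u M := by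
  have hM' : (0 : ℝ) < M := by exact_mod_cast hM
  rw [ces, le_div_iff₀ hM']
  have := Finset.card_nsmul_le_sum (Finset.range M) u c fun n _ => H n
  rw [Finset.card_range, nsmul_eq_mul] at this
  linarith

/-- `|ces u M| ≤ bound`, `IsCompact.ultrafilter_le_nhds` on `Icc`, `tendsto_nhds_limUnder`. -/
theorem tendsto_ulim {u : ℕ → ℝ} (hu : SeqBdd u) :
    Tendsto (ces u) (hyperfilter ℕ : Filter ℕ) (𝓝 (ulim u)) := by
  obtain ⟨M, hM⟩ := hu
  have h1 : (↑((hyperfilter ℕ).map (ces u)) : Filter ℝ) ≤ 𝓟 (Icc (-M) M) := by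
    rw [Ultrafilter.coe_map, le_principal_iff, mem_map]
    refine h58_hyp ?_
    filter_upwards [eventually_ge_atTop 1] with n hn
    exact ⟨h58_le_ces (fun k => (abs_le.1 (hM k)).1) hn,
      h58_ces_le (fun k => (abs_le.1 (hM k)).2) hn⟩
  obtain ⟨x, -, hx⟩ := isCompact_Icc.ultrafilter_le_nhds _ h1
  exact tendsto_nhds_limUnder ⟨x, hx⟩

theorem ulim_add {u v : ℕ → ℝ} (hu : SeqBdd u) (hv : SeqBdd v) :
    ulim (fun n => u n + v n) = ulim u + ulim v := by
  have huv : SeqBdd fun n => u n + v n := by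
    obtain ⟨M, hM⟩ := hu
    obtain ⟨N, hN⟩ := hv
    exact ⟨M + N, fun n => (abs_add_le _ _).trans (add_le_add (hM n) (hN n))⟩
  refine tendsto_nhds_unique (tendsto_ulim huv) ?_
  refine ((tendsto_ulim hu).add (tendsto_ulim hv)).congr fun M => ?_
  simp only [ces, Finset.sum_add_distrib, add_div]

theorem ulim_mul (c : ℝ) {u : ℕ → ℝ} (hu : SeqBdd u) : ulim (fun n => c * u n) = c * ulim u := by
  have huv : SeqBdd fun n => c * u n := by
    obtain ⟨M, hM⟩ := hu
    exact ⟨|c| * M, fun n => by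
      rw [abs_mul]; exact mul_le_mul_of_nonneg_left (hM n) (abs_nonneg c)⟩
  refine tendsto_nhds_unique (tendsto_ulim huv) ?_
  refine ((tendsto_ulim hu).const_mul c).congr fun M => ?_
  simp only [ces, ← Finset.mul_sum, mul_div_assoc]

/-- `hyperfilter ℕ ≤ cofinite = atTop`. -/
theorem ulim_congr_ces {u v : ℕ → ℝ} (hu : SeqBdd u) (hv : SeqBdd v)
    (H : Tendsto (fun M => ces u M - ces v M) atTop (𝓝 0)) : ulim u = ulim v := by
  have h1 := (tendsto_ulim hu).sub (tendsto_ulim hv)
  exact sub_eq_zero.1 (tendsto_nhds_unique h1 (H.mono_left h58_hyp))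

/-- Cesaro (`Filter.Tendsto.cesaro`). -/
theorem ulim_congr {u v : ℕ → ℝ} (hu : SeqBdd u) (hv : SeqBdd v)
    (H : Tendsto (fun n => u n - v n) atTop (𝓝 0)) : ulim u = ulim v := by
  refine ulim_congr_ces hu hv (H.cesaro.congr fun M => ?_)
  simp only [ces, Finset.sum_sub_distrib]
  ring

theorem ulim_le {u : ℕ → ℝ} (hu : SeqBdd u) {c : ℝ} (H : ∀ᶠ n in atTop, u n ≤ c) :
    ulim u ≤ c := by
  have hv : SeqBdd fun n => min (u n) c := by
    obtain ⟨M, hM⟩ := hu
    refine ⟨max M |c|, fun n => ?_⟩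
    rcases min_cases (u n) c with h | h
    · show |min (u n) c| ≤ _
      rw [h.1]; exact (hM n).trans (le_max_left _ _)
    · show |min (u n) c| ≤ _
      rw [h.1]; exact le_max_right _ _
  rw [ulim_congr hu hv (tendsto_const_nhds.congr' (by
    filter_upwards [H] with n hn
    rw [min_eq_left hn, sub_self]))]
  refine le_of_tendsto (tendsto_ulim hv) (h58_hyp ?_)
  filter_upwards [eventually_ge_atTop 1] with n hn
  exact h58_ces_le (fun k => min_le_right _ _) hn

theorem le_ulim {u : ℕ → ℝ} (hu : SeqBdd u) {c : ℝ} (H : ∀ᶠ n in atTop, c ≤ u n) :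
    c ≤ ulim u := by
  have hv : SeqBdd fun n => max (u n) c := by
    obtain ⟨M, hM⟩ := hu
    refine ⟨max M |c|, fun n => ?_⟩
    rcases max_cases (u n) c with h | h
    · show |max (u n) c| ≤ _
      rw [h.1]; exact (hM n).trans (le_max_left _ _)
    · show |max (u n) c| ≤ _
      rw [h.1]; exact le_max_right _ _
  rw [ulim_congr hu hv (tendsto_const_nhds.congr' (by
    filter_upwards [H] with n hn
    rw [max_eq_left hn, sub_self]))]
  refine ge_of_tendsto (tendsto_ulim hv) (h58_hyp ?_)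
  filter_upwards [eventually_ge_atTop 1] with n hn
  exact h58_le_ces (fun k => le_max_right _ _) hn

theorem frequently_le_ulim {u : ℕ → ℝ} (hu : SeqBdd u) {ε : ℝ} (hε : 0 < ε) :
    ∃ᶠ n in atTop, u n ≤ ulim u + ε := by
  by_contra hcon
  rw [not_frequently] at hcon
  have := le_ulim hu (c := ulim u + ε) (hcon.mono fun n hn => (not_le.1 hn).le)
  linarith

/-- the data defining the energy -/
structure Data (G Z : Type) [Group G] [MetricSpace Z] [MulAction G Z] [MeasurableSpace Z] where
  /-- the visual structure -/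
  V : Visual G Z
  /-- size of the supports -/
  d : ℝ
  /-- two base points -/
  a : Bool → Z
  /-- two Frostman measures -/
  ν : Bool → Measure Z
  /-- partition of unity -/
  θ : Bool → Z → ℝ
  /-- range of the interaction -/
  R : ℕ
  d_pos : 0 < d
  frost : ∀ i, Frost 2 (a i) d (ν i)
  supp : ∀ i, ∀ᵐ ξ ∂(ν i), dist ξ (a i) ≤ d
  θ_cont : ∀ i, Continuous (θ i)
  θ_nonneg : ∀ i z, 0 ≤ θ i z
  θ_sum : ∀ z, θ true z + θ false z = 1
  θ_zero : ∀ i z, dist z (a i) < 3 * d → θ i z = 0
  hR : ∀ x y : G, V.len x = V.len y → dist (V.ctr x) (V.ctr y) ≤ (2 * V.C + 2) * V.sz x →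
    V.len (x⁻¹ * y) ≤ R

/-- two points `a true ≠ a false`, `d = dist / 10`, `exists_frost`, Urysohn for the closed balls of
radius `3 d`, `exists_len_le_of_rho2`. -/
theorem exists_data {G Z : Type} [Group G] [MetricSpace Z] [MulAction G Z] [MeasurableSpace Z]
    [BorelSpace Z] (V : Visual G Z) (hZ : Nonempty (Z ≃ₜ S2)) : Nonempty (Data G Z) := by
  have := nontrivial_of_S2 hZ
  obtain ⟨p, q, hpq⟩ := exists_pair_ne Z
  have hd : 0 < dist p q := dist_pos.2 hpq
  set d : ℝ := dist p q / 10 with hdd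
  have hd0 : 0 < d := by positivity
  obtain ⟨ν₁, h₁, h₁'⟩ := exists_frost hZ (a := p) (b := q) hd0 (by linarith)
  obtain ⟨ν₂, h₂, h₂'⟩ := exists_frost hZ (a := q) (b := p) hd0 (by rw [dist_comm]; linarith)
  obtain ⟨R, hR⟩ := V.exists_len_le_of_rho2 (2 * V.C + 2)
  set t : Z → ℝ := fun z => max 0 (min 1 ((dist z p - 3 * d) / d)) with ht
  have htc : Continuous t := by fun_prop
  refine ⟨{ V := V, d := d, a := fun i => if i then p else q, ν := fun i => if i then ν₁ else ν₂,
            θ := fun i => if i then t else fun z => 1 - t z, R := R, d_pos := hd0,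
            frost := ?_, supp := ?_, θ_cont := ?_, θ_nonneg := ?_, θ_sum := ?_, θ_zero := ?_,
            hR := ?_ }⟩
  · rintro (_ | _)
    · simpa using h₂
    · simpa using h₁
  · rintro (_ | _)
    · simpa using h₂'
    · simpa using h₁'
  · rintro (_ | _)
    · exact continuous_const.sub htc
    · simpa using htc
  · rintro (_ | _) z
    · have : t z ≤ 1 := max_le zero_le_one (min_le_left _ _)
      simpa using this
    · have : 0 ≤ t z := le_max_left _ _
      simpa using this
  · intro z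
    simp
  · rintro (_ | _) z hz
    · have hz' : dist z q < 3 * d := by simpa using hz
      have h1 := dist_triangle p z q
      rw [dist_comm p z] at h1
      have h2 : 1 ≤ (dist z p - 3 * d) / d := by
        rw [le_div_iff₀ hd0]; linarith
      have : t z = 1 := by
        simp only [ht, min_eq_left h2, max_eq_right zero_le_one]
      simp [this]
    · have hz' : dist z p < 3 * d := by simpa using hz
      have h2 : (dist z p - 3 * d) / d ≤ 0 := div_nonpos_of_nonpos_of_nonneg (by linarith) hd0.le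
      have : t z = 0 := max_eq_left ((min_le_right _ _).trans h2)
      simp [this]
  · intro x y hxy hdist
    have hs : V.sz y = V.sz x := by rw [V.sz_eq hxy, V.sz_eq rfl]
    have hx := V.sz_pos x
    have hC := V.C_pos
    have h1 : V.rho2 x y ≤ (2 * V.C + 2) * V.sz x :=
      V.rho2_le (by nlinarith) (by rw [hs]; nlinarith) hdist
    exact hR x y h1 (by rw [hs]; exact h1)

namespace Data

variable {G Z : Type} [Group G] [MetricSpace Z] [MulAction G Z] [MeasurableSpace Z]
  (D : Data G Z)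

/-- the measure of the cell `(x, i)` -/
noncomputable def m (x : G) (i : Bool) : Measure Z := (D.ν i).map (fun ζ => x • ζ)

/-- the weight of the cell `(x, i)` -/
def w (x : G) (i : Bool) : ℝ := D.θ i (D.V.ctr x⁻¹)

/-- active cells -/
def act (x : G) (i : Bool) : Prop := 2 * D.d ≤ dist (D.V.ctr x⁻¹) (D.a i)

/-- energy of a pair of cells -/
noncomputable def pe (h f k : Z → ℝ) (x : G) (i : Bool) (y : G) (j : Bool) : ℝ :=
  ∫ q : Z × Z, h q.1 * ((f q.1 - f q.2) * (k q.1 - k q.2)) ∂((D.m x i).prod (D.m y j))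

/-- weighted energy at the vertex `x` -/
noncomputable def loc (h f k : Z → ℝ) (x : G) : ℝ :=
  ∑ s ∈ D.V.ballF D.R, ∑ i : Bool, ∑ j : Bool, D.w x i * D.w (x * s) j * D.pe h f k x i (x * s) j

/-- energy at level `n` -/
noncomputable def Bn (n : ℕ) (h f k : Z → ℝ) : ℝ := ∑ x ∈ D.V.level n, D.loc h f k x

open Classical in
/-- unweighted energy of the active pairs at the vertex `x` -/
noncomputable def locp (f : Z → ℝ) (x : G) : ℝ :=
  ∑ s ∈ D.V.ballF D.R, ∑ i : Bool, ∑ j : Bool,
    if D.act x i ∧ D.act (x * s) j then D.pe 1 f f x i (x * s) j else 0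

/-- unweighted energy at level `n` -/
noncomputable def Ep (n : ℕ) (f : Z → ℝ) : ℝ := ∑ x ∈ D.V.level n, D.locp f x

/-- finite energy -/
def Mem (f : Z → ℝ) : Prop := Continuous f ∧ ∃ M : ℝ, ∀ n, D.Bn n 1 f f ≤ M

/-- the invariant energy -/
noncomputable def B (h f k : Z → ℝ) : ℝ := ulim fun n => D.Bn n h f k

open Classical in
/-- a cell of weight at least `1/2` -/
noncomputable def sel (x : G) : Bool := decide (1 / 2 ≤ D.w x true)

/-- average over the selected cell -/
noncomputable def avg (f : Z → ℝ) (x : G) : ℝ := ∫ ξ, f ξ ∂(D.m x (D.sel x))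

/-- discretisation at level `N` -/
noncomputable def disc (f : Z → ℝ) (N : ℕ) (ξ : Z) : ℝ := D.avg f (D.V.ray ξ N)

end Data

end Crest.Agent.R193.E
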