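import Crest.Agent.R193.EA0

/-! Row 193 [E], group layer: algebra of the level energies. -/

set_option autoImplicit false

open Set Filter Topology MeasureTheory Metric

namespace Crest.Agent.R193.E

namespace Data

variable {G Z : Type} [Group G] [MetricSpace Z] [CompactSpace Z] [MulAction G Z] [MeasurableSpace Z]
  [BorelSpace Z] (D : Data G Z)

theorem m_prob (x : G) (i : Bool) : IsProbabilityMeasure (D.m x i) := by
  haveI := (D.frost i).prob
  exact Measure.isProbabilityMeasure_map (D.V.continuous_smul x).measurable.aemeasurable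

theorem h69_m_mul (g x : G) (i : Bool) : D.m (g * x) i = (D.m x i).map (fun ζ => g • ζ) := by
  unfold m
  rw [Measure.map_map (D.V.continuous_smul g).measurable (D.V.continuous_smul x).measurable]
  congr 1
  funext ζ
  simp only [Function.comp, mul_smul]

theorem h69_integrable {F : Z × Z → ℝ} (hF : Continuous F) (x : G) (i : Bool) (y : G) (j : Bool) :
    Integrable F ((D.m x i).prod (D.m y j)) := by
  haveI := D.m_prob x i
  haveI := D.m_prob y j
  exact hF.integrable_of_hasCompactSupport (HasCompactSupport.of_compactSpace F)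

/-- equivariance of the cells -/
theorem pe_inv (g : G) {h f k : Z → ℝ} (hh : Continuous h) (hf : Continuous f) (hk : Continuous k)
    (x : G) (i : Bool) (y : G) (j : Bool) :
    D.pe (fun z => h (g • z)) (fun z => f (g • z)) (fun z => k (g • z)) x i y j =
      D.pe h f k (g * x) i (g * y) j := by
  haveI := D.m_prob x i
  haveI := D.m_prob y j
  have hg := (D.V.continuous_smul g).measurable
  unfold pe
  rw [D.h69_m_mul g x i, D.h69_m_mul g y j, Measure.map_prod_map _ _ hg hg,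
    integral_map (hg.prodMap hg).aemeasurable (Continuous.aestronglyMeasurable (by fun_prop))]
  rfl

theorem w_nonneg (x : G) (i : Bool) : 0 ≤ D.w x i := by
  exact D.θ_nonneg _ _

theorem w_le_one (x : G) (i : Bool) : D.w x i ≤ 1 := by
  have h := D.θ_sum (D.V.ctr x⁻¹)
  have h1 := D.θ_nonneg true (D.V.ctr x⁻¹)
  have h2 := D.θ_nonneg false (D.V.ctr x⁻¹)
  unfold w
  cases i <;> linarith

theorem act_of_w {x : G} {i : Bool} (h : D.w x i ≠ 0) : D.act x i := by
  unfold act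
  by_contra hn
  have := D.d_pos
  exact h (D.θ_zero i _ (by linarith [not_le.1 hn]))

theorem half_le_w_sel (x : G) : 1 / 2 ≤ D.w x (D.sel x) := by
  have h := D.θ_sum (D.V.ctr x⁻¹)
  by_cases hc : 1 / 2 ≤ D.w x true
  · have e : D.sel x = true := by unfold sel; exact decide_eq_true hc
    rw [e]; exact hc
  · have e : D.sel x = false := by unfold sel; exact decide_eq_false hc
    rw [e]
    unfold w at hc ⊢
    linarith [not_le.1 hc]

/-- For active `(y, j)`, `y = x s`: `ν j`-a.e. `ζ` has `d ≤ dist ζ (ctr y⁻¹) ≤ rho y⁻¹ ζ`, so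
`rho y (y • ζ) ≤ (C / d) sz y` (`rho_le_of_inv_far`), and `sz y ≍ sz x`,
`dist (ctr x) (ctr y) ≤ C a^R sz x` (`sz_le_of_len`, `rho2_le_of_len`).  Small balls: the preimage
of `ball z s` under `y • ·` has diameter `≤ 2 C s / sz y` (`le_dist_smul`). -/
theorem frost_m : ∃ T : ℝ, 0 < T ∧ ∀ x : G, ∀ s ∈ D.V.ballF D.R, ∀ j : Bool, D.act (x * s) j →
    Frost T (D.V.ctr x) (D.V.sz x) (D.m (x * s) j) := by
  have hC := D.V.C_pos
  have hd := D.d_pos
  have hp : 0 < D.V.a ^ D.R := pow_pos D.V.a_pos _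
  refine ⟨D.V.C / D.d * D.V.a ^ D.R + D.V.C * D.V.a ^ D.R + 4 * D.V.C * D.V.a ^ D.R / D.d,
    by positivity, fun x s hs j hj => ⟨D.m_prob _ _, ?_, fun z t ht => ?_⟩⟩
  all_goals
    have hL : D.V.len (x⁻¹ * (x * s)) ≤ D.R := by
      rw [inv_mul_cancel_left]; exact D.V.mem_ballF.1 hs
    have hx := D.V.sz_pos x
    have hy := D.V.sz_pos (x * s)
    have hm := (D.V.continuous_smul (x * s)).measurable
  · have h1 := D.V.sz_le_of_len hL
    have h2 := (D.V.dist_le_rho2 _ _).trans (D.V.rho2_le_of_len hL)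
    refine (ae_map_iff hm.aemeasurable
      (isClosed_le (by fun_prop) continuous_const).measurableSet).2 ?_
    filter_upwards [D.supp j] with ζ hζ
    have h3 : D.d ≤ D.V.rho (x * s)⁻¹ ((x * s)⁻¹ • (x * s) • ζ) := by
      rw [inv_smul_smul]
      refine le_trans ?_ (D.V.dist_le_rho _ _)
      have a1 : 2 * D.d ≤ dist (D.V.ctr (x * s)⁻¹) (D.a j) := hj
      have a2 := dist_triangle_left (D.V.ctr (x * s)⁻¹) (D.a j) ζ
      linarith
    have h4 := (D.V.dist_le_rho _ _).trans (D.V.rho_le_of_inv_far hd h3)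
    have h5 := dist_triangle_right ((x * s) • ζ) (D.V.ctr x) (D.V.ctr (x * s))
    have h6 := mul_le_mul_of_nonneg_left h1 (div_pos hC hd).le
    have h7 : 0 ≤ 4 * D.V.C * D.V.a ^ D.R / D.d * D.V.sz x := by positivity
    linarith
  · have h1 : D.V.sz x ≤ D.V.a ^ D.R * D.V.sz (x * s) :=
      D.V.sz_le_of_len (by rwa [D.V.len_inv_mul_comm])
    have := (D.frost j).prob
    rw [m, map_measureReal_apply hm measurableSet_ball]
    rcases ((fun ζ => (x * s) • ζ) ⁻¹' ball z t).eq_empty_or_nonempty with h0 | ⟨ζ₀, h0⟩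
    · rw [h0, measureReal_empty]
      positivity
    · have h2 : (fun ζ => (x * s) • ζ) ⁻¹' ball z t ⊆ ball ζ₀ (2 * D.V.C * t / D.V.sz (x * s)) := by
        intro ζ hζ
        have a1 := D.V.le_dist_smul (x * s) ζ ζ₀
        have a2 := dist_triangle_right ((x * s) • ζ) ((x * s) • ζ₀) z
        have a3 : dist ((x * s) • ζ) z < t := hζ
        have a4 : dist ((x * s) • ζ₀) z < t := h0
        have a5 : dist ((x * s) • ζ) ((x * s) • ζ₀) < 2 * t := by linarith
        have a6 := mul_lt_mul_of_pos_left a5 hC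
        rw [mem_ball, lt_div_iff₀ hy]
        linarith
      refine (measureReal_mono h2).trans (((D.frost j).small _ _ (by positivity)).trans ?_)
      calc 2 * (2 * D.V.C * t / D.V.sz (x * s)) / D.d
          = 4 * D.V.C * D.V.a ^ D.R / D.d * t / (D.V.a ^ D.R * D.V.sz (x * s)) := by
            field_simp
            ring
        _ ≤ 4 * D.V.C * D.V.a ^ D.R / D.d * t / D.V.sz x := by gcongr
        _ ≤ _ := by
            gcongr
            have : 0 ≤ D.V.C / D.d * D.V.a ^ D.R + D.V.C * D.V.a ^ D.R := by positivity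
            linarith

theorem frost_m' : ∃ T : ℝ, 0 < T ∧ ∀ x : G, ∀ s ∈ D.V.ballF D.R, ∀ i j : Bool, D.act x i →
    D.act (x * s) j → Frost T (D.V.ctr x) (D.V.sz x) (D.m x i) ∧
      Frost T (D.V.ctr x) (D.V.sz x) (D.m (x * s) j) ∧
      ∀ᵐ q ∂((D.m x i).prod (D.m (x * s) j)), dist q.1 (D.V.ctr x) ≤ T * D.V.sz x ∧
        dist q.1 q.2 ≤ 2 * T * D.V.sz x := by
  obtain ⟨T, hT, H⟩ := D.frost_m
  refine ⟨T, hT, fun x s hs i j hi hj => ?_⟩
  have h1 := H x 1 (D.V.mem_ballF.2 (by rw [D.V.len_one]; exact Nat.zero_le _)) i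
    (by rwa [mul_one])
  rw [mul_one] at h1
  have h2 := H x s hs j hj
  have := h1.prob
  have := h2.prob
  refine ⟨h1, h2, ?_⟩
  filter_upwards [Measure.quasiMeasurePreserving_fst.ae h1.supp,
    Measure.quasiMeasurePreserving_snd.ae h2.supp] with q a1 a2
  refine ⟨a1, ?_⟩
  have := dist_triangle_right q.1 q.2 (D.V.ctr x)
  linarith

theorem pe_nonneg {h f : Z → ℝ} (h0 : ∀ z, 0 ≤ h z) (x : G) (i : Bool) (y : G) (j : Bool) :
    0 ≤ D.pe h f f x i y j := by
  exact integral_nonneg fun q => mul_nonneg (h0 _) (mul_self_nonneg _)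

/-- `|h a b| ≤ c (a² + b²) / 2` pointwise -/
theorem abs_pe_le {h f k : Z → ℝ} (hh : Continuous h) (hf : Continuous f) (hk : Continuous k)
    {c : ℝ} (hc : ∀ z, |h z| ≤ c) (x : G) (i : Bool) (y : G) (j : Bool) :
    |D.pe h f k x i y j| ≤ c * (D.pe 1 f f x i y j + D.pe 1 k k x i y j) / 2 := by
  have i1 := D.h69_integrable (F := fun q : Z × Z => (1 : Z → ℝ) q.1 *
    ((f q.1 - f q.2) * (f q.1 - f q.2))) (by simp only [Pi.one_apply]; fun_prop) x i y j
  have i2 := D.h69_integrable (F := fun q : Z × Z => (1 : Z → ℝ) q.1 *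
    ((k q.1 - k q.2) * (k q.1 - k q.2))) (by simp only [Pi.one_apply]; fun_prop) x i y j
  unfold pe
  rw [← integral_add i1 i2, ← integral_const_mul, ← integral_div, ← Real.norm_eq_abs]
  refine norm_integral_le_of_norm_le (((i1.add i2).const_mul c).div_const 2)
    (Eventually.of_forall fun q => ?_)
  simp only [Pi.one_apply, one_mul, Real.norm_eq_abs]
  have h1 := hc q.1
  have h0 : 0 ≤ c := (abs_nonneg _).trans h1
  set a := f q.1 - f q.2
  set b := k q.1 - k q.2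
  have h2 : |a * b| ≤ (a * a + b * b) / 2 := by
    rw [abs_le]
    constructor <;> nlinarith [sq_nonneg (a + b), sq_nonneg (a - b)]
  rw [abs_mul]
  calc |h q.1| * |a * b| ≤ c * ((a * a + b * b) / 2) :=
        mul_le_mul h1 h2 (abs_nonneg _) h0
    _ = _ := by ring

theorem loc_nonneg {h f : Z → ℝ} (h0 : ∀ z, 0 ≤ h z) (x : G) : 0 ≤ D.loc h f f x := by
  exact Finset.sum_nonneg fun s _ => Finset.sum_nonneg fun i _ => Finset.sum_nonneg fun j _ =>
    mul_nonneg (mul_nonneg (D.w_nonneg _ _) (D.w_nonneg _ _)) (D.pe_nonneg h0 _ _ _ _)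

theorem locp_nonneg (f : Z → ℝ) (x : G) : 0 ≤ D.locp f x := by
  refine Finset.sum_nonneg fun s _ => Finset.sum_nonneg fun i _ => Finset.sum_nonneg fun j _ => ?_
  split_ifs
  · exact D.pe_nonneg (fun _ => zero_le_one) _ _ _ _
  · exact le_rfl

theorem loc_le_locp (f : Z → ℝ) (x : G) : D.loc 1 f f x ≤ D.locp f x := by
  refine Finset.sum_le_sum fun s _ => Finset.sum_le_sum fun i _ => Finset.sum_le_sum fun j _ => ?_
  have hp : 0 ≤ D.pe 1 f f x i (x * s) j := D.pe_nonneg (fun _ => zero_le_one) _ _ _ _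
  split_ifs with hc
  · have h1 : D.w x i * D.w (x * s) j ≤ 1 :=
      mul_le_one₀ (D.w_le_one _ _) (D.w_nonneg _ _) (D.w_le_one _ _)
    exact mul_le_of_le_one_left hp h1
  · have h1 : D.w x i * D.w (x * s) j = 0 := by
      by_contra hne
      obtain ⟨a1, a2⟩ := mul_ne_zero_iff.1 hne
      exact hc ⟨D.act_of_w a1, D.act_of_w a2⟩
    rw [h1, zero_mul]

theorem abs_loc_le {h f k : Z → ℝ} (hh : Continuous h) (hf : Continuous f) (hk : Continuous k)
    {c : ℝ} (hc : ∀ z, |h z| ≤ c) (x : G) :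
    |D.loc h f k x| ≤ c * (D.loc 1 f f x + D.loc 1 k k x) / 2 := by
  unfold loc
  rw [← Finset.sum_add_distrib, Finset.mul_sum, Finset.sum_div]
  refine (Finset.abs_sum_le_sum_abs _ _).trans (Finset.sum_le_sum fun s _ => ?_)
  rw [← Finset.sum_add_distrib, Finset.mul_sum, Finset.sum_div]
  refine (Finset.abs_sum_le_sum_abs _ _).trans (Finset.sum_le_sum fun i _ => ?_)
  rw [← Finset.sum_add_distrib, Finset.mul_sum, Finset.sum_div]
  refine (Finset.abs_sum_le_sum_abs _ _).trans (Finset.sum_le_sum fun j _ => ?_)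
  have h0 : 0 ≤ D.w x i * D.w (x * s) j := mul_nonneg (D.w_nonneg _ _) (D.w_nonneg _ _)
  rw [abs_mul, abs_of_nonneg h0]
  refine (mul_le_mul_of_nonneg_left (D.abs_pe_le hh hf hk hc x i (x * s) j) h0).trans_eq ?_
  ring

theorem Bn_nonneg {h f : Z → ℝ} (h0 : ∀ z, 0 ≤ h z) (n : ℕ) : 0 ≤ D.Bn n h f f := by
  exact Finset.sum_nonneg fun x _ => D.loc_nonneg h0 x

theorem Bn_le_Ep (f : Z → ℝ) (n : ℕ) : D.Bn n 1 f f ≤ D.Ep n f := by
  exact Finset.sum_le_sum fun x _ => D.loc_le_locp f x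

theorem abs_Bn_le {h f k : Z → ℝ} (hh : Continuous h) (hf : Continuous f) (hk : Continuous k)
    {c : ℝ} (hc : ∀ z, |h z| ≤ c) (n : ℕ) :
    |D.Bn n h f k| ≤ c * (D.Bn n 1 f f + D.Bn n 1 k k) / 2 := by
  unfold Bn
  rw [← Finset.sum_add_distrib, Finset.mul_sum, Finset.sum_div]
  exact (Finset.abs_sum_le_sum_abs _ _).trans
    (Finset.sum_le_sum fun x _ => D.abs_loc_le hh hf hk hc x)

private theorem helper40_int {h f k : Z → ℝ} (hh : Continuous h) (hf : Continuous f)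
    (hk : Continuous k) (x : G) (i : Bool) (y : G) (j : Bool) :
    Integrable (fun q : Z × Z => h q.1 * ((f q.1 - f q.2) * (k q.1 - k q.2)))
      ((D.m x i).prod (D.m y j)) := by
  have := D.m_prob x i
  have := D.m_prob y j
  exact Continuous.integrable_of_hasCompactSupport (by fun_prop) (HasCompactSupport.of_compactSpace _)

/-- a linear inequality between three pair energies passes to the level energies -/
private theorem helper40_lin {h₁ f₁ k₁ h₂ f₂ k₂ h₃ f₃ k₃ : Z → ℝ} {c₁ c₂ c₃ : ℝ}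
    (H : ∀ x i y j, 0 ≤ c₁ * D.pe h₁ f₁ k₁ x i y j + c₂ * D.pe h₂ f₂ k₂ x i y j +
      c₃ * D.pe h₃ f₃ k₃ x i y j) (n : ℕ) :
    0 ≤ c₁ * D.Bn n h₁ f₁ k₁ + c₂ * D.Bn n h₂ f₂ k₂ + c₃ * D.Bn n h₃ f₃ k₃ := by
  simp only [Bn, loc, Finset.mul_sum, ← Finset.sum_add_distrib]
  refine Finset.sum_nonneg fun x _ => Finset.sum_nonneg fun s _ => Finset.sum_nonneg fun i _ =>
    Finset.sum_nonneg fun j _ => ?_
  have := mul_nonneg (mul_nonneg (D.w_nonneg x i) (D.w_nonneg (x * s) j)) (H x i (x * s) j)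
  linarith

theorem Bn_add₁ {h h' f k : Z → ℝ} (hh : Continuous h) (hh' : Continuous h') (hf : Continuous f)
    (hk : Continuous k) (n : ℕ) : D.Bn n (h + h') f k = D.Bn n h f k + D.Bn n h' f k := by
  have H : ∀ x i y j, D.pe (h + h') f k x i y j = D.pe h f k x i y j + D.pe h' f k x i y j := by
    intro x i y j
    unfold pe
    rw [← integral_add (D.helper40_int hh hf hk x i y j) (D.helper40_int hh' hf hk x i y j)]
    simp only [Pi.add_apply, add_mul]
  simp only [Bn, loc, H, mul_add, Finset.sum_add_distrib]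

theorem Bn_smul₁ (c : ℝ) (h f k : Z → ℝ) (n : ℕ) : D.Bn n (c • h) f k = c * D.Bn n h f k := by
  have H : ∀ x i y j, D.pe (c • h) f k x i y j = c * D.pe h f k x i y j := by
    intro x i y j
    unfold pe
    rw [← integral_const_mul]
    simp only [Pi.smul_apply, smul_eq_mul, mul_assoc]
  simp only [Bn, loc, H, Finset.mul_sum, mul_left_comm c]

theorem Bn_add₂ {h f f' k : Z → ℝ} (hh : Continuous h) (hf : Continuous f) (hf' : Continuous f')
    (hk : Continuous k) (n : ℕ) : D.Bn n h (f + f') k = D.Bn n h f k + D.Bn n h f' k := by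
  have H : ∀ x i y j, D.pe h (f + f') k x i y j = D.pe h f k x i y j + D.pe h f' k x i y j := by
    intro x i y j
    unfold pe
    rw [← integral_add (D.helper40_int hh hf hk x i y j) (D.helper40_int hh hf' hk x i y j)]
    refine integral_congr_ae (Eventually.of_forall fun q => ?_)
    simp only [Pi.add_apply]
    ring
  simp only [Bn, loc, H, mul_add, Finset.sum_add_distrib]

theorem Bn_smul₂ (c : ℝ) (h f k : Z → ℝ) (n : ℕ) : D.Bn n h (c • f) k = c * D.Bn n h f k := by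
  have H : ∀ x i y j, D.pe h (c • f) k x i y j = c * D.pe h f k x i y j := by
    intro x i y j
    unfold pe
    rw [← integral_const_mul]
    refine integral_congr_ae (Eventually.of_forall fun q => ?_)
    simp only [Pi.smul_apply, smul_eq_mul]
    ring
  simp only [Bn, loc, H, Finset.mul_sum, mul_left_comm c]

theorem Bn_symm (h f k : Z → ℝ) (n : ℕ) : D.Bn n h f k = D.Bn n h k f := by
  have H : ∀ x i y j, D.pe h f k x i y j = D.pe h k f x i y j := by
    intro x i y j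
    unfold pe
    refine integral_congr_ae (Eventually.of_forall fun q => ?_)
    simp only
    ring
  simp only [Bn, loc, H]

/-- the integrand is the square of `h₁ df + h₂ dk` -/
theorem Bn_cp {h₁ h₂ f k : Z → ℝ} (hh₁ : Continuous h₁) (hh₂ : Continuous h₂) (hf : Continuous f)
    (hk : Continuous k) (n : ℕ) :
    0 ≤ D.Bn n (h₁ * h₁) f f + 2 * D.Bn n (h₁ * h₂) f k + D.Bn n (h₂ * h₂) k k := by
  have := D.helper40_lin (h₁ := h₁ * h₁) (f₁ := f) (k₁ := f) (h₂ := h₁ * h₂) (f₂ := f) (k₂ := k)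
    (h₃ := h₂ * h₂) (f₃ := k) (k₃ := k) (c₁ := 1) (c₂ := 2) (c₃ := 1) (fun x i y j => by
      have i1 := (D.helper40_int (hh₁.mul hh₁) hf hf x i y j).const_mul 1
      have i2 := (D.helper40_int (hh₁.mul hh₂) hf hk x i y j).const_mul 2
      have i3 := (D.helper40_int (hh₂.mul hh₂) hk hk x i y j).const_mul 1
      unfold pe
      rw [← integral_const_mul, ← integral_const_mul, ← integral_const_mul,
        ← integral_add i1 i2, ← integral_add (by exact i1.add i2) i3]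
      refine integral_nonneg fun q => ?_
      simp only [Pi.zero_apply, Pi.mul_apply]
      nlinarith [sq_nonneg (h₁ q.1 * (f q.1 - f q.2) + h₂ q.1 * (k q.1 - k q.2))]) n
  linarith

/-- pointwise domination of increments -/
theorem Bn_le_of_sq_le {f u v : Z → ℝ} (hf : Continuous f) (hu : Continuous u) (hv : Continuous v)
    {c : ℝ} (H : ∀ x y, (f x - f y) ^ 2 ≤ c * ((u x - u y) ^ 2 + (v x - v y) ^ 2)) (n : ℕ) :
    D.Bn n 1 f f ≤ c * (D.Bn n 1 u u + D.Bn n 1 v v) := by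
  have := D.helper40_lin (h₁ := 1) (f₁ := f) (k₁ := f) (h₂ := 1) (f₂ := u) (k₂ := u)
    (h₃ := 1) (f₃ := v) (k₃ := v) (c₁ := -1) (c₂ := c) (c₃ := c) (fun x i y j => by
      have i1 := (D.helper40_int (h := 1) continuous_one hf hf x i y j).const_mul (-1)
      have i2 := (D.helper40_int (h := 1) continuous_one hu hu x i y j).const_mul c
      have i3 := (D.helper40_int (h := 1) continuous_one hv hv x i y j).const_mul c
      unfold pe
      rw [← integral_const_mul, ← integral_const_mul, ← integral_const_mul,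
        ← integral_add i1 i2, ← integral_add (by exact i1.add i2) i3]
      refine integral_nonneg fun q => ?_
      simp only [Pi.zero_apply, Pi.one_apply]
      nlinarith [H q.1 q.2]) n
  linarith

theorem mem_of_eventually {f : Z → ℝ} (hf : Continuous f) {M : ℝ}
    (H : ∀ᶠ n in atTop, D.Bn n 1 f f ≤ M) : D.Mem f := by
  obtain ⟨N, hN⟩ := eventually_atTop.1 H
  refine ⟨hf, |M| + ∑ n ∈ Finset.range N, |D.Bn n 1 f f|, fun n => ?_⟩
  have h0 : 0 ≤ ∑ n ∈ Finset.range N, |D.Bn n 1 f f| :=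
    Finset.sum_nonneg fun _ _ => abs_nonneg _
  rcases lt_or_ge n N with h | h
  · have := Finset.single_le_sum (f := fun n => |D.Bn n 1 f f|) (fun _ _ => abs_nonneg _)
      (Finset.mem_range.2 h)
    linarith [le_abs_self (D.Bn n 1 f f), abs_nonneg M]
  · linarith [hN n h, le_abs_self M]

theorem Mem.add {f k : Z → ℝ} (hf : D.Mem f) (hk : D.Mem k) : D.Mem (f + k) := by
  obtain ⟨hf1, M, hM⟩ := hf
  obtain ⟨hk1, M', hM'⟩ := hk
  refine ⟨hf1.add hk1, 2 * (M + M'), fun n => ?_⟩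
  have := D.Bn_le_of_sq_le (f := f + k) (hf1.add hk1) hf1 hk1 (c := 2) (fun x y => by
    simp only [Pi.add_apply]
    nlinarith [sq_nonneg ((f x - f y) - (k x - k y))]) n
  linarith [hM n, hM' n]

theorem Mem.smul (c : ℝ) {f : Z → ℝ} (hf : D.Mem f) : D.Mem (c • f) := by
  obtain ⟨hf1, M, hM⟩ := hf
  refine ⟨hf1.const_smul c, c ^ 2 * (M + M), fun n => ?_⟩
  have := D.Bn_le_of_sq_le (f := c • f) (hf1.const_smul c) hf1 hf1 (c := c ^ 2) (fun x y => by
    simp only [Pi.smul_apply, smul_eq_mul]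
    nlinarith [sq_nonneg (c * (f x - f y))]) n
  exact this.trans (mul_le_mul_of_nonneg_left (add_le_add (hM n) (hM n)) (sq_nonneg c))

theorem mem_zero : D.Mem 0 := by
  refine ⟨continuous_const, 0, fun n => ?_⟩
  have := D.Bn_smul₂ 0 1 0 0 n
  rw [zero_smul, zero_mul] at this
  exact this.le

/-- the space of functions of finite energy -/
def Fc : Submodule ℝ (Z → ℝ) where
  carrier := {f | D.Mem f}
  add_mem' := fun hf hk => Mem.add D hf hk
  zero_mem' := D.mem_zero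
  smul_mem' := fun c _ hf => Mem.smul D c hf

theorem seqBdd {h f k : Z → ℝ} (hh : Continuous h) (hf : D.Mem f) (hk : D.Mem k) :
    SeqBdd fun n => D.Bn n h f k := by
  obtain ⟨hf1, M, hM⟩ := hf
  obtain ⟨hk1, M', hM'⟩ := hk
  obtain ⟨c, hc⟩ := isCompact_univ.exists_bound_of_continuousOn hh.continuousOn
  have hc' : ∀ z, |h z| ≤ |c| := fun z => (hc z (mem_univ z)).trans (le_abs_self c)
  refine ⟨|c| * (M + M') / 2, fun n => (D.abs_Bn_le hh hf1 hk1 hc' n).trans ?_⟩
  have := mul_le_mul_of_nonneg_left (add_le_add (hM n) (hM' n)) (abs_nonneg c)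
  linarith

theorem B_add₁ {h h' f k : Z → ℝ} (hh : Continuous h) (hh' : Continuous h') (hf : D.Mem f)
    (hk : D.Mem k) : D.B (h + h') f k = D.B h f k + D.B h' f k := by
  unfold B
  rw [← ulim_add (D.seqBdd hh hf hk) (D.seqBdd hh' hf hk)]
  congr 1
  funext n
  exact D.Bn_add₁ hh hh' hf.1 hk.1 n

theorem B_smul₁ (c : ℝ) {h f k : Z → ℝ} (hh : Continuous h) (hf : D.Mem f) (hk : D.Mem k) :
    D.B (c • h) f k = c * D.B h f k := by
  unfold B
  rw [← ulim_mul c (D.seqBdd hh hf hk)]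
  congr 1
  funext n
  exact D.Bn_smul₁ c h f k n

theorem B_add₂ {h f f' k : Z → ℝ} (hh : Continuous h) (hf : D.Mem f) (hf' : D.Mem f')
    (hk : D.Mem k) : D.B h (f + f') k = D.B h f k + D.B h f' k := by
  unfold B
  rw [← ulim_add (D.seqBdd hh hf hk) (D.seqBdd hh hf' hk)]
  congr 1
  funext n
  exact D.Bn_add₂ hh hf.1 hf'.1 hk.1 n

theorem B_smul₂ (c : ℝ) {h f k : Z → ℝ} (hh : Continuous h) (hf : D.Mem f) (hk : D.Mem k) :
    D.B h (c • f) k = c * D.B h f k := by
  unfold B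
  rw [← ulim_mul c (D.seqBdd hh hf hk)]
  congr 1
  funext n
  exact D.Bn_smul₂ c h f k n

theorem B_symm (h f k : Z → ℝ) : D.B h f k = D.B h k f := by
  unfold B
  congr 1
  funext n
  exact D.Bn_symm h f k n

theorem B_cp {h₁ h₂ f k : Z → ℝ} (hh₁ : Continuous h₁) (hh₂ : Continuous h₂) (hf : D.Mem f)
    (hk : D.Mem k) : 0 ≤ D.B (h₁ * h₁) f f + 2 * D.B (h₁ * h₂) f k + D.B (h₂ * h₂) k k := by
  have h1 := D.seqBdd (hh₁.mul hh₁) hf hf
  have h2 := D.seqBdd (hh₁.mul hh₂) hf hk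
  have h3 := D.seqBdd (hh₂.mul hh₂) hk hk
  have hadd : ∀ {u v : ℕ → ℝ}, SeqBdd u → SeqBdd v → SeqBdd fun n => u n + v n := by
    rintro u v ⟨M, hM⟩ ⟨M', hM'⟩
    exact ⟨M + M', fun n => (abs_add_le _ _).trans (add_le_add (hM n) (hM' n))⟩
  have h2' : SeqBdd fun n => 2 * D.Bn n (h₁ * h₂) f k := by
    obtain ⟨M, hM⟩ := h2
    refine ⟨2 * M, fun n => ?_⟩
    rw [abs_mul, abs_two]
    exact mul_le_mul_of_nonneg_left (hM n) zero_le_two
  have e1 := ulim_mul 2 h2
  have e2 := ulim_add h1 h2'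
  have e3 := ulim_add (hadd h1 h2') h3
  have h4 := le_ulim (hadd (hadd h1 h2') h3) (c := 0)
    (Eventually.of_forall fun n => D.Bn_cp hh₁ hh₂ hf.1 hk.1 n)
  rw [e3, e2] at h4
  unfold B
  rw [← e1]
  exact h4

theorem B_nonneg {h f : Z → ℝ} (hh : Continuous h) (h0 : ∀ z, 0 ≤ h z) (hf : D.Mem f) :
    0 ≤ D.B h f f := by
  exact le_ulim (D.seqBdd hh hf hf) (Eventually.of_forall fun n => D.Bn_nonneg h0 n)

/-- Riesz-Markov-Kakutani (`RealRMK.rieszMeasure`, `RealRMK.integral_rieszMeasure`) for the positive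
functional `h ↦ B h f f` on `C_c(Z, ℝ)`; finite because `Z` is compact. -/
theorem exists_Γ {f : Z → ℝ} (hf : D.Mem f) : ∃ μ : Measure Z, IsFiniteMeasure μ ∧
    ∀ h : Z → ℝ, Continuous h → ∫ z, h z ∂μ = D.B h f f := by
  -- h29_riesz
  let Λ₀ : CompactlySupportedContinuousMap Z ℝ →ₗ[ℝ] ℝ :=
    { toFun := fun h => D.B h f f
      map_add' := fun h h' => D.B_add₁ h.continuous h'.continuous hf hf
      map_smul' := fun c h => D.B_smul₁ c h.continuous hf hf }
  let Λ : CompactlySupportedContinuousMap Z ℝ →ₚ[ℝ] ℝ :=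
    PositiveLinearMap.mk₀ Λ₀ fun h hh => D.B_nonneg h.continuous (fun z => hh z) hf
  refine ⟨RealRMK.rieszMeasure Λ, inferInstance, fun h hh => ?_⟩
  exact RealRMK.integral_rieszMeasure Λ ⟨⟨h, hh⟩, HasCompactSupport.of_compactSpace _⟩

/-- Lipschitz bound for `φ` on a large closed ball, `Bn_le_of_sq_le`. -/
theorem chain_mem {u v : Z → ℝ} (hu : D.Mem u) (hv : D.Mem v) {φ : ℂ → ℝ} (hφ : ContDiff ℝ 1 φ) :
    D.Mem fun z => φ ⟨u z, v z⟩ := by
  obtain ⟨hu1, M, hM⟩ := hu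
  obtain ⟨hv1, M', hM'⟩ := hv
  have hF : Continuous fun z => (⟨u z, v z⟩ : ℂ) := by
    have : (fun z => (⟨u z, v z⟩ : ℂ)) = fun z => (u z : ℂ) + (v z : ℂ) * Complex.I := by
      funext z; apply Complex.ext <;> simp
    rw [this]; fun_prop
  obtain ⟨K, hK⟩ := hφ.locallyLipschitz.locallyLipschitzOn.exists_lipschitzOnWith_of_compact
    (isCompact_range hF)
  have hc : Continuous fun z => φ ⟨u z, v z⟩ := hφ.continuous.comp hF
  refine ⟨hc, (K : ℝ) ^ 2 * (M + M'), fun n => ?_⟩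
  have := D.Bn_le_of_sq_le hc hu1 hv1 (c := (K : ℝ) ^ 2) (fun x y => by
    have h1 := hK.dist_le_mul _ (mem_range_self x) _ (mem_range_self y)
    rw [Real.dist_eq, Complex.dist_eq] at h1
    have h2 : ‖(⟨u x, v x⟩ : ℂ) - ⟨u y, v y⟩‖ ^ 2 = (u x - u y) ^ 2 + (v x - v y) ^ 2 := by
      rw [Complex.sq_norm, Complex.normSq_apply]
      simp only [Complex.sub_re, Complex.sub_im]
      ring
    rw [← h2, ← mul_pow, ← sq_abs]
    exact pow_le_pow_left₀ (abs_nonneg _) h1 2) n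
  exact this.trans (mul_le_mul_of_nonneg_left (add_le_add (hM n) (hM' n)) (sq_nonneg _))

private theorem h9_taylor {u v : Z → ℝ} (hu : Continuous u) (hv : Continuous v) {φ : ℂ → ℝ}
    (hφ : ContDiff ℝ 1 φ) {ε : ℝ} (hε : 0 < ε) : ∃ τ : ℝ, 0 < τ ∧ ∀ x y : Z, dist x y ≤ τ →
      |φ ⟨u x, v x⟩ - φ ⟨u y, v y⟩ - (fderiv ℝ φ ⟨u x, v x⟩ 1 * (u x - u y) +
        fderiv ℝ φ ⟨u x, v x⟩ Complex.I * (v x - v y))| ≤ ε * (|u x - u y| + |v x - v y|) := by
  have hF : Continuous fun z => (⟨u z, v z⟩ : ℂ) := by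
    have : (fun z => (⟨u z, v z⟩ : ℂ)) = fun z => (u z : ℂ) + (v z : ℂ) * Complex.I := by
      funext z
      apply Complex.ext <;> simp
    rw [this]
    fun_prop
  obtain ⟨M, hM⟩ := (isCompact_range hF).isBounded.subset_closedBall 0
  have hD : Continuous (fderiv ℝ φ) := hφ.continuous_fderiv one_ne_zero
  obtain ⟨δ, hδ, H1⟩ := Metric.uniformContinuousOn_iff.1
    ((isCompact_closedBall (0 : ℂ) M).uniformContinuousOn_of_continuous hD.continuousOn) ε hε
  obtain ⟨τ, hτ, H2⟩ := Metric.uniformContinuous_iff.1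
    (CompactSpace.uniformContinuous_of_continuous hF) δ hδ
  refine ⟨τ / 2, half_pos hτ, fun x y hxy => ?_⟩
  have hx : (⟨u x, v x⟩ : ℂ) ∈ closedBall (0 : ℂ) M := hM (mem_range_self x)
  have hy : (⟨u y, v y⟩ : ℂ) ∈ closedBall (0 : ℂ) M := hM (mem_range_self y)
  have h3 := H2 (a := y) (b := x) (by rw [dist_comm]; linarith)
  have h4 := Convex.norm_image_sub_le_of_norm_fderiv_le' (𝕜 := ℝ) (f := φ)
    (s := closedBall (0 : ℂ) M ∩ ball (⟨u x, v x⟩ : ℂ) δ) (φ := fderiv ℝ φ ⟨u x, v x⟩) (C := ε)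
    (x := ⟨u y, v y⟩) (y := ⟨u x, v x⟩)
    (fun p _ => hφ.differentiable one_ne_zero p)
    (fun p hp => by rw [← dist_eq_norm]; exact (H1 p hp.1 _ hx hp.2).le)
    ((convex_closedBall _ _).inter (convex_ball _ _)) ⟨hy, h3⟩ ⟨hx, mem_ball_self hδ⟩
  have e : (⟨u x, v x⟩ : ℂ) - ⟨u y, v y⟩ = (u x - u y) • (1 : ℂ) + (v x - v y) • Complex.I := by
    apply Complex.ext <;> simp
  have h5 : ‖(⟨u x, v x⟩ : ℂ) - ⟨u y, v y⟩‖ ≤ |u x - u y| + |v x - v y| := by
    simpa using Complex.norm_le_abs_re_add_abs_im ((⟨u x, v x⟩ : ℂ) - ⟨u y, v y⟩)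
  refine le_trans (le_of_eq ?_) (h4.trans (mul_le_mul_of_nonneg_left h5 hε.le))
  rw [Real.norm_eq_abs, e, map_add, map_smul, map_smul, smul_eq_mul, smul_eq_mul,
    mul_comm (u x - u y), mul_comm (v x - v y)]

private theorem h9_int {h f k : Z → ℝ} (hh : Continuous h) (hf : Continuous f) (hk : Continuous k)
    (x : G) (i : Bool) (y : G) (j : Bool) :
    Integrable (fun q : Z × Z => h q.1 * ((f q.1 - f q.2) * (k q.1 - k q.2)))
      ((D.m x i).prod (D.m y j)) := by
  have := D.m_prob x i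
  have := D.m_prob y j
  exact Continuous.integrable_of_hasCompactSupport (by fun_prop) (HasCompactSupport.of_compactSpace _)

private theorem h9_pe {h h₁ h₂ f u v k : Z → ℝ} (hh : Continuous h) (hh₁ : Continuous h₁)
    (hh₂ : Continuous h₂) (hf : Continuous f) (hu : Continuous u) (hv : Continuous v)
    (hk : Continuous k) {c τ : ℝ} (hc : 0 ≤ c)
    (H : ∀ x y : Z, dist x y ≤ τ → |h x * (f x - f y) - h₁ x * (u x - u y) - h₂ x * (v x - v y)| ≤
      c * (|u x - u y| + |v x - v y|)) {x : G} {i : Bool} {y : G} {j : Bool}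
    (hτ : ∀ᵐ q ∂((D.m x i).prod (D.m y j)), dist q.1 q.2 ≤ τ) :
    |D.pe h f k x i y j - (D.pe h₁ u k x i y j + D.pe h₂ v k x i y j)| ≤
      c * (D.pe 1 u u x i y j + D.pe 1 v v x i y j + D.pe 1 k k x i y j) := by
  have i1 := D.h9_int hh hf hk x i y j
  have i2 := D.h9_int hh₁ hu hk x i y j
  have i3 := D.h9_int hh₂ hv hk x i y j
  have i4 := D.h9_int (h := 1) continuous_one hu hu x i y j
  have i5 := D.h9_int (h := 1) continuous_one hv hv x i y j
  have i6 := D.h9_int (h := 1) continuous_one hk hk x i y j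
  unfold pe
  rw [← integral_add i2 i3, ← integral_sub i1 (i2.fun_add i3), ← integral_add i4 i5,
    ← integral_add (i4.fun_add i5) i6, ← integral_const_mul, ← Real.norm_eq_abs]
  refine norm_integral_le_of_norm_le (((i4.fun_add i5).fun_add i6).const_mul c) ?_
  filter_upwards [hτ] with q hq
  have h1 := H q.1 q.2 hq
  simp only [Pi.one_apply, one_mul, Real.norm_eq_abs]
  have e : h q.1 * ((f q.1 - f q.2) * (k q.1 - k q.2)) -
      (h₁ q.1 * ((u q.1 - u q.2) * (k q.1 - k q.2)) + h₂ q.1 * ((v q.1 - v q.2) * (k q.1 - k q.2))) =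
      (h q.1 * (f q.1 - f q.2) - h₁ q.1 * (u q.1 - u q.2) - h₂ q.1 * (v q.1 - v q.2)) *
        (k q.1 - k q.2) := by ring
  rw [e, abs_mul]
  refine (mul_le_mul_of_nonneg_right h1 (abs_nonneg _)).trans ?_
  rw [mul_assoc]
  refine mul_le_mul_of_nonneg_left ?_ hc
  rw [← abs_mul_abs_self (u q.1 - u q.2), ← abs_mul_abs_self (v q.1 - v q.2),
    ← abs_mul_abs_self (k q.1 - k q.2)]
  nlinarith [sq_nonneg (|u q.1 - u q.2| - |k q.1 - k q.2|),
    sq_nonneg (|v q.1 - v q.2| - |k q.1 - k q.2|), sq_nonneg |u q.1 - u q.2|,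
    sq_nonneg |v q.1 - v q.2|]

private theorem h9_Bn {h h₁ h₂ f u v k : Z → ℝ} {c : ℝ} {n : ℕ}
    (H : ∀ x ∈ D.V.level n, ∀ s ∈ D.V.ballF D.R, ∀ i j : Bool, D.act x i → D.act (x * s) j →
      |D.pe h f k x i (x * s) j - (D.pe h₁ u k x i (x * s) j + D.pe h₂ v k x i (x * s) j)| ≤
      c * (D.pe 1 u u x i (x * s) j + D.pe 1 v v x i (x * s) j + D.pe 1 k k x i (x * s) j)) :
    |D.Bn n h f k - (D.Bn n h₁ u k + D.Bn n h₂ v k)| ≤
      c * (D.Bn n 1 u u + D.Bn n 1 v v + D.Bn n 1 k k) := by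
  unfold Bn loc
  simp only [← Finset.sum_add_distrib, ← Finset.sum_sub_distrib, Finset.mul_sum]
  refine (Finset.abs_sum_le_sum_abs _ _).trans (Finset.sum_le_sum fun x hx => ?_)
  refine (Finset.abs_sum_le_sum_abs _ _).trans (Finset.sum_le_sum fun s hs => ?_)
  refine (Finset.abs_sum_le_sum_abs _ _).trans (Finset.sum_le_sum fun i _ => ?_)
  refine (Finset.abs_sum_le_sum_abs _ _).trans (Finset.sum_le_sum fun j _ => ?_)
  have hw : 0 ≤ D.w x i * D.w (x * s) j := mul_nonneg (D.w_nonneg _ _) (D.w_nonneg _ _)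
  rcases hw.eq_or_lt with h0 | h0
  · simp [← h0]
  · have := H x hx s hs i j (D.act_of_w (left_ne_zero_of_mul h0.ne'))
      (D.act_of_w (right_ne_zero_of_mul h0.ne'))
    rw [← mul_add, ← mul_sub, abs_mul, abs_of_pos h0, ← mul_add, ← mul_add, mul_left_comm]
    exact mul_le_mul_of_nonneg_left this hw

/-- With `F z = ⟨u z, v z⟩`: for `ε > 0` there is `τ > 0` with
`|φ (F x) - φ (F y) - fderiv φ (F x) (F x - F y)| ≤ ε ‖F x - F y‖` for `dist x y ≤ τ` (uniform
continuity of `fderiv φ` on a ball and of `F`).  On pairs of non-zero weight at level `n`,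
`dist q.1 q.2 ≤ 2 T a^{-n}` a.e. (`frost_m'`, `act_of_w`), so the difference of the level energies
is `≤ ε ‖h‖ (Bn u u + Bn v v + Bn k k)`; `ulim_congr`, `ulim_add`. -/
theorem chain {u v h k : Z → ℝ} (hu : D.Mem u) (hv : D.Mem v) {φ : ℂ → ℝ} (hφ : ContDiff ℝ 1 φ)
    (hh : Continuous h) (hk : D.Mem k) : D.B h (fun z => φ ⟨u z, v z⟩) k =
      D.B (fun z => h z * fderiv ℝ φ ⟨u z, v z⟩ 1) u k +
      D.B (fun z => h z * fderiv ℝ φ ⟨u z, v z⟩ Complex.I) v k := by
  have hF : Continuous fun z => (⟨u z, v z⟩ : ℂ) := by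
    have : (fun z => (⟨u z, v z⟩ : ℂ)) = fun z => (u z : ℂ) + (v z : ℂ) * Complex.I := by
      funext z
      apply Complex.ext <;> simp
    have h1 := hu.1
    have h2 := hv.1
    rw [this]
    fun_prop
  have hD : Continuous fun z => fderiv ℝ φ ⟨u z, v z⟩ :=
    (hφ.continuous_fderiv one_ne_zero).comp hF
  have hh₁ : Continuous fun z => h z * fderiv ℝ φ ⟨u z, v z⟩ 1 :=
    hh.mul (hD.clm_apply continuous_const)
  have hh₂ : Continuous fun z => h z * fderiv ℝ φ ⟨u z, v z⟩ Complex.I :=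
    hh.mul (hD.clm_apply continuous_const)
  have hf := D.chain_mem hu hv hφ
  have b1 := D.seqBdd hh₁ hu hk
  have b2 := D.seqBdd hh₂ hv hk
  unfold B
  rw [← ulim_add b1 b2]
  refine ulim_congr (D.seqBdd hh hf hk) ?_ ?_
  · obtain ⟨M₁, hM₁⟩ := b1
    obtain ⟨M₂, hM₂⟩ := b2
    exact ⟨M₁ + M₂, fun n => (abs_add_le _ _).trans (add_le_add (hM₁ n) (hM₂ n))⟩
  obtain ⟨T, hT, HT⟩ := D.frost_m'
  obtain ⟨Mu, hMu⟩ := hu.2
  obtain ⟨Mv, hMv⟩ := hv.2
  obtain ⟨Mk, hMk⟩ := hk.2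
  obtain ⟨c, hc⟩ := (isCompact_range hh).isBounded.subset_closedBall 0
  have hc' : ∀ z, |h z| ≤ |c| + 1 := fun z => by
    have := mem_closedBall_zero_iff.1 (hc (mem_range_self z))
    rw [Real.norm_eq_abs] at this
    linarith [le_abs_self c]
  have hM : ∀ n, D.Bn n 1 u u + D.Bn n 1 v v + D.Bn n 1 k k < |Mu + Mv + Mk| + 1 := fun n => by
    linarith [hMu n, hMv n, hMk n, le_abs_self (Mu + Mv + Mk)]
  rw [Metric.tendsto_nhds]
  intro ε hε
  have hε' : 0 < ε / ((|c| + 1) * (|Mu + Mv + Mk| + 1)) := by positivity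
  obtain ⟨τ, hτ, Hτ⟩ := h9_taylor hu.1 hv.1 hφ hε'
  have hlim : Tendsto (fun n : ℕ => 2 * T * (D.V.a ^ n)⁻¹) atTop (𝓝 (2 * T * 0)) :=
    (tendsto_inv_atTop_zero.comp (tendsto_pow_atTop_atTop_of_one_lt D.V.one_lt_a)).const_mul _
  rw [mul_zero] at hlim
  filter_upwards [hlim.eventually (ge_mem_nhds hτ)] with n hn
  rw [Real.dist_eq, sub_zero]
  refine (D.h9_Bn (c := (|c| + 1) * (ε / ((|c| + 1) * (|Mu + Mv + Mk| + 1))))
    fun x hx s hs i j hi hj => D.h9_pe hh hh₁ hh₂ hf.1 hu.1 hv.1 hk.1 (τ := τ) (by positivity)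
      (fun a b hab => ?_) ?_).trans_lt ?_
  · rw [mul_assoc (h a), mul_assoc (h a), sub_sub, ← mul_add, ← mul_sub, abs_mul, mul_assoc]
    exact mul_le_mul (hc' a) (Hτ a b hab) (abs_nonneg _) (by positivity)
  · filter_upwards [(HT x s hs i j hi hj).2.2] with q hq
    rw [D.V.sz_eq (D.V.mem_level.1 hx)] at hq
    exact hq.2.trans hn
  · refine (mul_lt_mul_of_pos_left (hM n) (by positivity)).trans_le (le_of_eq ?_)
    field_simp

end Data

end Crest.Agent.R193.E
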