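import Crest.Agent.R193.EA1

/-! Row 193 [E], group layer: discretisation, weak monotonicity, invariance, closability. -/

set_option autoImplicit false

open Set Filter Topology MeasureTheory Metric

namespace Crest.Agent.R193.E

namespace Data

variable {G Z : Type} [Group G] [MetricSpace Z] [CompactSpace Z] [MulAction G Z] [MeasurableSpace Z]
  [BorelSpace Z] (D : Data G Z)

private theorem h67_integrable {X : Type} [TopologicalSpace X] [CompactSpace X] [MeasurableSpace X]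
    [OpensMeasurableSpace X] {μ : Measure X} [IsFiniteMeasure μ] {g : X → ℝ}
    (hg : Continuous g) : Integrable g μ :=
  (BoundedContinuousFunction.mkOfCompact ⟨g, hg⟩).integrable μ

private theorem h67_jensen {X : Type} [MeasurableSpace X] {μ : Measure X} [IsProbabilityMeasure μ]
    {g : X → ℝ} (h1 : Integrable g μ) (h2 : Integrable (fun q => g q * g q) μ) :
    (∫ q, g q ∂μ) ^ 2 ≤ ∫ q, g q * g q ∂μ := by
  obtain ⟨c, hc⟩ : ∃ c, c = ∫ q, g q ∂μ := ⟨_, rfl⟩
  have h3 : ∫ q, (2 * c * g q - c ^ 2) ∂μ ≤ ∫ q, g q * g q ∂μ :=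
    integral_mono ((h1.const_mul _).sub (integrable_const _)) h2
      (fun q => by nlinarith [sq_nonneg (g q - c)])
  rw [integral_sub (h1.const_mul _) (integrable_const _), integral_const_mul, integral_const,
    ← hc] at h3
  simp only [probReal_univ, smul_eq_mul, one_mul] at h3
  rw [← hc]
  nlinarith

private theorem h67_act_sel (x : G) : D.act x (D.sel x) :=
  D.act_of_w (by have := D.half_le_w_sel x; intro h; rw [h] at this; norm_num at this)

/-- Jensen for a pair of cells -/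
private theorem h67_avg_sq {f : Z → ℝ} (hf : Continuous f) (x y : G) :
    (D.avg f x - D.avg f y) ^ 2 ≤ ∫ q : Z × Z, (f q.1 - f q.2) * (f q.1 - f q.2)
      ∂((D.m x (D.sel x)).prod (D.m y (D.sel y))) := by
  have := D.m_prob x (D.sel x)
  have := D.m_prob y (D.sel y)
  have h1 : Continuous fun q : Z × Z => f q.1 - f q.2 := by fun_prop
  have h2 := h67_jensen (μ := (D.m x (D.sel x)).prod (D.m y (D.sel y))) (h67_integrable h1)
    (h67_integrable (h1.mul h1))
  rw [integral_sub (h67_integrable (by fun_prop)) (h67_integrable (by fun_prop)),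
    integral_fun_fst, integral_fun_snd] at h2
  simpa [avg] using h2

/-- one pair is bounded by `4 loc` -/
private theorem h67_pe_le_loc {h f : Z → ℝ} (h0 : ∀ z, 0 ≤ h z) (x : G) {s : G}
    (hs : s ∈ D.V.ballF D.R) :
    D.pe h f f x (D.sel x) (x * s) (D.sel (x * s)) ≤ 4 * D.loc h f f x := by
  have hnn : ∀ (s : G) (i j : Bool),
      0 ≤ D.w x i * D.w (x * s) j * D.pe h f f x i (x * s) j := fun s i j =>
    mul_nonneg (mul_nonneg (D.w_nonneg _ _) (D.w_nonneg _ _)) (D.pe_nonneg h0 _ _ _ _)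
  have h1 : D.w x (D.sel x) * D.w (x * s) (D.sel (x * s)) *
      D.pe h f f x (D.sel x) (x * s) (D.sel (x * s)) ≤ D.loc h f f x := by
    unfold loc
    refine le_trans ?_ (Finset.single_le_sum (f := fun s => ∑ i : Bool, ∑ j : Bool,
      D.w x i * D.w (x * s) j * D.pe h f f x i (x * s) j)
      (fun s _ => Finset.sum_nonneg fun i _ => Finset.sum_nonneg fun j _ => hnn s i j) hs)
    refine le_trans ?_ (Finset.single_le_sum (f := fun i => ∑ j : Bool,
      D.w x i * D.w (x * s) j * D.pe h f f x i (x * s) j)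
      (fun i _ => Finset.sum_nonneg fun j _ => hnn s i j) (Finset.mem_univ (D.sel x)))
    exact Finset.single_le_sum (f := fun j =>
      D.w x (D.sel x) * D.w (x * s) j * D.pe h f f x (D.sel x) (x * s) j)
      (fun j _ => hnn s _ j) (Finset.mem_univ (D.sel (x * s)))
  have h2 := D.half_le_w_sel x
  have h3 := D.half_le_w_sel (x * s)
  have h4 := D.pe_nonneg (f := f) h0 x (D.sel x) (x * s) (D.sel (x * s))
  have h5 : 1 / 4 ≤ D.w x (D.sel x) * D.w (x * s) (D.sel (x * s)) := by nlinarith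
  nlinarith

theorem disc_bdd {f : Z → ℝ} (hf : Continuous f) (N : ℕ) : Bdd (D.disc f N) := by
  obtain ⟨M, hM⟩ := (isCompact_univ.image hf).isBounded.exists_norm_le
  refine ⟨M, fun ξ => ?_⟩
  have := D.m_prob (D.V.ray ξ N) (D.sel (D.V.ray ξ N))
  have h1 := norm_integral_le_of_norm_le_const
    (μ := D.m (D.V.ray ξ N) (D.sel (D.V.ray ξ N))) (f := f) (C := M)
    (Eventually.of_forall fun z => hM _ ⟨z, mem_univ _, rfl⟩)
  simpa [disc, avg] using h1

/-- the selected cell of `ray ξ N` is active and lives within `(T + C) a^{-N}` of `ξ`; uniform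
continuity. -/
theorem disc_close {f : Z → ℝ} (hf : Continuous f) {η : ℝ} (hη : 0 < η) :
    ∀ᶠ N in atTop, ∀ ξ, |f ξ - D.disc f N ξ| ≤ η := by
  obtain ⟨T, hT, HT⟩ := D.frost_m
  obtain ⟨τ, hτ, Hτ⟩ := Metric.uniformContinuous_iff.1 (CompactSpace.uniformContinuous_of_continuous hf)
    η hη
  have hlim : Tendsto (fun N : ℕ => (T + D.V.C) * (D.V.a ^ N)⁻¹) atTop (𝓝 ((T + D.V.C) * 0)) :=
    (tendsto_inv_atTop_zero.comp (tendsto_pow_atTop_atTop_of_one_lt D.V.one_lt_a)).const_mul _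
  rw [mul_zero] at hlim
  filter_upwards [hlim.eventually (gt_mem_nhds hτ)] with N hN ξ
  have hF := HT (D.V.ray ξ N) 1 (by simp [D.V.len_one]) (D.sel (D.V.ray ξ N))
    (by rw [mul_one]; exact D.h67_act_sel _)
  rw [mul_one, D.V.sz_ray] at hF
  have := hF.prob
  have h1 : f ξ - D.disc f N ξ =
      ∫ ζ, (f ξ - f ζ) ∂(D.m (D.V.ray ξ N) (D.sel (D.V.ray ξ N))) := by
    rw [integral_sub (integrable_const _) (h67_integrable hf)]
    simp [disc, avg]
  have h2 := norm_integral_le_of_norm_le_const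
    (μ := D.m (D.V.ray ξ N) (D.sel (D.V.ray ξ N))) (f := fun ζ => f ξ - f ζ) (C := η) (by
      filter_upwards [hF.supp] with ζ hζ
      have h3 := D.V.ray_ctr ξ N
      have h4 := dist_triangle_right ξ ζ (D.V.ctr (D.V.ray ξ N))
      have h5 := Hτ (a := ξ) (b := ζ) (by linarith)
      rw [dist_eq_norm] at h5
      exact h5.le)
  rw [h1]
  simpa using h2

/-- For `z ∈ S ∩ A`, `ξ, ξ' ∈ ball z δ`, `x = ray ξ N`, `y = ray ξ' N`: `len (x⁻¹ y) ≤ R` (`hR`),
`(avg f x - avg f y)² ≤ pe 1 f f x (sel x) y (sel y)` (Jensen) `≤ pe h f f .. ≤ 4 loc h f f x`.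
So `osc² ≤ 4 ∑ loc h f f x` over the `x` of level `N` with `dist z (ctr x) ≤ (C + 1) δ`, and each
`x` is used by boundedly many `z` (`Doubling`). -/
theorem Oe_disc_le (hM : MGeo Z) : ∃ C T : ℝ, 0 < C ∧ 0 < T ∧ ∀ (N : ℕ) (S : Finset Z),
    Net (D.V.a ^ N)⁻¹ S → ∀ f h : Z → ℝ, Continuous f → Continuous h → (∀ z, 0 ≤ h z) →
      ∀ A : Set Z, (∀ z ∈ A, ∀ ξ, dist ξ z ≤ T * (D.V.a ^ N)⁻¹ → 1 ≤ h ξ) →
        Oe (D.disc f N) (D.V.a ^ N)⁻¹ S A ≤ C * D.Bn N h f f := by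
  classical
  obtain ⟨T, hT, HT⟩ := D.frost_m'
  obtain ⟨m, hm⟩ := hM.dbl (D.V.C + 1)
  have hC := D.V.C_pos
  refine ⟨4 * m + 1, T + D.V.C + 1, by positivity, by positivity, ?_⟩
  intro N S hS f h hf hh h0 A hA
  have hδ := hS.pos
  -- the local bound
  have key : ∀ z ∈ S.filter (fun z => z ∈ A), osc (D.disc f N) z (D.V.a ^ N)⁻¹ ^ 2 ≤
      4 * ∑ x ∈ D.V.level N,
        if dist z (D.V.ctr x) ≤ (D.V.C + 1) * (D.V.a ^ N)⁻¹ then D.loc h f f x else 0 := by
    intro z hz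
    rw [Finset.mem_filter] at hz
    have hnn : ∀ x : G, 0 ≤
        if dist z (D.V.ctr x) ≤ (D.V.C + 1) * (D.V.a ^ N)⁻¹ then D.loc h f f x else 0 := by
      intro x
      split_ifs
      · exact D.loc_nonneg h0 x
      · exact le_rfl
    have hsum : 0 ≤ 4 * ∑ x ∈ D.V.level N,
        if dist z (D.V.ctr x) ≤ (D.V.C + 1) * (D.V.a ^ N)⁻¹ then D.loc h f f x else 0 :=
      mul_nonneg (by norm_num) (Finset.sum_nonneg fun x _ => hnn x)
    refine (Real.le_sqrt (osc_nonneg _ _ _) hsum).1 (osc_le_of (Real.sqrt_nonneg _) ?_)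
    intro ξ hξ ξ' hξ'
    refine Real.abs_le_sqrt ?_
    rw [mem_ball] at hξ hξ'
    obtain ⟨x, hx⟩ : ∃ x, x = D.V.ray ξ N := ⟨_, rfl⟩
    obtain ⟨y, hy⟩ : ∃ y, y = D.V.ray ξ' N := ⟨_, rfl⟩
    have hxl : D.V.len x = N := hx ▸ D.V.len_ray ξ N
    have hyl : D.V.len y = N := hy ▸ D.V.len_ray ξ' N
    have hxc : dist ξ (D.V.ctr x) ≤ D.V.C * (D.V.a ^ N)⁻¹ := hx ▸ D.V.ray_ctr ξ N
    have hyc : dist ξ' (D.V.ctr y) ≤ D.V.C * (D.V.a ^ N)⁻¹ := hy ▸ D.V.ray_ctr ξ' N
    have hsz : D.V.sz x = (D.V.a ^ N)⁻¹ := D.V.sz_eq hxl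
    have hzx : dist z (D.V.ctr x) ≤ (D.V.C + 1) * (D.V.a ^ N)⁻¹ := by
      have := dist_triangle_left z (D.V.ctr x) ξ
      linarith
    have hzy : dist z (D.V.ctr y) ≤ (D.V.C + 1) * (D.V.a ^ N)⁻¹ := by
      have := dist_triangle_left z (D.V.ctr y) ξ'
      linarith
    have hs : x⁻¹ * y ∈ D.V.ballF D.R := by
      rw [Visual.mem_ballF]
      refine D.hR x y (hxl.trans hyl.symm) ?_
      have := dist_triangle_left (D.V.ctr x) (D.V.ctr y) z
      rw [hsz]
      linarith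
    have hxy : x * (x⁻¹ * y) = y := by group
    have h1 := D.h67_avg_sq hf x y
    have h2 := D.h67_pe_le_loc (f := f) h0 x hs
    obtain ⟨hF1, hF2, hae⟩ := HT x _ hs (D.sel x) (D.sel (x * (x⁻¹ * y))) (D.h67_act_sel _)
      (D.h67_act_sel _)
    rw [hxy] at h2 hae
    have := D.m_prob x (D.sel x)
    have := D.m_prob y (D.sel y)
    have h3 : ∫ q : Z × Z, (f q.1 - f q.2) * (f q.1 - f q.2)
        ∂((D.m x (D.sel x)).prod (D.m y (D.sel y))) ≤ D.pe h f f x (D.sel x) y (D.sel y) := by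
      refine integral_mono_ae (h67_integrable (by fun_prop)) (h67_integrable (by fun_prop)) ?_
      filter_upwards [hae] with q hq
      have h4 : 1 ≤ h q.1 := by
        refine hA z hz.2 q.1 ?_
        have h5 := dist_triangle_right q.1 z (D.V.ctr x)
        have h6 := hq.1
        rw [hsz] at h6
        linarith
      have h5 := mul_self_nonneg (f q.1 - f q.2)
      nlinarith
    have h4 : D.loc h f f x ≤ ∑ x ∈ D.V.level N,
        if dist z (D.V.ctr x) ≤ (D.V.C + 1) * (D.V.a ^ N)⁻¹ then D.loc h f f x else 0 := by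
      refine le_trans ?_ (Finset.single_le_sum (fun x _ => hnn x) (Visual.mem_level _ |>.2 hxl))
      rw [if_pos hzx]
    have h5 : D.disc f N ξ - D.disc f N ξ' = D.avg f x - D.avg f y := by
      rw [hx, hy]; rfl
    rw [h5]
    linarith
  have hB := D.Bn_nonneg (f := f) h0 N
  have h1 : ∀ x ∈ D.V.level N, (∑ z ∈ S.filter (fun z => z ∈ A),
      if dist z (D.V.ctr x) ≤ (D.V.C + 1) * (D.V.a ^ N)⁻¹ then D.loc h f f x else 0) ≤
        m * D.loc h f f x := by
    intro x _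
    rw [← Finset.sum_filter, Finset.sum_const, nsmul_eq_mul]
    refine mul_le_mul_of_nonneg_right (Nat.cast_le.2 ?_) (D.loc_nonneg h0 x)
    refine hm (D.V.ctr x) _ _ hδ ?_ ?_
    · intro u hu v hv huv
      simp only [Finset.mem_filter] at hu hv
      exact hS.sep u hu.1.1 v hv.1.1 huv
    · intro u hu
      exact (Finset.mem_filter.1 hu).2
  calc Oe (D.disc f N) (D.V.a ^ N)⁻¹ S A
      ≤ ∑ z ∈ S.filter (fun z => z ∈ A), 4 * ∑ x ∈ D.V.level N,
        if dist z (D.V.ctr x) ≤ (D.V.C + 1) * (D.V.a ^ N)⁻¹ then D.loc h f f x else 0 := by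
        unfold Oe
        convert Finset.sum_le_sum key
    _ = 4 * ∑ x ∈ D.V.level N, ∑ z ∈ S.filter (fun z => z ∈ A),
        if dist z (D.V.ctr x) ≤ (D.V.C + 1) * (D.V.a ^ N)⁻¹ then D.loc h f f x else 0 := by
        rw [← Finset.mul_sum, Finset.sum_comm]
    _ ≤ 4 * ∑ x ∈ D.V.level N, m * D.loc h f f x :=
        mul_le_mul_of_nonneg_left (Finset.sum_le_sum h1) (by norm_num)
    _ = 4 * m * D.Bn N h f f := by
        rw [← Finset.mul_sum, Bn]; ring
    _ ≤ (4 * m + 1) * D.Bn N h f f := by nlinarith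

/-- `pair_le` for each active pair (`frost_m'`, `r = sz x = a^{-n} ≤ r₀`), then `sum_Oe_le` with
`card_level`. -/
theorem Ep_le_Oe (hM : MGeo Z) : ∃ (C : ℝ) (n₀ : ℕ), 0 < C ∧ ∀ n ≥ n₀, ∀ (δ : ℝ) (S : Finset Z),
    Net δ S → δ ≤ (D.V.a ^ n)⁻¹ → ∀ (φ f : Z → ℝ) (η : ℝ), Bdd φ → Continuous f →
      (∀ z, |f z - φ z| ≤ η) → D.Ep n f ≤ C * (Oe φ δ S univ + (D.V.level n).card * η ^ 2) := by
  classical
  obtain ⟨T, hT, HT⟩ := D.frost_m'
  obtain ⟨L, C, r₀, hL, hC, hr₀, HP⟩ := pair_le hM T hT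
  obtain ⟨N, HN⟩ := D.V.card_level hL.le
  obtain ⟨n₀, hn₀⟩ : ∃ n₀ : ℕ, ∀ n ≥ n₀, (D.V.a ^ n)⁻¹ ≤ r₀ := by
    have h1 : Tendsto (fun n : ℕ => (D.V.a ^ n)⁻¹) atTop (𝓝 0) :=
      (tendsto_pow_atTop_atTop_of_one_lt D.V.one_lt_a).inv_tendsto_atTop
    exact eventually_atTop.1 (h1.eventually (ge_mem_nhds hr₀))
  obtain ⟨K, hK⟩ : ∃ K : ℝ, K = 4 * (D.V.ballF D.R).card + 1 := ⟨_, rfl⟩
  have hK0 : 0 < K := by rw [hK]; positivity
  refine ⟨K * C * (N + 1), n₀, by positivity, ?_⟩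
  intro n hn δ S hS hδ φ f η hφ hf hη
  have hloc : ∀ x ∈ D.V.level n, D.locp f x ≤
      K * C * (Oe φ δ S (ball (D.V.ctr x) (L * (D.V.a ^ n)⁻¹)) + η ^ 2) := by
    intro x hx
    have hsz : D.V.sz x = (D.V.a ^ n)⁻¹ := D.V.sz_eq (D.V.mem_level.1 hx)
    obtain ⟨E, hE⟩ : ∃ E : ℝ,
        E = C * (Oe φ δ S (ball (D.V.ctr x) (L * (D.V.a ^ n)⁻¹)) + η ^ 2) := ⟨_, rfl⟩
    have hE0 : 0 ≤ E := by
      rw [hE]
      exact mul_nonneg hC.le (add_nonneg (Oe_nonneg _ _ _ _) (sq_nonneg _))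
    have h1 : D.locp f x ≤ ∑ _s ∈ D.V.ballF D.R, ∑ _i : Bool, ∑ _j : Bool, E := by
      unfold locp
      refine Finset.sum_le_sum fun s hs => Finset.sum_le_sum fun i _ =>
        Finset.sum_le_sum fun j _ => ?_
      split_ifs with h
      · obtain ⟨F1, F2, -⟩ := HT x s hs i j h.1 h.2
        rw [hsz] at F1 F2
        have h2 := HP δ S hS φ hφ _ hδ (hn₀ n hn) _ _ _ F1 F2 f η hf hη
        rw [hE]
        refine le_trans (le_of_eq ?_) h2
        unfold pe
        simp only [Pi.one_apply, one_mul, sq]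
      · exact hE0
    have h2 : ∑ _s ∈ D.V.ballF D.R, ∑ _i : Bool, ∑ _j : Bool, E =
        4 * (D.V.ballF D.R).card * E := by
      simp only [Finset.sum_const, Finset.card_univ, Fintype.card_bool, nsmul_eq_mul]
      push_cast
      ring
    rw [mul_assoc, ← hE, hK]
    rw [h2] at h1
    nlinarith
  have hsum := sum_Oe_le φ δ S (D.V.level n)
    (fun x => ball (D.V.ctr x) (L * (D.V.a ^ n)⁻¹)) N fun z => by
      refine le_trans ?_ (HN z n)
      rw [← ncard_coe_finset]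
      refine ncard_le_ncard (fun p hp => ?_) (Finset.finite_toSet _)
      simp only [Finset.coe_filter, mem_ofPred_eq]
      exact ⟨hp.1, (mem_ball.1 hp.2).le⟩
  have hO := Oe_nonneg φ δ S univ
  have hc : (0 : ℝ) ≤ (D.V.level n).card * η ^ 2 := by positivity
  have hN0 : (0 : ℝ) ≤ N := Nat.cast_nonneg _
  calc D.Ep n f ≤ ∑ x ∈ D.V.level n,
        K * C * (Oe φ δ S (ball (D.V.ctr x) (L * (D.V.a ^ n)⁻¹)) + η ^ 2) :=
        Finset.sum_le_sum hloc
    _ = K * C * (∑ x ∈ D.V.level n, Oe φ δ S (ball (D.V.ctr x) (L * (D.V.a ^ n)⁻¹)) +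
          (D.V.level n).card * η ^ 2) := by
        rw [← Finset.mul_sum, Finset.sum_add_distrib, Finset.sum_const, nsmul_eq_mul]
    _ ≤ K * C * ((N + 1) * (Oe φ δ S univ + (D.V.level n).card * η ^ 2)) := by
        refine mul_le_mul_of_nonneg_left ?_ (by positivity)
        nlinarith
    _ = _ := by ring

/-- **weak monotonicity**: `Ep_le_Oe` with `φ = disc f N`, `Oe_disc_le` with `h = 1`, `N → ∞`. -/
theorem wm (hM : MGeo Z) : ∃ (C : ℝ) (n₀ : ℕ), 0 < C ∧ ∀ (f : Z → ℝ) (M : ℝ), Continuous f →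
    (∃ᶠ N in atTop, D.Bn N 1 f f ≤ M) → ∀ n ≥ n₀, D.Ep n f ≤ C * M := by
  obtain ⟨C₁, n₀, hC₁, H₁⟩ := D.Ep_le_Oe hM
  obtain ⟨C₂, T, hC₂, -, H₂⟩ := D.Oe_disc_le hM
  refine ⟨C₁ * C₂, n₀, by positivity, fun f M hf hfr n hn => ?_⟩
  have key : ∀ η : ℝ, 0 < η → D.Ep n f ≤ C₁ * (C₂ * M + (D.V.level n).card * η ^ 2) := by
    intro η hη
    obtain ⟨N, hN1, hN2, hN3⟩ :=
      (hfr.and_eventually ((D.disc_close hf hη).and (eventually_ge_atTop n))).exists
    have hpos : 0 < (D.V.a ^ N)⁻¹ := inv_pos.2 (pow_pos D.V.a_pos _)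
    obtain ⟨S, hS⟩ := exists_net (Z := Z) hpos
    have hle : (D.V.a ^ N)⁻¹ ≤ (D.V.a ^ n)⁻¹ :=
      inv_anti₀ (pow_pos D.V.a_pos _) (pow_le_pow_right₀ D.V.one_lt_a.le hN3)
    have h1 := H₁ n hn _ S hS hle (D.disc f N) f η (D.disc_bdd hf N) hf hN2
    have h2 := H₂ N S hS f 1 hf continuous_const (fun _ => zero_le_one) univ
      (fun _ _ _ _ => le_rfl)
    have h3 : C₂ * D.Bn N 1 f f ≤ C₂ * M := mul_le_mul_of_nonneg_left hN1 hC₂.le
    refine h1.trans (mul_le_mul_of_nonneg_left ?_ hC₁.le)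
    linarith
  have hlim : Tendsto (fun η : ℝ => C₁ * (C₂ * M + (D.V.level n).card * η ^ 2)) (𝓝[>] 0)
      (𝓝 (C₁ * (C₂ * M + (D.V.level n).card * (0 : ℝ) ^ 2))) :=
    (Continuous.tendsto (by fun_prop) 0).mono_left nhdsWithin_le_nhds
  have h := ge_of_tendsto hlim (eventually_mem_nhdsWithin.mono fun η hη => key η hη)
  simpa [mul_assoc] using h

theorem wm_B (hM : MGeo Z) : ∃ (C : ℝ) (n₀ : ℕ), 0 < C ∧ ∀ f : Z → ℝ, D.Mem f →
    ∀ n ≥ n₀, D.Ep n f ≤ C * D.B 1 f f := by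
  obtain ⟨C, n₀, hC, H⟩ := D.wm hM
  refine ⟨C, n₀, hC, fun f hf n hn => ?_⟩
  have key : ∀ ε : ℝ, 0 < ε → D.Ep n f ≤ C * (D.B 1 f f + ε) := fun ε hε =>
    H f _ hf.1 (frequently_le_ulim (D.seqBdd continuous_const hf hf) hε) n hn
  have hlim : Tendsto (fun ε : ℝ => C * (D.B 1 f f + ε)) (𝓝[>] 0) (𝓝 (C * (D.B 1 f f + 0))) :=
    (Continuous.tendsto (by fun_prop) 0).mono_left nhdsWithin_le_nhds
  have h := ge_of_tendsto hlim (eventually_mem_nhdsWithin.mono fun ε hε => key ε hε)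
  simpa using h

theorem mem_of_appr (hM : MGeo Z) {χ : Z → ℝ} (hχ : Continuous χ) (h : Appr χ) : D.Mem χ := by
  obtain ⟨C, n₀, hC, H⟩ := D.Ep_le_Oe hM
  obtain ⟨M, hA⟩ := h
  refine D.mem_of_eventually hχ (M := C * (M + 1)) (eventually_atTop.2 ⟨n₀, fun n hn => ?_⟩)
  obtain ⟨c, hc⟩ : ∃ c : ℝ, c = (D.V.level n).card := ⟨_, rfl⟩
  have hc0 : 0 ≤ c := by rw [hc]; positivity
  have hpos : 0 < (D.V.a ^ n)⁻¹ := inv_pos.2 (pow_pos D.V.a_pos _)
  obtain ⟨η, hη0, hη1, hη2⟩ : ∃ η : ℝ, 0 < η ∧ η ≤ (D.V.a ^ n)⁻¹ ∧ c * η ^ 2 ≤ 1 := by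
    refine ⟨min (D.V.a ^ n)⁻¹ (1 / (c + 1)), lt_min hpos (by positivity), min_le_left _ _, ?_⟩
    have h1 : min (D.V.a ^ n)⁻¹ (1 / (c + 1)) ^ 2 ≤ (1 / (c + 1)) ^ 2 :=
      pow_le_pow_left₀ (lt_min hpos (by positivity)).le (min_le_right _ _) 2
    have h2 : c * (1 / (c + 1)) ^ 2 ≤ 1 := by
      rw [div_pow, one_pow, mul_one_div, div_le_one (by positivity)]
      nlinarith
    exact (mul_le_mul_of_nonneg_left h1 hc0).trans h2
  obtain ⟨δ, S, φ, hS, hδ, hφ, hcl, hO⟩ := hA η hη0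
  have h1 := H n hn δ S hS (hδ.trans hη1) φ χ η hφ hχ hcl
  rw [← hc] at h1
  refine (D.Bn_le_Ep χ n).trans (h1.trans (mul_le_mul_of_nonneg_left ?_ hC.le))
  linarith

/-- `ctr ((g x)⁻¹)` is within `C a^{|g|} sz x` of `ctr x⁻¹` (`rho2_le_of_len`); uniform continuity of
`θ i`. -/
theorem w_shift (g : G) {ε : ℝ} (hε : 0 < ε) : ∃ n₁ : ℕ, ∀ x : G, n₁ ≤ D.V.len x → ∀ i : Bool,
    |D.w x i - D.w (g * x) i| ≤ ε ∧ (D.w x i ≠ 0 → D.act (g * x) i) := by
  have huc : ∀ i : Bool, ∃ τ : ℝ, 0 < τ ∧ ∀ p q : Z, dist p q < τ → |D.θ i p - D.θ i q| ≤ ε := by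
    intro i
    obtain ⟨τ, hτ, H⟩ := Metric.uniformContinuous_iff.1
      (CompactSpace.uniformContinuous_of_continuous (D.θ_cont i)) ε hε
    exact ⟨τ, hτ, fun p q hpq => by have := H hpq; rw [Real.dist_eq] at this; exact this.le⟩
  choose τ hτ H using huc
  have hd := D.d_pos
  obtain ⟨t, ht, ht1, ht2⟩ : ∃ t : ℝ, 0 < t ∧ (∀ i, t ≤ τ i) ∧ t ≤ D.d := by
    refine ⟨min (min (τ true) (τ false)) D.d, lt_min (lt_min (hτ _) (hτ _)) hd, fun i => ?_,
      min_le_right _ _⟩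
    cases i
    · exact (min_le_left _ _).trans (min_le_right _ _)
    · exact (min_le_left _ _).trans (min_le_left _ _)
  have hK : 0 < D.V.C * D.V.a ^ D.V.len g := mul_pos D.V.C_pos (pow_pos D.V.a_pos _)
  obtain ⟨L, hL⟩ := D.V.exists_len_le (e := t / (D.V.C * D.V.a ^ D.V.len g)) (div_pos ht hK)
  refine ⟨L + 1, fun x hx i => ?_⟩
  have h1 : D.V.sz x < t / (D.V.C * D.V.a ^ D.V.len g) := by
    by_contra hc
    have := hL x (not_lt.1 hc)
    omega
  have h2 : D.V.len ((x⁻¹)⁻¹ * (g * x)⁻¹) ≤ D.V.len g := by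
    have e : (x⁻¹)⁻¹ * (g * x)⁻¹ = g⁻¹ := by group
    rw [e, D.V.len_inv]
  have h3 := (D.V.dist_le_rho2 _ _).trans (D.V.rho2_le_of_len h2)
  rw [D.V.sz_inv] at h3
  have h4 : dist (D.V.ctr x⁻¹) (D.V.ctr (g * x)⁻¹) < t := by
    rw [lt_div_iff₀ hK] at h1
    linarith
  refine ⟨H i _ _ (h4.trans_le (ht1 i)), fun hw => ?_⟩
  have h5 : 3 * D.d ≤ dist (D.V.ctr x⁻¹) (D.a i) := by
    by_contra hc
    exact hw (D.θ_zero i _ (not_le.1 hc))
  have h6 := dist_triangle (D.V.ctr x⁻¹) (D.V.ctr (g * x)⁻¹) (D.a i)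
  unfold act
  linarith

/-- by `pe_inv`, `w_shift`, `abs_pe_le` -/
theorem loc_inv (g : G) {ε : ℝ} (hε : 0 < ε) : ∃ n₁ : ℕ, ∀ x : G, n₁ ≤ D.V.len x →
    ∀ (h f k : Z → ℝ) (c : ℝ), Continuous h → Continuous f → Continuous k → (∀ z, |h z| ≤ c) →
      |D.loc (fun z => h (g • z)) (fun z => f (g • z)) (fun z => k (g • z)) x -
          D.loc h f k (g * x)| ≤ ε * c * (D.locp f (g * x) + D.locp k (g * x)) := by
  classical
  obtain ⟨n₁, hn₁⟩ := D.w_shift g hε
  refine ⟨n₁ + D.R, fun x hx h f k c hh hf hk hc => ?_⟩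
  have hc0 : 0 ≤ c := (abs_nonneg _).trans (hc (D.a true))
  unfold loc locp
  rw [← Finset.sum_sub_distrib, ← Finset.sum_add_distrib, Finset.mul_sum]
  refine (Finset.abs_sum_le_sum_abs _ _).trans (Finset.sum_le_sum fun s hs => ?_)
  rw [← Finset.sum_sub_distrib, ← Finset.sum_add_distrib, Finset.mul_sum]
  refine (Finset.abs_sum_le_sum_abs _ _).trans (Finset.sum_le_sum fun i _ => ?_)
  rw [← Finset.sum_sub_distrib, ← Finset.sum_add_distrib, Finset.mul_sum]
  refine (Finset.abs_sum_le_sum_abs _ _).trans (Finset.sum_le_sum fun j _ => ?_)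
  rw [D.pe_inv g hh hf hk, ← mul_assoc g x s]
  have hs' : D.V.len s ≤ D.R := D.V.mem_ballF.1 hs
  have hxs : n₁ ≤ D.V.len (x * s) := by
    have h1 := D.V.len_mul (x * s) s⁻¹
    rw [mul_inv_cancel_right, D.V.len_inv] at h1
    omega
  obtain ⟨a1, a2⟩ := hn₁ x (by omega) i
  obtain ⟨b1, b2⟩ := hn₁ (x * s) hxs j
  rw [← mul_assoc g x s] at b1 b2
  by_cases hact : D.act (g * x) i ∧ D.act (g * x * s) j
  · rw [if_pos hact, if_pos hact, ← sub_mul, abs_mul]
    have e1 := D.abs_pe_le hh hf hk hc (g * x) i (g * x * s) j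
    have e2 : |D.w x i * D.w (x * s) j - D.w (g * x) i * D.w (g * x * s) j| ≤ 2 * ε := by
      have e : D.w x i * D.w (x * s) j - D.w (g * x) i * D.w (g * x * s) j =
          (D.w x i - D.w (g * x) i) * D.w (x * s) j +
            D.w (g * x) i * (D.w (x * s) j - D.w (g * x * s) j) := by ring
      rw [e]
      refine (abs_add_le _ _).trans ?_
      rw [abs_mul, abs_mul, abs_of_nonneg (D.w_nonneg (x * s) j),
        abs_of_nonneg (D.w_nonneg (g * x) i)]
      have u1 := mul_le_mul a1 (D.w_le_one (x * s) j) (D.w_nonneg _ _) hε.le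
      have u2 := mul_le_mul (D.w_le_one (g * x) i) b1 (abs_nonneg _) zero_le_one
      linarith
    refine (mul_le_mul e2 e1 (abs_nonneg _) (by positivity)).trans (le_of_eq ?_)
    ring
  · rw [if_neg hact, if_neg hact]
    have z1 : D.w x i * D.w (x * s) j = 0 := by
      by_contra hne
      exact hact ⟨a2 (left_ne_zero_of_mul hne), b2 (right_ne_zero_of_mul hne)⟩
    have z2 : D.w (g * x) i * D.w (g * x * s) j = 0 := by
      by_contra hne
      exact hact ⟨D.act_of_w (left_ne_zero_of_mul hne), D.act_of_w (right_ne_zero_of_mul hne)⟩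
    rw [z1, z2]
    simp

/-- `loc_inv` with `ε = 1`, `h = 1`; `g * level n` lies in the levels `n - |g| .. n + |g|`; `wm`. -/
theorem inv_mem (hM : MGeo Z) (g : G) {f : Z → ℝ} (hf : D.Mem f) : D.Mem fun z => f (g • z) := by
  classical
  obtain ⟨hfc, M, hM'⟩ := hf
  obtain ⟨C, n₀, hC, H⟩ := D.wm hM
  have hE := H f M hfc (Eventually.of_forall hM').frequently
  obtain ⟨n₁, hn₁⟩ := D.loc_inv g one_pos
  refine D.mem_of_eventually (hfc.comp (D.V.continuous_smul g))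
    (M := 3 * ((2 * D.V.len g + 1 : ℕ) * (C * M))) ?_
  filter_upwards [eventually_ge_atTop (n₁ + n₀ + D.V.len g)] with n hn
  have h1 : ∀ x ∈ D.V.level n, D.loc 1 (fun z => f (g • z)) (fun z => f (g • z)) x ≤
      3 * D.locp f (g * x) := by
    intro x hx
    have hx' : D.V.len x = n := D.V.mem_level.1 hx
    have a1 := hn₁ x (by omega) 1 f f 1 continuous_const hfc hfc (fun z => by simp)
    have a2 := D.loc_le_locp f (g * x)
    have a3 := (abs_le.1 a1).2
    change D.loc 1 (fun z => f (g • z)) (fun z => f (g • z)) x - _ ≤ _ at a3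
    linarith
  have h2 : ∑ x ∈ D.V.level n, D.locp f (g * x) ≤
      ∑ m ∈ Finset.Icc (n - D.V.len g) (n + D.V.len g), D.Ep m f := by
    have e1 : ∑ x ∈ D.V.level n, D.locp f (g * x) =
        ∑ y ∈ (D.V.level n).image (fun x => g * x), D.locp f y :=
      (Finset.sum_image fun x _ y _ hxy => mul_left_cancel hxy).symm
    have e2 : ∑ m ∈ Finset.Icc (n - D.V.len g) (n + D.V.len g), D.Ep m f =
        ∑ y ∈ (Finset.Icc (n - D.V.len g) (n + D.V.len g)).biUnion D.V.level, D.locp f y := by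
      rw [Finset.sum_biUnion]
      · rfl
      · intro a _ b _ hab
        rw [Function.onFun, Finset.disjoint_left]
        intro y ha hb
        exact hab ((D.V.mem_level.1 ha).symm.trans (D.V.mem_level.1 hb))
    rw [e1, e2]
    refine Finset.sum_le_sum_of_subset_of_nonneg (fun y hy => ?_) fun y _ _ => D.locp_nonneg f y
    obtain ⟨x, hx, rfl⟩ := Finset.mem_image.1 hy
    have hx' : D.V.len x = n := D.V.mem_level.1 hx
    have b1 := D.V.len_mul g x
    have b2 := D.V.len_mul g⁻¹ (g * x)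
    rw [inv_mul_cancel_left, D.V.len_inv] at b2
    exact Finset.mem_biUnion.2 ⟨D.V.len (g * x), Finset.mem_Icc.2 ⟨by omega, by omega⟩,
      D.V.mem_level.2 rfl⟩
  have h3 : ∑ m ∈ Finset.Icc (n - D.V.len g) (n + D.V.len g), D.Ep m f ≤
      (2 * D.V.len g + 1 : ℕ) * (C * M) := by
    have := Finset.sum_le_card_nsmul (Finset.Icc (n - D.V.len g) (n + D.V.len g))
      (fun m => D.Ep m f) (C * M) fun m hm => hE m (by have := (Finset.mem_Icc.1 hm).1; omega)
    rw [Nat.card_Icc, nsmul_eq_mul] at this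
    have e : n + D.V.len g + 1 - (n - D.V.len g) = 2 * D.V.len g + 1 := by omega
    rwa [e] at this
  calc D.Bn n 1 (fun z => f (g • z)) (fun z => f (g • z))
      ≤ ∑ x ∈ D.V.level n, 3 * D.locp f (g * x) := Finset.sum_le_sum h1
    _ = 3 * ∑ x ∈ D.V.level n, D.locp f (g * x) := (Finset.mul_sum _ _ _).symm
    _ ≤ _ := by linarith

omit [CompactSpace Z] [MeasurableSpace Z] [BorelSpace Z] in
private theorem helper22_sum_le (V : Visual G Z) {p : G → ℝ} (hp : ∀ x, 0 ≤ p x) {E : ℝ}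
    (hE : ∀ n, ∑ x ∈ V.level n, p x ≤ E) (T : Finset G) (I : Finset ℕ)
    (h : ∀ y ∈ T, V.len y ∈ I) : ∑ y ∈ T, p y ≤ I.card * E := by
  rw [← Finset.sum_fiberwise_of_maps_to h, ← nsmul_eq_mul]
  refine Finset.sum_le_card_nsmul _ _ _ fun n _ => le_trans ?_ (hE n)
  exact Finset.sum_le_sum_of_subset_of_nonneg
    (fun y hy => V.mem_level.2 (Finset.mem_filter.1 hy).2) fun y _ _ => hp y

omit [CompactSpace Z] [MeasurableSpace Z] [BorelSpace Z] in
private theorem helper22_sum_eq (V : Visual G Z) (φ : G → ℝ) (M : ℕ) :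
    ∑ n ∈ Finset.range M, ∑ x ∈ V.level n, φ x =
      ∑ x ∈ (V.ballF M).filter (fun x => V.len x < M), φ x := by
  rw [← Finset.sum_fiberwise_of_maps_to (s := (V.ballF M).filter (fun x => V.len x < M))
    (t := Finset.range M) (g := fun x => V.len x)
    fun x hx => Finset.mem_range.2 (Finset.mem_filter.1 hx).2]
  refine Finset.sum_congr rfl fun n hn => Finset.sum_congr ?_ fun _ _ => rfl
  have := Finset.mem_range.1 hn
  ext x
  simp only [Visual.mem_level, Finset.mem_filter, Visual.mem_ballF]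
  omega

omit [CompactSpace Z] [MeasurableSpace Z] [BorelSpace Z] in
private theorem helper22_ces (V : Visual G Z) (g : G) {a b p : G → ℝ} {E : ℝ}
    (hb : ∀ x, |b x| ≤ p x) (hE : ∀ n, ∑ x ∈ V.level n, p x ≤ E)
    (ha : ∀ ε : ℝ, 0 < ε → ∃ n₁ : ℕ, ∀ x, n₁ ≤ V.len x → |a x - b (g * x)| ≤ ε * p (g * x)) :
    Tendsto (fun M => ces (fun n => ∑ x ∈ V.level n, a x) M -
      ces (fun n => ∑ x ∈ V.level n, b x) M) atTop (𝓝 0) := by
  classical
  have hp : ∀ x, 0 ≤ p x := fun x => (abs_nonneg _).trans (hb x)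
  have hE0 : 0 ≤ E := (Finset.sum_nonneg fun x _ => hp x).trans (hE 0)
  refine Metric.tendsto_nhds.2 fun η hη => ?_
  have hε : 0 < η / (2 * (E + 1)) := by positivity
  have hεE : η / (2 * (E + 1)) * E ≤ η / 2 := by
    rw [div_mul_eq_mul_div, div_le_div_iff₀ (by positivity) two_pos]
    nlinarith
  generalize η / (2 * (E + 1)) = ε at hε hεE
  obtain ⟨n₁, hn₁⟩ := ha ε hε
  set K := ∑ x ∈ V.ballF n₁, |a x - b (g * x)| + ε * (V.len g * E) + 2 * (V.len g * E) with hK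
  have hlim := tendsto_const_div_atTop_nhds_zero_nat K
  filter_upwards [hlim.eventually (gt_mem_nhds (half_pos hη)), eventually_gt_atTop 0] with M h1 hM
  have hM' : (0 : ℝ) < M := by exact_mod_cast hM
  rw [dist_zero_right, Real.norm_eq_abs, ces, ces, ← sub_div, abs_div, abs_of_pos hM',
    helper22_sum_eq, helper22_sum_eq]
  set S := (V.ballF M).filter (fun x => V.len x < M) with hS
  have hmem : ∀ x, x ∈ S ↔ V.len x < M := fun x => by
    simp only [hS, Finset.mem_filter, Visual.mem_ballF]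
    omega
  have hinj : Set.InjOn (fun x => g * x) S := fun x _ y _ h => mul_left_cancel h
  have hT : ∀ y, y ∈ S.image (fun x => g * x) ↔ V.len (g⁻¹ * y) < M := fun y => by
    rw [Finset.mem_image, ← hmem]
    constructor
    · rintro ⟨x, hx, rfl⟩
      rwa [inv_mul_cancel_left]
    · exact fun h => ⟨_, h, mul_inv_cancel_left _ _⟩
  have hl1 : ∀ y, V.len y ≤ V.len g + V.len (g⁻¹ * y) := fun y => V.len_le_add g y
  have hl2 : ∀ y, V.len (g⁻¹ * y) ≤ V.len g + V.len y := fun y => by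
    have := V.len_mul g⁻¹ y
    rwa [V.len_inv] at this
  have e1 : |∑ x ∈ S, a x - ∑ x ∈ S, b (g * x)| ≤
      ∑ x ∈ V.ballF n₁, |a x - b (g * x)| + ε * ((M + V.len g) * E) := by
    rw [← Finset.sum_sub_distrib]
    refine (Finset.abs_sum_le_sum_abs _ _).trans ?_
    rw [← Finset.sum_filter_add_sum_filter_not S fun x => V.len x ≤ n₁]
    refine add_le_add (Finset.sum_le_sum_of_subset_of_nonneg
      (fun x hx => V.mem_ballF.2 (Finset.mem_filter.1 hx).2) fun _ _ _ => abs_nonneg _) ?_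
    calc ∑ x ∈ S.filter (fun x => ¬ V.len x ≤ n₁), |a x - b (g * x)|
        ≤ ∑ x ∈ S.filter (fun x => ¬ V.len x ≤ n₁), ε * p (g * x) :=
          Finset.sum_le_sum fun x hx => hn₁ x (not_le.1 (Finset.mem_filter.1 hx).2).le
      _ ≤ ∑ x ∈ S, ε * p (g * x) := Finset.sum_le_sum_of_subset_of_nonneg
          (Finset.filter_subset _ _) fun x _ _ => mul_nonneg hε.le (hp _)
      _ = ε * ∑ y ∈ S.image (fun x => g * x), p y := by
          rw [Finset.sum_image hinj, Finset.mul_sum]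
      _ ≤ ε * ((M + V.len g) * E) := by
          refine mul_le_mul_of_nonneg_left ?_ hε.le
          have := helper22_sum_le V hp hE (S.image fun x => g * x) (Finset.range (M + V.len g))
            fun y hy => by
              have h2 := (hT y).1 hy
              have h3 := hl1 y
              rw [Finset.mem_range]
              omega
          rwa [Finset.card_range, Nat.cast_add] at this
  have e2 : |∑ x ∈ S, b (g * x) - ∑ x ∈ S, b x| ≤ 2 * (V.len g * E) := by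
    rw [← Finset.sum_image hinj, ← Finset.sum_sdiff_sub_sum_sdiff]
    have h2 := helper22_sum_le V hp hE (S.image (fun x => g * x) \ S)
      (Finset.Ico M (M + V.len g)) fun y hy => by
        have h2 := (hT y).1 (Finset.mem_sdiff.1 hy).1
        have h3 := (hmem y).not.1 (Finset.mem_sdiff.1 hy).2
        have h4 := hl1 y
        rw [Finset.mem_Ico]
        omega
    have h3 := helper22_sum_le V hp hE (S \ S.image (fun x => g * x))
      (Finset.Ico (M - V.len g) M) fun y hy => by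
        have h2 := (hT y).not.1 (Finset.mem_sdiff.1 hy).2
        have h3 := (hmem y).1 (Finset.mem_sdiff.1 hy).1
        have h4 := hl2 y
        rw [Finset.mem_Ico]
        omega
    rw [Nat.card_Ico, Nat.add_sub_cancel_left] at h2
    have h4 : ((Finset.Ico (M - V.len g) M).card : ℝ) ≤ V.len g := by
      rw [Nat.card_Ico]
      exact_mod_cast (by omega : M - (M - V.len g) ≤ V.len g)
    have h5 := mul_le_mul_of_nonneg_right h4 hE0
    have h6 := (Finset.abs_sum_le_sum_abs b (S.image (fun x => g * x) \ S)).trans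
      (Finset.sum_le_sum fun x _ => hb x)
    have h7 := (Finset.abs_sum_le_sum_abs b (S \ S.image (fun x => g * x))).trans
      (Finset.sum_le_sum fun x _ => hb x)
    refine (abs_sub _ _).trans ?_
    linarith
  have e3 := abs_sub_le (∑ x ∈ S, a x) (∑ x ∈ S, b (g * x)) (∑ x ∈ S, b x)
  rw [div_lt_iff₀ hM'] at h1 ⊢
  have e4 := mul_le_mul_of_nonneg_right hεE hM'.le
  nlinarith

/-- `ulim_congr_ces`: `∑_{n < M} Bn n = ∑_{|x| < M} loc`; `{|x| < M}` and `g⁻¹ {|x| < M}` differ only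
in the `2 |g|` levels around `M`, each of bounded energy; the errors of `loc_inv` sum to
`O(ε M) + O(1)` by `wm`. -/
theorem inv (hM : MGeo Z) (g : G) {h f k : Z → ℝ} (hh : Continuous h) (hf : D.Mem f)
    (hk : D.Mem k) :
    D.B (fun z => h (g • z)) (fun z => f (g • z)) (fun z => k (g • z)) = D.B h f k := by
  obtain ⟨c, hc⟩ := isCompact_univ.exists_bound_of_continuousOn hh.continuousOn
  replace hc : ∀ z, |h z| ≤ max c 0 := fun z => (hc z (mem_univ z)).trans (le_max_left _ _)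
  have hc0 : 0 ≤ max c 0 := le_max_right _ _
  generalize max c 0 = c at hc hc0
  obtain ⟨C, n₀, -, hC⟩ := D.wm_B hM
  have hEp : ∀ u : Z → ℝ, D.Mem u → ∃ E : ℝ, ∀ n, D.Ep n u ≤ E := by
    intro u hu
    have h0 : ∀ n, 0 ≤ D.Ep n u := fun n => Finset.sum_nonneg fun x _ => D.locp_nonneg u x
    refine ⟨max (C * D.B 1 u u) (∑ n ∈ Finset.range n₀, D.Ep n u), fun n => ?_⟩
    rcases le_or_gt n₀ n with hn | hn
    · exact (hC u hu n hn).trans (le_max_left _ _)
    · exact (Finset.single_le_sum (fun n _ => h0 n) (Finset.mem_range.2 hn)).trans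
        (le_max_right _ _)
  obtain ⟨Ef, hEf⟩ := hEp f hf
  obtain ⟨Ek, hEk⟩ := hEp k hk
  refine ulim_congr_ces (D.seqBdd (hh.comp (D.V.continuous_smul g)) (D.inv_mem hM g hf)
    (D.inv_mem hM g hk)) (D.seqBdd hh hf hk) ?_
  refine helper22_ces D.V g (p := fun x => c * (D.locp f x + D.locp k x)) (E := c * (Ef + Ek))
    (fun x => ?_) (fun n => ?_) fun ε hε => ?_
  · have h1 := D.abs_loc_le hh hf.1 hk.1 hc x
    have h2 := mul_le_mul_of_nonneg_left
      (add_le_add (D.loc_le_locp f x) (D.loc_le_locp k x)) hc0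
    have h3 := mul_nonneg hc0 (add_nonneg (D.locp_nonneg f x) (D.locp_nonneg k x))
    linarith
  · rw [← Finset.mul_sum, Finset.sum_add_distrib]
    exact mul_le_mul_of_nonneg_left (add_le_add (hEf n) (hEk n)) hc0
  · obtain ⟨n₁, hn₁⟩ := D.loc_inv g hε
    exact ⟨n₁, fun x hx => (hn₁ x hx h f k c hh hf.1 hk.1 hc).trans_eq (mul_assoc _ _ _)⟩

theorem h12_pe_small {g : Z → ℝ} {η : ℝ} (hg : ∀ z, |g z| ≤ η) (x : G) (i : Bool) (y : G)
    (j : Bool) : D.pe 1 g g x i y j ≤ 4 * η ^ 2 := by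
  have := D.m_prob x i
  have := D.m_prob y j
  unfold pe
  refine (le_abs_self _).trans ?_
  rw [← Real.norm_eq_abs]
  refine (norm_integral_le_of_norm_le_const (C := 4 * η ^ 2)
    (Eventually.of_forall fun q => ?_)).trans (by simp)
  have h1 := abs_le.1 (hg q.1)
  have h2 := abs_le.1 (hg q.2)
  rw [Pi.one_apply, one_mul, Real.norm_eq_abs, abs_mul_self]
  nlinarith [h1.1, h1.2, h2.1, h2.2]

theorem h12_Bn_small (n : ℕ) : ∃ K : ℝ, 0 ≤ K ∧ ∀ (g : Z → ℝ) (η : ℝ), (∀ z, |g z| ≤ η) →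
    D.Bn n 1 g g ≤ K * η ^ 2 := by
  refine ⟨(D.V.level n).card * ((D.V.ballF D.R).card * 16), by positivity, fun g η hg => ?_⟩
  have h1 : ∀ x : G, D.loc 1 g g x ≤ (D.V.ballF D.R).card * 16 * η ^ 2 := fun x => by
    unfold loc
    have h2 : ∀ s ∈ D.V.ballF D.R, ∑ i : Bool, ∑ j : Bool,
        D.w x i * D.w (x * s) j * D.pe 1 g g x i (x * s) j ≤ 16 * η ^ 2 := fun s _ => by
      have h3 : ∀ i j : Bool, D.w x i * D.w (x * s) j * D.pe 1 g g x i (x * s) j ≤ 4 * η ^ 2 :=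
        fun i j => by
          have a1 : D.w x i * D.w (x * s) j ≤ 1 :=
            mul_le_one₀ (D.w_le_one x i) (D.w_nonneg _ j) (D.w_le_one _ j)
          have a2 : 0 ≤ D.pe 1 g g x i (x * s) j := D.pe_nonneg (fun _ => zero_le_one) _ _ _ _
          exact (mul_le_of_le_one_left a2 a1).trans (D.h12_pe_small hg _ _ _ _)
      simp only [Fintype.sum_bool]
      linarith [h3 true true, h3 true false, h3 false true, h3 false false]
    refine (Finset.sum_le_card_nsmul _ _ _ h2).trans (le_of_eq ?_)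
    rw [nsmul_eq_mul]
    ring
  unfold Bn
  refine (Finset.sum_le_card_nsmul _ _ _ fun x _ => h1 x).trans (le_of_eq ?_)
  rw [nsmul_eq_mul]
  ring

theorem h12_mem_sub {f k : Z → ℝ} (hf : D.Mem f) (hk : D.Mem k) : D.Mem (f - k) := by
  have := Mem.add D hf (Mem.smul D (-1) hk)
  rwa [neg_one_smul, ← sub_eq_add_neg] at this

/-- `Bn j 1 (w n - w m)² ≤ C ε` for `j ≥ n₀` (`wm_B`, `Bn_le_Ep`); let `m → ∞` with `j` fixed
(uniform convergence, finite sum); `mem_of_eventually`, `ulim_le`. -/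
theorem closable (hM : MGeo Z) (w : ℕ → Z → ℝ) (f : Z → ℝ) (hw : ∀ n, D.Mem (w n))
    (hu : TendstoUniformly w f atTop)
    (hc : ∀ ε : ℝ, 0 < ε → ∃ N, ∀ n ≥ N, ∀ m ≥ N, D.B 1 (w n - w m) (w n - w m) ≤ ε) :
    D.Mem f ∧ Tendsto (fun n => D.B 1 (w n - f) (w n - f)) atTop (𝓝 0) := by
  obtain ⟨C, n₀, hC, hwm⟩ := D.wm_B hM
  have hfc : Continuous f := hu.continuous (Eventually.of_forall fun n => (hw n).1).frequently
  have key : ∀ ε : ℝ, 0 < ε → ∃ N, ∀ n ≥ N, ∀ j ≥ n₀,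
      D.Bn j 1 (w n - f) (w n - f) ≤ 2 * C * ε := by
    intro ε hε
    obtain ⟨N, hN⟩ := hc ε hε
    refine ⟨N, fun n hn j hj => ?_⟩
    obtain ⟨K, hK, hKs⟩ := D.h12_Bn_small j
    refine le_of_forall_pos_le_add fun τ hτ => ?_
    have hη : 0 < Real.sqrt (τ / (2 * (K + 1))) := Real.sqrt_pos.2 (by positivity)
    obtain ⟨m, hm1, hm2⟩ := ((Metric.tendstoUniformly_iff.1 hu _ hη).and
      (eventually_ge_atTop N)).exists
    have a1 : D.Bn j 1 (w n - w m) (w n - w m) ≤ C * ε :=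
      (D.Bn_le_Ep _ j).trans ((hwm _ (D.h12_mem_sub (hw n) (hw m)) j hj).trans
        (mul_le_mul_of_nonneg_left (hN n hn m hm2) hC.le))
    have a2 := hKs (w m - f) _ fun z => by
      have := (hm1 z).le
      rw [Real.dist_eq, abs_sub_comm] at this
      exact this
    rw [Real.sq_sqrt (by positivity)] at a2
    have a3 := D.Bn_le_of_sq_le (f := w n - f) (u := w n - w m) (v := w m - f) (c := 2)
      ((hw n).1.sub hfc) ((hw n).1.sub (hw m).1) ((hw m).1.sub hfc) (fun x y => by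
        simp only [Pi.sub_apply]
        nlinarith [sq_nonneg ((w n x - w m x - (w n y - w m y)) - (w m x - f x - (w m y - f y)))]) j
    have a4 : K * (τ / (2 * (K + 1))) ≤ τ / 2 := by
      rw [← mul_div_assoc, div_le_div_iff₀ (by positivity) (by positivity)]
      nlinarith
    linarith
  have hmf : D.Mem f := by
    obtain ⟨N, hN⟩ := key 1 one_pos
    obtain ⟨M, hMM⟩ := (hw N).2
    refine D.mem_of_eventually hfc (M := 2 * (M + 2 * C * 1)) ?_
    filter_upwards [eventually_ge_atTop n₀] with j hj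
    have a3 := D.Bn_le_of_sq_le (f := f) (u := w N) (v := w N - f) (c := 2)
      hfc (hw N).1 ((hw N).1.sub hfc) (fun x y => by
        simp only [Pi.sub_apply]
        nlinarith [sq_nonneg ((w N x - w N y) + (w N x - f x - (w N y - f y)))]) j
    linarith [hMM j, hN N le_rfl j hj]
  refine ⟨hmf, Metric.tendsto_atTop.2 fun ε hε => ?_⟩
  obtain ⟨N, hN⟩ := key (ε / (4 * C)) (by positivity)
  refine ⟨N, fun n hn => ?_⟩
  have hm := D.h12_mem_sub (hw n) hmf
  have b1 : 0 ≤ D.B 1 (w n - f) (w n - f) := D.B_nonneg continuous_one (fun _ => zero_le_one) hm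
  have b2 : D.B 1 (w n - f) (w n - f) ≤ 2 * C * (ε / (4 * C)) :=
    ulim_le (D.seqBdd continuous_one hm hm)
      ((eventually_ge_atTop n₀).mono fun j hj => hN n hn j hj)
  have b3 : 2 * C * (ε / (4 * C)) = ε / 2 := by
    field_simp
    ring
  rw [Real.dist_eq, sub_zero, abs_of_nonneg b1]
  linarith

/-- `exists_cut`, `mem_of_appr`, a finite subcover of `K`, and `χ₁ + χ₂ - χ₁ χ₂` (`chain_mem`). -/
theorem cutoff (hM : MGeo Z) {K O : Set Z} (hK : IsClosed K) (hO : IsOpen O) (h : K ⊆ O) :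
    ∃ χ : Z → ℝ, D.Mem χ ∧ (∀ z, 0 ≤ χ z ∧ χ z ≤ 1) ∧ (∀ z ∈ K, χ z = 1) ∧ tsupport χ ⊆ O := by
  refine hK.isCompact.induction_on
    (p := fun S => ∃ χ : Z → ℝ, D.Mem χ ∧ (∀ z, 0 ≤ χ z ∧ χ z ≤ 1) ∧ (∀ z ∈ S, χ z = 1) ∧
      tsupport χ ⊆ O) ?_ ?_ ?_ ?_
  · exact ⟨0, D.mem_zero, fun z => ⟨le_rfl, zero_le_one⟩, fun z hz => absurd hz (notMem_empty z),
      by simp⟩
  · rintro s t hst ⟨χ, h1, h2, h3, h4⟩
    exact ⟨χ, h1, h2, fun z hz => h3 z (hst hz), h4⟩
  · rintro s t ⟨χ, h1, h2, h3, h4⟩ ⟨ψ, k1, k2, k3, k4⟩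
    have hφ : ContDiff ℝ 1 fun w : ℂ => w.re + w.im - w.re * w.im :=
      (Complex.reCLM.contDiff.add Complex.imCLM.contDiff).sub
        (Complex.reCLM.contDiff.mul Complex.imCLM.contDiff)
    refine ⟨fun z => χ z + ψ z - χ z * ψ z, D.chain_mem h1 k1 hφ, fun z => ?_, fun z hz => ?_, ?_⟩
    · obtain ⟨a1, a2⟩ := h2 z
      obtain ⟨b1, b2⟩ := k2 z
      constructor <;> nlinarith [mul_nonneg (sub_nonneg.2 a2) (sub_nonneg.2 b2),
        mul_nonneg a1 (sub_nonneg.2 b2)]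
    · rcases hz with hz | hz
      · simp [h3 z hz]
      · simp [k3 z hz]
    · refine (closure_minimal (fun z hz => ?_)
        ((isClosed_tsupport χ).union (isClosed_tsupport ψ))).trans (union_subset h4 k4)
      by_contra hn
      rw [mem_union, not_or] at hn
      apply hz
      simp [image_eq_zero_of_notMem_tsupport hn.1, image_eq_zero_of_notMem_tsupport hn.2]
  · intro p hp
    obtain ⟨χ, h1, h2, h3, h4, h5⟩ := exists_cut hM p (hO.mem_nhds (h hp))
    exact ⟨{z | χ z = 1}, mem_nhdsWithin_of_mem_nhds h3, χ, D.mem_of_appr hM h1 h5, h2,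
      fun z hz => hz, h4⟩

end Data

end Crest.Agent.R193.E
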