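import Crest.Agent.R193.EA2

/-! Row 193 [E], group layer: the energy measures, loops, Loewner bound, and the `DForm`. -/

set_option autoImplicit false

open Set Filter Topology MeasureTheory Metric

namespace Crest.Agent.R193.E

namespace Data

variable {G Z : Type} [Group G] [MetricSpace Z] [CompactSpace Z] [MulAction G Z] [MeasurableSpace Z]
  [BorelSpace Z] (D : Data G Z)

open Classical in
/-- the energy measure -/
noncomputable def Γ (f : Z → ℝ) : Measure Z :=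
  if hf : D.Mem f then (D.exists_Γ hf).choose else 0

theorem Γ_fin (f : Z → ℝ) : IsFiniteMeasure (D.Γ f) := by
  unfold Γ
  split_ifs with hf
  · exact (D.exists_Γ hf).choose_spec.1
  · infer_instance

theorem int_Γ {f : Z → ℝ} (hf : D.Mem f) (h : Z → ℝ) (hh : Continuous h) :
    ∫ z, h z ∂(D.Γ f) = D.B h f f := by
  unfold Γ
  rw [dif_pos hf]
  exact (D.exists_Γ hf).choose_spec.2 h hh

/-- discrete approximants whose local energy is bounded by the energy measure: `h` a Urysohn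
function, `0 ≤ h ≤ 1`, `1` on `cthickening (τ/2) A`, `0` off `thickening τ A`, so
`B h f f = ∫ h dΓ f ≤ Γ f W`; `frequently_le_ulim`, `disc_close`, `Oe_disc_le`, `exists_net`. -/
theorem oe_freq (hM : MGeo Z) : ∃ C : ℝ, 0 < C ∧ ∀ f : Z → ℝ, D.Mem f → ∀ (A W : Set Z) (τ : ℝ),
    0 < τ → thickening τ A ⊆ W → ∀ η : ℝ, 0 < η → ∃ (δ : ℝ) (S : Finset Z) (φ : Z → ℝ),
      Net δ S ∧ δ ≤ η ∧ Bdd φ ∧ (∀ z, |f z - φ z| ≤ η) ∧
        Oe φ δ S A ≤ C * ((D.Γ f).real W + η) := by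
  obtain ⟨C, T, hC, hT, H⟩ := D.Oe_disc_le hM
  refine ⟨C, hC, fun f hf A W τ hτ hW η hη => ?_⟩
  have := D.Γ_fin f
  obtain ⟨h, h0, h1, h01⟩ := exists_continuous_zero_one_of_isClosed
    (isOpen_thickening (δ := τ) (E := A)).isClosed_compl
    (isClosed_cthickening (δ := τ / 2) (E := A))
    (disjoint_compl_left_iff_subset.2 (cthickening_subset_thickening' hτ (half_lt_self hτ) A))
  have hB : D.B h f f ≤ (D.Γ f).real W := by
    rw [← D.int_Γ hf h h.continuous]
    have hm : MeasurableSet (thickening τ A) := isOpen_thickening.measurableSet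
    calc ∫ z, h z ∂(D.Γ f) ≤ ∫ z, (thickening τ A).indicator 1 z ∂(D.Γ f) := by
          refine integral_mono_of_nonneg (Eventually.of_forall fun z => (h01 z).1)
            ((integrable_const (1 : ℝ)).indicator hm) (Eventually.of_forall fun z => ?_)
          by_cases hz : z ∈ thickening τ A
          · simpa [hz] using (h01 z).2
          · simpa [hz] using (h0 hz).le
      _ = (D.Γ f).real (thickening τ A) := integral_indicator_one hm
      _ ≤ (D.Γ f).real W := measureReal_mono hW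
  have ha : Tendsto (fun N : ℕ => (D.V.a ^ N)⁻¹) atTop (𝓝 0) :=
    (tendsto_pow_atTop_atTop_of_one_lt D.V.one_lt_a).inv_tendsto_atTop
  have e1 : ∀ᶠ N : ℕ in atTop, (D.V.a ^ N)⁻¹ ≤ η := ha.eventually (ge_mem_nhds hη)
  have e2 : ∀ᶠ N : ℕ in atTop, (D.V.a ^ N)⁻¹ ≤ τ / 2 / T :=
    ha.eventually (ge_mem_nhds (by positivity))
  obtain ⟨N, hN, hc, h3, h4⟩ := ((frequently_le_ulim (D.seqBdd h.continuous hf hf) hη).and_eventually
    ((D.disc_close hf.1 hη).and (e1.and e2))).exists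
  have hpos : 0 < (D.V.a ^ N)⁻¹ := inv_pos.2 (pow_pos (one_pos.trans D.V.one_lt_a) N)
  obtain ⟨S, hS⟩ := exists_net (Z := Z) hpos
  refine ⟨_, S, D.disc f N, hS, h3, D.disc_bdd hf.1 N, hc, ?_⟩
  refine (H N S hS f h hf.1 h.continuous (fun z => (h01 z).1) A fun z hz ξ hξ => ?_).trans
    (mul_le_mul_of_nonneg_left (hN.trans ?_) hC.le)
  · refine (h1 (mem_cthickening_of_dist_le ξ z _ A hz (hξ.trans ?_))).ge
    rw [le_div_iff₀ hT] at h4
    linarith
  · exact add_le_add_left hB η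

/-- `loops_d` at radius `2 r`, `A = ball p (2 L r) \ ball p (2 r)`, `τ = r`, new ratio `2 L + 1`;
if `frontier R` is empty any `m` works, otherwise `m = φ k₀` for a point `k₀ ∈ K`. -/
theorem loops (hM : MGeo Z) : ∃ L Cs r₀ : ℝ, 1 < L ∧ 0 < Cs ∧ 0 < r₀ ∧ ∀ f : Z → ℝ, D.Mem f →
    ∀ (p : Z) (r : ℝ), 0 < r → r ≤ r₀ → ∀ δ : ℝ, 0 < δ → ∃ (R : Set Z) (m : ℝ), IsOpen R ∧
      ball p r ⊆ R ∧ R ⊆ ball p (L * r) ∧ ∀ z ∈ frontier R, |f z - m| ≤
        Cs * √((D.Γ f).real (closedBall p (L * r) \ ball p r)) + δ := by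
  obtain ⟨L, C, r₀, hL, hC, hr₀, H⟩ := loops_d hM
  obtain ⟨C', hC', H'⟩ := D.oe_freq hM
  have hs : 0 < √C' := Real.sqrt_pos.2 hC'
  refine ⟨2 * L + 1, C * √C', r₀ / 2, by linarith, by positivity, by positivity,
    fun f hf p r hr hrr δ hδ => ?_⟩
  have hW : thickening r (ball p (L * (2 * r)) \ ball p (2 * r)) ⊆
      closedBall p ((2 * L + 1) * r) \ ball p r := by
    intro z hz
    obtain ⟨a, ⟨ha1, ha2⟩, hza⟩ := mem_thickening_iff.1 hz
    rw [mem_ball] at ha1 ha2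
    refine ⟨?_, fun h => ha2 ?_⟩
    · rw [mem_closedBall]
      linarith [dist_triangle z a p]
    · rw [mem_ball] at h
      linarith [dist_triangle_left a p z]
  set η : ℝ := min (2 * r) (min (δ / 4) ((δ / (2 * (C * √C'))) ^ 2)) with hηd
  have hη : 0 < η := by positivity
  have hη1 : η ≤ 2 * r := min_le_left _ _
  have hη2 : η ≤ δ / 4 := (min_le_right _ _).trans (min_le_left _ _)
  have hη3 : √η ≤ δ / (2 * (C * √C')) :=
    Real.sqrt_le_iff.2 ⟨by positivity, (min_le_right _ _).trans (min_le_right _ _)⟩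
  obtain ⟨d, S, φ, hS, hd, hφ, hfφ, hO⟩ := H' f hf _ _ r hr hW η hη
  obtain ⟨R, K, hR, h1, h2, h3, -, hK, -, -, h4⟩ :=
    H d S hS φ hφ p (2 * r) (hd.trans hη1) (by linarith) η hη
  obtain ⟨k₀, hk₀⟩ := hK.nonempty
  refine ⟨R, φ k₀, hR, (ball_subset_ball (by linarith)).trans h1,
    h2.trans (ball_subset_ball (by linarith)), fun z hz => ?_⟩
  set g := (D.Γ f).real (closedBall p ((2 * L + 1) * r) \ ball p r) with hg
  have hg0 : 0 ≤ g := measureReal_nonneg
  have h5 := h4 z (h3 hz) k₀ hk₀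
  have h6 : √(Oe φ d S (ball p (L * (2 * r)) \ ball p (2 * r))) ≤ √C' * (√g + √η) := by
    refine (Real.sqrt_le_sqrt hO).trans ?_
    rw [Real.sqrt_mul hC'.le]
    refine mul_le_mul_of_nonneg_left (Real.sqrt_le_iff.2 ⟨by positivity, ?_⟩) hs.le
    nlinarith [Real.sq_sqrt hg0, Real.sq_sqrt hη.le, Real.sqrt_nonneg g, Real.sqrt_nonneg η]
  have h7 := mul_le_mul_of_nonneg_left h6 hC.le
  rw [le_div_iff₀ (by positivity)] at hη3
  have h8 := abs_sub_le (f z) (φ z) (φ k₀)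
  have h9 := hfφ z
  nlinarith

/-- `P` = range of a path in `U` from `K` to `K'` (`U` is path connected: `lpc_of_S2`), `τ` so small
that `U' = cthickening (4 τ) P ⊆ U` and `2 L τ ≤` the distance of two points of `K`, resp. `K'`;
`Q` a finite `τ`-cover of `P` centred in `P`, `W = thickening (3 τ) P`; `loewner_d` for the
approximants of `oe_freq` with `a + 2η'`, `b - 2η'` (uniform continuity of `f`); let `η' → 0`. -/
theorem loewner (hM : MGeo Z) (U K K' : Set Z) (hU : IsOpen U) (hUc : IsPreconnected U)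
    (hK : IsCompact K) (hKc : IsPreconnected K) (hKn : K.Nontrivial) (hK' : IsCompact K')
    (hKc' : IsPreconnected K') (hKn' : K'.Nontrivial) (hKU : K ⊆ U) (hKU' : K' ⊆ U) :
    ∃ c : ℝ, 0 < c ∧ ∃ U' : Set Z, IsCompact U' ∧ U' ⊆ U ∧ ∀ f : Z → ℝ, D.Mem f → ∀ a b : ℝ,
      a ≤ b → (∀ z ∈ K, f z ≤ a) → (∀ z ∈ K', b ≤ f z) →
        c * (b - a) ^ 2 ≤ (D.Γ f).real U' := by
  classical
  obtain ⟨L, C, r₀, hL, hC, hr₀, hd⟩ := loewner_d hM
  obtain ⟨C₁, hC₁, hoe⟩ := D.oe_freq hM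
  have := lpc_of_S2 hM.sph
  obtain ⟨x₀, hx₀, x₁, hx₁, hx⟩ := hKn
  obtain ⟨y₀, hy₀, y₁, hy₁, hy⟩ := hKn'
  have hUp : IsPathConnected U := hU.isConnected_iff_isPathConnected.1 ⟨⟨x₀, hKU hx₀⟩, hUc⟩
  obtain ⟨γ, hγ⟩ := hUp.joinedIn x₀ (hKU hx₀) y₀ (hKU' hy₀)
  have hP : IsCompact (range γ) := isCompact_range γ.continuous
  obtain ⟨ε, hε, hεU⟩ := hP.exists_cthickening_subset_open hU (range_subset_iff.2 hγ)
  have d1 : 0 < dist x₀ x₁ := dist_pos.2 hx
  have d2 : 0 < dist y₀ y₁ := dist_pos.2 hy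
  have hL0 : 0 < L := by linarith
  obtain ⟨τ, hτ, t1, t2, t3, t4⟩ : ∃ τ : ℝ, 0 < τ ∧ τ ≤ r₀ ∧ 4 * τ ≤ ε ∧
      2 * (L * τ) ≤ dist x₀ x₁ ∧ 2 * (L * τ) ≤ dist y₀ y₁ := by
    refine ⟨min (min r₀ (ε / 4)) (min (dist x₀ x₁ / (2 * L)) (dist y₀ y₁ / (2 * L))),
      by positivity, (min_le_left _ _).trans (min_le_left _ _), ?_, ?_, ?_⟩
    · have := (min_le_left (min r₀ (ε / 4))
        (min (dist x₀ x₁ / (2 * L)) (dist y₀ y₁ / (2 * L)))).trans (min_le_right _ _)
      linarith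
    · have := (min_le_right (min r₀ (ε / 4))
        (min (dist x₀ x₁ / (2 * L)) (dist y₀ y₁ / (2 * L)))).trans (min_le_left _ _)
      rw [le_div_iff₀ (by positivity)] at this
      linarith
    · have := (min_le_right (min r₀ (ε / 4))
        (min (dist x₀ x₁ / (2 * L)) (dist y₀ y₁ / (2 * L)))).trans (min_le_right _ _)
      rw [le_div_iff₀ (by positivity)] at this
      linarith
  obtain ⟨t, htP, htf, htc⟩ := finite_cover_balls_of_compact hP hτ
  set q : ℝ := C * (htf.toFinset.card + 1) with hq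
  have hq0 : 0 < q := by positivity
  refine ⟨(q ^ 2 * C₁)⁻¹, by positivity, cthickening (4 * τ) (range γ), hP.cthickening,
    (cthickening_mono t2 _).trans hεU, fun f hf a b hab ha hb => ?_⟩
  set E := (D.Γ f).real (cthickening (4 * τ) (range γ)) with hE
  have hE0 : 0 ≤ E := measureReal_nonneg
  have key : ∀ η : ℝ, 0 < η → b - a ≤ q * √(C₁ * (E + η)) + 4 * η := by
    intro η hη
    have hs0 : 0 ≤ q * √(C₁ * (E + η)) := by positivity
    rcases le_or_gt (a + 2 * η) (b - 2 * η) with hab' | hab'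
    swap
    · linarith
    obtain ⟨s, hs, hunif⟩ := Metric.uniformContinuous_iff.1
      (CompactSpace.uniformContinuous_of_continuous hf.1) η hη
    obtain ⟨δ, S, φ, hS, hδ, hφ, hfφ, hO⟩ := hoe f hf (thickening (3 * τ) (range γ))
      (cthickening (4 * τ) (range γ)) τ hτ
      ((thickening_thickening_subset _ _ _).trans (by
        rw [show τ + 3 * τ = 4 * τ by ring]; exact thickening_subset_cthickening _ _))
      (min (min η τ) (s / 2)) (by positivity)
    have m1 : min (min η τ) (s / 2) ≤ η := (min_le_left _ _).trans (min_le_left _ _)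
    have m2 : min (min η τ) (s / 2) ≤ τ := (min_le_left _ _).trans (min_le_right _ _)
    have m3 : min (min η τ) (s / 2) ≤ s / 2 := min_le_right _ _
    have hnear : ∀ x, ∀ y ∈ ball x (2 * δ), |φ y - f x| ≤ 2 * η := by
      intro x y hy
      have h1 := hunif (a := y) (b := x) (by rw [mem_ball] at hy; linarith)
      rw [Real.dist_eq] at h1
      have h2 := abs_le.1 ((hfφ y).trans m1)
      have h3 := abs_lt.1 h1
      rw [abs_le]
      constructor <;> linarith
    have h1 := hd δ S hS φ hφ τ (hδ.trans m2) t1 (range γ) K K' (thickening (3 * τ) (range γ))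
      htf.toFinset (isPreconnected_range γ.continuous)
      (fun x hx => by
        obtain ⟨c, hc, hxc⟩ := mem_iUnion₂.1 (htc hx)
        exact ⟨c, htf.mem_toFinset.2 hc, hxc⟩)
      (fun c hc => ball_subset_thickening (htP (htf.mem_toFinset.1 hc)) _)
      ⟨⟨x₀, hx₀⟩, hKc⟩ ⟨⟨y₀, hy₀⟩, hKc'⟩ ⟨x₀, γ.source_mem_range, hx₀⟩
      ⟨y₀, γ.target_mem_range, hy₀⟩ (h58_far ⟨x₀, hx₀, x₁, hx₁, t3⟩)
      (h58_far ⟨y₀, hy₀, y₁, hy₁, t4⟩) (a + 2 * η) (b - 2 * η) hab'
      (fun x hx y hy => by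
        have := abs_le.1 (hnear x y hy)
        linarith [ha x hx, this.2])
      (fun x hx y hy => by
        have := abs_le.1 (hnear x y hy)
        linarith [hb x hx, this.1])
    have h2 : √(Oe φ δ S (thickening (3 * τ) (range γ))) ≤ √(C₁ * (E + η)) :=
      Real.sqrt_le_sqrt (hO.trans (by gcongr))
    have h3 : C * htf.toFinset.card * √(Oe φ δ S (thickening (3 * τ) (range γ))) ≤
        q * √(C₁ * (E + η)) := by
      refine mul_le_mul ?_ h2 (Real.sqrt_nonneg _) hq0.le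
      rw [hq]
      nlinarith
    linarith
  have hlim : b - a ≤ q * √(C₁ * E) := by
    have hc : Continuous fun η : ℝ => q * √(C₁ * (E + η)) + 4 * η := by fun_prop
    have h1 := (hc.tendsto 0).mono_left (nhdsWithin_le_nhds (s := Ioi 0))
    simp only [add_zero, mul_zero] at h1
    exact ge_of_tendsto h1 (eventually_nhdsWithin_of_forall fun η hη => key η hη)
  have h4 : (b - a) ^ 2 ≤ q ^ 2 * C₁ * E := by
    calc (b - a) ^ 2 ≤ (q * √(C₁ * E)) ^ 2 := pow_le_pow_left₀ (by linarith) hlim 2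
      _ = _ := by rw [mul_pow, Real.sq_sqrt (by positivity)]; ring
  rw [inv_mul_le_iff₀ (by positivity)]
  exact h4

include D in
theorem exists_dform (hM : MGeo Z) : Nonempty (DForm G Z) := by
  obtain ⟨L, Cs, r₀, hL, hCs, hr₀, H⟩ := D.loops hM
  exact ⟨{
    Fc := D.Fc
    B := D.B
    Γ := D.Γ
    L := L
    Cs := Cs
    r₀ := r₀
    cont := fun f hf => hf.1
    fin := D.Γ_fin
    int_Γ := fun f hf h hh => D.int_Γ hf h hh
    B_add₁ := fun h h' f k hh hh' hf hk => D.B_add₁ hh hh' hf hk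
    B_smul₁ := fun c h f k hh hf hk => D.B_smul₁ c hh hf hk
    B_add₂ := fun h f f' k hh hf hf' hk => D.B_add₂ hh hf hf' hk
    B_smul₂ := fun c h f k hh hf hk => D.B_smul₂ c hh hf hk
    B_symm := fun h f k _ _ _ => D.B_symm h f k
    B_cp := fun h₁ h₂ f k hh₁ hh₂ hf hk => D.B_cp hh₁ hh₂ hf hk
    chain_mem := fun u hu v hv φ hφ => D.chain_mem hu hv hφ
    chain := fun u hu v hv φ hφ h k hh hk => D.chain hu hv hφ hh hk
    inv_mem := fun g f hf => D.inv_mem hM g hf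
    inv := fun g h f k hh hf hk => D.inv hM g hh hf hk
    cutoff := fun K O hK hO h => by
      obtain ⟨χ, h1, h2⟩ := D.cutoff hM hK hO h
      exact ⟨χ, h1, h2⟩
    closable := fun w f hw hu hc => D.closable hM w f hw hu hc
    one_lt_L := hL
    Cs_pos := hCs
    r₀_pos := hr₀
    loops := fun f hf => H f hf
    loewner := fun U K K' h1 h2 h3 h4 h5 h6 h7 h8 h9 h10 => by
      obtain ⟨c, hc, U', h11, h12, h13⟩ := D.loewner hM U K K' h1 h2 h3 h4 h5 h6 h7 h8 h9 h10
      exact ⟨c, hc, U', h11, h12, fun f hf => h13 f hf⟩ }⟩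

end Data

end Crest.Agent.R193.E
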