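import Crest.Agent.R193.EDefs

/-! Row 193 [E]: algebra of the energy form. -/

set_option autoImplicit false

open Set Filter Topology MeasureTheory Metric

namespace Crest.Agent.R193.E

namespace DForm

variable {G Z : Type} [Group G] [MetricSpace Z] [CompactSpace Z] [MeasurableSpace Z] [BorelSpace Z]
  [MulAction G Z] (X : DForm G Z)

/-- `chain_mem` with `u = v = 0` and `φ` constant. -/
theorem const_mem (c : ℝ) : (fun _ : Z => c) ∈ X.Fc := by
  exact X.chain_mem 0 X.Fc.zero_mem 0 X.Fc.zero_mem (fun _ => c) contDiff_const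

theorem one_mem : (1 : Z → ℝ) ∈ X.Fc := X.const_mem 1

/-- `B_smul₁` with `c = 0`. -/
theorem B_zero₁ {f k : Z → ℝ} (hf : f ∈ X.Fc) (hk : k ∈ X.Fc) : X.B 0 f k = 0 := by
  have := X.B_smul₁ 0 0 f k continuous_zero hf hk
  rwa [zero_smul, zero_mul] at this

/-- `chain` with `φ` constant (`fderiv = 0`), then `B_zero₁`. -/
theorem B_const {h k : Z → ℝ} (hh : Continuous h) (hk : k ∈ X.Fc) (c : ℝ) :
    X.B h (fun _ => c) k = 0 := by
  have := X.chain 0 X.Fc.zero_mem 0 X.Fc.zero_mem (fun _ => c) contDiff_const h k hh hk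
  have e : (fun _ : Z => (0 : ℝ)) = 0 := rfl
  simpa [e, X.B_zero₁ X.Fc.zero_mem hk] using this

theorem B_sub₁ {h h' f k : Z → ℝ} (hh : Continuous h) (hh' : Continuous h') (hf : f ∈ X.Fc)
    (hk : k ∈ X.Fc) : X.B (h - h') f k = X.B h f k - X.B h' f k := by
  have h1 := X.B_add₁ (h - h') h' f k (hh.sub hh') hh' hf hk
  rw [sub_add_cancel] at h1
  linarith

theorem B_sub₂ {h f f' k : Z → ℝ} (hh : Continuous h) (hf : f ∈ X.Fc) (hf' : f' ∈ X.Fc)
    (hk : k ∈ X.Fc) : X.B h (f - f') k = X.B h f k - X.B h f' k := by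
  have h1 := X.B_add₂ h (f - f') f' k hh (X.Fc.sub_mem hf hf') hf' hk
  rw [sub_add_cancel] at h1
  linarith

theorem B_add₃ {h f k k' : Z → ℝ} (hh : Continuous h) (hf : f ∈ X.Fc) (hk : k ∈ X.Fc)
    (hk' : k' ∈ X.Fc) : X.B h f (k + k') = X.B h f k + X.B h f k' := by
  rw [X.B_symm h f _ hh hf (X.Fc.add_mem hk hk'), X.B_add₂ h k k' f hh hk hk' hf,
    X.B_symm h k f hh hk hf, X.B_symm h k' f hh hk' hf]

theorem B_sub₃ {h f k k' : Z → ℝ} (hh : Continuous h) (hf : f ∈ X.Fc) (hk : k ∈ X.Fc)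
    (hk' : k' ∈ X.Fc) : X.B h f (k - k') = X.B h f k - X.B h f k' := by
  rw [X.B_symm h f _ hh hf (X.Fc.sub_mem hk hk'), X.B_sub₂ hh hk hk' hf,
    X.B_symm h k f hh hk hf, X.B_symm h k' f hh hk' hf]

theorem B_smul₃ (c : ℝ) {h f k : Z → ℝ} (hh : Continuous h) (hf : f ∈ X.Fc) (hk : k ∈ X.Fc) :
    X.B h f (c • k) = c * X.B h f k := by
  rw [X.B_symm h f _ hh hf (X.Fc.smul_mem c hk), X.B_smul₂ c h k f hh hk hf,
    X.B_symm h k f hh hk hf]

/-- `chain_mem` with `v = 0` and `φ ∘ re`. -/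
theorem comp_mem {u : Z → ℝ} (hu : u ∈ X.Fc) {φ : ℝ → ℝ} (hφ : ContDiff ℝ 1 φ) :
    (fun z => φ (u z)) ∈ X.Fc := by
  exact X.chain_mem u hu 0 X.Fc.zero_mem (fun w => φ w.re) (hφ.comp Complex.reCLM.contDiff)

/-- one-variable chain rule (`fderiv (φ ∘ re) w 1 = deriv φ w.re`, `fderiv (φ ∘ re) w I = 0`). -/
theorem chain1 {u h k : Z → ℝ} (hu : u ∈ X.Fc) {φ : ℝ → ℝ} (hφ : ContDiff ℝ 1 φ)
    (hh : Continuous h) (hk : k ∈ X.Fc) :
    X.B h (fun z => φ (u z)) k = X.B (fun z => h z * deriv φ (u z)) u k := by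
  have h1 := X.chain u hu 0 X.Fc.zero_mem (fun w => φ w.re) (hφ.comp Complex.reCLM.contDiff)
    h k hh hk
  have hd : ∀ w v : ℂ, fderiv ℝ (fun w : ℂ => φ w.re) w v = deriv φ w.re * v.re := fun w v => by
    have h2 := ((hφ.differentiable one_ne_zero w.re).hasDerivAt.comp_hasFDerivAt w
      Complex.reCLM.hasFDerivAt).fderiv
    have e : (fun w : ℂ => φ w.re) = φ ∘ Complex.re := rfl
    rw [e]
    erw [h2]
    simp
  have e : (fun _ : Z => (0 : ℝ)) = 0 := rfl
  simpa [hd, e, X.B_zero₁ X.Fc.zero_mem hk] using h1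

/-- `chain_mem` with `φ w = w.re * w.im`. -/
theorem mul_mem {u v : Z → ℝ} (hu : u ∈ X.Fc) (hv : v ∈ X.Fc) : u * v ∈ X.Fc := by
  exact X.chain_mem u hu v hv (fun w => w.re * w.im)
    (Complex.reCLM.contDiff.mul Complex.imCLM.contDiff)

theorem leibniz {u v h k : Z → ℝ} (hu : u ∈ X.Fc) (hv : v ∈ X.Fc) (hh : Continuous h)
    (hk : k ∈ X.Fc) : X.B h (u * v) k = X.B (h * v) u k + X.B (h * u) v k := by
  have h1 := X.chain u hu v hv (fun w => w.re * w.im)
    (Complex.reCLM.contDiff.mul Complex.imCLM.contDiff) h k hh hk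
  have hd : ∀ w a : ℂ, fderiv ℝ (fun w : ℂ => w.re * w.im) w a =
      w.re * a.im + w.im * a.re := fun w a => by
    have h2 := ((Complex.reCLM.hasFDerivAt (x := w)).mul (Complex.imCLM.hasFDerivAt (x := w))).fderiv
    have e : (fun w : ℂ => w.re * w.im) = (⇑Complex.reCLM * ⇑Complex.imCLM) := rfl
    rw [e, h2]
    simp
  simp only [hd, Complex.one_re, Complex.one_im, Complex.I_re, Complex.I_im, mul_zero, mul_one,
    zero_add, add_zero] at h1
  exact h1

theorem leibniz₃ {u v h k : Z → ℝ} (hu : u ∈ X.Fc) (hv : v ∈ X.Fc) (hh : Continuous h)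
    (hk : k ∈ X.Fc) : X.B h k (u * v) = X.B (h * v) k u + X.B (h * u) k v := by
  rw [X.B_symm h k _ hh hk (X.mul_mem hu hv), X.leibniz hu hv hh hk,
    X.B_symm _ u k (hh.mul (X.cont v hv)) hu hk, X.B_symm _ v k (hh.mul (X.cont u hu)) hv hk]

/-- `int_Γ` and `integral_nonneg`. -/
theorem B_nonneg {h f : Z → ℝ} (hh : Continuous h) (h0 : ∀ z, 0 ≤ h z) (hf : f ∈ X.Fc) :
    0 ≤ X.B h f f := by
  rw [← X.int_Γ f hf h hh]
  exact integral_nonneg h0

theorem En_nonneg {f : Z → ℝ} (hf : f ∈ X.Fc) : 0 ≤ X.En f := by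
  exact X.B_nonneg continuous_one (fun _ => zero_le_one) hf

theorem En_eq {f : Z → ℝ} (hf : f ∈ X.Fc) : X.En f = (X.Γ f).real univ := by
  unfold En
  rw [← X.int_Γ f hf 1 continuous_one]
  simp

/-- `En (f + k) = En f + 2 B 1 f k + En k`. -/
theorem En_add {f k : Z → ℝ} (hf : f ∈ X.Fc) (hk : k ∈ X.Fc) :
    X.En (f + k) = X.En f + 2 * X.B 1 f k + X.En k := by
  unfold En
  rw [X.B_add₂ 1 f k _ continuous_one hf hk (X.Fc.add_mem hf hk),
    X.B_add₃ continuous_one hf hf hk, X.B_add₃ continuous_one hk hf hk,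
    X.B_symm 1 k f continuous_one hk hf]
  ring

theorem En_smul (c : ℝ) {f : Z → ℝ} (hf : f ∈ X.Fc) : X.En (c • f) = c ^ 2 * X.En f := by
  unfold En
  rw [X.B_smul₂ c 1 f _ continuous_one hf (X.Fc.smul_mem c hf), X.B_smul₃ c continuous_one hf hf]
  ring

/-- Cauchy-Schwarz: apply `B_cp` to `(t • h₁, h₂)` for all real `t` and use the discriminant
(`discrim_le_zero`). -/
theorem cs {h₁ h₂ f k : Z → ℝ} (hh₁ : Continuous h₁) (hh₂ : Continuous h₂) (hf : f ∈ X.Fc)
    (hk : k ∈ X.Fc) :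
    |X.B (h₁ * h₂) f k| ≤ √(X.B (h₁ * h₁) f f) * √(X.B (h₂ * h₂) k k) := by
  have hA : 0 ≤ X.B (h₁ * h₁) f f := X.B_nonneg (hh₁.mul hh₁) (fun z => mul_self_nonneg _) hf
  have hC : 0 ≤ X.B (h₂ * h₂) k k := X.B_nonneg (hh₂.mul hh₂) (fun z => mul_self_nonneg _) hk
  have key : ∀ t : ℝ, 0 ≤ X.B (h₁ * h₁) f f * (t * t) + 2 * X.B (h₁ * h₂) f k * t +
      X.B (h₂ * h₂) k k := by
    intro t
    have h1 := X.B_cp (t • h₁) h₂ f k (hh₁.const_smul t) hh₂ hf hk
    have e1 : t • h₁ * t • h₁ = (t * t) • (h₁ * h₁) := by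
      ext z; simp only [Pi.mul_apply, Pi.smul_apply, smul_eq_mul]; ring
    have e2 : t • h₁ * h₂ = t • (h₁ * h₂) := by
      ext z; simp only [Pi.mul_apply, Pi.smul_apply, smul_eq_mul]; ring
    rw [e1, e2, X.B_smul₁ _ _ f f (hh₁.mul hh₁) hf hf, X.B_smul₁ _ _ f k (hh₁.mul hh₂) hf hk] at h1
    linarith
  have hd := discrim_le_zero key
  rw [discrim] at hd
  rw [← Real.sqrt_mul hA]
  refine Real.abs_le_sqrt ?_
  nlinarith

theorem cs_En {f k : Z → ℝ} (hf : f ∈ X.Fc) (hk : k ∈ X.Fc) :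
    |X.B 1 f k| ≤ √(X.En f) * √(X.En k) := by
  have := X.cs continuous_one continuous_one hf hk
  simpa only [mul_one, En] using this

/-- basic locality: if `f = c` on an open `V ⊇ tsupport h` then `B h f k = 0`.  Take a cut-off
`χ = 1` on `tsupport h`, `tsupport χ ⊆ V`; `(f - c) * χ = 0`, so by `leibniz`
`0 = B (h * χ) (f - c) k + B (h * (f - c)) χ k = B h f k + 0`. -/
theorem local_basic {h f k : Z → ℝ} (hh : Continuous h) (hf : f ∈ X.Fc) (hk : k ∈ X.Fc)
    {V : Set Z} (hV : IsOpen V) (hs : tsupport h ⊆ V) {c : ℝ} (hc : ∀ z ∈ V, f z = c) :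
    X.B h f k = 0 := by
  obtain ⟨χ, hχ, -, h1, h2⟩ := X.cutoff (tsupport h) V (isClosed_tsupport h) hV hs
  have hfc : f - (fun _ => c) ∈ X.Fc := X.Fc.sub_mem hf (X.const_mem c)
  have e0 : (f - fun _ => c) * χ = fun _ => 0 := by
    ext z
    by_cases hz : z ∈ V
    · simp [hc z hz]
    · have : χ z = 0 := image_eq_zero_of_notMem_tsupport fun h' => hz (h2 h')
      simp [this]
  have e1 : h * χ = h := by
    ext z
    by_cases hz : z ∈ tsupport h
    · simp [h1 z hz]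
    · simp [image_eq_zero_of_notMem_tsupport hz]
  have e2 : h * (f - fun _ => c) = 0 := by
    ext z
    by_cases hz : z ∈ tsupport h
    · simp [hc z (hs hz)]
    · simp [image_eq_zero_of_notMem_tsupport hz]
  have h3 := X.leibniz hfc hχ hh hk
  rw [e0, e1, e2, X.B_const hh hk, X.B_zero₁ hχ hk, X.B_sub₂ hh hf (X.const_mem c) hk,
    X.B_const hh hk] at h3
  linarith

/-- locality: finite continuous partition of unity subordinate to a finite open cover on each
member of which `h = 0`, or `f` or `k` is constant (`PartitionOfUnity.exists_isSubordinate`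
or induction on a finite cover), `B_add₁`, `local_basic`, `B_symm`. -/
theorem locality {h f k : Z → ℝ} (hh : Continuous h) (hf : f ∈ X.Fc) (hk : k ∈ X.Fc)
    (H : ∀ z, (h =ᶠ[𝓝 z] fun _ => 0) ∨ (∃ c, f =ᶠ[𝓝 z] fun _ => c) ∨
      (∃ c, k =ᶠ[𝓝 z] fun _ => c)) : X.B h f k = 0 := by
  have main : ∃ V : Set Z, IsOpen V ∧ univ ⊆ V ∧ ∀ h' : Z → ℝ, Continuous h' →
      tsupport h' ⊆ V → X.B (h' * h) f k = 0 := by
    refine isCompact_univ.induction_on (p := fun K => ∃ V : Set Z, IsOpen V ∧ K ⊆ V ∧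
      ∀ h' : Z → ℝ, Continuous h' → tsupport h' ⊆ V → X.B (h' * h) f k = 0) ?_ ?_ ?_ ?_
    · refine ⟨∅, isOpen_empty, subset_rfl, fun h' _ hs => ?_⟩
      have : h' = 0 := tsupport_eq_empty_iff.1 (subset_empty_iff.1 hs)
      rw [this, zero_mul]
      exact X.B_zero₁ hf hk
    · rintro s t hst ⟨V, hV, htV, hP⟩
      exact ⟨V, hV, hst.trans htV, hP⟩
    · rintro s t ⟨V₁, hV₁, hs, hP₁⟩ ⟨V₂, hV₂, ht, hP₂⟩
      refine ⟨V₁ ∪ V₂, hV₁.union hV₂, union_subset_union hs ht, fun h' hh' hsup => ?_⟩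
      have hK : IsClosed (tsupport h' ∩ V₂ᶜ) := (isClosed_tsupport h').inter hV₂.isClosed_compl
      have hKV : tsupport h' ∩ V₂ᶜ ⊆ V₁ := fun z hz => (hsup hz.1).resolve_right hz.2
      obtain ⟨O, hO, hKO, hOV⟩ := normal_exists_closure_subset hK hV₁ hKV
      obtain ⟨χ, hχ, -, h1, h2⟩ := X.cutoff _ V₁ isClosed_closure hV₁ hOV
      have hχc := X.cont χ hχ
      have e : h' * h = h' * χ * h + h' * (1 - χ) * h := by ring
      have s1 : tsupport (h' * χ) ⊆ V₁ := (tsupport_mul_subset_right (f := h') (g := χ)).trans h2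
      have s2 : tsupport (h' * (1 - χ)) ⊆ V₂ := by
        intro z hz
        by_contra hzV
        have hz1 : z ∈ tsupport h' := tsupport_mul_subset_left (f := h') (g := 1 - χ) hz
        have hzO : z ∈ O := hKO ⟨hz1, hzV⟩
        refine (notMem_tsupport_iff_eventuallyEq.2 ?_) hz
        filter_upwards [hO.mem_nhds hzO] with y hy
        simp [h1 y (subset_closure hy)]
      rw [e, X.B_add₁ _ _ f k ((hh'.mul hχc).mul hh) ((hh'.mul (continuous_one.sub hχc)).mul hh)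
        hf hk, hP₁ _ (hh'.mul hχc) s1, hP₂ _ (hh'.mul (continuous_one.sub hχc)) s2, add_zero]
    · intro z _
      rcases H z with h0 | ⟨c, hc⟩ | ⟨c, hc⟩
      · obtain ⟨V, hV1, hV, hzV⟩ := _root_.eventually_nhds_iff.1 h0
        refine ⟨V, mem_nhdsWithin_of_mem_nhds (hV.mem_nhds hzV), V, hV, subset_rfl,
          fun h' _ hs => ?_⟩
        have : h' * h = 0 := by
          ext y
          by_cases hy : y ∈ V
          · simp [hV1 y hy]
          · have : h' y = 0 := image_eq_zero_of_notMem_tsupport fun h'' => hy (hs h'')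
            simp [this]
        rw [this]
        exact X.B_zero₁ hf hk
      · obtain ⟨V, hV1, hV, hzV⟩ := _root_.eventually_nhds_iff.1 hc
        refine ⟨V, mem_nhdsWithin_of_mem_nhds (hV.mem_nhds hzV), V, hV, subset_rfl,
          fun h' hh' hs => ?_⟩
        exact X.local_basic (hh'.mul hh) hf hk hV
          ((tsupport_mul_subset_left (f := h') (g := h)).trans hs) hV1
      · obtain ⟨V, hV1, hV, hzV⟩ := _root_.eventually_nhds_iff.1 hc
        refine ⟨V, mem_nhdsWithin_of_mem_nhds (hV.mem_nhds hzV), V, hV, subset_rfl,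
          fun h' hh' hs => ?_⟩
        rw [X.B_symm _ f k (hh'.mul hh) hf hk]
        exact X.local_basic (hh'.mul hh) hk hf hV
          ((tsupport_mul_subset_left (f := h') (g := h)).trans hs) hV1
  obtain ⟨V, -, hV, hP⟩ := main
  simpa only [one_mul] using hP 1 continuous_one ((subset_univ _).trans hV)

/-- `f * χ` for a cut-off `χ = 1` on the compact set `closure R ∩ tsupport f` (which lies in `R`
because `f` vanishes near `frontier R`), `tsupport χ ⊆ R`. -/
theorem indicator_mem {f : Z → ℝ} (hf : f ∈ X.Fc) {R : Set Z} (hR : IsOpen R)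
    (H : ∀ z ∈ frontier R, f =ᶠ[𝓝 z] fun _ => 0) : R.indicator f ∈ X.Fc := by
  have hK : closure R ∩ tsupport f ⊆ R := by
    rintro z ⟨h1, h2⟩
    by_contra hz
    have hfr : z ∈ frontier R := by
      rw [hR.frontier_eq]; exact ⟨h1, hz⟩
    exact (notMem_tsupport_iff_eventuallyEq.2 (H z hfr)) h2
  obtain ⟨χ, hχ, -, h1, h2⟩ := X.cutoff _ R (isClosed_closure.inter (isClosed_tsupport f)) hR hK
  have e : R.indicator f = f * χ := by
    ext z
    by_cases hz : z ∈ R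
    · rw [indicator_of_mem hz]
      by_cases hz' : z ∈ tsupport f
      · simp [h1 z ⟨subset_closure hz, hz'⟩]
      · simp [image_eq_zero_of_notMem_tsupport hz']
    · have : χ z = 0 := image_eq_zero_of_notMem_tsupport fun h' => hz (h2 h')
      simp [indicator_of_notMem hz, this]
  rw [e]
  exact X.mul_mem hf hχ

/-- density of `Fc` in `C(Z)`: Stone-Weierstrass (`Fc` is a subalgebra separating points by
`cutoff`), or a partition of unity made of cut-offs. -/
theorem dense {f : Z → ℝ} (hf : Continuous f) {ε : ℝ} (hε : 0 < ε) :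
    ∃ w ∈ X.Fc, ∀ z, |w z - f z| < ε := by
  let A : Subalgebra ℝ C(Z, ℝ) :=
    { carrier := {g | (g : Z → ℝ) ∈ X.Fc}
      mul_mem' := fun {a b} ha hb => X.mul_mem ha hb
      add_mem' := fun {a b} ha hb => X.Fc.add_mem ha hb
      algebraMap_mem' := fun c => X.const_mem c }
  have hsep : A.SeparatesPoints := by
    intro x y hxy
    obtain ⟨χ, hχ, -, h1, h2⟩ := X.cutoff {x} {y}ᶜ isClosed_singleton isOpen_compl_singleton
      (singleton_subset_iff.2 hxy)
    refine ⟨χ, ⟨⟨χ, X.cont χ hχ⟩, hχ, rfl⟩, ?_⟩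
    have hy : χ y = 0 := image_eq_zero_of_notMem_tsupport fun h' => h2 h' rfl
    rw [h1 x rfl, hy]
    exact one_ne_zero
  obtain ⟨g, hg⟩ := ContinuousMap.exists_mem_subalgebra_near_continuous_of_separatesPoints A hsep
    f hf ε hε
  exact ⟨(g : C(Z, ℝ)), g.2, fun z => by simpa [Real.norm_eq_abs] using hg z⟩

end DForm

end Crest.Agent.R193.E
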