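import Crest.Agent.R193.EExt

/-! Row 193 [E]: an extremal map is a conformal chart. -/

set_option autoImplicit false

open Set Filter Topology MeasureTheory Metric

namespace Crest.Agent.R193.E

/-- squared gradient of a real function on the plane -/
noncomputable def gradSq (φ : ℂ → ℝ) (w : ℂ) : ℝ :=
  (fderiv ℝ φ w 1) ^ 2 + (fderiv ℝ φ w Complex.I) ^ 2

theorem helper5_gradSq_cont {φ : ℂ → ℝ} (hφ : ContDiff ℝ 1 φ) : Continuous (gradSq φ) := by
  have h := hφ.continuous_fderiv one_ne_zero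
  unfold gradSq
  fun_prop

theorem helper5_gradSq_nonneg (φ : ℂ → ℝ) (w : ℂ) : 0 ≤ gradSq φ w := by
  unfold gradSq
  positivity

theorem helper5_gradSq_int {φ : ℂ → ℝ} (hφ : ContDiff ℝ 1 φ) (hc : HasCompactSupport φ) :
    Integrable (gradSq φ) := by
  refine (helper5_gradSq_cont hφ).integrable_of_hasCompactSupport ?_
  refine (hc.fderiv ℝ).mono fun w hw => ?_
  intro h0
  apply hw
  simp [gradSq, h0]

theorem helper5_sq_sum (a : ℕ → ℝ) (H : ∀ i j, i < j → a i = 0 ∨ a j = 0) (J : ℕ) :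
    (∑ j ∈ Finset.range J, a j) ^ 2 = ∑ j ∈ Finset.range J, a j ^ 2 := by
  induction J with
  | zero => simp
  | succ J ih =>
    rw [Finset.sum_range_succ, Finset.sum_range_succ, add_sq, ih]
    have : (∑ j ∈ Finset.range J, a j) * a J = 0 := by
      rw [Finset.sum_mul]
      exact Finset.sum_eq_zero fun i hi => mul_eq_zero.2 (H i J (Finset.mem_range.1 hi))
    rw [mul_assoc, this]
    ring

theorem helper5_fderiv_scale {β : ℂ → ℝ} (hβ : ContDiff ℝ 1 β) (y : ℂ) (c : ℝ) (w v : ℂ) :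
    fderiv ℝ (fun w => β (c • (w - y))) w v = c * fderiv ℝ β (c • (w - y)) v := by
  have h1 : HasFDerivAt (fun w : ℂ => c • (w - y)) (c • ContinuousLinearMap.id ℝ ℂ) w :=
    ((hasFDerivAt_id w).sub_const y).const_smul c
  have h2 := ((hβ.differentiable one_ne_zero (c • (w - y))).hasFDerivAt).comp w h1
  have h3 : fderiv ℝ (fun w => β (c • (w - y))) w = _ := h2.fderiv
  rw [h3, ContinuousLinearMap.comp_apply, smul_apply,
    ContinuousLinearMap.id_apply, map_smul, smul_eq_mul]

theorem helper5_int_scale {β : ℂ → ℝ} (hβ : ContDiff ℝ 1 β) (y : ℂ) {c : ℝ} (hc : 0 < c) :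
    ∫ w, gradSq (fun w => β (c • (w - y))) w = ∫ w, gradSq β w := by
  have h1 : ∀ w, gradSq (fun w => β (c • (w - y))) w = c ^ 2 * gradSq β (c • (w - y)) := by
    intro w
    unfold gradSq
    rw [helper5_fderiv_scale hβ, helper5_fderiv_scale hβ]
    ring
  simp_rw [h1]
  rw [integral_const_mul, integral_sub_right_eq_self (fun w => gradSq β (c • w)) y,
    Measure.integral_comp_smul, Complex.finrank_real_complex, abs_of_pos (by positivity),
    smul_eq_mul, ← mul_assoc, mul_inv_cancel₀ (by positivity), one_mul]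

/-- logarithmic test functions.  Fix a smooth bump `β` (`ContDiffBump`, `= 1` on `ball 0 (1/2)`,
`= 0` off `ball 0 1`), `‖fderiv β‖ ≤ A₀`, `φ w = ∑ j < J, β (2^j (w - y) / s)`.  At each `w` at most
one summand has non-zero derivative (the derivative of `β` vanishes on `‖·‖ ≤ 1/2` and `‖·‖ ≥ 1`,
which are extrema), so `gradSq φ ≤ ∑ j, 2 (A₀ 2^j / s)² 1_{ball y (s / 2^j)}`, whose integral is
`J * 2 A₀² π`. -/
theorem exists_log_test (y : ℂ) {s : ℝ} (hs : 0 < s) : ∃ A : ℝ, ∀ J : ℕ, ∃ φ : ℂ → ℝ,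
    ContDiff ℝ 1 φ ∧ HasCompactSupport φ ∧ φ y = J ∧ (∀ w, s ≤ ‖w - y‖ → φ w = 0) ∧
      ∫ w, gradSq φ w ≤ A * J := by
  let b : ContDiffBump (0 : ℂ) := ⟨1 / 2, 1, by norm_num, by norm_num⟩
  have hb : ContDiff ℝ 1 (b : ℂ → ℝ) := b.contDiff
  have hb0 : ∀ z : ℂ, 1 ≤ ‖z‖ → b z = 0 := fun z hz =>
    b.zero_of_le_dist (by simpa using hz)
  have hd1 : ∀ z : ℂ, ‖z‖ ≤ 1 / 2 → fderiv ℝ b z = 0 := by
    intro z hz
    have h1 : b z = 1 := b.one_of_mem_closedBall (mem_closedBall_zero_iff.2 hz)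
    exact IsLocalMax.fderiv_eq_zero (Eventually.of_forall fun w => by
      rw [h1]; exact b.le_one)
  have hd2 : ∀ z : ℂ, 1 ≤ ‖z‖ → fderiv ℝ b z = 0 := by
    intro z hz
    exact IsLocalMin.fderiv_eq_zero (Eventually.of_forall fun w => by
      rw [hb0 z hz]; exact b.nonneg)
  let c : ℕ → ℝ := fun j => 2 ^ j / s
  have hc : ∀ j, 0 < c j := fun j => by positivity
  let β : ℕ → ℂ → ℝ := fun j w => b (c j • (w - y))
  have hβ : ∀ j, ContDiff ℝ 1 (β j) := fun j =>
    hb.comp ((contDiff_id.sub contDiff_const).const_smul (c j))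
  have hβ0 : ∀ j w, s ≤ ‖w - y‖ → β j w = 0 := by
    intro j w hw
    refine hb0 _ ?_
    rw [norm_smul, Real.norm_eq_abs, abs_of_pos (hc j)]
    have h1 : (1 : ℝ) ≤ 2 ^ j := one_le_pow₀ (by norm_num)
    have h2 : c j * s = 2 ^ j := div_mul_cancel₀ _ hs.ne'
    nlinarith [mul_le_mul_of_nonneg_left hw (hc j).le]
  have hcs : ∀ f : ℂ → ℝ, (∀ w, s ≤ ‖w - y‖ → f w = 0) → HasCompactSupport f := by
    intro f hf
    refine HasCompactSupport.intro (isCompact_closedBall y s) fun w hw => hf w ?_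
    rw [mem_closedBall, dist_eq_norm, not_le] at hw
    exact hw.le
  have hcross : ∀ (w v : ℂ) (i j : ℕ), i < j → fderiv ℝ (β i) w v = 0 ∨ fderiv ℝ (β j) w v = 0 := by
    intro w v i j hij
    rw [helper5_fderiv_scale hb, helper5_fderiv_scale hb]
    by_cases h1 : ‖c i • (w - y)‖ ≤ 1 / 2
    · left
      rw [hd1 _ h1]
      simp
    · right
      rw [hd2]
      · simp
      rw [norm_smul, Real.norm_eq_abs, abs_of_pos (hc i), not_le] at h1
      rw [norm_smul, Real.norm_eq_abs, abs_of_pos (hc j)]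
      have h2 : 2 * c i ≤ c j := by
        have h3 : (2 : ℝ) ^ (i + 1) ≤ 2 ^ j := pow_le_pow_right₀ (by norm_num) hij
        rw [pow_succ'] at h3
        simp only [c]
        rw [← mul_div_assoc]
        exact div_le_div_of_nonneg_right h3 hs.le
      nlinarith [mul_le_mul_of_nonneg_right h2 (norm_nonneg (w - y))]
  refine ⟨∫ w, gradSq b w, fun J => ⟨fun w => ∑ j ∈ Finset.range J, β j w,
    ContDiff.sum fun j _ => hβ j, hcs _ fun w hw => Finset.sum_eq_zero fun j _ => hβ0 j w hw,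
    ?_, fun w hw => Finset.sum_eq_zero fun j _ => hβ0 j w hw, le_of_eq ?_⟩⟩
  · have : ∀ j, β j y = 1 := fun j => b.one_of_mem_closedBall (by simp [b])
    simp [this]
  · have h1 : ∀ w, gradSq (fun w => ∑ j ∈ Finset.range J, β j w) w =
        ∑ j ∈ Finset.range J, gradSq (β j) w := by
      intro w
      unfold gradSq
      rw [fderiv_fun_sum fun j _ => (hβ j).differentiable one_ne_zero w,
        sum_apply, sum_apply,
        helper5_sq_sum _ (hcross w 1), helper5_sq_sum _ (hcross w Complex.I),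
        Finset.sum_add_distrib]
    simp_rw [h1]
    rw [integral_finsetSum _ fun j _ => helper5_gradSq_int (hβ j) (hcs _ (hβ0 j))]
    rw [Finset.sum_congr rfl fun j _ => helper5_int_scale hb y (hc j)]
    simp [mul_comm]

namespace DForm

variable {G Z : Type} [Group G] [MetricSpace Z] [CompactSpace Z] [MeasurableSpace Z] [BorelSpace Z]
  [MulAction G Z] (X : DForm G Z)

omit [MeasurableSpace Z] [BorelSpace Z] in
private theorem h52_area (A : ℂ →L[ℝ] ℂ)
    (hA : (A 1).re * (A Complex.I).im - (A Complex.I).re * (A 1).im = 1) (F : Z → ℂ) (O : Set Z) :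
    volume.real (Om (fun z => A (F z)) O) = volume.real (Om F O) := by
  have hd : LinearMap.det (A : ℂ →ₗ[ℝ] ℂ) = 1 := by
    rw [← LinearMap.det_toMatrix Complex.basisOneI, Matrix.det_fin_two, ← hA]
    simp [LinearMap.toMatrix_apply]
  have h := om_target (A.toContinuousLinearEquivOfDetNeZero
    (show A.det ≠ 0 by rw [ContinuousLinearMap.det, hd]; exact one_ne_zero)).toHomeomorph F O
  have h' : Om (fun z => A (F z)) O = A '' Om F O := h
  rw [h', Measure.real, Measure.addHaar_image_continuousLinearMap, hd]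
  simp [Measure.real]

private theorem h52_ab {a b : ℝ} (hb : 0 ≤ b) (H : ∀ s : ℝ, 0 < s → a + b ≤ s * a + s⁻¹ * b) :
    a ≤ b := by
  by_contra hc
  push Not at hc
  have ha : 0 < a := hb.trans_lt hc
  have h1 := H ((a + b) / (2 * a)) (by positivity)
  have h2 : (a + b) / (2 * a) * a + ((a + b) / (2 * a))⁻¹ * b =
      a + b - (a - b) ^ 2 / (2 * (a + b)) := by
    field_simp
    ring
  have h3 : 0 < (a - b) ^ 2 / (2 * (a + b)) := by
    have := sub_pos.2 hc
    positivity
  linarith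

omit [MetricSpace Z] [CompactSpace Z] [MeasurableSpace Z] [BorelSpace Z] in
private theorem h52_re (F : Z → ℂ) : reF (fun z => ((1 + Complex.I) / (√2 : ℝ)) * F z) =
    (√2)⁻¹ • (reF F - imF F) := by
  funext z
  simp only [reF, imF, div_eq_mul_inv, ← Complex.ofReal_inv, Pi.smul_apply, Pi.sub_apply,
    smul_eq_mul]
  generalize (√2)⁻¹ = c
  simp
  ring

omit [MetricSpace Z] [CompactSpace Z] [MeasurableSpace Z] [BorelSpace Z] in
private theorem h52_im (F : Z → ℂ) : imF (fun z => ((1 + Complex.I) / (√2 : ℝ)) * F z) =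
    (√2)⁻¹ • (reF F + imF F) := by
  funext z
  simp only [reF, imF, div_eq_mul_inv, ← Complex.ofReal_inv, Pi.smul_apply, Pi.add_apply,
    smul_eq_mul]
  generalize (√2)⁻¹ = c
  simp
  ring

/-- test `Kap` with `diag(t, 1/t) ∘ F` (`Harm2.affine`, `om_target`, area preserved): for good `O`,
`t² a + t⁻² b ≥ a + b` for all `t > 0`, so `a = b`, where `a = Γ u (cl O)`, `b = Γ v (cl O)`.  For
open `V ⊆ U` and compact `K ⊆ V`, `exists_good` gives `Γ u K ≤ Γ u (cl O) = Γ v (cl O) ≤ Γ v V`;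
inner regularity and `restrict_le_of_isOpen`. -/
theorem Extremal.eq_re_im {κ : ℝ} (hκ : X.Kap κ) {U : Set Z} {F : Z → ℂ} (h : X.Extremal κ U F) :
    (X.Γ (reF F)).restrict U = (X.Γ (imF F)).restrict U := by
  have hu := h.harm.1.1
  have hv := h.harm.2.1
  have good : ∀ O : Set Z, IsOpen O → closure O ⊆ U → X.D F (frontier O) = 0 →
      X.Γ (reF F) (closure O) = X.Γ (imF F) (closure O) := by
    intro O hO hOU h0
    have e0 := h.eq O hO hOU h0
    rw [D, measureReal_add_apply] at e0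
    have H : ∀ s : ℝ, 0 < s → (X.Γ (reF F)).real (closure O) + (X.Γ (imF F)).real (closure O) ≤
        s * (X.Γ (reF F)).real (closure O) + s⁻¹ * (X.Γ (imF F)).real (closure O) := by
      intro s hs
      have ht : 0 < √s := Real.sqrt_pos.2 hs
      set A : ℂ →L[ℝ] ℂ := √s • (Complex.ofRealCLM.comp Complex.reCLM) +
        (√s)⁻¹ • ((ContinuousLinearMap.mul ℝ ℂ Complex.I).comp
          (Complex.ofRealCLM.comp Complex.imCLM)) with hA
      have hre : ∀ w, (A w).re = √s * w.re := fun w => by simp [hA]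
      have him : ∀ w, (A w).im = (√s)⁻¹ * w.im := fun w => by simp [hA]
      have h2 : X.Harm2 U fun z => A (F z) := by simpa using Harm2.affine X h.harm A 0
      have h3 := hκ.2 U O _ h.isOpen h2 hO hOU
      rw [h52_area A (by simp [hre, him, ht.ne']), ← e0, D, measureReal_add_apply,
        show reF (fun z => A (F z)) = √s • reF F from funext fun z => hre _,
        show imF (fun z => A (F z)) = (√s)⁻¹ • imF F from funext fun z => him _,
        X.Γ_smul_real _ hu, X.Γ_smul_real _ hv, inv_pow, Real.sq_sqrt hs.le] at h3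
      exact h3
    refine (ENNReal.toReal_eq_toReal_iff' (measure_ne_top _ _) (measure_ne_top _ _)).1 ?_
    refine le_antisymm (h52_ab measureReal_nonneg H) (h52_ab measureReal_nonneg fun s hs => ?_)
    have := H s⁻¹ (inv_pos.2 hs)
    rw [inv_inv] at this
    simp only [Measure.real] at this
    linarith
  have key : ∀ μ ν : Measure Z, IsFiniteMeasure μ → IsFiniteMeasure ν →
      (∀ O : Set Z, IsOpen O → closure O ⊆ U → X.D F (frontier O) = 0 →
        μ (closure O) = ν (closure O)) → μ.restrict U ≤ ν.restrict U := by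
    intro μ ν _ _ H
    refine restrict_le_of_isOpen μ ν h.isOpen fun V hV hVU => ?_
    rw [hV.measure_eq_iSup_isCompact μ]
    refine iSup_le fun K => iSup_le fun hKV => iSup_le fun hK => ?_
    obtain ⟨O, hO, hKO, hOV, h0⟩ := exists_good (X.D F) hK hV hKV
    calc μ K ≤ μ (closure O) := measure_mono (hKO.trans subset_closure)
      _ = ν (closure O) := H O hO (hOV.trans hVU) h0
      _ ≤ ν V := measure_mono hOV
  exact le_antisymm (key _ _ inferInstance inferInstance good)
    (key _ _ inferInstance inferInstance fun O a b c => (good O a b c).symm)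

/-- rotation by `c = (1 + I)/√2`: the coordinates become `(u - v)/√2`, `(u + v)/√2`, `D` is
unchanged (`Γ_par`, `Γ_smul`), the area of `Om` is unchanged. -/
theorem Extremal.rot {κ : ℝ} {U : Set Z} {F : Z → ℂ} (h : X.Extremal κ U F) :
    X.Extremal κ U (fun z => ((1 + Complex.I) / (√2 : ℝ)) * F z) := by
  have hu := h.harm.1.1
  have hv := h.harm.2.1
  have hD : X.D (fun z => ((1 + Complex.I) / (√2 : ℝ)) * F z) = X.D F := by
    rw [D, h52_re, h52_im, X.Γ_smul _ (X.Fc.sub_mem hu hv), X.Γ_smul _ (X.Fc.add_mem hu hv),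
      ← smul_add, add_comm, X.Γ_par hu hv, ← smul_add, smul_smul, inv_pow,
      Real.sq_sqrt zero_le_two, ENNReal.ofReal_inv_of_pos two_pos, ENNReal.ofReal_ofNat,
      ENNReal.inv_mul_cancel two_ne_zero ENNReal.ofNat_ne_top, one_smul, D]
  refine ⟨h.isOpen, h.conn, ?_, by rw [hD]; exact h.pos, fun O hO hOU h0 => ?_⟩
  · simpa using Harm2.affine X h.harm
      (ContinuousLinearMap.mul ℝ ℂ ((1 + Complex.I) / (√2 : ℝ))) 0
  · rw [hD] at h0 ⊢
    rw [h.eq O hO hOU h0]
    congr 1
    refine (h52_area (ContinuousLinearMap.mul ℝ ℂ ((1 + Complex.I) / (√2 : ℝ))) ?_ F O).symm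
    have h2 : (√2)⁻¹ * (√2)⁻¹ = (2 : ℝ)⁻¹ := by
      rw [← mul_inv, Real.mul_self_sqrt zero_le_two]
    simp only [div_eq_mul_inv, ← Complex.ofReal_inv, ContinuousLinearMap.mul_apply']
    generalize (√2)⁻¹ = c at h2
    simp
    linarith

/-- `4 B h u v = ∫ h dΓ(u+v) - ∫ h dΓ(u-v) = 0` by `eq_re_im` for the rotated map. -/
theorem Extremal.conf {κ : ℝ} (hκ : X.Kap κ) {U : Set Z} {F : Z → ℂ} (h : X.Extremal κ U F) :
    X.Conf U F := by
  have hu := h.harm.1.1
  have hv := h.harm.2.1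
  refine ⟨h.isOpen, h.harm, Extremal.eq_re_im X hκ h, fun k hk hs => ?_⟩
  have e := Extremal.eq_re_im X hκ (Extremal.rot X h)
  rw [h52_re, h52_im] at e
  have hz : ∀ z, z ∉ U → k z = 0 := fun z hz =>
    image_eq_zero_of_notMem_tsupport fun h' => hz (hs h')
  have e2 := congrArg (fun μ => ∫ z, k z ∂μ) e
  have m1 := X.Fc.sub_mem hu hv
  have m2 := X.Fc.add_mem hu hv
  rw [setIntegral_eq_integral_of_forall_compl_eq_zero hz,
    setIntegral_eq_integral_of_forall_compl_eq_zero hz, X.int_Γ _ (X.Fc.smul_mem _ m1) k hk,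
    X.int_Γ _ (X.Fc.smul_mem _ m2) k hk, X.B_smul₂ _ _ _ _ hk m1 (X.Fc.smul_mem _ m1),
    X.B_smul₂ _ _ _ _ hk m2 (X.Fc.smul_mem _ m2), X.B_smul₃ _ hk m1 m1, X.B_smul₃ _ hk m2 m2,
    X.B_sub₂ hk hu hv m1, X.B_add₂ _ _ _ _ hk hu hv m2, X.B_sub₃ hk hu hu hv,
    X.B_sub₃ hk hv hu hv, X.B_add₃ hk hu hu hv, X.B_add₃ hk hv hu hv,
    X.B_symm _ _ _ hk hv hu] at e2
  have h0 : (√2)⁻¹ ≠ (0 : ℝ) := by positivity
  have e3 := mul_left_cancel₀ h0 (mul_left_cancel₀ h0 e2)
  linarith

/-- for open `Y`: compact `K ⊆ U ∩ F⁻¹ Y`, good `O`, `D K ≤ D (cl O) = κ vol (Om F O) ≤ κ vol Y`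
(`om_subset`); then outer regularity of the Lebesgue measure. -/
theorem Extremal.map_le {κ : ℝ} (hκ : X.Kap κ) {U : Set Z} {F : Z → ℂ} (h : X.Extremal κ U F) :
    ((X.D F).restrict U).map F ≤ ENNReal.ofReal κ • (volume : Measure ℂ) := by
  have hF : Continuous F := Harm2.continuous X h.harm
  refine Measure.le_iff.2 fun s hs => ?_
  rw [Measure.map_apply hF.measurable hs, Measure.restrict_apply (hF.measurable hs),
    Measure.smul_apply, smul_eq_mul, s.measure_eq_iInf_isOpen volume]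
  have h0 : ENNReal.ofReal κ ≠ 0 := by simpa using hκ.1
  simp only [ENNReal.mul_iInf_of_ne h0 ENNReal.ofReal_ne_top, le_iInf_iff]
  intro Y hsY hY
  have hV : IsOpen (F ⁻¹' Y ∩ U) := (hY.preimage hF).inter h.isOpen
  refine (measure_mono (inter_subset_inter_left U (preimage_mono hsY))).trans ?_
  rw [hV.measure_eq_iSup_isCompact (X.D F)]
  refine iSup_le fun K => iSup_le fun hKV => iSup_le fun hK => ?_
  obtain ⟨O, hO, hKO, hOV, hO0⟩ := exists_good (X.D F) hK hV hKV
  have e := h.eq O hO (hOV.trans inter_subset_right) hO0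
  calc X.D F K ≤ X.D F (closure O) := measure_mono (hKO.trans subset_closure)
    _ = ENNReal.ofReal κ * volume (Om F O) := by
      rw [← ofReal_measureReal (μ := X.D F), e, ENNReal.ofReal_mul hκ.1.le,
        ofReal_measureReal (volume_om_ne_top hF O)]
    _ ≤ ENNReal.ofReal κ * volume Y := by
      gcongr
      refine (om_subset hF O).trans ?_
      rintro _ ⟨z, hz, rfl⟩
      exact (hOV (subset_closure hz)).1

/-- `chain` in both slots, `orth`, `eq`. -/
theorem Conf.B_comp {U : Set Z} {F : Z → ℂ} (hF : X.Conf U F) {φ : ℂ → ℝ} (hφ : ContDiff ℝ 1 φ)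
    {h : Z → ℝ} (hh : Continuous h) (hs : tsupport h ⊆ U) :
    X.B h (fun z => φ (F z)) (fun z => φ (F z)) =
      ∫ z, h z * gradSq φ (F z) ∂(X.Γ (reF F)) := by
  have hu : reF F ∈ X.Fc := hF.harm.1.1
  have hv : imF F ∈ X.Fc := hF.harm.2.1
  have hFc : Continuous F := Harm2.continuous X hF.harm
  have hd := hφ.continuous_fderiv one_ne_zero
  have hk : (fun z => φ (F z)) ∈ X.Fc := X.chain_mem _ hu _ hv φ hφ
  have ha : Continuous fun z => fderiv ℝ φ (F z) 1 := by fun_prop
  have hb : Continuous fun z => fderiv ℝ φ (F z) Complex.I := by fun_prop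
  have hch : ∀ g k : Z → ℝ, Continuous g → k ∈ X.Fc → X.B g (fun z => φ (F z)) k =
      X.B (fun z => g z * fderiv ℝ φ (F z) 1) (reF F) k +
      X.B (fun z => g z * fderiv ℝ φ (F z) Complex.I) (imF F) k :=
    fun g k hg hk => X.chain _ hu _ hv φ hφ g k hg hk
  have hsup : ∀ a b : Z → ℝ, tsupport (fun z => h z * a z * b z) ⊆ U := fun a b =>
    (tsupport_mul_subset_left.trans tsupport_mul_subset_left).trans hs
  have hint : ∀ (g : Z → ℝ) (μ : Measure Z) [IsFiniteMeasure μ], Continuous g →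
      Integrable g μ := fun g μ _ hg =>
    hg.integrable_of_hasCompactSupport (HasCompactSupport.of_compactSpace g)
  rw [hch h _ hh hk, X.B_symm _ _ _ (hh.fun_mul ha) hu hk, X.B_symm _ _ _ (hh.fun_mul hb) hv hk,
    hch _ _ (hh.fun_mul ha) hu, hch _ _ (hh.fun_mul hb) hv,
    X.B_symm _ _ _ ((hh.fun_mul ha).fun_mul hb) hv hu,
    hF.orth _ ((hh.fun_mul ha).fun_mul hb) (hsup _ _), hF.orth _ ((hh.fun_mul hb).fun_mul ha) (hsup _ _),
    ← X.int_Γ _ hu _ ((hh.fun_mul ha).fun_mul ha), ← X.int_Γ _ hv _ ((hh.fun_mul hb).fun_mul hb)]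
  have h0 : ∀ z, z ∉ U → h z * fderiv ℝ φ (F z) Complex.I * fderiv ℝ φ (F z) Complex.I = 0 := by
    intro z hz
    rw [image_eq_zero_of_notMem_tsupport fun h' => hz (hs h'), zero_mul, zero_mul]
  have h1 : ∫ z, h z * fderiv ℝ φ (F z) Complex.I * fderiv ℝ φ (F z) Complex.I ∂(X.Γ (imF F)) =
      ∫ z, h z * fderiv ℝ φ (F z) Complex.I * fderiv ℝ φ (F z) Complex.I ∂(X.Γ (reF F)) := by
    rw [← setIntegral_eq_integral_of_forall_compl_eq_zero h0, ← hF.eq,
      setIntegral_eq_integral_of_forall_compl_eq_zero h0]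
  rw [h1, add_zero, zero_add,
    ← integral_add (hint _ _ ((hh.fun_mul ha).fun_mul ha))
      (hint _ _ ((hh.fun_mul hb).fun_mul hb))]
  congr 1
  funext z
  unfold gradSq
  ring

/-- lightness.  `F` is not constantly `y` on `U` (`pos`, `Γ_eq_zero_of_const`), so there is a small
closed disc `K' ⊆ U` with `s ≤ ‖F - y‖`; `loewner` for `φ ∘ F` (`exists_log_test`) gives
`c J² ≤ Γ (φ ∘ F) U' ≤ ∫ h gradSq φ (F) dΓ u ≤ κ A J` (`h` a cut-off equal to `1` on `U'`,
`map_le`, `Γ u ≤ D F`), false for large `J`. -/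
theorem Extremal.light (hG : Geo G Z) {κ : ℝ} (hκ : X.Kap κ) {U : Set Z} {F : Z → ℂ}
    (h : X.Extremal κ U F) {y : ℂ} {K : Set Z} (hK : IsCompact K) (hKc : IsPreconnected K)
    (hKU : K ⊆ U) (hy : ∀ z ∈ K, F z = y) : K.Subsingleton := by
  by_contra hnt
  rw [not_subsingleton_iff] at hnt
  have hu : reF F ∈ X.Fc := h.harm.1.1
  have hv : imF F ∈ X.Fc := h.harm.2.1
  have hFc : Continuous F := Harm2.continuous X h.harm
  obtain ⟨z₀, hz₀U, hz₀⟩ : ∃ z₀ ∈ U, F z₀ ≠ y := by
    by_contra hall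
    push Not at hall
    have h1 : X.Γ (reF F) U = 0 := X.Γ_eq_zero_of_const hu h.isOpen (c := y.re) fun z hz => by
      simp [reF, hall z hz]
    have h2 : X.Γ (imF F) U = 0 := X.Γ_eq_zero_of_const hv h.isOpen (c := y.im) fun z hz => by
      simp [imF, hall z hz]
    have h3 := h.pos
    simp [D, Measure.real, h1, h2] at h3
  set s : ℝ := ‖F z₀ - y‖ / 2 with hsdef
  have hn : 0 < ‖F z₀ - y‖ := norm_pos_iff.2 (sub_ne_zero.2 hz₀)
  have hs : 0 < s := by positivity
  obtain ⟨e, he, he0, -⟩ := hG.disc z₀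
  have hVo : IsOpen (U ∩ {z | s < ‖F z - y‖}) :=
    h.isOpen.inter (isOpen_lt continuous_const (by fun_prop))
  have hmem : e ⁻¹' (U ∩ {z | s < ‖F z - y‖}) ∈ 𝓝 (0 : ℂ) := by
    refine (hVo.preimage he.continuous).mem_nhds ?_
    rw [mem_preimage, he0]
    exact ⟨hz₀U, by show s < ‖F z₀ - y‖; linarith⟩
  obtain ⟨r, hr, hrs⟩ := nhds_basis_closedBall.mem_iff.1 hmem
  have hK'sub : e '' closedBall 0 r ⊆ U ∩ {z | s < ‖F z - y‖} := image_subset_iff.2 hrs
  have hK'nt : (e '' closedBall 0 r).Nontrivial := by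
    refine ⟨e 0, mem_image_of_mem _ (mem_closedBall_self hr.le), e r,
      mem_image_of_mem _ (by simp [abs_of_pos hr]), fun h' => ?_⟩
    have := he.injective h'
    exact hr.ne (by exact_mod_cast this)
  obtain ⟨c, hc, U', hU', hU'U, hL⟩ := X.loewner U (e '' closedBall 0 r) K h.isOpen h.conn
    ((isCompact_closedBall 0 r).image he.continuous)
    ((convex_closedBall (0 : ℂ) r).isPreconnected.image e he.continuous.continuousOn) hK'nt
    hK hKc hnt (hK'sub.trans inter_subset_left) hKU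
  obtain ⟨χ, hχ, hχ01, hχ1, hχs⟩ := X.cutoff U' U hU'.isClosed h.isOpen hU'U
  have hχc : Continuous χ := X.cont _ hχ
  have hint : ∀ (g : Z → ℝ) (μ : Measure Z) [IsFiniteMeasure μ], Continuous g →
      Integrable g μ := fun g μ _ hg =>
    hg.integrable_of_hasCompactSupport (HasCompactSupport.of_compactSpace g)
  obtain ⟨A, hA⟩ := exists_log_test y hs
  have key : ∀ J : ℕ, c * (J : ℝ) ^ 2 ≤ κ * (A * J) := by
    intro J
    obtain ⟨φ, hφ, hφc, hφy, hφ0, hφA⟩ := hA J
    have hk : (fun z => φ (F z)) ∈ X.Fc := X.chain_mem _ hu _ hv φ hφ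
    have hg := helper5_gradSq_cont hφ
    have hgF : Continuous fun z => gradSq φ (F z) := hg.comp hFc
    have h1 := hL _ hk 0 J (Nat.cast_nonneg J)
      (fun z hz => le_of_eq (hφ0 _ (le_of_lt (hK'sub hz).2)))
      (fun z hz => by rw [hy z hz, hφy])
    rw [sub_zero] at h1
    have h2 : (X.Γ fun z => φ (F z)).real U' ≤ ∫ z, χ z ∂(X.Γ fun z => φ (F z)) := by
      rw [← integral_indicator_one hU'.measurableSet]
      refine integral_mono ((integrable_const 1).indicator hU'.measurableSet) (hint _ _ hχc)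
        fun z => ?_
      by_cases hz : z ∈ U'
      · rw [indicator_of_mem hz, hχ1 z hz]
        exact le_rfl
      · rw [indicator_of_notMem hz]
        exact (hχ01 z).1
    rw [X.int_Γ _ hk _ hχc, Conf.B_comp X (Extremal.conf X hκ h) hφ hχc hχs] at h2
    have h0 : ∀ z, z ∉ U → χ z * gradSq φ (F z) = 0 := by
      intro z hz
      rw [image_eq_zero_of_notMem_tsupport fun h' => hz (hχs h'), zero_mul]
    have h3 : ∫ z, χ z * gradSq φ (F z) ∂(X.Γ (reF F)) ≤
        ∫ z in U, gradSq φ (F z) ∂(X.Γ (reF F)) := by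
      rw [← setIntegral_eq_integral_of_forall_compl_eq_zero h0]
      refine integral_mono (hint _ _ (hχc.mul hgF)) (hint _ _ hgF) fun z => ?_
      exact mul_le_of_le_one_left (helper5_gradSq_nonneg _ _) (hχ01 z).2
    have h4 : ∫ z in U, gradSq φ (F z) ∂(X.Γ (reF F)) ≤ ∫ z in U, gradSq φ (F z) ∂(X.D F) :=
      integral_mono_measure (Measure.restrict_mono_measure (Measure.le_add_right le_rfl) U)
        (Eventually.of_forall fun z => helper5_gradSq_nonneg _ _) (hint _ _ hgF)
    have h5 : ∫ z in U, gradSq φ (F z) ∂(X.D F) =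
        ∫ w, gradSq φ w ∂(((X.D F).restrict U).map F) :=
      (integral_map hFc.aemeasurable hg.aestronglyMeasurable).symm
    have h6 : ∫ w, gradSq φ w ∂(((X.D F).restrict U).map F) ≤
        ∫ w, gradSq φ w ∂(ENNReal.ofReal κ • (volume : Measure ℂ)) :=
      integral_mono_measure (Extremal.map_le X hκ h)
        (Eventually.of_forall fun z => helper5_gradSq_nonneg _ _)
        ((helper5_gradSq_int hφ hφc).smul_measure ENNReal.ofReal_ne_top)
    rw [integral_smul_measure, ENNReal.toReal_ofReal hκ.1.le, smul_eq_mul] at h6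
    have h7 := mul_le_mul_of_nonneg_left hφA hκ.1.le
    linarith
  obtain ⟨J, hJ⟩ := exists_nat_gt (max (κ * A / c) 0)
  have hJ0 : (0 : ℝ) < J := lt_of_le_of_lt (le_max_right _ _) hJ
  have hJ1 : κ * A < J * c := (div_lt_iff₀ hc).1 (lt_of_le_of_lt (le_max_left _ _) hJ)
  have := key J
  nlinarith

/-- small good neighbourhoods whose frontier misses the fibre.  Let `N ⊆ V ∩ U` be a compact
neighbourhood of `p`; the compact set `T = N ∩ F⁻¹ {F p}` is totally disconnected (`light`), so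
there is a relatively clopen `T₁ ⊆ T ∩ interior N` containing `p`; `T₁` and `T \ T₁` are compact;
`exists_good` for `T₁ ⊆ interior N \ (T \ T₁)`. -/
theorem Extremal.exists_Q (hG : Geo G Z) {κ : ℝ} (hκ : X.Kap κ) {U : Set Z} {F : Z → ℂ}
    (h : X.Extremal κ U F) {p : Z} (hp : p ∈ U) {V : Set Z} (hV : V ∈ 𝓝 p) :
    ∃ Q : Set Z, IsOpen Q ∧ p ∈ Q ∧ closure Q ⊆ V ∩ U ∧ X.D F (frontier Q) = 0 ∧
      F p ∉ F '' frontier Q := by
  have hF : Continuous F := h.harm.continuous
  obtain ⟨r, hr, hrV⟩ := Metric.nhds_basis_closedBall.mem_iff.1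
    (inter_mem hV (h.isOpen.mem_nhds hp))
  set T : Set Z := closedBall p r ∩ F ⁻¹' {F p} with hT
  have hTc : IsClosed T := isClosed_closedBall.inter (isClosed_singleton.preimage hF)
  have hTd : IsTotallyDisconnected T := by
    intro S hS hSc
    have hcl : closure S ⊆ T := closure_minimal hS hTc
    have := Extremal.light X hG hκ h (y := F p) isClosed_closure.isCompact hSc.closure
      (fun z hz => (hrV (hcl hz).1).2) (fun z hz => (hcl hz).2)
    exact this.anti subset_closure
  haveI : CompactSpace T := isCompact_iff_compactSpace.1 hTc.isCompact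
  haveI : TotallyDisconnectedSpace T := totallyDisconnectedSpace_subtype_iff.2 hTd
  have hpT : p ∈ T := ⟨mem_closedBall_self hr.le, rfl⟩
  obtain ⟨W, hW, hpW, hWb⟩ := compact_exists_isClopen_in_isOpen
    (U := (Subtype.val : T → Z) ⁻¹' ball p r) (x := ⟨p, hpT⟩)
    (isOpen_ball.preimage continuous_subtype_val) (mem_ball_self hr)
  have h1 : IsCompact ((Subtype.val : T → Z) '' W) :=
    hW.isClosed.isCompact.image continuous_subtype_val
  have h2 : IsCompact ((Subtype.val : T → Z) '' Wᶜ) :=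
    hW.compl.isClosed.isCompact.image continuous_subtype_val
  obtain ⟨Q, hQ, hQ1, hQ2, hQ0⟩ := exists_good (X.D F) h1
    (isOpen_ball.sdiff h2.isClosed : IsOpen (ball p r \ (Subtype.val : T → Z) '' Wᶜ)) (by
      rintro _ ⟨z, hz, rfl⟩
      refine ⟨hWb hz, ?_⟩
      rintro ⟨z', hz', e⟩
      rw [Subtype.ext e] at hz'
      exact hz' hz)
  refine ⟨Q, hQ, hQ1 ⟨⟨p, hpT⟩, hpW, rfl⟩,
    fun z hz => hrV (ball_subset_closedBall (hQ2 hz).1), hQ0, ?_⟩
  rintro ⟨z, hz, e⟩
  rw [hQ.frontier_eq] at hz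
  have hzT : z ∈ T := ⟨ball_subset_closedBall (hQ2 hz.1).1, e⟩
  by_cases hzW : (⟨z, hzT⟩ : T) ∈ W
  · exact hz.2 (hQ1 ⟨_, hzW, rfl⟩)
  · exact (hQ2 hz.1).2 ⟨_, hzW, rfl⟩

theorem h72_cl {μ : Measure Z} [IsFiniteMeasure μ] {O : Set Z} (h0 : μ (frontier O) = 0) :
    μ.real (closure O) ≤ μ.real O := by
  rw [closure_eq_self_union_frontier]
  refine (measureReal_union_le _ _).trans ?_
  rw [measureReal_def μ (frontier O), h0]
  simp

theorem h72_null {CA : ℝ} (hA : X.AreaBd CA) {κ : ℝ} {U : Set Z} {F : Z → ℂ}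
    (h : X.Extremal κ U F) {O : Set Z} (hOU : closure O ⊆ U) (h0 : X.D F (frontier O) = 0) :
    volume.real (F '' frontier O) = 0 := by
  have := hA.2 U (frontier O) F h.isOpen h.harm isClosed_frontier.isCompact
    (frontier_subset_closure.trans hOU)
  rw [measureReal_def (X.D F), h0] at this
  exact le_antisymm (by simpa using this) measureReal_nonneg

theorem h72_fin {F : Z → ℂ} (hF : Continuous F) (O : Set Z) : volume (F '' frontier O) ≠ ⊤ :=
  (isClosed_frontier.isCompact.image hF).measure_lt_top.ne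

theorem h72_split {μ : Measure Z} [IsFiniteMeasure μ] {O O₁ : Set Z} (hO₁ : IsOpen O₁)
    (h1 : closure O₁ ⊆ O) (h10 : μ (frontier O₁) = 0) :
    μ.real (closure O₁) + μ.real (closure (O \ closure O₁)) ≤ μ.real (closure O) := by
  have a1 := h72_cl h10
  have a2 : closure (O \ closure O₁) ⊆ closure O \ O₁ :=
    closure_minimal (fun z hz => ⟨subset_closure hz.1, fun h' => hz.2 (subset_closure h')⟩)
      (isClosed_closure.sdiff hO₁)
  have a3 : μ.real (closure (O \ closure O₁)) ≤ μ.real (closure O \ O₁) := measureReal_mono a2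
  have a4 := measureReal_inter_add_diff (μ := μ) (s := closure O) hO₁.measurableSet
  rw [inter_eq_right.2 (subset_closure.trans (h1.trans subset_closure))] at a4
  linarith

/-- equality case of `om_split`:
`κ vol (Om O) ≤ κ vol (Om O ∩ Om O₁) + κ vol (Om O') ≤ κ vol (Om O ∩ Om O₁) + D (cl O) - D (cl O₁)`. -/
theorem Extremal.om_inner {κ CA : ℝ} (hκ : X.Kap κ) (hA : X.AreaBd CA) {U : Set Z} {F : Z → ℂ}
    (h : X.Extremal κ U F) {O O₁ : Set Z} (hO : IsOpen O) (hOU : closure O ⊆ U)
    (h0 : X.D F (frontier O) = 0) (hO₁ : IsOpen O₁) (h1 : closure O₁ ⊆ O)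
    (h10 : X.D F (frontier O₁) = 0) :
    (X.D F).real (closure O₁) ≤ κ * volume.real (Om F O ∩ Om F O₁) := by
  have hF : Continuous F := h.harm.continuous
  have hO' : IsOpen (O \ closure O₁) := hO.sdiff isClosed_closure
  have hO'U : closure (O \ closure O₁) ⊆ U := (closure_mono diff_subset).trans hOU
  have a1 := h.eq O hO hOU h0
  have a2 := hκ.2 U _ F h.isOpen h.harm hO' hO'U
  have a3 := h72_split hO₁ h1 h10
  have a4 := X.h72_null hA h (h1.trans (subset_closure.trans hOU)) h10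
  have hsub : Om F O ⊆ (Om F O ∩ Om F O₁ ∪ Om F (O \ closure O₁)) ∪ F '' frontier O₁ := by
    intro y hy
    rcases om_split hF hO hO₁ h1 hy with (h' | h') | h'
    · exact Or.inl (Or.inl ⟨hy, h'⟩)
    · exact Or.inl (Or.inr h')
    · exact Or.inr h'
  have a5 : volume.real (Om F O) ≤ volume.real (Om F O ∩ Om F O₁) +
      volume.real (Om F (O \ closure O₁)) := by
    refine (measureReal_mono hsub ?_).trans ?_
    · exact measure_union_ne_top (measure_union_ne_top
        (measure_ne_top_of_subset inter_subset_left (volume_om_ne_top hF _))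
        (volume_om_ne_top hF _)) (h72_fin hF _)
    · refine (measureReal_union_le _ _).trans ?_
      rw [a4, add_zero]
      exact measureReal_union_le _ _
  have a6 := mul_le_mul_of_nonneg_left a5 hκ.1.le
  linarith

/-- take a good `O ⊇ cl O₁ ∪ cl O₂`, apply `om_split` twice; the intersection is an open null set. -/
theorem Extremal.om_disjoint {κ CA : ℝ} (hκ : X.Kap κ) (hA : X.AreaBd CA) {U : Set Z} {F : Z → ℂ}
    (h : X.Extremal κ U F) {O₁ O₂ : Set Z} (hO₁ : IsOpen O₁) (h1 : closure O₁ ⊆ U)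
    (h10 : X.D F (frontier O₁) = 0) (hO₂ : IsOpen O₂) (h2 : closure O₂ ⊆ U)
    (h20 : X.D F (frontier O₂) = 0) (hd : Disjoint (closure O₁) (closure O₂)) :
    Disjoint (Om F O₁) (Om F O₂) := by
  have hF : Continuous F := h.harm.continuous
  obtain ⟨O, hO, hKO, hOU, h0⟩ := exists_good (X.D F)
    (isClosed_closure.isCompact.union isClosed_closure.isCompact :
      IsCompact (closure O₁ ∪ closure O₂)) h.isOpen (union_subset h1 h2)
  have hO1 : closure O₁ ⊆ O := subset_union_left.trans hKO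
  have hO' : IsOpen (O \ closure O₁) := hO.sdiff isClosed_closure
  have hO2 : closure O₂ ⊆ O \ closure O₁ := fun z hz =>
    ⟨hKO (Or.inr hz), fun h' => Set.disjoint_left.1 hd h' hz⟩
  have hO'' : IsOpen ((O \ closure O₁) \ closure O₂) := hO'.sdiff isClosed_closure
  have hO''U : closure ((O \ closure O₁) \ closure O₂) ⊆ U :=
    (closure_mono (diff_subset.trans diff_subset)).trans hOU
  have a1 := h.eq O hO hOU h0
  have a2 := hκ.2 U _ F h.isOpen h.harm hO'' hO''U
  have a3 := h72_split hO₁ hO1 h10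
  have a3' := h72_split hO₂ hO2 h20
  have a4 := X.h72_null hA h h1 h10
  have a4' := X.h72_null hA h h2 h20
  have b1 := h.eq O₁ hO₁ h1 h10
  have b2 := h.eq O₂ hO₂ h2 h20
  have hsub : Om F O ⊆ ((Om F O₁ ∪ Om F O₂) ∪ Om F ((O \ closure O₁) \ closure O₂)) ∪
      (F '' frontier O₁ ∪ F '' frontier O₂) := by
    intro y hy
    rcases om_split hF hO hO₁ hO1 hy with (h' | h') | h'
    · exact Or.inl (Or.inl (Or.inl h'))
    · rcases om_split hF hO' hO₂ hO2 h' with (h'' | h'') | h''
      · exact Or.inl (Or.inl (Or.inr h''))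
      · exact Or.inl (Or.inr h'')
      · exact Or.inr (Or.inr h'')
    · exact Or.inr (Or.inl h')
  have a5 : volume.real (Om F O) ≤ volume.real (Om F O₁ ∪ Om F O₂) +
      volume.real (Om F ((O \ closure O₁) \ closure O₂)) := by
    refine (measureReal_mono hsub ?_).trans ?_
    · exact measure_union_ne_top (measure_union_ne_top
        (measure_union_ne_top (volume_om_ne_top hF _) (volume_om_ne_top hF _))
        (volume_om_ne_top hF _)) (measure_union_ne_top (h72_fin hF _) (h72_fin hF _))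
    · refine (measureReal_union_le _ _).trans ?_
      have := measureReal_union_le (μ := (volume : Measure ℂ)) (F '' frontier O₁)
        (F '' frontier O₂)
      have := measureReal_union_le (μ := (volume : Measure ℂ)) (Om F O₁ ∪ Om F O₂)
        (Om F ((O \ closure O₁) \ closure O₂))
      linarith
  have a6 := mul_le_mul_of_nonneg_left a5 hκ.1.le
  have a7 := measureReal_union_add_inter (μ := (volume : Measure ℂ)) (s := Om F O₁)
    (isOpen_om hF hO₂).measurableSet (volume_om_ne_top hF _) (volume_om_ne_top hF _)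
  have a8 : κ * volume.real (Om F O₁ ∩ Om F O₂) ≤ 0 := by
    have : κ * volume.real (Om F O₁ ∩ Om F O₂) = κ * volume.real (Om F O₁) +
        κ * volume.real (Om F O₂) - κ * volume.real (Om F O₁ ∪ Om F O₂) := by
      rw [← mul_add, ← a7]; ring
    linarith
  have a9 : volume.real (Om F O₁ ∩ Om F O₂) = 0 := by
    have hn : 0 ≤ volume.real (Om F O₁ ∩ Om F O₂) := measureReal_nonneg
    refine le_antisymm ?_ hn
    by_contra hc
    have := mul_pos hκ.1 (not_le.1 hc)
    linarith
  have a10 : volume (Om F O₁ ∩ Om F O₂) = 0 :=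
    (measureReal_eq_zero_iff (measure_ne_top_of_subset inter_subset_left
      (volume_om_ne_top hF _))).1 a9
  rw [Set.disjoint_iff_inter_eq_empty]
  exact ((isOpen_om hF hO₁).inter (isOpen_om hF hO₂)).eq_empty_of_measure_zero a10

/-- if `F p ∉ Om F Q`, a neighbourhood `Δ` of `F p` misses `Om F Q` (`om_nhds`); a good `O₁ ∋ p`
with `cl O₁ ⊆ Q ∩ F⁻¹ Δ` has `D (cl O₁) = 0` (`om_inner`, `om_subset`), so `F` is constant on a
small disc around `p` (`const_of_Γ_zero`), contradicting `light`. -/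
theorem Extremal.mem_om (hG : Geo G Z) {κ CA : ℝ} (hκ : X.Kap κ) (hA : X.AreaBd CA) {U : Set Z}
    {F : Z → ℂ} (h : X.Extremal κ U F) {Q : Set Z} (hQ : IsOpen Q) (hQU : closure Q ⊆ U)
    (h0 : X.D F (frontier Q) = 0) {p : Z} (hp : p ∈ Q) (hy : F p ∉ F '' frontier Q) :
    F p ∈ Om F Q := by
  by_contra hn
  have hF : Continuous F := Harm2.continuous X h.harm
  obtain ⟨Δ, hΔ, hΔo, hpΔ⟩ := _root_.eventually_nhds_iff.1 (om_nhds hF hQ hy)
  obtain ⟨O₁, hO₁, hpO, hcl, h10⟩ := exists_good (X.D F) (isCompact_singleton (x := p))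
    (hQ.inter (hΔo.preimage hF)) (singleton_subset_iff.2 ⟨hp, hpΔ⟩)
  have h1 := Extremal.om_inner X hκ hA h hQ hQU h0 hO₁ (hcl.trans inter_subset_left) h10
  have hem : Om F Q ∩ Om F O₁ = ∅ := by
    refine eq_empty_of_forall_notMem fun y hy' => ?_
    obtain ⟨z, hz, rfl⟩ := om_subset hF O₁ hy'.2
    exact hn ((hΔ _ (hcl (subset_closure hz)).2).1 hy'.1)
  rw [hem, measureReal_empty, mul_zero] at h1
  have h2 : X.D F (closure O₁) = 0 :=
    (measureReal_eq_zero_iff (measure_ne_top _ _)).1 (le_antisymm h1 measureReal_nonneg)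
  obtain ⟨e, he, he0, -⟩ := hG.disc p
  have hn0 : e ⁻¹' O₁ ∈ 𝓝 (0 : ℂ) :=
    (hO₁.preimage he.continuous).mem_nhds (by rw [mem_preimage, he0]; exact hpO rfl)
  obtain ⟨ρ, hρ, hρO⟩ := Metric.mem_nhds_iff.1 hn0
  have hWo : IsOpen (e '' ball 0 ρ) := he.isOpenMap _ isOpen_ball
  have hWc : IsPreconnected (e '' ball (0 : ℂ) ρ) :=
    (convex_ball (0 : ℂ) ρ).isPreconnected.image _ he.continuous.continuousOn
  have hWO : e '' ball 0 ρ ⊆ closure O₁ := (image_subset_iff.2 hρO).trans subset_closure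
  have h3 : X.D F (e '' ball 0 ρ) = 0 := measure_mono_null hWO h2
  unfold D at h3
  rw [Measure.add_apply, add_eq_zero] at h3
  have hre := X.const_of_Γ_zero hG h.harm.1.1 hWo hWc h3.1
  have him := X.const_of_Γ_zero hG h.harm.2.1 hWo hWc h3.2
  have hsub : e '' closedBall 0 (ρ / 2) ⊆ e '' ball 0 ρ :=
    image_mono (closedBall_subset_ball (half_lt_self hρ))
  have h00 : e 0 ∈ e '' ball (0 : ℂ) ρ := mem_image_of_mem _ (mem_ball_self hρ)
  have hs := Extremal.light X hG hκ h (y := F (e 0)) (K := e '' closedBall 0 (ρ / 2))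
    ((isCompact_closedBall _ _).image he.continuous)
    ((convex_closedBall (0 : ℂ) _).isPreconnected.image _ he.continuous.continuousOn)
    (hsub.trans (hWO.trans (hcl.trans (inter_subset_left.trans (subset_closure.trans hQU)))))
    (fun z hz => Complex.ext (hre z (hsub hz) _ h00) (him z (hsub hz) _ h00))
  have h4 : e 0 = e ((ρ / 2 : ℝ) : ℂ) :=
    hs (mem_image_of_mem _ (mem_closedBall_self (half_pos hρ).le))
      (mem_image_of_mem _ (by
        rw [mem_closedBall_zero_iff, Complex.norm_real, Real.norm_eq_abs, abs_of_pos (half_pos hρ)]))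
  have h5 := he.injective h4
  exact (half_pos hρ).ne (by exact_mod_cast h5)

/-- injective: `exists_Q` at `p ≠ q`, `mem_om`, `om_disjoint`.  Open: `F p ∈ Om F Q ⊆ F '' V`,
`isOpen_om`.  Push-forward: `≤` is `map_le` (`V ⊆ U ∩ F⁻¹ (F '' V)`); `≥`: for compact `K ⊆ V` and
good `O`, `F '' K ⊆ Om F O` (`mem_om`, injectivity), so `κ vol (F '' K) ≤ D (cl O) ≤ D V`, and every
compact subset of the open set `F '' V` is `F '' K` (or exhaust `V` by compact sets). -/
theorem Extremal.chart (hG : Geo G Z) {κ CA : ℝ} (hκ : X.Kap κ) (hA : X.AreaBd CA) {U : Set Z}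
    {F : Z → ℂ} (h : X.Extremal κ U F) : X.Chart κ U F := by
  have hF : Continuous F := Harm2.continuous X h.harm
  have hinj : InjOn F U := by
    intro p hp q hq hpq
    by_contra hne
    obtain ⟨V₁, V₂, hV₁, hV₂, hp1, hq2, hd⟩ := t2_separation hne
    obtain ⟨Q₁, a1, a2, a3, a4, a5⟩ := Extremal.exists_Q X hG hκ h hp (hV₁.mem_nhds hp1)
    obtain ⟨Q₂, b1, b2, b3, b4, b5⟩ := Extremal.exists_Q X hG hκ h hq (hV₂.mem_nhds hq2)
    have m1 := Extremal.mem_om X hG hκ hA h a1 (a3.trans inter_subset_right) a4 a2 a5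
    have m2 := Extremal.mem_om X hG hκ hA h b1 (b3.trans inter_subset_right) b4 b2 b5
    have hdis := Extremal.om_disjoint X hκ hA h a1 (a3.trans inter_subset_right) a4 b1
      (b3.trans inter_subset_right) b4
      (hd.mono (a3.trans inter_subset_left) (b3.trans inter_subset_left))
    exact Set.disjoint_left.1 hdis m1 (hpq ▸ m2)
  have hop : ∀ V : Set Z, IsOpen V → V ⊆ U → IsOpen (F '' V) := by
    intro V hV hVU
    refine isOpen_iff_mem_nhds.2 ?_
    rintro _ ⟨p, hp, rfl⟩
    obtain ⟨Q, a1, a2, a3, a4, a5⟩ := Extremal.exists_Q X hG hκ h (hVU hp) (hV.mem_nhds hp)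
    have m1 := Extremal.mem_om X hG hκ hA h a1 (a3.trans inter_subset_right) a4 a2 a5
    exact mem_of_superset ((isOpen_om hF a1).mem_nhds m1) ((om_subset hF Q).trans
      (image_mono (subset_closure.trans (a3.trans inter_subset_left))))
  refine ⟨Extremal.conf X hκ h, hκ.1, ?_, hinj, hop, fun V hV hVU => ?_⟩
  · by_contra h0
    have := h.pos
    rw [not_nonempty_iff_eq_empty.1 h0, measureReal_empty] at this
    exact lt_irrefl _ this
  have hfin : volume (F '' V) ≠ ⊤ :=
    ne_top_of_le_ne_top (isCompact_range hF).measure_lt_top.ne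
      (measure_mono (image_subset_range _ _))
  have hE : X.D F V = ENNReal.ofReal κ * volume (F '' V) := by
    apply le_antisymm
    · have h1 := Extremal.map_le X hκ h (F '' V)
      rw [Measure.map_apply hF.measurable (hop V hV hVU).measurableSet,
        Measure.restrict_apply (hF.measurable (hop V hV hVU).measurableSet),
        Measure.smul_apply, smul_eq_mul] at h1
      exact le_trans (measure_mono fun z hz => mem_inter (mem_image_of_mem F hz) (hVU hz)) h1
    · obtain ⟨K, hKc, hKV, hKU, hKm⟩ := hV.exists_iUnion_isClosed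
      have h1 : F '' V = ⋃ n, F '' K n := by rw [← image_iUnion, hKU]
      have hm : Monotone fun n => F '' K n := fun a b hab => image_mono (hKm hab)
      rw [h1, hm.measure_iUnion, ENNReal.mul_iSup]
      refine iSup_le fun n => ?_
      obtain ⟨O, hO, hKO, hOV, hO0⟩ := exists_good (X.D F) (hKc n).isCompact hV (hKV n)
      have hOU : closure O ⊆ U := hOV.trans hVU
      have hsub : F '' K n ⊆ Om F O := by
        rintro _ ⟨p, hp, rfl⟩
        refine Extremal.mem_om X hG hκ hA h hO hOU hO0 (hKO hp) ?_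
        rintro ⟨z, hz, hzp⟩
        have h2 : z = p := hinj (hOU (frontier_subset_closure hz)) (hVU (hKV n hp)) hzp
        rw [hO.frontier_eq] at hz
        exact hz.2 (h2 ▸ hKO hp)
      have h2 := h.eq O hO hOU hO0
      have h3 : ENNReal.ofReal κ * volume (Om F O) = X.D F (closure O) := by
        rw [← ofReal_measureReal (measure_ne_top (X.D F) (closure O)), h2,
          ENNReal.ofReal_mul hκ.1.le, ofReal_measureReal (volume_om_ne_top hF O)]
      calc ENNReal.ofReal κ * volume (F '' K n) ≤ ENNReal.ofReal κ * volume (Om F O) := by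
            gcongr
        _ = X.D F (closure O) := h3
        _ ≤ X.D F V := measure_mono hOV
  simp only [Measure.real, hE, ENNReal.toReal_mul, ENNReal.toReal_ofReal hκ.1.le]

end DForm

end Crest.Agent.R193.E
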