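import Mathlib

/-! Row 193, backup endgame [E] (helper77, helper74): definitions.

`Geo G Z` : the soft geometric input (discs, doubling, expansion, north-south dynamics).
`DForm G Z` : a `G`-invariant strongly local "Dirichlet form" on `Z` (`B h f k = ∫ h dΓ(f,k)`),
with cut-offs, closability, short loops (S) and a qualitative Loewner bound (L).
`Om F O` : the essential values of `F` on the open set `O`.
Output: `Out G Z`, the conclusion of `tblock` (input of `hblock`). -/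

set_option autoImplicit false

open Set Filter Topology MeasureTheory Metric

namespace Crest.Agent.R193.E

/-- Soft geometric input. -/
structure Geo (G Z : Type) [Group G] [MetricSpace Z] [MulAction G Z] : Prop where
  cont : ∀ g : G, Continuous fun z : Z => g • z
  conn : IsPreconnected (univ : Set Z)
  disc : ∀ q : Z, ∃ e : ℂ → Z, IsOpenEmbedding e ∧ e 0 = q ∧
    ∀ R : ℝ, 0 < R → IsPreconnected (e '' ball 0 R)ᶜ
  dbl : ∀ lam : ℝ, ∃ N : ℕ, ∀ r : ℝ, 0 < r → ∃ P : Finset Z, (∀ z, ∃ p ∈ P, dist z p < r) ∧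
    ∀ p ∈ P, ((P : Set Z) ∩ closedBall p (lam * r)).ncard ≤ N
  expand : ∃ c : ℝ, 0 < c ∧ ∃ L : ℝ, 1 ≤ L ∧ ∀ (p : Z) (r : ℝ), 0 < r → ∃ g : G,
    ∀ ξ ∈ ball p r, ∀ ξ' ∉ ball p (L * r), c ≤ dist (g • ξ) (g • ξ')
  ns : ∀ U : Set Z, IsOpen U → U.Nonempty → ∃ (g : G) (p q : Z), p ∈ U ∧ p ≠ q ∧ g • p = p ∧
    g • q = q ∧ ∀ K : Set Z, IsCompact K → q ∉ K → ∀ V ∈ 𝓝 p, ∀ᶠ n : ℕ in atTop,
      ∀ z ∈ K, g ^ n • z ∈ V
  ne : Nonempty Z

/-- The conclusion of the endgame (input of `hblock`). -/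
def Out (G Z : Type) [Group G] [MetricSpace Z] [MulAction G Z] : Prop :=
  ∃ (η : Z) (k : ℂ → Z), IsEmbedding k ∧ Set.range k = {η}ᶜ ∧
    ∀ g : G, ∃ f : ℂ → ℂ, (∀ z, g • k z ≠ η → k (f z) = g • k z) ∧
      ∀ z, g • k z ≠ η → AnalyticAt ℂ f z ∨ AnalyticAt ℂ (fun w => (starRingEnd ℂ) (f w)) z

/-- An invariant energy form. `B h f k` is `∫ h dΓ(f,k)`. -/
structure DForm (G Z : Type) [Group G] [MetricSpace Z] [MeasurableSpace Z] [MulAction G Z] where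
  /-- functions of finite energy (all continuous) -/
  Fc : Submodule ℝ (Z → ℝ)
  /-- localised energy -/
  B : (Z → ℝ) → (Z → ℝ) → (Z → ℝ) → ℝ
  /-- energy measure -/
  Γ : (Z → ℝ) → Measure Z
  /-- ratio of the annuli in (S) -/
  L : ℝ
  /-- constant in (S) -/
  Cs : ℝ
  /-- largest scale in (S) -/
  r₀ : ℝ
  cont : ∀ f ∈ Fc, Continuous f
  fin : ∀ f, IsFiniteMeasure (Γ f)
  int_Γ : ∀ f ∈ Fc, ∀ h : Z → ℝ, Continuous h → ∫ z, h z ∂(Γ f) = B h f f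
  B_add₁ : ∀ h h' f k : Z → ℝ, Continuous h → Continuous h' → f ∈ Fc → k ∈ Fc →
    B (h + h') f k = B h f k + B h' f k
  B_smul₁ : ∀ (c : ℝ) (h f k : Z → ℝ), Continuous h → f ∈ Fc → k ∈ Fc →
    B (c • h) f k = c * B h f k
  B_add₂ : ∀ h f f' k : Z → ℝ, Continuous h → f ∈ Fc → f' ∈ Fc → k ∈ Fc →
    B h (f + f') k = B h f k + B h f' k
  B_smul₂ : ∀ (c : ℝ) (h f k : Z → ℝ), Continuous h → f ∈ Fc → k ∈ Fc →
    B h (c • f) k = c * B h f k
  B_symm : ∀ h f k : Z → ℝ, Continuous h → f ∈ Fc → k ∈ Fc → B h f k = B h k f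
  B_cp : ∀ h₁ h₂ f k : Z → ℝ, Continuous h₁ → Continuous h₂ → f ∈ Fc → k ∈ Fc →
    0 ≤ B (h₁ * h₁) f f + 2 * B (h₁ * h₂) f k + B (h₂ * h₂) k k
  chain_mem : ∀ u ∈ Fc, ∀ v ∈ Fc, ∀ φ : ℂ → ℝ, ContDiff ℝ 1 φ →
    (fun z => φ ⟨u z, v z⟩) ∈ Fc
  chain : ∀ u ∈ Fc, ∀ v ∈ Fc, ∀ φ : ℂ → ℝ, ContDiff ℝ 1 φ → ∀ h k : Z → ℝ, Continuous h →
    k ∈ Fc → B h (fun z => φ ⟨u z, v z⟩) k =
      B (fun z => h z * fderiv ℝ φ ⟨u z, v z⟩ 1) u k +
      B (fun z => h z * fderiv ℝ φ ⟨u z, v z⟩ Complex.I) v k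
  inv_mem : ∀ (g : G), ∀ f ∈ Fc, (fun z => f (g • z)) ∈ Fc
  inv : ∀ (g : G) (h f k : Z → ℝ), Continuous h → f ∈ Fc → k ∈ Fc →
    B (fun z => h (g • z)) (fun z => f (g • z)) (fun z => k (g • z)) = B h f k
  cutoff : ∀ K O : Set Z, IsClosed K → IsOpen O → K ⊆ O → ∃ χ ∈ Fc,
    (∀ z, 0 ≤ χ z ∧ χ z ≤ 1) ∧ (∀ z ∈ K, χ z = 1) ∧ tsupport χ ⊆ O
  closable : ∀ (w : ℕ → Z → ℝ) (f : Z → ℝ), (∀ n, w n ∈ Fc) → TendstoUniformly w f atTop →
    (∀ ε : ℝ, 0 < ε → ∃ N, ∀ n ≥ N, ∀ m ≥ N, B 1 (w n - w m) (w n - w m) ≤ ε) →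
    f ∈ Fc ∧ Tendsto (fun n => B 1 (w n - f) (w n - f)) atTop (𝓝 0)
  one_lt_L : 1 < L
  Cs_pos : 0 < Cs
  r₀_pos : 0 < r₀
  loops : ∀ f ∈ Fc, ∀ (p : Z) (r : ℝ), 0 < r → r ≤ r₀ → ∀ δ : ℝ, 0 < δ →
    ∃ (R : Set Z) (m : ℝ), IsOpen R ∧ ball p r ⊆ R ∧ R ⊆ ball p (L * r) ∧
      ∀ z ∈ frontier R, |f z - m| ≤
        Cs * √((Γ f).real (closedBall p (L * r) \ ball p r)) + δ
  loewner : ∀ U K K' : Set Z, IsOpen U → IsPreconnected U → IsCompact K → IsPreconnected K →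
    K.Nontrivial → IsCompact K' → IsPreconnected K' → K'.Nontrivial → K ⊆ U → K' ⊆ U →
    ∃ c : ℝ, 0 < c ∧ ∃ U' : Set Z, IsCompact U' ∧ U' ⊆ U ∧ ∀ f ∈ Fc, ∀ a b : ℝ, a ≤ b →
      (∀ z ∈ K, f z ≤ a) → (∀ z ∈ K', b ≤ f z) → c * (b - a) ^ 2 ≤ (Γ f).real U'

/-- Essential values of `F` on `O`. -/
def Om {Z : Type} [TopologicalSpace Z] (F : Z → ℂ) (O : Set Z) : Set ℂ :=
  {y | y ∉ F '' frontier O ∧ ∀ F' : Z → ℂ, Continuous F' → (∀ z ∈ frontier O, F' z = F z) →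
    y ∈ F' '' O}

/-- real part as a function -/
def reF {Z : Type} (F : Z → ℂ) : Z → ℝ := fun z => (F z).re

/-- imaginary part as a function -/
def imF {Z : Type} (F : Z → ℂ) : Z → ℝ := fun z => (F z).im

namespace DForm

variable {G Z : Type} [Group G] [MetricSpace Z] [MeasurableSpace Z] [MulAction G Z]
  (X : DForm G Z)

instance (f : Z → ℝ) : IsFiniteMeasure (X.Γ f) := X.fin f

/-- total energy -/
def En (f : Z → ℝ) : ℝ := X.B 1 f f

/-- `u` is of finite energy and harmonic on `W` -/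
def Harm (W : Set Z) (u : Z → ℝ) : Prop :=
  u ∈ X.Fc ∧ ∀ ψ ∈ X.Fc, tsupport ψ ⊆ W → X.B 1 u ψ = 0

/-- both coordinates harmonic on `W` -/
def Harm2 (W : Set Z) (F : Z → ℂ) : Prop := X.Harm W (reF F) ∧ X.Harm W (imF F)

/-- energy measure of a plane-valued map -/
noncomputable def D (F : Z → ℂ) : Measure Z := X.Γ (reF F) + X.Γ (imF F)

instance (F : Z → ℂ) : IsFiniteMeasure (X.D F) := by unfold D; infer_instance

/-- `κ` is a lower bound for energy / essential area -/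
def Kap (κ : ℝ) : Prop :=
  0 < κ ∧ ∀ (W O : Set Z) (F : Z → ℂ), IsOpen W → X.Harm2 W F → IsOpen O → closure O ⊆ W →
    κ * volume.real (Om F O) ≤ (X.D F).real (closure O)

/-- the defect -/
noncomputable def del (κ : ℝ) (F : Z → ℂ) (O : Set Z) : ℝ :=
  (X.D F).real (closure O) - κ * volume.real (Om F O)

/-- `CA` bounds area by energy for harmonic maps -/
def AreaBd (CA : ℝ) : Prop :=
  0 < CA ∧ ∀ (W K : Set Z) (F : Z → ℂ), IsOpen W → X.Harm2 W F → IsCompact K → K ⊆ W →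
    volume.real (F '' K) ≤ CA * (X.D F).real K

/-- an extremal map on `U` -/
structure Extremal (κ : ℝ) (U : Set Z) (F : Z → ℂ) : Prop where
  isOpen : IsOpen U
  conn : IsPreconnected U
  harm : X.Harm2 U F
  pos : 0 < (X.D F).real U
  eq : ∀ O : Set Z, IsOpen O → closure O ⊆ U → X.D F (frontier O) = 0 →
    (X.D F).real (closure O) = κ * volume.real (Om F O)

/-- `F` is harmonic and conformal on `U` -/
structure Conf (U : Set Z) (F : Z → ℂ) : Prop where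
  isOpen : IsOpen U
  harm : X.Harm2 U F
  eq : (X.Γ (reF F)).restrict U = (X.Γ (imF F)).restrict U
  orth : ∀ h : Z → ℝ, Continuous h → tsupport h ⊆ U → X.B h (reF F) (imF F) = 0

/-- a conformal chart: `F` is a homeomorphism from `U` onto an open set and pushes the energy
measure to a multiple of the area -/
structure Chart (κ : ℝ) (U : Set Z) (F : Z → ℂ) : Prop where
  conf : X.Conf U F
  pos : 0 < κ
  ne : U.Nonempty
  inj : InjOn F U
  isOpenMap : ∀ V : Set Z, IsOpen V → V ⊆ U → IsOpen (F '' V)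
  push : ∀ V : Set Z, IsOpen V → V ⊆ U → (X.D F).real V = κ * volume.real (F '' V)

end DForm

/-- a local chart in which the group acts by holomorphic or antiholomorphic germs -/
structure Atlas (G : Type) {Z : Type} [Group G] [MetricSpace Z] [MulAction G Z]
    (U : Set Z) (F : Z → ℂ) : Prop where
  isOpen : IsOpen U
  ne : U.Nonempty
  cont : Continuous F
  inj : InjOn F U
  isOpenMap : ∀ V : Set Z, IsOpen V → V ⊆ U → IsOpen (F '' V)
  hol : ∀ (g : G) (z : Z), z ∈ U → g • z ∈ U → ∃ τ : ℂ → ℂ,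
    (AnalyticAt ℂ τ (F z) ∨ AnalyticAt ℂ (fun w => (starRingEnd ℂ) (τ w)) (F z)) ∧
    ∀ᶠ z' in 𝓝 z, F (g • z') = τ (F z')

end Crest.Agent.R193.E
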