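import Crest.Agent.R193.EHarm

/-! Row 193 [E]: the Dirichlet problem. -/

set_option autoImplicit false

open Set Filter Topology MeasureTheory Metric

namespace Crest.Agent.R193.E

namespace DForm

variable {G Z : Type} [Group G] [MetricSpace Z] [CompactSpace Z] [MeasurableSpace Z] [BorelSpace Z]
  [MulAction G Z] (X : DForm G Z)

/-- one truncation -/
theorem h72_step {f : Z → ℝ} {O : Set Z} (hc : IsPreconnected Oᶜ) {ε ρ : ℝ} (hε : 0 < ε)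
    (hfρ : ∀ p x y : Z, x ∈ ball p ρ → y ∈ ball p ρ → |f x - f y| ≤ ε / 12)
    (hOρ : ∀ p : Z, ¬ Oᶜ ⊆ ball p ρ) {w : Z → ℝ} (hw : w ∈ X.Fc) (hwf : ∀ z ∉ O, w z = f z)
    {p : Z} {R : Set Z} {m : ℝ} (hR : IsOpen R) (hRρ : closure R ⊆ ball p ρ)
    (hm : ∀ z ∈ frontier R, |w z - m| ≤ ε / 12) :
    ∃ w' ∈ X.Fc, (∀ z ∉ O, w' z = f z) ∧ X.En w' ≤ X.En w ∧
      (∀ x ∈ R, ∀ y ∈ R, |w' x - w' y| ≤ ε) ∧
      ∀ S : Set Z, IsPreconnected S → ∀ a : ℝ, (∀ x ∈ S, ∀ y ∈ S, |w x - w y| ≤ a) →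
        ∀ x ∈ S, ∀ y ∈ S, |w' x - w' y| ≤ a := by
  have hη : 0 < ε / 6 := by positivity
  obtain ⟨w', hw', h1, h2, h3, h4, h5⟩ := X.trunc hw hR (m := m) hη
    (fun z hz => (hm z hz).trans (by linarith))
  refine ⟨w', hw', ?_, ?_, ?_, h5⟩
  · intro z hz
    by_cases hzR : z ∈ R
    · have hex : ∃ ξ, ξ ∈ closure R ∧ ξ ∉ O ∧ ξ ∉ R := by
        by_contra hcon
        push Not at hcon
        have hsub : Oᶜ ⊆ R := hc.subset_of_closure_inter_subset hR ⟨z, hz, hzR⟩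
          (fun ξ hξ => hcon ξ hξ.1 hξ.2)
        exact hOρ p (hsub.trans (subset_closure.trans hRρ))
      obtain ⟨ξ, hξ1, hξ2, hξ3⟩ := hex
      have hξf : ξ ∈ frontier R := by
        rw [hR.frontier_eq]; exact ⟨hξ1, hξ3⟩
      have a1 := hm ξ hξf
      have a2 := hfρ p z ξ (hRρ (subset_closure hzR)) (hRρ hξ1)
      rw [hwf ξ hξ2] at a1
      rw [h3 z ?_, hwf z hz]
      rw [hwf z hz]
      have := abs_sub_le (f z) (f ξ) m
      linarith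
    · rw [h1 z hzR, hwf z hz]
  · rw [X.En_eq hw', X.En_eq hw]
    exact ENNReal.toReal_mono (measure_ne_top _ _) (h4 univ)
  · intro x hx y hy
    have a1 := h2 x hx
    have a2 := h2 y hy
    have := abs_sub_le (w' x) m (w' y)
    rw [abs_sub_comm m] at this
    linarith

/-- One smoothing step.  Let `ρ` be such that `|f x - f y| ≤ ε/12` for `dist x y ≤ 2ρ` and
`Oᶜ ⊄ ball p ρ` for all `p` (`Oᶜ` nontrivial), `s` from `loops_log` (with `ε/12`).  Cover `Z` by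
finitely many connected open sets `V i ⊆ ball (p i) s` (images of discs of `Geo.disc`).  For each
`i` in turn apply `trunc` with `R, m` from `loops_log` and `η = ε/6`: if `R` meets `Oᶜ` then
`frontier R` meets the preconnected set `Oᶜ` at some `ξ`, so `|f z - m| ≤ ε/6` on `R \ O` and
`w' = w = f` there.  Afterwards the oscillation on `V i` is `≤ ε`, and later truncations do not
increase oscillations on preconnected sets, nor the energy. -/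
theorem smooth_step (hG : Geo G Z) {f : Z → ℝ} (hf : Continuous f) {O : Set Z} (hO : IsOpen O)
    (hc : IsPreconnected Oᶜ) (hn : (Oᶜ).Nontrivial) (M : ℝ) {ε : ℝ} (hε : 0 < ε) :
    ∃ 𝒱 : Finset (Set Z), (∀ V ∈ 𝒱, IsOpen V ∧ IsPreconnected V) ∧ (∀ z, ∃ V ∈ 𝒱, z ∈ V) ∧
      ∀ w ∈ X.Fc, (∀ z ∉ O, w z = f z) → X.En w ≤ M → ∃ w' ∈ X.Fc, (∀ z ∉ O, w' z = f z) ∧
        X.En w' ≤ X.En w ∧ (∀ V ∈ 𝒱, ∀ x ∈ V, ∀ y ∈ V, |w' x - w' y| ≤ ε) ∧
        ∀ S : Set Z, IsPreconnected S → ∀ a : ℝ, (∀ x ∈ S, ∀ y ∈ S, |w x - w y| ≤ a) →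
          ∀ x ∈ S, ∀ y ∈ S, |w' x - w' y| ≤ a := by
  classical
  have huc : UniformContinuous f := CompactSpace.uniformContinuous_of_continuous hf
  obtain ⟨ρ₁, hρ₁, hρf⟩ := Metric.uniformContinuous_iff.1 huc (ε / 12) (by positivity)
  obtain ⟨a₀, ha₀, b₀, hb₀, hab⟩ := hn
  have hd : 0 < dist a₀ b₀ := dist_pos.2 hab
  set ρ : ℝ := min (ρ₁ / 2) (dist a₀ b₀ / 2) with hρdef
  have hρ : 0 < ρ := lt_min (by positivity) (by positivity)
  have hρ1 : ρ ≤ ρ₁ / 2 := min_le_left _ _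
  have hρ2 : ρ ≤ dist a₀ b₀ / 2 := min_le_right _ _
  have hball : ∀ p x y : Z, x ∈ ball p ρ → y ∈ ball p ρ → dist x y < 2 * ρ := by
    intro p x y hx hy
    have := dist_triangle_right x y p
    rw [mem_ball] at hx hy
    linarith
  have hfρ : ∀ p x y : Z, x ∈ ball p ρ → y ∈ ball p ρ → |f x - f y| ≤ ε / 12 := by
    intro p x y hx hy
    have h := hρf (a := x) (b := y) (by have := hball p x y hx hy; linarith)
    rw [Real.dist_eq] at h
    exact h.le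
  have hOρ : ∀ p : Z, ¬ Oᶜ ⊆ ball p ρ := by
    intro p h
    have := hball p a₀ b₀ (h ha₀) (h hb₀)
    linarith
  obtain ⟨s, hs, hsl⟩ := X.loops_log (M := M) hρ (show 0 < ε / 12 by positivity)
  have hV : ∀ q : Z, ∃ V : Set Z, IsOpen V ∧ IsPreconnected V ∧ q ∈ V ∧ V ⊆ ball q s := by
    intro q
    obtain ⟨e, he, he0, -⟩ := hG.disc q
    have hce : ContinuousAt e 0 := he.continuous.continuousAt
    obtain ⟨δ, hδ, hδe⟩ := Metric.continuousAt_iff.1 hce s hs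
    refine ⟨e '' ball 0 δ, he.isOpenMap _ isOpen_ball,
      (convex_ball (0 : ℂ) δ).isPreconnected.image _ he.continuous.continuousOn,
      ⟨0, mem_ball_self hδ, he0⟩, ?_⟩
    rintro _ ⟨z, hz, rfl⟩
    rw [mem_ball, ← he0]
    exact hδe hz
  choose V hVo hVc hVq hVs using hV
  obtain ⟨T, hT⟩ := isCompact_univ.elim_finite_subcover V hVo
    (fun z _ => mem_iUnion.2 ⟨z, hVq z⟩)
  have key : ∀ T' : Finset Z, ∀ w ∈ X.Fc, (∀ z ∉ O, w z = f z) → X.En w ≤ M →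
      ∃ w' ∈ X.Fc, (∀ z ∉ O, w' z = f z) ∧ X.En w' ≤ X.En w ∧
        (∀ q ∈ T', ∀ x ∈ V q, ∀ y ∈ V q, |w' x - w' y| ≤ ε) ∧
        ∀ S : Set Z, IsPreconnected S → ∀ a : ℝ, (∀ x ∈ S, ∀ y ∈ S, |w x - w y| ≤ a) →
          ∀ x ∈ S, ∀ y ∈ S, |w' x - w' y| ≤ a := by
    intro T'
    induction T' using Finset.induction_on with
    | empty =>
      intro w hw hwf _
      exact ⟨w, hw, hwf, le_rfl, by simp, fun S _ a h => h⟩
    | insert p T' _ ih =>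
      intro w hw hwf hM
      obtain ⟨w₁, hw₁, b1, b2, b3, b4⟩ := ih w hw hwf hM
      have hM₁ : (X.Γ w₁).real (closedBall p ρ) ≤ M := by
        refine le_trans ?_ (b2.trans hM)
        rw [X.En_eq hw₁]
        exact measureReal_mono (subset_univ _)
      obtain ⟨R, m, hR, hsR, hRρ, hm⟩ := hsl w₁ hw₁ p hM₁
      obtain ⟨w₂, hw₂, c1, c2, c3, c4⟩ := X.h72_step hc hε hfρ hOρ hw₁ b1 hR hRρ hm
      refine ⟨w₂, hw₂, c1, c2.trans b2, ?_, fun S hS a h => c4 S hS a (b4 S hS a h)⟩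
      intro q hq
      rcases Finset.mem_insert.1 hq with rfl | hq
      · intro x hx y hy
        exact c3 x (hsR (hVs _ hx)) y (hsR (hVs _ hy))
      · exact c4 (V q) (hVc q) ε (b3 q hq)
  refine ⟨T.image V, ?_, ?_, ?_⟩
  · intro W hW
    obtain ⟨q, -, rfl⟩ := Finset.mem_image.1 hW
    exact ⟨hVo q, hVc q⟩
  · intro z
    obtain ⟨q, hq, hz⟩ := mem_iUnion₂.1 (hT (mem_univ z))
    exact ⟨V q, Finset.mem_image_of_mem _ hq, hz⟩
  · intro w hw hwf hM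
    obtain ⟨w', hw', c1, c2, c3, c4⟩ := key T w hw hwf hM
    refine ⟨w', hw', c1, c2, ?_, c4⟩
    intro W hW
    obtain ⟨q, hq, rfl⟩ := Finset.mem_image.1 hW
    exact c3 q hq

private theorem h14_para {a b : Z → ℝ} (ha : a ∈ X.Fc) (hb : b ∈ X.Fc) :
    X.B 1 (a - b) (a - b) = 2 * X.En a + 2 * X.En b - 4 * X.En ((1 / 2 : ℝ) • (a + b)) := by
  have h1 := X.En_add ha (X.Fc.smul_mem (-1) hb)
  rw [X.En_smul (-1) hb, X.B_smul₃ (-1) continuous_one ha hb, neg_one_smul, ← sub_eq_add_neg] at h1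
  rw [X.En_smul _ (X.Fc.add_mem ha hb), X.En_add ha hb]
  unfold En at h1 ⊢
  linarith

private theorem h14_quad {a b : ℝ} (h : ∀ t : ℝ, 0 ≤ 2 * (t * a) + t ^ 2 * b) : a = 0 := by
  have := discrim_le_zero (a := b) (b := 2 * a) (c := 0) fun t => by have := h t; nlinarith
  rw [discrim] at this
  nlinarith

/-- Dirichlet problem.  `A = {w ∈ Fc | w = f off O}`, `I = inf En`; minimising sequence `w n` with
`En (w n) ≤ I + 1/(n+1)`; apply `smooth_step` with `ε = 1/(k+1)`, `M = I + 1` for `k = 0..n`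
successively; `exists_unif_subseq` on `univ` (base point in `Oᶜ`); the sequence is Cauchy in
energy by the parallelogram law (`(w n + w m)/2 ∈ A`); `closable` gives the limit `u ∈ A` with
`En u = I`; first variation along `u + t ψ ∈ A`. -/
theorem dirichlet (hG : Geo G Z) {f : Z → ℝ} (hf : f ∈ X.Fc) {O : Set Z} (hO : IsOpen O)
    (hc : IsPreconnected Oᶜ) (hn : (Oᶜ).Nontrivial) :
    ∃ u : Z → ℝ, X.Harm O u ∧ ∀ z ∉ O, u z = f z := by
  obtain ⟨I, hI, hmin⟩ : ∃ I : ℝ, (∀ w ∈ X.Fc, (∀ z ∉ O, w z = f z) → I ≤ X.En w) ∧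
      ∀ δ : ℝ, 0 < δ → ∃ w ∈ X.Fc, (∀ z ∉ O, w z = f z) ∧ X.En w ≤ I + δ := by
    have hne : (X.En '' {w | w ∈ X.Fc ∧ ∀ z ∉ O, w z = f z}).Nonempty :=
      ⟨_, f, ⟨hf, fun _ _ => rfl⟩, rfl⟩
    have hbd : BddBelow (X.En '' {w | w ∈ X.Fc ∧ ∀ z ∉ O, w z = f z}) :=
      ⟨0, by rintro _ ⟨w, hw, rfl⟩; exact X.En_nonneg hw.1⟩
    refine ⟨sInf _, fun w hw hw' => csInf_le hbd ⟨w, ⟨hw, hw'⟩, rfl⟩, fun δ hδ => ?_⟩
    obtain ⟨_, ⟨w, hw, rfl⟩, hlt⟩ := exists_lt_of_csInf_lt hne (lt_add_of_pos_right _ hδ)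
    exact ⟨w, hw.1, hw.2, hlt.le⟩
  choose 𝒱 h𝒱 hcov hstep using fun k : ℕ => X.smooth_step hG (X.cont f hf) hO hc hn (I + 1)
    (ε := 1 / ((k : ℝ) + 1)) Nat.one_div_pos_of_nat
  have hiter : ∀ n : ℕ, ∀ w ∈ X.Fc, (∀ z ∉ O, w z = f z) → X.En w ≤ I + 1 →
      ∃ w' ∈ X.Fc, (∀ z ∉ O, w' z = f z) ∧ X.En w' ≤ X.En w ∧
        ∀ k < n, ∀ V ∈ 𝒱 k, ∀ x ∈ V, ∀ y ∈ V, |w' x - w' y| ≤ 1 / ((k : ℝ) + 1) := by
    intro n w hw hwf hwE
    induction n with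
    | zero => exact ⟨w, hw, hwf, le_rfl, fun k hk => absurd hk (Nat.not_lt_zero k)⟩
    | succ n ih =>
      obtain ⟨w₁, a1, a2, a3, a4⟩ := ih
      obtain ⟨w₂, b1, b2, b3, b4, b5⟩ := hstep n w₁ a1 a2 (a3.trans hwE)
      refine ⟨w₂, b1, b2, b3.trans a3, fun k hk V hV => ?_⟩
      rcases Nat.lt_succ_iff_lt_or_eq.1 hk with hk | rfl
      · exact b5 V (h𝒱 k V hV).2 _ (a4 k hk V hV)
      · exact b4 V hV
  have hseq : ∀ n : ℕ, ∃ w ∈ X.Fc, (∀ z ∉ O, w z = f z) ∧ X.En w ≤ I + 1 / ((n : ℝ) + 1) ∧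
      ∀ k < n, ∀ V ∈ 𝒱 k, ∀ x ∈ V, ∀ y ∈ V, |w x - w y| ≤ 1 / ((k : ℝ) + 1) := by
    intro n
    obtain ⟨w, a1, a2, a3⟩ := hmin (1 / ((n : ℝ) + 1)) Nat.one_div_pos_of_nat
    have h1 : 1 / ((n : ℝ) + 1) ≤ 1 := by
      rw [div_le_one (by positivity)]
      linarith [(Nat.cast_nonneg n : (0 : ℝ) ≤ n)]
    obtain ⟨w', b1, b2, b3, b4⟩ := hiter n w a1 a2 (by linarith)
    exact ⟨w', b1, b2, b3.trans a3, b4⟩
  choose w hw hwf hwE hwo using hseq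
  obtain ⟨p₀, hp₀⟩ := hn.nonempty
  obtain ⟨φ, u, hφ, -, hu⟩ := exists_unif_subseq isCompact_univ hG.conn w (mem_univ p₀) (M := |f p₀|)
    (fun n => by rw [hwf n p₀ hp₀]) (fun ε hε p _ => by
      obtain ⟨k, hk⟩ := exists_nat_one_div_lt hε
      obtain ⟨V, hV, hpV⟩ := hcov k p
      refine ⟨V, (h𝒱 k V hV).1.mem_nhds hpV, ?_⟩
      filter_upwards [eventually_gt_atTop k] with n hn z hz
      exact (hwo n k hn V hV z hz.1 p hpV).trans hk.le)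
  rw [tendstoUniformlyOn_univ] at hu
  have hE : ∀ n : ℕ, X.En (w (φ n)) ≤ I + 1 / ((n : ℝ) + 1) := fun n =>
    (hwE (φ n)).trans (by
      have : (n : ℝ) ≤ φ n := by exact_mod_cast hφ.id_le n
      gcongr)
  obtain ⟨huF, hlim⟩ := X.closable (fun n => w (φ n)) u (fun n => hw _) hu (fun ε hε => by
    obtain ⟨N, hN⟩ := exists_nat_one_div_lt (show 0 < ε / 4 by positivity)
    refine ⟨N, fun n hn m hm => ?_⟩
    have h1 := hI _ (X.Fc.smul_mem (1 / 2 : ℝ) (X.Fc.add_mem (hw (φ n)) (hw (φ m)))) (fun z hz => by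
      simp only [Pi.smul_apply, Pi.add_apply, hwf _ z hz, smul_eq_mul]
      ring)
    have h2 : 1 / ((n : ℝ) + 1) ≤ 1 / ((N : ℝ) + 1) := Nat.one_div_le_one_div hn
    have h3 : 1 / ((m : ℝ) + 1) ≤ 1 / ((N : ℝ) + 1) := Nat.one_div_le_one_div hm
    rw [X.h14_para (hw _) (hw _)]
    linarith [hE n, hE m])
  refine ⟨u, ⟨huF, fun ψ hψ hψO => ?_⟩, fun z hz => ?_⟩
  · have hB : Tendsto (fun n => X.B 1 (w (φ n)) ψ) atTop (𝓝 (X.B 1 u ψ)) := by
      rw [tendsto_iff_norm_sub_tendsto_zero]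
      have h1 := (hlim.sqrt.mul_const (√(X.En ψ)))
      rw [Real.sqrt_zero, zero_mul] at h1
      refine squeeze_zero (fun n => norm_nonneg _) (fun n => ?_) h1
      rw [← X.B_sub₂ continuous_one (hw _) huF hψ]
      exact X.cs_En (X.Fc.sub_mem (hw _) huF) hψ
    refine h14_quad (b := X.En ψ) fun t => ?_
    have h2 : Tendsto (fun n : ℕ => 1 / ((n : ℝ) + 1) + (2 * (t * X.B 1 (w (φ n)) ψ) + t ^ 2 * X.En ψ))
        atTop (𝓝 (0 + (2 * (t * X.B 1 u ψ) + t ^ 2 * X.En ψ))) :=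
      tendsto_one_div_add_atTop_nhds_zero_nat.add
        (((hB.const_mul t).const_mul 2).add tendsto_const_nhds)
    rw [zero_add] at h2
    refine ge_of_tendsto' h2 fun n => ?_
    have h3 := hI _ (X.Fc.add_mem (hw (φ n)) (X.Fc.smul_mem t hψ)) (fun z hz => by
      have : ψ z = 0 := image_eq_zero_of_notMem_tsupport fun h => hz (hψO h)
      simp [hwf _ z hz, this])
    rw [X.En_add (hw _) (X.Fc.smul_mem t hψ), X.En_smul t hψ,
      X.B_smul₃ t continuous_one (hw _) hψ] at h3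
    linarith [hE n]
  · have h1 := hu.tendsto_at z
    simp only [hwf _ z hz] at h1
    exact tendsto_nhds_unique h1 tendsto_const_nhds

end DForm

end Crest.Agent.R193.E
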