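import Crest.Agent.R193.EDefs
import Crest.Agent.Lib.Brouwer.Basic

/-! Row 193 [E]: essential values (pure topology). -/

set_option autoImplicit false

open Set Filter Topology MeasureTheory Metric

namespace Crest.Agent.R193.E

variable {Z : Type} [MetricSpace Z] [CompactSpace Z]

theorem om_subset {F : Z → ℂ} (hF : Continuous F) (O : Set Z) : Om F O ⊆ F '' O := fun _ hy => hy.2 F hF fun _ _ => rfl

theorem om_congr {F F' : Z → ℂ} {O : Set Z} (H : ∀ z ∈ frontier O, F z = F' z) :
    Om F O = Om F' O := by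
  unfold Om
  rw [image_congr H]
  ext y
  refine and_congr_right fun _ => forall_congr' fun G => imp_congr_right fun _ => ?_
  refine imp_congr_left (forall_congr' fun z => imp_congr_right fun hz => ?_)
  rw [H z hz]

/-- stability.  Let `H` be continuous, `H = F'` on `frontier O`, `y ∉ H '' O`.  The compact set
`T` of `z ∈ closure O` with `H z + t (F z - F' z) = y` for some `t ∈ [0,1]` misses `frontier O`;
take a Urysohn function `χ = 1` on `frontier O`, `0` on `T`, values in `[0,1]`, and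
`H + χ (F - F')`, which equals `F` on `frontier O` and misses `y` on `O`. -/
theorem om_stable {F F' : Z → ℂ} (hF : Continuous F) (hF' : Continuous F') {O : Set Z}
    (hO : IsOpen O) {y : ℂ} (hy : y ∈ Om F O)
    (H : ∀ z ∈ frontier O, ‖F' z - F z‖ < ‖F z - y‖) : y ∈ Om F' O := by
  refine ⟨?_, fun G hG hGF => ?_⟩
  · rintro ⟨z, hz, rfl⟩
    have := H z hz
    rw [norm_sub_rev] at this
    exact lt_irrefl _ this
  · have hT : IsCompact (Prod.fst '' ((closure O ×ˢ Icc (0 : ℝ) 1) ∩
        {q : Z × ℝ | G q.1 + q.2 * (F q.1 - F' q.1) = y})) :=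
      ((isClosed_closure.isCompact.prod isCompact_Icc).inter_right
        (isClosed_eq (by fun_prop) continuous_const)).image continuous_fst
    obtain ⟨χ, h0, h1, h2⟩ := exists_continuous_zero_one_of_isClosed hT.isClosed
      (isClosed_frontier (s := O)) (by
        rw [Set.disjoint_left]
        rintro _ ⟨⟨z, t⟩, ⟨⟨-, ht0, ht1⟩, h3⟩, rfl⟩ hz
        have h4 : G z + t * (F z - F' z) = y := h3
        have h5 := H z hz
        rw [hGF z hz] at h4
        have h6 : F z - y = ((t - 1 : ℝ) : ℂ) * (F' z - F z) := by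
          rw [← h4]; push_cast; ring
        rw [h6, norm_mul, Complex.norm_real, Real.norm_eq_abs] at h5
        have h7 : |t - 1| ≤ 1 := abs_le.2 ⟨by linarith [show 0 ≤ t from ht0],
          by linarith [show t ≤ 1 from ht1]⟩
        nlinarith [norm_nonneg (F' z - F z)])
    obtain ⟨z, hz, h3⟩ := hy.2 (fun z => G z + χ z * (F z - F' z)) (by fun_prop) fun z hz => by
      rw [h1 hz, hGF z hz]; simp
    have h4 : χ z = 0 := h0 ⟨(z, χ z), ⟨⟨subset_closure hz, h2 z⟩, h3⟩, rfl⟩
    refine ⟨z, hz, ?_⟩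
    simpa [h4] using h3

theorem om_target (A : ℂ ≃ₜ ℂ) (F : Z → ℂ) (O : Set Z) :
    Om (fun z => A (F z)) O = A '' Om F O := by
  ext y
  obtain ⟨x, rfl⟩ := A.surjective y
  rw [A.injective.mem_set_image]
  refine and_congr ?_ ⟨fun h G hG hGF => ?_, fun h G hG hGF => ?_⟩
  · rw [← image_image A F, A.injective.mem_set_image]
  · obtain ⟨z, hz, h1⟩ := h (fun z => A (G z)) (A.continuous.comp hG) fun z hz => by rw [hGF z hz]
    exact ⟨z, hz, A.injective h1⟩
  · obtain ⟨z, hz, h1⟩ := h (fun z => A.symm (G z)) (A.symm.continuous.comp hG) fun z hz => by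
      rw [hGF z hz, A.symm_apply_apply]
    exact ⟨z, hz, by rw [← h1, A.apply_symm_apply]⟩

theorem om_source (T : Z ≃ₜ Z) (F : Z → ℂ) (O : Set Z) :
    Om (fun z => F (T z)) (T ⁻¹' O) = Om F O := by
  ext y
  unfold Om
  rw [← T.preimage_frontier]
  refine and_congr ?_ ⟨fun h G hG hGF => ?_, fun h G hG hGF => ?_⟩
  · rw [← image_image F T, T.image_preimage]
  · obtain ⟨z, hz, h1⟩ := h (fun z => G (T z)) (hG.comp T.continuous) fun z hz => hGF _ hz
    exact ⟨T z, hz, h1⟩
  · obtain ⟨z, hz, h1⟩ := h (fun z => G (T.symm z)) (hG.comp T.symm.continuous) fun z hz => by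
      rw [hGF (T.symm z) (by rw [mem_preimage, T.apply_symm_apply]; exact hz)]
      exact congrArg F (T.apply_symm_apply z)
    exact ⟨T.symm z, by rw [mem_preimage, T.apply_symm_apply]; exact hz, h1⟩

theorem h67_om_shift {F : Z → ℂ} (hF : Continuous F) {O : Set Z} (hO : IsOpen O) {y y' : ℂ}
    (hy : y ∈ Om F O) (H : ∀ z ∈ frontier O, ‖y - y'‖ < ‖F z - y‖) : y' ∈ Om F O := by
  have h1 := om_stable (F' := fun z => Homeomorph.addRight (y - y') (F z)) hF (by fun_prop) hO hy
    fun z hz => by simpa using H z hz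
  rw [om_target] at h1
  obtain ⟨x, hx, h2⟩ := h1
  have h3 : x + (y - y') = y := h2
  rwa [show y' = x by linear_combination -h3]

/-- `Om` is locally constant off `F '' frontier O` (`om_stable` with a translate of `F` and
`om_target` for translations; `F '' frontier O` is compact). -/
theorem om_nhds {F : Z → ℂ} (hF : Continuous F) {O : Set Z} (hO : IsOpen O) {y : ℂ}
    (hy : y ∉ F '' frontier O) : ∀ᶠ y' in 𝓝 y, (y' ∈ Om F O ↔ y ∈ Om F O) := by
  have hc : IsClosed (F '' frontier O) := (isClosed_frontier.isCompact.image hF).isClosed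
  obtain ⟨ε, hε, h1⟩ := Metric.isOpen_iff.1 hc.isOpen_compl y hy
  have h2 : ∀ z ∈ frontier O, ε ≤ ‖F z - y‖ := fun z hz => by
    by_contra h
    exact h1 (mem_ball_iff_norm.2 (not_le.1 h)) ⟨z, hz, rfl⟩
  filter_upwards [ball_mem_nhds y (half_pos hε)] with y' hy'
  rw [mem_ball_iff_norm] at hy'
  refine ⟨fun h => h67_om_shift hF hO h fun z hz => ?_, fun h => h67_om_shift hF hO h fun z hz => ?_⟩
  · have h3 := h2 z hz
    have h4 := norm_sub_le_norm_sub_add_norm_sub (F z) y' y
    linarith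
  · have h3 := h2 z hz
    rw [norm_sub_rev]
    linarith

theorem isOpen_om {F : Z → ℂ} (hF : Continuous F) {O : Set Z} (hO : IsOpen O) :
    IsOpen (Om F O) := isOpen_iff_eventually.2 fun _ hy => (om_nhds hF hO hy.1).mono fun _ h => h.2 hy

/-- pasting.  With `O' = O \ closure O₁`, `frontier O' ⊆ frontier O ∪ frontier O₁`; if `F₁`, `F'`
avoid `y` on `O₁`, `O'`, use `O₁.piecewise F₁ (O'.piecewise F' F)` (`Continuous.piecewise`). -/
theorem om_split {F : Z → ℂ} (hF : Continuous F) {O O₁ : Set Z} (hO : IsOpen O) (hO₁ : IsOpen O₁)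
    (h : closure O₁ ⊆ O) :
    Om F O ⊆ Om F O₁ ∪ Om F (O \ closure O₁) ∪ F '' frontier O₁ := by
  classical
  intro y hy
  by_contra hn
  simp only [mem_union, not_or] at hn
  obtain ⟨⟨n1, n2⟩, n3⟩ := hn
  have hfr : frontier (O \ closure O₁) ⊆ frontier O ∪ frontier O₁ := by
    rw [sdiff_eq]
    refine (frontier_inter_subset _ _).trans (union_subset_union inter_subset_left ?_)
    rw [frontier_compl]
    exact inter_subset_right.trans frontier_closure_subset
  have n4 : y ∉ F '' frontier (O \ closure O₁) := by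
    rintro ⟨z, hz, h1⟩
    rcases hfr hz with h2 | h2
    · exact hy.1 ⟨z, h2, h1⟩
    · exact n3 ⟨z, h2, h1⟩
  obtain ⟨F₁, a1, a2, a3⟩ : ∃ F₁ : Z → ℂ, Continuous F₁ ∧ (∀ z ∈ frontier O₁, F₁ z = F z) ∧
      y ∉ F₁ '' O₁ := by
    by_contra hc
    push Not at hc
    exact n1 ⟨n3, hc⟩
  obtain ⟨F₂, b1, b2, b3⟩ : ∃ F₂ : Z → ℂ, Continuous F₂ ∧
      (∀ z ∈ frontier (O \ closure O₁), F₂ z = F z) ∧ y ∉ F₂ '' (O \ closure O₁) := by
    by_contra hc
    push Not at hc
    exact n2 ⟨n4, hc⟩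
  have c1 : Continuous ((O \ closure O₁).piecewise F₂ F) := Continuous.piecewise b2 b1 hF
  have c2 : Continuous (O₁.piecewise F₁ ((O \ closure O₁).piecewise F₂ F)) :=
    Continuous.piecewise (fun z hz => by
      rw [a2 z hz, piecewise_eq_of_notMem _ _ _ fun h' => h'.2 (frontier_subset_closure hz)]) a1 c1
  obtain ⟨z, hz, h1⟩ := hy.2 _ c2 fun z hz => by
    have h2 : z ∉ O := by
      rw [hO.frontier_eq] at hz
      exact hz.2
    rw [piecewise_eq_of_notMem _ _ _ fun h' => h2 (h (subset_closure h')),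
      piecewise_eq_of_notMem _ _ _ fun h' => h2 h'.1]
  by_cases h2 : z ∈ O₁
  · rw [piecewise_eq_of_mem _ _ _ h2] at h1
    exact a3 ⟨z, h2, h1⟩
  · rw [piecewise_eq_of_notMem _ _ _ h2] at h1
    by_cases h3 : z ∈ O \ closure O₁
    · rw [piecewise_eq_of_mem _ _ _ h3] at h1
      exact b3 ⟨z, h3, h1⟩
    · rw [piecewise_eq_of_notMem _ _ _ h3] at h1
      refine n3 ⟨z, ?_, h1⟩
      rw [hO₁.frontier_eq]
      exact ⟨by_contra fun h4 => h3 ⟨hz, h4⟩, h2⟩

theorem h60_frontier_image {e : ℂ → Z} (he : IsOpenEmbedding e) {ρ : ℝ} (hρ : 0 < ρ) :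
    frontier (e '' ball 0 ρ) = e '' sphere 0 ρ := by
  rw [(he.isOpenMap _ isOpen_ball).frontier_eq]
  ext z
  constructor
  · rintro ⟨h1, h2⟩
    have hc : IsClosed (e '' closedBall 0 ρ) :=
      ((isCompact_closedBall (0 : ℂ) ρ).image he.continuous).isClosed
    obtain ⟨w, hw, rfl⟩ := hc.closure_subset_iff.2 (image_mono ball_subset_closedBall) h1
    refine ⟨w, ?_, rfl⟩
    rw [mem_sphere]
    refine le_antisymm (mem_closedBall.1 hw) (not_lt.1 fun h => h2 ⟨w, mem_ball.2 h, rfl⟩)
  · rintro ⟨w, hw, rfl⟩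
    refine ⟨image_closure_subset_closure_image he.continuous ⟨w, ?_, rfl⟩, ?_⟩
    · rw [closure_ball _ hρ.ne']
      exact sphere_subset_closedBall hw
    · rintro ⟨w', hw', h⟩
      rw [he.injective h] at hw'
      exact (mem_ball.1 hw').ne (mem_sphere.1 hw)

/-- Brouwer.  `frontier (e '' ball 0 ρ) = e '' sphere 0 ρ`.  If `H w = F' (e w) - y ≠ 0` on the
closed ball, the map `w ↦ -ρ H w / ‖H w‖` has a fixed point `w₀` on the sphere, where
`‖H w₀ - w₀‖ = ‖H w₀‖ + ρ ≥ ρ`, but `‖H w₀ - w₀‖ < ρ/2 + ρ/2`. -/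
theorem om_brouwer {e : ℂ → Z} (he : IsOpenEmbedding e) {F : Z → ℂ} (hF : Continuous F) {ρ : ℝ}
    (hρ : 0 < ρ) (H : ∀ w ∈ sphere (0 : ℂ) ρ, ‖F (e w) - w‖ < ρ / 2) :
    ball (0 : ℂ) (ρ / 2) ⊆ Om F (e '' ball 0 ρ) := by
  intro y hy
  have hy' : ‖y‖ < ρ / 2 := by simpa using hy
  have hfr := h60_frontier_image he hρ
  have key : ∀ w ∈ sphere (0 : ℂ) ρ, ‖(F (e w) - y) - w‖ < ρ := by
    intro w hw
    have h1 := H w hw
    have h2 : (F (e w) - y) - w = (F (e w) - w) - y := by ring
    rw [h2]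
    linarith [norm_sub_le (F (e w) - w) y]
  have key2 : ∀ w ∈ sphere (0 : ℂ) ρ, F (e w) - y ≠ 0 := by
    intro w hw h0
    have h1 := key w hw
    rw [h0, zero_sub, norm_neg, mem_sphere_zero_iff_norm.1 hw] at h1
    exact lt_irrefl _ h1
  refine ⟨?_, fun F' hF' hFF => ?_⟩
  · rw [hfr]
    rintro ⟨_, ⟨w, hw, rfl⟩, h⟩
    exact key2 w hw (sub_eq_zero.2 h)
  · by_contra hn
    have hsph : ∀ w ∈ sphere (0 : ℂ) ρ, F' (e w) = F (e w) := fun w hw =>
      hFF _ (hfr ▸ ⟨w, hw, rfl⟩)
    have hne : ∀ w ∈ closedBall (0 : ℂ) ρ, F' (e w) - y ≠ 0 := by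
      intro w hw
      rcases (mem_closedBall.1 hw).lt_or_eq with h | h
      · exact fun h0 => hn ⟨e w, ⟨w, mem_ball.2 h, rfl⟩, sub_eq_zero.1 h0⟩
      · rw [hsph w (mem_sphere.2 h)]
        exact key2 w (mem_sphere.2 h)
    have hcH : Continuous fun w : ℂ => F' (e w) - y := (hF'.comp he.continuous).sub continuous_const
    have hnorm : ∀ w ∈ closedBall (0 : ℂ) ρ,
        ‖(-(ρ / ‖F' (e w) - y‖)) • (F' (e w) - y)‖ = ρ := by
      intro w hw
      have h1 : 0 < ‖F' (e w) - y‖ := norm_pos_iff.2 (hne w hw)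
      rw [norm_smul, norm_neg, Real.norm_eq_abs, abs_of_pos (div_pos hρ h1)]
      field_simp
    obtain ⟨w, hw, hfix⟩ := Crest.Agent.Lib.Brouwer.brouwer (K := closedBall (0 : ℂ) ρ)
      (nonempty_closedBall.2 hρ.le) (isCompact_closedBall _ _) (convex_closedBall _ _)
      (fun w => (-(ρ / ‖F' (e w) - y‖)) • (F' (e w) - y))
      (((continuousOn_const.div hcH.norm.continuousOn fun w hw =>
        (norm_pos_iff.2 (hne w hw)).ne').neg).smul hcH.continuousOn)
      (fun w hw => mem_closedBall_zero_iff.2 (hnorm w hw).le)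
    have hws : w ∈ sphere (0 : ℂ) ρ := by
      rw [mem_sphere_zero_iff_norm, ← hfix]
      exact hnorm w hw
    have h1 := key w hws
    rw [← hsph w hws] at h1
    have h2 : 0 < ‖F' (e w) - y‖ := norm_pos_iff.2 (hne w hw)
    have h3 : (F' (e w) - y) - w = (1 + ρ / ‖F' (e w) - y‖) • (F' (e w) - y) := by
      conv_lhs => rw [← hfix]
      rw [hfix, add_smul, one_smul, sub_eq_add_neg (F' (e w) - y) w]
      congr 1
      conv_lhs => rw [← hfix]
      rw [neg_smul, neg_neg]
    rw [h3, norm_smul, Real.norm_eq_abs, abs_of_pos (by positivity), add_mul, one_mul,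
      div_mul_cancel₀ _ h2.ne'] at h1
    linarith

/-- finite area -/
theorem volume_om_ne_top {F : Z → ℂ} (hF : Continuous F) (O : Set Z) : volume (Om F O) ≠ ⊤ := by
  refine ne_top_of_le_ne_top (isCompact_range hF).measure_lt_top.ne (measure_mono ?_)
  exact (om_subset hF O).trans (image_subset_range _ _)

/-- upper semicontinuity of the essential area: for `‖F' - F‖ ≤ η` on `frontier O`,
`Om F' O ⊆ Om F O ∪ cthickening (2η) (F '' frontier O)` (`om_stable`), and the measure of the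
thickening tends to `volume (F '' frontier O) = 0` (`tendsto_measure_cthickening_of_isCompact`). -/
theorem om_usc {F : Z → ℂ} (hF : Continuous F) {O : Set Z} (hO : IsOpen O)
    (h0 : volume (F '' frontier O) = 0) {ε : ℝ} (hε : 0 < ε) :
    ∃ η : ℝ, 0 < η ∧ ∀ F' : Z → ℂ, Continuous F' → (∀ z ∈ frontier O, ‖F' z - F z‖ ≤ η) →
      volume.real (Om F' O) ≤ volume.real (Om F O) + ε := by
  have hc : IsCompact (F '' frontier O) := isClosed_frontier.isCompact.image hF
  have ht := tendsto_measure_cthickening_of_isCompact (μ := volume) hc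
  rw [h0] at ht
  have hev : ∀ᶠ r in 𝓝 (0 : ℝ), volume (cthickening r (F '' frontier O)) < ENNReal.ofReal ε :=
    ht.eventually (gt_mem_nhds (ENNReal.ofReal_pos.2 hε))
  obtain ⟨δ, hδ, hδ'⟩ := Metric.eventually_nhds_iff.1 hev
  have hlt : volume (cthickening (δ / 2) (F '' frontier O)) < ENNReal.ofReal ε := hδ' (by
    rw [Real.dist_eq, sub_zero, abs_of_pos (half_pos hδ)]
    exact half_lt_self hδ)
  refine ⟨δ / 4, by positivity, fun F' hF' hFF => ?_⟩
  have hsub : Om F' O ⊆ Om F O ∪ cthickening (δ / 2) (F '' frontier O) := by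
    intro y hy
    by_cases hyc : y ∈ cthickening (δ / 2) (F '' frontier O)
    · exact Or.inr hyc
    · refine Or.inl (om_stable hF' hF hO hy fun z hz => ?_)
      have h1 : δ / 2 < dist y (F z) := by
        by_contra h
        exact hyc (mem_cthickening_of_dist_le y (F z) _ _ ⟨z, hz, rfl⟩ (not_lt.1 h))
      have h2 := hFF z hz
      rw [dist_comm, dist_eq_norm] at h1
      have h3 := norm_sub_le_norm_sub_add_norm_sub (F z) (F' z) y
      rw [norm_sub_rev (F z) (F' z)] at h3 ⊢
      linarith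
  calc volume.real (Om F' O) ≤ volume.real (Om F O ∪ cthickening (δ / 2) (F '' frontier O)) :=
        measureReal_mono hsub (measure_union_ne_top (volume_om_ne_top hF O) hlt.ne_top)
    _ ≤ volume.real (Om F O) + volume.real (cthickening (δ / 2) (F '' frontier O)) :=
        measureReal_union_le _ _
    _ ≤ volume.real (Om F O) + ε := by
        have : volume.real (cthickening (δ / 2) (F '' frontier O)) ≤ ε :=
          ENNReal.toReal_le_of_le_ofReal hε.le hlt.le
        linarith

end Crest.Agent.R193.E
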