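import Crest.Agent.R193.EDir
import Crest.Agent.R193.EOm

/-! Row 193 [E]: existence of an extremal map. -/

set_option autoImplicit false

open Set Filter Topology MeasureTheory Metric

namespace Crest.Agent.R193.E

namespace DForm

variable {G Z : Type} [Group G] [MetricSpace Z] [CompactSpace Z] [MeasurableSpace Z] [BorelSpace Z]
  [MulAction G Z] (X : DForm G Z)

/-- a harmonic map with essential values: `e` a chart, `O₀ = e '' ball 0 2`; extend the coordinates
of `e⁻¹` from `e '' closedBall 0 2` continuously (Tietze), approximate within `1/10` (`dense`),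
solve the Dirichlet problem on `O₀` (`dirichlet`; `O₀ᶜ` is preconnected and contains
`e 3 ≠ e 4`); by uniform continuity `‖F (e w) - w‖ < ρ/2` on `sphere 0 ρ` for some `ρ ∈ (1,2)`
close to `2`; `om_brouwer`; `closure (e '' ball 0 ρ) ⊆ e '' closedBall 0 ρ ⊆ O₀`. -/
theorem exists_essential (hG : Geo G Z) : ∃ (W O : Set Z) (F : Z → ℂ), IsOpen W ∧ X.Harm2 W F ∧
    IsOpen O ∧ closure O ⊆ W ∧ 0 < volume.real (Om F O) := by
  obtain ⟨q⟩ := hG.ne
  obtain ⟨e, he, -, hc⟩ := hG.disc q
  have hO₀ : IsOpen (e '' ball (0 : ℂ) 2) := he.isOpenMap _ isOpen_ball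
  have hout : ∀ w : ℂ, 2 ≤ ‖w‖ → e w ∉ e '' ball (0 : ℂ) 2 := by
    rintro w hw ⟨w', hw', h⟩
    rw [he.injective h, mem_ball_zero_iff] at hw'
    linarith
  have hn : ((e '' ball (0 : ℂ) 2)ᶜ).Nontrivial := by
    refine ⟨e 3, hout 3 (by norm_num), e 4, hout 4 (by norm_num), fun h => ?_⟩
    have := he.injective h
    norm_num at this
  have hemb : IsClosedEmbedding (fun w : closedBall (0 : ℂ) 2 => e w) :=
    (he.continuous.comp continuous_subtype_val).isClosedEmbedding
      (he.injective.comp Subtype.val_injective)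
  obtain ⟨g, hg⟩ := ContinuousMap.exists_extension' hemb
    (⟨Subtype.val, continuous_subtype_val⟩ : C(closedBall (0 : ℂ) 2, ℂ))
  have hg' : ∀ w : ℂ, ‖w‖ ≤ 2 → g (e w) = w := fun w hw =>
    congrFun hg ⟨w, mem_closedBall_zero_iff.2 hw⟩
  obtain ⟨w₁, hw₁, h₁⟩ := X.dense (f := fun z => (g z).re)
    (Complex.continuous_re.comp g.continuous) (ε := 1 / 10) (by norm_num)
  obtain ⟨w₂, hw₂, h₂⟩ := X.dense (f := fun z => (g z).im)
    (Complex.continuous_im.comp g.continuous) (ε := 1 / 10) (by norm_num)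
  obtain ⟨u₁, hu₁, e₁⟩ := X.dirichlet hG hw₁ hO₀ (hc 2 two_pos) hn
  obtain ⟨u₂, hu₂, e₂⟩ := X.dirichlet hG hw₂ hO₀ (hc 2 two_pos) hn
  let F : Z → ℂ := fun z => ⟨u₁ z, u₂ z⟩
  have hF : X.Harm2 (e '' ball (0 : ℂ) 2) F := ⟨hu₁, hu₂⟩
  have hFc : Continuous F := hF.continuous
  have hU : IsOpen {w : ℂ | ‖F (e w) - w‖ < 1 / 2} :=
    isOpen_lt ((hFc.comp he.continuous).sub continuous_id).norm continuous_const
  have hsub : sphere (0 : ℂ) 2 ⊆ {w : ℂ | ‖F (e w) - w‖ < 1 / 2} := by
    intro w hw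
    have hw2 : ‖w‖ = 2 := mem_sphere_zero_iff_norm.1 hw
    have a1 := h₁ (e w)
    have a2 := h₂ (e w)
    rw [← e₁ _ (hout w hw2.ge)] at a1
    rw [← e₂ _ (hout w hw2.ge)] at a2
    simp only [hg' w hw2.le] at a1 a2
    have a3 := Complex.norm_le_abs_re_add_abs_im (F (e w) - w)
    have a4 : (F (e w) - w).re = u₁ (e w) - w.re := rfl
    have a5 : (F (e w) - w).im = u₂ (e w) - w.im := rfl
    rw [a4, a5] at a3
    show ‖F (e w) - w‖ < 1 / 2
    linarith
  obtain ⟨δ, hδ, hth⟩ := (isCompact_sphere (0 : ℂ) 2).exists_thickening_subset_open hU hsub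
  set ρ : ℝ := max (3 / 2) (2 - δ / 2) with hρ
  have hρ1 : 3 / 2 ≤ ρ := le_max_left _ _
  have hρ2 : 2 - δ / 2 ≤ ρ := le_max_right _ _
  have hρ3 : ρ < 2 := max_lt (by norm_num) (by linarith)
  have hρ0 : 0 < ρ := by linarith
  have H : ∀ w ∈ sphere (0 : ℂ) ρ, ‖F (e w) - w‖ < ρ / 2 := by
    intro w hw
    have hw' : ‖w‖ = ρ := mem_sphere_zero_iff_norm.1 hw
    have hmem : w ∈ thickening δ (sphere (0 : ℂ) 2) := by
      refine mem_thickening_iff.2 ⟨(2 / ρ : ℝ) • w, ?_, ?_⟩
      · rw [mem_sphere_zero_iff_norm, norm_smul, hw', Real.norm_eq_abs, abs_of_pos (by positivity)]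
        field_simp
      · have : w - (2 / ρ : ℝ) • w = (1 - 2 / ρ : ℝ) • w := by rw [sub_smul, one_smul]
        have h5 : 1 - 2 / ρ ≤ 0 := by
          rw [sub_nonpos, le_div_iff₀ hρ0]; linarith
        rw [dist_eq_norm, this, norm_smul, hw', Real.norm_eq_abs, abs_of_nonpos h5]
        have : -(1 - 2 / ρ) * ρ = 2 - ρ := by field_simp; ring
        rw [this]
        linarith
    have := hth hmem
    simp only [mem_ofPred_eq] at this
    linarith
  refine ⟨e '' ball (0 : ℂ) 2, e '' ball (0 : ℂ) ρ, F, hO₀, hF, he.isOpenMap _ isOpen_ball, ?_, ?_⟩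
  · refine (closure_minimal (image_mono ball_subset_closedBall)
      ((isCompact_closedBall (0 : ℂ) ρ).image he.continuous).isClosed).trans ?_
    exact image_mono (closedBall_subset_ball hρ3)
  · refine ENNReal.toReal_pos (fun h0 => ?_) (volume_om_ne_top hFc _)
    have := measure_mono_null (om_brouwer he hFc hρ0 H) h0
    exact (measure_ball_pos volume (0 : ℂ) (half_pos hρ0)).ne' this

/-- `κ` = infimum of the ratios; positive since `volume (Om F O) ≤ volume (F '' closure O) ≤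
CA * D (closure O)`. -/
theorem exists_kappa (hG : Geo G Z) {CA : ℝ} (hA : X.AreaBd CA) : ∃ κ : ℝ, X.Kap κ ∧
    ∀ ε : ℝ, 0 < ε → ∃ (W O : Set Z) (F : Z → ℂ), IsOpen W ∧ X.Harm2 W F ∧ IsOpen O ∧
      closure O ⊆ W ∧ 0 < volume.real (Om F O) ∧
      (X.D F).real (closure O) ≤ (κ + ε) * volume.real (Om F O) := by
  let S : Set ℝ := {x | ∃ (W O : Set Z) (F : Z → ℂ), IsOpen W ∧ X.Harm2 W F ∧ IsOpen O ∧
    closure O ⊆ W ∧ 0 < volume.real (Om F O) ∧
    x = (X.D F).real (closure O) / volume.real (Om F O)}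
  have hne : S.Nonempty := by
    obtain ⟨W, O, F, h1, h2, h3, h4, h5⟩ := X.exists_essential hG
    exact ⟨_, W, O, F, h1, h2, h3, h4, h5, rfl⟩
  have hlb : ∀ x ∈ S, 1 / CA ≤ x := by
    rintro x ⟨W, O, F, h1, h2, h3, h4, h5, rfl⟩
    have hK : IsCompact (closure O) := isClosed_closure.isCompact
    have a1 := hA.2 W (closure O) F h1 h2 hK h4
    have a2 : volume.real (Om F O) ≤ volume.real (F '' closure O) :=
      measureReal_mono ((om_subset h2.continuous O).trans (image_mono subset_closure))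
        (hK.image h2.continuous).measure_lt_top.ne
    rw [div_le_div_iff₀ hA.1 h5]
    linarith
  have hbd : BddBelow S := ⟨_, hlb⟩
  refine ⟨sInf S, ⟨lt_of_lt_of_le (one_div_pos.2 hA.1) (le_csInf hne hlb), ?_⟩, ?_⟩
  · intro W O F h1 h2 h3 h4
    rcases (measureReal_nonneg (μ := volume) (s := Om F O)).eq_or_lt with h5 | h5
    · rw [← h5, mul_zero]
      exact measureReal_nonneg
    · exact (le_div_iff₀ h5).1 (csInf_le hbd ⟨W, O, F, h1, h2, h3, h4, h5, rfl⟩)
  · intro ε hε
    obtain ⟨x, ⟨W, O, F, h1, h2, h3, h4, h5, rfl⟩, hx⟩ := Real.lt_sInf_add_pos hne hε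
    exact ⟨W, O, F, h1, h2, h3, h4, h5, ((div_lt_iff₀ h5).1 hx).le⟩

theorem del_nonneg {κ : ℝ} (hκ : X.Kap κ) {W O : Set Z} {F : Z → ℂ} (hW : IsOpen W)
    (hF : X.Harm2 W F) (hO : IsOpen O) (hOW : closure O ⊆ W) : 0 ≤ X.del κ F O := by
  exact sub_nonneg.2 (hκ.2 W O F hW hF hO hOW)

/-- superadditivity: `om_split`, `volume (F '' frontier O₁) ≤ CA * D (frontier O₁)`, and
`closure (O \ closure O₁) ⊆ closure O \ O₁`, so
`D (cl O') + D (cl O₁) ≤ D (cl O) + D (frontier O₁)`. -/
theorem del_split {κ CA : ℝ} (hκ : X.Kap κ) (hA : X.AreaBd CA) {W O O₁ : Set Z} {F : Z → ℂ}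
    (hW : IsOpen W) (hF : X.Harm2 W F) (hO : IsOpen O) (hOW : closure O ⊆ W) (hO₁ : IsOpen O₁)
    (h : closure O₁ ⊆ O) :
    X.del κ F O₁ + X.del κ F (O \ closure O₁) ≤
      X.del κ F O + (1 + κ * CA) * (X.D F).real (frontier O₁) := by
  have hFc : Continuous F := hF.continuous
  have hK : IsCompact (frontier O₁) := isClosed_frontier.isCompact
  have hfin : volume (F '' frontier O₁) ≠ ⊤ := (hK.image hFc).measure_lt_top.ne
  have a1 := hA.2 W (frontier O₁) F hW hF hK
    (frontier_subset_closure.trans (h.trans (subset_closure.trans hOW)))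
  have a2 : volume.real (Om F O) ≤ volume.real (Om F O₁) + volume.real (Om F (O \ closure O₁)) +
      volume.real (F '' frontier O₁) := by
    refine (measureReal_mono (om_split hFc hO hO₁ h) (measure_union_ne_top
      (measure_union_ne_top (volume_om_ne_top hFc _) (volume_om_ne_top hFc _)) hfin)).trans ?_
    refine (measureReal_union_le _ _).trans ?_
    have := measureReal_union_le (μ := volume) (Om F O₁) (Om F (O \ closure O₁))
    linarith
  have a3 : (X.D F).real (closure (O \ closure O₁)) ≤ (X.D F).real (closure O \ O₁) := by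
    refine measureReal_mono (closure_minimal ?_ (isClosed_closure.sdiff hO₁))
    exact fun z hz => ⟨subset_closure hz.1, fun h' => hz.2 (subset_closure h')⟩
  have a4 : (X.D F).real (closure O₁) ≤ (X.D F).real O₁ + (X.D F).real (frontier O₁) := by
    rw [closure_eq_self_union_frontier]
    exact measureReal_union_le _ _
  have a5 : (X.D F).real (closure O \ O₁) = (X.D F).real (closure O) - (X.D F).real O₁ :=
    measureReal_sdiff (subset_closure.trans (h.trans subset_closure)) hO₁.measurableSet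
  have a6 := mul_le_mul_of_nonneg_left a2 hκ.1.le
  have a7 := mul_le_mul_of_nonneg_left a1 hκ.1.le
  unfold del
  nlinarith

/-- induction on `P` (generalising `O`) with `del_split`, `del_nonneg`. -/
theorem del_sum {κ CA : ℝ} (hκ : X.Kap κ) (hA : X.AreaBd CA) {W O : Set Z} {F : Z → ℂ}
    (hW : IsOpen W) (hF : X.Harm2 W F) (hO : IsOpen O) (hOW : closure O ⊆ W) {ι : Type}
    (P : Finset ι) (Q : ι → Set Z) (hQ : ∀ p ∈ P, IsOpen (Q p) ∧ closure (Q p) ⊆ O)
    (hd : ∀ p ∈ P, ∀ p' ∈ P, p ≠ p' → Disjoint (closure (Q p)) (closure (Q p'))) :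
    ∑ p ∈ P, X.del κ F (Q p) ≤
      X.del κ F O + (1 + κ * CA) * ∑ p ∈ P, (X.D F).real (frontier (Q p)) := by
  classical
  induction P using Finset.induction_on generalizing O with
  | empty => simpa using X.del_nonneg hκ hW hF hO hOW
  | insert a s ha ih =>
    have hQa := hQ a (Finset.mem_insert_self _ _)
    have h1 := ih (O := O \ closure (Q a)) (hO.sdiff isClosed_closure)
      ((closure_mono sdiff_subset).trans hOW)
      (fun p hp => ⟨(hQ p (Finset.mem_insert_of_mem hp)).1, subset_sdiff.2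
        ⟨(hQ p (Finset.mem_insert_of_mem hp)).2, hd p (Finset.mem_insert_of_mem hp) a
          (Finset.mem_insert_self _ _) (fun h => ha (h ▸ hp))⟩⟩)
      (fun p hp p' hp' => hd p (Finset.mem_insert_of_mem hp) p' (Finset.mem_insert_of_mem hp'))
    have h2 := X.del_split hκ hA hW hF hO hOW hQa.1 hQa.2
    rw [Finset.sum_insert ha, Finset.sum_insert ha, mul_add]
    linarith

theorem h31_Γ_aff (hc : ∀ g : G, Continuous fun z : Z => g • z) {f : Z → ℝ} (hf : f ∈ X.Fc)
    (g : G) (t c : ℝ) {A : Set Z} (hA : MeasurableSet A) :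
    (X.Γ (fun z => t * f (g • z) + c)).real ((fun z => g • z) ⁻¹' A) =
      t ^ 2 * (X.Γ f).real A := by
  have h1 : (fun z => f (g • z)) ∈ X.Fc := X.inv_mem g f hf
  have h2 : (t • fun z => f (g • z)) ∈ X.Fc := X.Fc.smul_mem t h1
  have h3 : (fun z => t * f (g • z) + c) ∈ X.Fc := X.Fc.add_mem h2 (X.const_mem c)
  have h4 := X.Γ_congr_apply h3 h2 isOpen_univ (c := c) (fun z _ => by simp)
    (subset_univ ((fun z => g • z) ⁻¹' A))
  have h5 := X.Γ_smul_real t h1 ((fun z => g • z) ⁻¹' A)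
  have h6 := X.Γ_inv hc g hf hA
  unfold Measure.real at *
  rw [h4, h5, h6]

/-- the action of a group element as a homeomorphism -/
def h31_homeo (hc : ∀ g : G, Continuous fun z : Z => g • z) (g : G) : Z ≃ₜ Z where
  toFun z := g • z
  invFun z := g⁻¹ • z
  left_inv z := by simp
  right_inv z := by simp
  continuous_toFun := hc g
  continuous_invFun := hc g⁻¹

theorem h31_pigeon {ι : Type} (J : Finset ι) (P : ι → ℝ → Prop)
    (mono : ∀ j ε ε', ε ≤ ε' → P j ε → P j ε') (h : ∀ ε : ℝ, 0 < ε → ∃ j ∈ J, P j ε) :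
    ∃ j ∈ J, ∀ ε : ℝ, 0 < ε → P j ε := by
  by_contra hcon
  have H : ∀ j, ∃ ε : ℝ, 0 < ε ∧ (j ∈ J → ¬ P j ε) := by
    intro j
    by_cases hj : j ∈ J
    · by_contra h2
      refine hcon ⟨j, hj, fun ε hε => ?_⟩
      by_contra h3
      exact h2 ⟨ε, hε, fun _ => h3⟩
    · exact ⟨1, one_pos, fun h' => absurd h' hj⟩
  choose δ hδ hδP using H
  obtain ⟨j₁, hj₁, -⟩ := h 1 one_pos
  obtain ⟨j₀, -, hmin⟩ := J.exists_min_image δ ⟨j₁, hj₁⟩
  obtain ⟨j, hj, hP⟩ := h (δ j₀) (hδ j₀)
  exact hδP j hj (mono j _ _ (hmin j hj) hP)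

theorem h31_charts (hG : Geo G Z) {c : ℝ} (hc : 0 < c) : ∃ (e : Z → ℂ → Z) (J : Finset Z),
    (∀ q, IsOpenEmbedding (e q)) ∧ (∀ q, e q '' closedBall 0 4 ⊆ ball q c) ∧
      ∀ z, ∃ q ∈ J, z ∈ e q '' ball 0 1 := by
  have H : ∀ q : Z, ∃ e : ℂ → Z, IsOpenEmbedding e ∧ e 0 = q ∧
      e '' closedBall 0 4 ⊆ ball q c := by
    intro q
    obtain ⟨e, he, he0, -⟩ := hG.disc q
    have hcont : ContinuousAt e 0 := he.continuous.continuousAt
    obtain ⟨δ, hδ, hδe⟩ := Metric.continuousAt_iff.1 hcont c hc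
    have hne : ((δ / 5 : ℝ) : ℂ) ≠ 0 := by
      exact_mod_cast (by positivity : (δ / 5 : ℝ) ≠ 0)
    refine ⟨fun w => e (((δ / 5 : ℝ) : ℂ) * w), ?_, by simpa using he0, ?_⟩
    · exact he.comp (Homeomorph.mulLeft₀ _ hne).isOpenEmbedding
    · rintro _ ⟨w, hw, rfl⟩
      rw [mem_ball, ← he0]
      apply hδe
      rw [mem_closedBall, dist_zero_right] at hw
      rw [dist_zero_right, norm_mul, Complex.norm_real, Real.norm_eq_abs,
        abs_of_pos (by positivity)]
      nlinarith
  choose e he he0 hec using H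
  obtain ⟨J, hJ⟩ := isCompact_univ.elim_finite_subcover (fun q => e q '' ball 0 1)
    (fun q => (he q).isOpenMap _ isOpen_ball)
    (fun z _ => mem_iUnion.2 ⟨z, 0, mem_ball_self one_pos, he0 z⟩)
  refine ⟨e, J, he, hec, fun z => ?_⟩
  have := hJ (mem_univ z)
  simpa only [mem_iUnion, exists_prop] using this

/-- scaling, translation by a constant and by a group element -/
theorem D_transform (hc : ∀ g : G, Continuous fun z : Z => g • z) {W : Set Z} {F : Z → ℂ}
    (hF : X.Harm2 W F) (g : G) (t : ℝ) (c : ℂ) {A : Set Z} (hA : MeasurableSet A) :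
    (X.D (fun z => (t : ℂ) * F (g • z) + c)).real ((fun z => g • z) ⁻¹' A) =
      t ^ 2 * (X.D F).real A := by
  have h1 := X.h31_Γ_aff hc hF.1.1 g t c.re hA
  have h2 := X.h31_Γ_aff hc hF.2.1 g t c.im hA
  have e1 : reF (fun z => (t : ℂ) * F (g • z) + c) = fun z => t * reF F (g • z) + c.re := by
    funext z; simp [reF]
  have e2 : imF (fun z => (t : ℂ) * F (g • z) + c) = fun z => t * imF F (g • z) + c.im := by
    funext z; simp [imF]
  unfold D
  rw [measureReal_add_apply, measureReal_add_apply, e1, e2, h1, h2]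
  ring

/-- `D_transform`, `om_source`, `om_target`, scaling of the area (`Measure.addHaar_smul`). -/
theorem del_transform (hc : ∀ g : G, Continuous fun z : Z => g • z) (κ : ℝ) {W : Set Z}
    {F : Z → ℂ} (hF : X.Harm2 W F) (g : G) {t : ℝ} (ht : t ≠ 0) (c : ℂ) (O : Set Z) :
    X.del κ (fun z => (t : ℂ) * F (g • z) + c) ((fun z => g • z) ⁻¹' O) = t ^ 2 * X.del κ F O := by
  have hcl : closure ((fun z => g • z) ⁻¹' O) = (fun z => g • z) ⁻¹' closure O :=
    ((h31_homeo hc g).preimage_closure O).symm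
  have htc : (t : ℂ) ≠ 0 := by exact_mod_cast ht
  have h1 : Om (fun z => (t : ℂ) * F (g • z) + c) ((fun z => g • z) ⁻¹' O) =
      Om (fun z => (t : ℂ) * F z + c) O :=
    om_source (h31_homeo hc g) (fun z => (t : ℂ) * F z + c) O
  have h2 : Om (fun z => (t : ℂ) * F z + c) O =
      ((Homeomorph.mulLeft₀ (t : ℂ) htc).trans (Homeomorph.addRight c)) '' Om F O :=
    om_target ((Homeomorph.mulLeft₀ (t : ℂ) htc).trans (Homeomorph.addRight c)) F O
  have h3 : ((Homeomorph.mulLeft₀ (t : ℂ) htc).trans (Homeomorph.addRight c)) '' Om F O =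
      (fun w => w + c) '' ((fun w : ℂ => t • w) '' Om F O) := by
    rw [image_image]
    refine image_congr fun w _ => ?_
    simp
  have h4 : volume ((fun w : ℂ => t • w) '' Om F O) =
      ENNReal.ofReal (t ^ 2) * volume (Om F O) := by
    have := Measure.addHaar_smul (volume : Measure ℂ) t (Om F O)
    rw [Complex.finrank_real_complex, abs_of_nonneg (sq_nonneg t)] at this
    exact this
  have h5 : volume.real (Om (fun z => (t : ℂ) * F (g • z) + c) ((fun z => g • z) ⁻¹' O)) =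
      t ^ 2 * volume.real (Om F O) := by
    rw [h1, h2, h3, Measure.real, image_add_right, measure_preimage_add_right, h4,
      ENNReal.toReal_mul, ENNReal.toReal_ofReal (sq_nonneg t)]
    rfl
  unfold del
  rw [hcl, X.D_transform hc hF g t c isClosed_closure.measurableSet, h5]
  ring

/-- greedy selection: take the point of largest weight, discard its at most `N` neighbours,
induct on the cardinality. -/
theorem greedy {ι : Type} (P : Finset ι) (adj : ι → ι → Prop) (hs : ∀ p q, adj p q → adj q p)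
    (hr : ∀ p, adj p p) (N : ℕ) (hN : ∀ p ∈ P, {q | q ∈ P ∧ adj p q}.ncard ≤ N) (a : ι → ℝ)
    (ha : ∀ p ∈ P, 0 ≤ a p) : ∃ P' : Finset ι, P' ⊆ P ∧
      (∀ p ∈ P', ∀ q ∈ P', p ≠ q → ¬ adj p q) ∧ ∑ p ∈ P, a p ≤ N * ∑ p ∈ P', a p := by
  classical
  induction P using Finset.strongInduction with
  | H P ih =>
    rcases P.eq_empty_or_nonempty with rfl | hne
    · exact ⟨∅, subset_rfl, by simp, by simp⟩
    obtain ⟨p, hp, hmax⟩ := P.exists_max_image a hne
    have hss : P.filter (fun q => ¬ adj p q) ⊂ P := by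
      refine Finset.filter_ssubset.2 ⟨p, hp, ?_⟩
      simpa using hr p
    obtain ⟨Q, hQ, hQa, hQs⟩ := ih _ hss (fun q hq => by
      refine le_trans (ncard_le_ncard ?_ ?_) (hN q (hss.subset hq))
      · exact fun x hx => ⟨hss.subset hx.1, hx.2⟩
      · exact P.finite_toSet.subset fun x hx => hx.1) (fun q hq => ha q (hss.subset hq))
    have hQn : ∀ q ∈ Q, ¬ adj p q := fun q hq => (Finset.mem_filter.1 (hQ hq)).2
    have hpQ : p ∉ Q := fun h => hQn p h (hr p)
    refine ⟨insert p Q, ?_, ?_, ?_⟩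
    · exact Finset.insert_subset hp (hQ.trans hss.subset)
    · intro x hx y hy hxy
      rcases Finset.mem_insert.1 hx with rfl | hx'
      · rcases Finset.mem_insert.1 hy with rfl | hy'
        · exact absurd rfl hxy
        · exact hQn y hy'
      · rcases Finset.mem_insert.1 hy with rfl | hy'
        · exact fun h => hQn x hx' (hs _ _ h)
        · exact hQa x hx' y hy' hxy
    · rw [Finset.sum_insert hpQ, ← Finset.sum_filter_add_sum_filter_not P (fun q => adj p q)]
      have h1 : ∑ q ∈ P.filter (fun q => adj p q), a q ≤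
          (P.filter (fun q => adj p q)).card • a p :=
        Finset.sum_le_card_nsmul _ _ _ fun q hq => hmax q (Finset.mem_filter.1 hq).1
      have h2 : (P.filter (fun q => adj p q)).card ≤ N := by
        have := hN p hp
        rwa [show {q | q ∈ P ∧ adj p q} = ((P.filter (fun q => adj p q) : Finset ι) : Set ι) by
          ext; simp, ncard_coe_finset] at this
      have h3 : ((P.filter (fun q => adj p q)).card : ℝ) * a p ≤ N * a p :=
        mul_le_mul_of_nonneg_right (by exact_mod_cast h2) (ha p hp)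
      rw [nsmul_eq_mul] at h1
      linarith

private theorem helper22_pick {ι : Type} (P : Finset ι) (a b c : ι → ℝ) {B C : ℝ} (hB : 0 < B)
    (hC : 0 < C) (ha : ∀ p ∈ P, 0 ≤ a p) (hb : ∀ p ∈ P, 0 ≤ b p) (hc : ∀ p ∈ P, 0 ≤ c p)
    (hS : 0 < ∑ p ∈ P, a p) (h1 : ∑ p ∈ P, b p ≤ B * ∑ p ∈ P, a p)
    (h2 : ∑ p ∈ P, c p ≤ C * ∑ p ∈ P, a p) :
    ∃ p ∈ P, 0 < a p ∧ b p ≤ 2 * B * a p ∧ c p ≤ 2 * C * a p := by
  by_contra hcon
  have key : ∀ p ∈ P, 0 < a p → 2 * B * C * a p < C * b p + B * c p := by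
    intro p hp hap
    have hb' := hb p hp
    have hc' := hc p hp
    by_cases h3 : b p ≤ 2 * B * a p
    · have h4 : 2 * C * a p < c p := by
        by_contra h4
        exact hcon ⟨p, hp, hap, h3, not_lt.1 h4⟩
      have := mul_lt_mul_of_pos_left h4 hB
      have := mul_nonneg hC.le hb'
      nlinarith
    · have := mul_lt_mul_of_pos_left (not_le.1 h3) hC
      have := mul_nonneg hB.le hc'
      nlinarith
  obtain ⟨p₀, hp₀, hap₀⟩ : ∃ p ∈ P, 0 < a p := by
    by_contra h
    push Not at h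
    exact absurd (Finset.sum_nonpos h) (not_le.2 hS)
  have hlt : ∑ p ∈ P, 2 * B * C * a p < ∑ p ∈ P, (C * b p + B * c p) := by
    refine Finset.sum_lt_sum (fun p hp => ?_) ⟨p₀, hp₀, key p₀ hp₀ hap₀⟩
    rcases (ha p hp).lt_or_eq with h | h
    · exact (key p hp h).le
    · rw [← h, mul_zero]
      exact add_nonneg (mul_nonneg hC.le (hb p hp)) (mul_nonneg hB.le (hc p hp))
  rw [Finset.sum_add_distrib, ← Finset.mul_sum, ← Finset.mul_sum, ← Finset.mul_sum] at hlt
  have := mul_le_mul_of_nonneg_left h1 hC.le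
  have := mul_le_mul_of_nonneg_left h2 hB.le
  nlinarith

private theorem helper22_compact {CA : ℝ} (hA : X.AreaBd CA) {W O : Set Z} {F : Z → ℂ}
    (hW : IsOpen W) (hF : X.Harm2 W F) (hO : IsOpen O) (hOW : closure O ⊆ W)
    (hV : 0 < volume.real (Om F O)) : ∃ K : Set Z, IsCompact K ∧ K ⊆ O ∧
      volume.real (Om F O) ≤ 2 * CA * (X.D F).real K := by
  have hFc : Continuous F := hF.continuous X
  obtain ⟨K, hKc, hKO, hKU, hKm⟩ := hO.exists_iUnion_isClosed
  have hm : Monotone fun n => F '' K n := fun i j hij => image_mono (hKm hij)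
  have ht := tendsto_measure_iUnion_atTop (μ := (volume : Measure ℂ)) hm
  rw [← image_iUnion, hKU] at ht
  have h1 : ENNReal.ofReal (volume.real (Om F O) / 2) < volume (F '' O) := by
    refine lt_of_lt_of_le ?_ (measure_mono (om_subset hFc O))
    rw [← ofReal_measureReal (volume_om_ne_top hFc O)]
    exact (ENNReal.ofReal_lt_ofReal_iff hV).2 (half_lt_self hV)
  obtain ⟨n, hn⟩ := (ht.eventually (lt_mem_nhds h1)).exists
  have hK : IsCompact (K n) := (hKc n).isCompact
  refine ⟨K n, hK, hKO n, ?_⟩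
  have h2 : volume.real (Om F O) / 2 ≤ volume.real (F '' K n) :=
    (ENNReal.ofReal_le_iff_le_toReal (hK.image hFc).measure_lt_top.ne).1 hn.le
  have h3 := hA.2 W (K n) F hW hF hK ((hKO n).trans (subset_closure.trans hOW))
  linarith

omit [CompactSpace Z] in
private theorem helper22_radius (μ : Measure Z) [IsFiniteMeasure μ] (P : Finset Z) {a b : ℝ}
    (hab : a < b) : ∃ t ∈ Ioo a b, ∀ p ∈ P, μ (sphere p t) = 0 := by
  have hc : (⋃ p ∈ (P : Set Z), {t : ℝ | 0 < μ {z | dist z p = t}}).Countable :=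
    P.countable_toSet.biUnion fun p _ =>
      Measure.countable_meas_level_set_pos (continuous_id.dist continuous_const).measurable
  obtain ⟨t, ht, htI⟩ := (hc.dense_compl ℝ).exists_between hab
  refine ⟨t, htI, fun p hp => ?_⟩
  by_contra h
  exact ht (mem_biUnion (Finset.mem_coe.2 hp) (pos_iff_ne_zero.2 h))

/-- Selection of a good ball.  `(F, O, W)` nearly extremal with `ε' ≤ 1`: `del O ≤ (ε'/κ) D(cl O)`;
`volume (Om F O) ≤ volume (F '' O)` and `O` is an increasing union of compact sets, so some compact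
`K ⊆ O` has `D K ≥ D (cl O) / (2 CA (κ + 1))`.  Take `r` with `closedBall p (2 L r) ⊆ O` for all
`p` with `ball p r ∩ K ≠ ∅`, a net from `Geo.dbl (4 L + 1)`, `greedy` (adjacent: `dist ≤ (4L+1) r`),
`t ∈ {L (1 + j/m)}` with `∑ D (sphere p (t r)) ≤ D (cl O) / m` (all these spheres are disjoint
subsets of `O`), `Q p = ball p (t r)`, `del_sum`, and the `p` minimising
`(del (Q p) / ε'' + D (closure (Q p))) / D (ball p r)`. -/
theorem select_ball (hG : Geo G Z) {κ CA : ℝ} (hκ : X.Kap κ) (hA : X.AreaBd CA)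
    (hε : ∀ ε : ℝ, 0 < ε → ∃ (W O : Set Z) (F : Z → ℂ), IsOpen W ∧ X.Harm2 W F ∧ IsOpen O ∧
      closure O ⊆ W ∧ 0 < volume.real (Om F O) ∧
      (X.D F).real (closure O) ≤ (κ + ε) * volume.real (Om F O)) {L : ℝ} (hL : 1 ≤ L) :
    ∃ C : ℝ, ∀ ε : ℝ, 0 < ε → ∃ (W Q : Set Z) (F : Z → ℂ) (p : Z) (r : ℝ), IsOpen W ∧
      X.Harm2 W F ∧ IsOpen Q ∧ closure Q ⊆ W ∧ 0 < r ∧ ball p (L * r) ⊆ Q ∧
      0 < (X.D F).real (ball p r) ∧ (X.D F).real (closure Q) ≤ C * (X.D F).real (ball p r) ∧
      X.del κ F Q ≤ ε * (X.D F).real (ball p r) := by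
  classical
  obtain ⟨N, hN⟩ := hG.dbl (4 * L)
  have hCA := hA.1
  have hκ0 := hκ.1
  have hN1 : (0 : ℝ) < N + 1 := by positivity
  refine ⟨2 * ((κ + 1) * (2 * CA * (N + 1))), fun ε hε0 => ?_⟩
  have hε'0 : 0 < min 1 (ε / (4 * CA * (N + 1))) := lt_min one_pos (by positivity)
  have hε'1 : min 1 (ε / (4 * CA * (N + 1))) ≤ 1 := min_le_left _ _
  have hε'2 : min 1 (ε / (4 * CA * (N + 1))) * (4 * CA * (N + 1)) ≤ ε :=
    (le_div_iff₀ (by positivity)).1 (min_le_right _ _)
  generalize min 1 (ε / (4 * CA * (N + 1))) = ε' at hε'0 hε'1 hε'2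
  obtain ⟨W, O, F, hW, hF, hO, hOW, hV, hD⟩ := hε ε' hε'0
  obtain ⟨K, hK, hKO, hVK⟩ := helper22_compact X hA hW hF hO hOW hV
  obtain ⟨δ, hδ, hδO⟩ := hK.exists_cthickening_subset_open hO hKO
  have hL0 : 0 < L := by linarith
  have hr : 0 < δ / (2 * L + 1) := by positivity
  have hrδ : (2 * L + 1) * (δ / (2 * L + 1)) = δ := by field_simp
  generalize δ / (2 * L + 1) = r at hr hrδ
  obtain ⟨P, hP, hPN⟩ := hN r hr
  set P₀ := P.filter fun p => (ball p r ∩ K).Nonempty with hP₀
  have hsub : ∀ p ∈ P₀, closedBall p (2 * L * r) ⊆ O := by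
    intro p hp z hz
    obtain ⟨k, hk1, hk2⟩ := (Finset.mem_filter.1 hp).2
    refine hδO (mem_cthickening_of_dist_le z k δ K hk2 ?_)
    have h1 := dist_triangle_right z k p
    rw [mem_closedBall] at hz
    rw [mem_ball] at hk1
    linarith
  have hKP : (X.D F).real K ≤ ∑ p ∈ P₀, (X.D F).real (ball p r) := by
    refine le_trans (measureReal_mono ?_ (measure_ne_top _ _)) (measureReal_biUnion_finset_le P₀ _)
    intro z hz
    obtain ⟨p, hp, hzp⟩ := hP z
    exact mem_biUnion (Finset.mem_coe.2 (Finset.mem_filter.2 ⟨hp, z, hzp, hz⟩)) hzp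
  obtain ⟨P', hP'sub, hP'adj, hP'sum⟩ := greedy P₀ (fun p q => dist p q ≤ 4 * L * r)
    (fun p q h => by rwa [dist_comm]) (fun p => by rw [dist_self]; positivity) N
    (fun p hp => le_trans (Set.ncard_le_ncard (t := (P : Set Z) ∩ closedBall p (4 * L * r))
      (fun q hq => ⟨Finset.mem_coe.2 (Finset.mem_filter.1 hq.1).1, mem_closedBall'.2 hq.2⟩)
      (P.finite_toSet.inter_of_left _)) (hPN p (Finset.mem_filter.1 hp).1))
    (fun p => (X.D F).real (ball p r)) fun p _ => measureReal_nonneg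
  have hS0 : 0 ≤ ∑ p ∈ P', (X.D F).real (ball p r) :=
    Finset.sum_nonneg fun p _ => measureReal_nonneg
  have hVS : volume.real (Om F O) ≤ 2 * CA * (N + 1) * ∑ p ∈ P', (X.D F).real (ball p r) := by
    have h1 : (X.D F).real K ≤ (N + 1) * ∑ p ∈ P', (X.D F).real (ball p r) := by linarith
    have h2 := mul_le_mul_of_nonneg_left h1 (show 0 ≤ 2 * CA by positivity)
    linarith
  have hS : 0 < ∑ p ∈ P', (X.D F).real (ball p r) := by
    rcases hS0.lt_or_eq with h | h
    · exact h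
    · rw [← h] at hVS
      linarith
  obtain ⟨t, ⟨ht1, ht2⟩, ht⟩ := helper22_radius (X.D F) P'
    (show L * r < 2 * L * r by nlinarith [mul_pos hL0 hr])
  have hcl : ∀ p : Z, closure (ball p t) ⊆ closedBall p (2 * L * r) := fun p =>
    closure_ball_subset_closedBall.trans (closedBall_subset_closedBall ht2.le)
  have hQO : ∀ p ∈ P', closure (ball p t) ⊆ O := fun p hp => (hcl p).trans (hsub p (hP'sub hp))
  have hdisj : ∀ p ∈ P', ∀ p' ∈ P', p ≠ p' →
      Disjoint (closure (ball p t)) (closure (ball p' t)) := by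
    intro p hp p' hp' hne
    refine (closedBall_disjoint_closedBall ?_).mono (hcl p) (hcl p')
    have := not_le.1 (hP'adj p hp p' hp' hne)
    linarith
  have hdel := X.del_sum hκ hA hW hF hO hOW P' (fun p => ball p t)
    (fun p hp => ⟨isOpen_ball, hQO p hp⟩) hdisj
  have hfr : ∑ p ∈ P', (X.D F).real (frontier (ball p t)) = 0 :=
    Finset.sum_eq_zero fun p hp => by
      rw [measureReal_def, measure_mono_null frontier_ball_subset_sphere (ht p hp)]
      rfl
  rw [hfr, mul_zero, add_zero] at hdel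
  have h1 : ∑ p ∈ P', X.del κ F (ball p t) ≤
      ε' * (2 * CA * (N + 1)) * ∑ p ∈ P', (X.D F).real (ball p r) := by
    have h2 : X.del κ F O ≤ ε' * volume.real (Om F O) := by
      unfold del
      linarith
    have h3 := mul_le_mul_of_nonneg_left hVS hε'0.le
    linarith
  have h2 : ∑ p ∈ P', (X.D F).real (closure (ball p t)) ≤
      (κ + 1) * (2 * CA * (N + 1)) * ∑ p ∈ P', (X.D F).real (ball p r) := by
    have h3 : ∑ p ∈ P', (X.D F).real (closure (ball p t)) ≤ (X.D F).real (closure O) := by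
      rw [← measureReal_biUnion_finset (fun p hp p' hp' hne => hdisj p hp p' hp' hne)
        (fun p _ => isClosed_closure.measurableSet) fun p _ => measure_ne_top _ _]
      exact measureReal_mono (iUnion₂_subset fun p hp => (hQO p hp).trans subset_closure)
        (measure_ne_top _ _)
    have h4 := mul_le_mul_of_nonneg_left hVS (show 0 ≤ κ + 1 by positivity)
    have h5 := mul_le_mul_of_nonneg_right (show κ + ε' ≤ κ + 1 by linarith) hV.le
    linarith
  obtain ⟨p, hp, hp0, hp1, hp2⟩ := helper22_pick P' (fun p => (X.D F).real (ball p r))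
    (fun p => X.del κ F (ball p t)) (fun p => (X.D F).real (closure (ball p t)))
    (by positivity) (by positivity) (fun p _ => measureReal_nonneg)
    (fun p hp => X.del_nonneg hκ hW hF isOpen_ball
      ((hQO p hp).trans (subset_closure.trans hOW)))
    (fun p _ => measureReal_nonneg) hS h1 h2
  refine ⟨W, ball p t, F, p, r, hW, hF, isOpen_ball,
    (hQO p hp).trans (subset_closure.trans hOW), hr, ball_subset_ball ht1.le, hp0, hp2,
    hp1.trans (mul_le_mul_of_nonneg_right ?_ hp0.le)⟩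
  linarith

/-- Blow-up to unit scale.  `c, L` from `Geo.expand`; finitely many rescaled charts `e j` with
`e j '' ball 0 1` covering `Z` and `e j '' closedBall 0 4 ⊆ ball (e j 0) (c/3)`.  With
`select_ball` and `g` from `expand`, some `j` has `D (ball p r ∩ g⁻¹ (e j '' closedBall 0 1)) ≥
D (ball p r) / J > 0`; then `g⁻¹ (e j '' ball 0 4) ⊆ ball p (L r) ⊆ Q`; put
`F' z = t F (g⁻¹ z) + c'` normalised; `del_transform`, `del_split`, `del_nonneg`.  Pigeonhole
on `j` (the property is monotone in `ε`). -/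
theorem localise (hG : Geo G Z) {κ CA : ℝ} (hκ : X.Kap κ) (hA : X.AreaBd CA)
    (hε : ∀ ε : ℝ, 0 < ε → ∃ (W O : Set Z) (F : Z → ℂ), IsOpen W ∧ X.Harm2 W F ∧ IsOpen O ∧
      closure O ⊆ W ∧ 0 < volume.real (Om F O) ∧
      (X.D F).real (closure O) ≤ (κ + ε) * volume.real (Om F O)) :
    ∃ (e : ℂ → Z) (C : ℝ), IsOpenEmbedding e ∧ ∀ ε : ℝ, 0 < ε → ∃ F : Z → ℂ,
      X.Harm2 (e '' ball 0 4) F ∧ F (e 0) = 0 ∧ (X.D F).real (e '' closedBall 0 1) = 1 ∧
      (X.D F).real (e '' ball 0 4) ≤ C ∧ ∀ O : Set Z, IsOpen O → closure O ⊆ e '' ball 0 4 →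
        X.del κ F O ≤ ε + (1 + κ * CA) * (X.D F).real (frontier O) := by
  obtain ⟨c, hc, L, hL, hexp⟩ := hG.expand
  obtain ⟨e, J, he, hec, hJ⟩ := h31_charts hG (c := c / 3) (by positivity)
  obtain ⟨C, hC⟩ := X.select_ball hG hκ hA hε hL
  have key : ∃ j ∈ J, ∀ ε : ℝ, 0 < ε → ∃ F : Z → ℂ,
      X.Harm2 (e j '' ball 0 4) F ∧ F (e j 0) = 0 ∧ (X.D F).real (e j '' closedBall 0 1) = 1 ∧
      (X.D F).real (e j '' ball 0 4) ≤ |C| * J.card ∧ ∀ O : Set Z, IsOpen O →
        closure O ⊆ e j '' ball 0 4 →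
        X.del κ F O ≤ ε + (1 + κ * CA) * (X.D F).real (frontier O) := by
    apply h31_pigeon
    · rintro j ε ε' hεε ⟨F, h1, h2, h3, h4, h5⟩
      exact ⟨F, h1, h2, h3, h4, fun O hO hO' => (h5 O hO hO').trans (by linarith)⟩
    intro ε hε0
    obtain ⟨W, Q, F, p, r, hW, hF, hQ, hQW, hr, hpQ, hpos, hCQ, hdel⟩ :=
      hC (ε / (J.card + 1)) (by positivity)
    obtain ⟨g, hg⟩ := hexp p r hr
    have hJne : J.Nonempty := by
      obtain ⟨q, hq, -⟩ := hJ p
      exact ⟨q, hq⟩
    have hJpos : (0 : ℝ) < J.card := by exact_mod_cast hJne.card_pos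
    -- a chart carrying a fixed part of the energy
    have hsel : ∃ j ∈ J, (X.D F).real (ball p r) / J.card ≤
        (X.D F).real (ball p r ∩ (fun z => g • z) ⁻¹' (e j '' closedBall 0 1)) := by
      apply Finset.exists_le_of_sum_le hJne
      rw [Finset.sum_const, nsmul_eq_mul, mul_div_cancel₀ _ hJpos.ne']
      refine le_trans (measureReal_mono ?_ (measure_ne_top _ _))
        (measureReal_biUnion_finset_le J _)
      intro z hz
      obtain ⟨q, hq, hzq⟩ := hJ (g • z)
      exact mem_biUnion hq ⟨hz, image_mono ball_subset_closedBall hzq⟩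
    obtain ⟨j, hj, hjD⟩ := hsel
    refine ⟨j, hj, ?_⟩
    have hpos' : 0 < (X.D F).real (ball p r) / J.card := by positivity
    have hne : (ball p r ∩ (fun z => g • z) ⁻¹' (e j '' closedBall 0 1)).Nonempty := by
      by_contra h0
      rw [not_nonempty_iff_eq_empty.1 h0, measureReal_empty] at hjD
      linarith
    obtain ⟨ξ, hξ, hξ'⟩ := hne
    have hsub : (fun z => g • z) ⁻¹' (e j '' ball 0 4) ⊆ Q := by
      intro z hz
      apply hpQ
      by_contra hz'
      have h1 := hg ξ hξ z hz'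
      have h2 : g • ξ ∈ ball j (c / 3) :=
        hec j (image_mono (closedBall_subset_closedBall (by norm_num)) hξ')
      have h3 : g • z ∈ ball j (c / 3) := hec j (image_mono ball_subset_closedBall hz)
      rw [mem_ball] at h2 h3
      have := dist_triangle_right (g • ξ) (g • z) j
      linarith
    set m := (X.D F).real ((fun z => g • z) ⁻¹' (e j '' closedBall 0 1)) with hm
    have hm1 : (X.D F).real (ball p r) / J.card ≤ m :=
      hjD.trans (measureReal_mono inter_subset_right)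
    have hm0 : 0 < m := hpos'.trans_le hm1
    set t : ℝ := (√m)⁻¹ with ht
    have ht0 : 0 < t := inv_pos.2 (Real.sqrt_pos.2 hm0)
    have ht2 : t ^ 2 * m = 1 := by
      rw [ht, inv_pow, Real.sq_sqrt hm0.le, inv_mul_cancel₀ hm0.ne']
    have ht3 : t ^ 2 * (X.D F).real (ball p r) ≤ J.card := by
      rw [div_le_iff₀ hJpos] at hm1
      calc t ^ 2 * (X.D F).real (ball p r) ≤ t ^ 2 * (m * (J.card : ℝ)) := by gcongr
        _ = (J.card : ℝ) := by rw [← mul_assoc, ht2, one_mul]
    have hpre : ∀ S : Set Z, (fun z => g⁻¹ • z) ⁻¹' ((fun z => g • z) ⁻¹' S) = S := by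
      intro S; ext z; simp
    have hD : ∀ (c' : ℂ) (S : Set Z), MeasurableSet S →
        (X.D (fun z => (t : ℂ) * F (g⁻¹ • z) + c')).real S =
          t ^ 2 * (X.D F).real ((fun z => g • z) ⁻¹' S) := by
      intro c' S hS
      have := X.D_transform hG.cont hF g⁻¹ t c' ((hG.cont g).measurable hS)
      rwa [hpre] at this
    refine ⟨fun z => (t : ℂ) * F (g⁻¹ • z) + -((t : ℂ) * F (g⁻¹ • e j 0)), ?_, by simp, ?_, ?_, ?_⟩
    · have h1 : X.Harm2 (e j '' ball 0 4) (fun z => F (g⁻¹ • z)) := by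
        have hs : e j '' ball 0 4 ⊆ (fun z => g⁻¹ • z) ⁻¹' W := by
          intro z hz
          apply hQW
          apply subset_closure
          apply hsub
          simpa using hz
        exact ⟨Harm.mono X (Harm.inv X hG.cont hF.1 g⁻¹) hs,
          Harm.mono X (Harm.inv X hG.cont hF.2 g⁻¹) hs⟩
      have h2 := Harm2.affine X h1 (t • ContinuousLinearMap.id ℝ ℂ)
        (-((t : ℂ) * F (g⁻¹ • e j 0)))
      simpa using h2
    · rw [hD _ _ (((isCompact_closedBall 0 1).image (he j).continuous).isClosed.measurableSet)]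
      exact ht2
    · rw [hD _ _ ((he j).isOpenMap _ isOpen_ball).measurableSet]
      have h1 : (X.D F).real ((fun z => g • z) ⁻¹' (e j '' ball 0 4)) ≤
          |C| * (X.D F).real (ball p r) :=
        (measureReal_mono (hsub.trans subset_closure)).trans
          (hCQ.trans (mul_le_mul_of_nonneg_right (le_abs_self C) hpos.le))
      calc t ^ 2 * (X.D F).real ((fun z => g • z) ⁻¹' (e j '' ball 0 4))
          ≤ t ^ 2 * (|C| * (X.D F).real (ball p r)) := by gcongr
        _ = |C| * (t ^ 2 * (X.D F).real (ball p r)) := by ring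
        _ ≤ |C| * J.card := by gcongr
    · intro O hO hOc
      have hO' : IsOpen ((fun z => g • z) ⁻¹' O) := hO.preimage (hG.cont g)
      have hcl : closure ((fun z => g • z) ⁻¹' O) = (fun z => g • z) ⁻¹' closure O :=
        ((h31_homeo hG.cont g).preimage_closure O).symm
      have hfr : frontier ((fun z => g • z) ⁻¹' O) = (fun z => g • z) ⁻¹' frontier O :=
        ((h31_homeo hG.cont g).preimage_frontier O).symm
      have hOQ : closure ((fun z => g • z) ⁻¹' O) ⊆ Q := by
        rw [hcl]; exact (preimage_mono hOc).trans hsub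
      have h1 := X.del_split hκ hA hW hF hQ hQW hO' hOQ
      have h2 := X.del_nonneg hκ hW hF (hQ.sdiff (isClosed_closure
        (s := (fun z => g • z) ⁻¹' O))) ((closure_mono diff_subset).trans hQW)
      have h3 := X.del_transform hG.cont κ hF g⁻¹ ht0.ne' (-((t : ℂ) * F (g⁻¹ • e j 0)))
        ((fun z => g • z) ⁻¹' O)
      rw [hpre] at h3
      rw [h3, hD _ _ isClosed_frontier.measurableSet, ← hfr]
      have h4 : X.del κ F ((fun z => g • z) ⁻¹' O) ≤ ε / (J.card + 1) * (X.D F).real (ball p r) +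
          (1 + κ * CA) * (X.D F).real (frontier ((fun z => g • z) ⁻¹' O)) := by linarith
      have h5 : ε / (J.card + 1) * J.card ≤ ε := by
        rw [div_mul_eq_mul_div, div_le_iff₀ (by positivity)]
        nlinarith
      have h6 : ε / (J.card + 1) * (t ^ 2 * (X.D F).real (ball p r)) ≤
          ε / (J.card + 1) * J.card := by gcongr
      have h7 := mul_le_mul_of_nonneg_left h4 (sq_nonneg t)
      nlinarith
  obtain ⟨j, -, hj⟩ := key
  exact ⟨e j, |C| * J.card, he j, hj⟩

private theorem helper78_subseq (hG : Geo G Z) {e : ℂ → Z} (he : IsOpenEmbedding e) {C : ℝ}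
    (w : ℕ → Z → ℝ) (hw : ∀ n, X.Harm (e '' ball 0 4) (w n)) (h0 : ∀ n, w n (e 0) = 0)
    (hC : ∀ n, (X.Γ (w n)).real (e '' ball 0 4) ≤ C) :
    ∃ (φ : ℕ → ℕ) (u : Z → ℝ), StrictMono φ ∧
      TendstoUniformlyOn (fun n => w (φ n)) u atTop (e '' closedBall 0 3) := by
  have hK : IsCompact (e '' closedBall (0 : ℂ) 3) :=
    (isCompact_closedBall _ _).image he.continuous
  have hKc : IsPreconnected (e '' closedBall (0 : ℂ) 3) :=
    (convex_closedBall (0 : ℂ) 3).isPreconnected.image _ he.continuous.continuousOn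
  have hW : IsOpen (e '' ball (0 : ℂ) 4) := he.isOpenMap _ isOpen_ball
  have hKW : e '' closedBall (0 : ℂ) 3 ⊆ e '' ball (0 : ℂ) 4 :=
    image_mono (closedBall_subset_ball (by norm_num))
  obtain ⟨φ, u, hφ, -, hu⟩ := exists_unif_subseq hK hKc w (p₀ := e 0)
    (mem_image_of_mem _ (mem_closedBall_self (by norm_num))) (M := 0)
    (fun n => by rw [h0 n]; simp) (fun ε hε p hp => by
      obtain ⟨ρ, hρ, hρW⟩ := nhds_basis_closedBall.mem_iff.1 (hW.mem_nhds (hKW hp))
      obtain ⟨s, hs, H⟩ := X.osc_log hG (M := C) hρ hε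
      refine ⟨ball p s, ball_mem_nhds p hs, Eventually.of_forall fun n z hz => ?_⟩
      exact H _ _ (hw n) p hρW ((measureReal_mono hρW).trans (hC n)) z hz.1)
  exact ⟨φ, u, hφ, hu⟩

private theorem helper78_tend {W U : Set Z} {w : ℕ → Z → ℝ} {u χ : Z → ℝ}
    (hw : ∀ n, X.Harm W (w n)) (hχ : χ ∈ X.Fc) (hs : tsupport χ ⊆ W)
    (H : TendstoUniformlyOn w u atTop (tsupport χ)) (hU : IsOpen U) (h1 : ∀ z ∈ U, χ z = 1) :
    X.Harm U (χ * u) ∧ ∀ A : Set Z, A ⊆ U →
      Tendsto (fun n => (X.Γ (w n)).real A) atTop (𝓝 ((X.Γ (χ * u)).real A)) := by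
  obtain ⟨hm, hE, hH⟩ := X.harm_lim hw hχ hs H
  refine ⟨hH U hU h1, fun A hA => ?_⟩
  have hmn : ∀ n, χ * w n ∈ X.Fc := fun n => X.mul_mem hχ (hw n).1
  refine (X.Γ_tendsto hmn hm hE A).congr fun n => ?_
  have := X.Γ_congr_apply (hmn n) (hw n).1 hU (c := 0)
    (fun z hz => by simp [h1 z hz]) hA
  simp only [Measure.real, this]

/-- The limit.  `F n` from `localise` with `ε = 1/(n+1)`; `osc_log` + `exists_unif_subseq` on
`K = e '' closedBall 0 3` for both coordinates; cut-off `χ = 1` on `e '' closedBall 0 2`,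
`tsupport χ ⊆ e '' ball 0 3`; `harm_lim`; `F = χ • lim`; `D (F n) A = D (χ F n) A` for
`A ⊆ U = e '' ball 0 2` (`Γ_congr_apply`), `Γ_tendsto`; `volume (F '' frontier O) = 0` by `AreaBd`;
`om_usc` gives `del κ F O ≤ 0`; `del_nonneg`. -/
theorem exists_extremal (hG : Geo G Z) : ∃ (κ CA : ℝ) (U : Set Z) (F : Z → ℂ), X.Kap κ ∧
    X.AreaBd CA ∧ X.Extremal κ U F := by
  obtain ⟨CA, hA⟩ := X.exists_areaBd hG
  obtain ⟨κ, hκ, hε⟩ := X.exists_kappa hG hA
  obtain ⟨e, C, he, hloc⟩ := X.localise hG hκ hA hε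
  choose F hF h0 h1 hC hdel using fun n : ℕ => hloc (1 / ((n : ℝ) + 1)) (by positivity)
  have hDre : ∀ (F : Z → ℂ) (A : Set Z),
      (X.D F).real A = (X.Γ (reF F)).real A + (X.Γ (imF F)).real A := fun F A => by
    unfold D
    exact measureReal_add_apply
  obtain ⟨φ₁, u, hφ₁, hu⟩ := X.helper78_subseq hG he (C := C) (fun n => reF (F n))
    (fun n => (hF n).1) (fun n => by simp [reF, h0 n]) (fun n => by
      have := hC n
      rw [hDre] at this
      have h2 : 0 ≤ (X.Γ (imF (F n))).real (e '' ball 0 4) := measureReal_nonneg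
      linarith)
  obtain ⟨φ₂, v, hφ₂, hv⟩ := X.helper78_subseq hG he (C := C) (fun n => imF (F (φ₁ n)))
    (fun n => (hF _).2) (fun n => by simp [imF, h0]) (fun n => by
      have := hC (φ₁ n)
      rw [hDre] at this
      have h2 : 0 ≤ (X.Γ (reF (F (φ₁ n)))).real (e '' ball 0 4) := measureReal_nonneg
      linarith)
  have hu' : TendstoUniformlyOn (fun n => reF (F (φ₁ (φ₂ n)))) u atTop (e '' closedBall 0 3) :=
    fun t ht => hφ₂.tendsto_atTop.eventually (hu t ht)
  have hφ : Tendsto (fun n => φ₁ (φ₂ n)) atTop atTop :=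
    hφ₁.tendsto_atTop.comp hφ₂.tendsto_atTop
  obtain ⟨χ, hχ, -, hχ1, hχs⟩ := X.cutoff (e '' closedBall 0 2) (e '' ball 0 3)
    ((isCompact_closedBall _ _).image he.continuous).isClosed (he.isOpenMap _ isOpen_ball)
    (image_mono (closedBall_subset_ball (by norm_num)))
  have hs3 : tsupport χ ⊆ e '' closedBall 0 3 := hχs.trans (image_mono ball_subset_closedBall)
  have hs4 : tsupport χ ⊆ e '' ball 0 4 := hχs.trans (image_mono (ball_subset_ball (by norm_num)))
  have hU : IsOpen (e '' ball (0 : ℂ) 2) := he.isOpenMap _ isOpen_ball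
  have hU1 : ∀ z ∈ e '' ball (0 : ℂ) 2, χ z = 1 := fun z hz =>
    hχ1 z (image_mono ball_subset_closedBall hz)
  obtain ⟨hHu, hTu⟩ := X.helper78_tend (fun n => (hF (φ₁ (φ₂ n))).1) hχ hs4 (hu'.mono hs3) hU hU1
  obtain ⟨hHv, hTv⟩ := X.helper78_tend (fun n => (hF (φ₁ (φ₂ n))).2) hχ hs4 (hv.mono hs3) hU hU1
  set F' : Z → ℂ := fun z => ⟨(χ * u) z, (χ * v) z⟩ with hF'
  have hre : reF F' = χ * u := rfl
  have him : imF F' = χ * v := rfl
  have hH : X.Harm2 (e '' ball (0 : ℂ) 2) F' := ⟨hre ▸ hHu, him ▸ hHv⟩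
  have hT : ∀ A : Set Z, A ⊆ e '' ball (0 : ℂ) 2 →
      Tendsto (fun n => (X.D (F (φ₁ (φ₂ n)))).real A) atTop (𝓝 ((X.D F').real A)) := by
    intro A hAU
    simp only [hDre, hre, him]
    exact (hTu A hAU).add (hTv A hAU)
  refine ⟨κ, CA, e '' ball 0 2, F', hκ, hA, hU,
    (convex_ball (0 : ℂ) 2).isPreconnected.image _ he.continuous.continuousOn, hH, ?_, ?_⟩
  · have hsub : e '' closedBall (0 : ℂ) 1 ⊆ e '' ball (0 : ℂ) 2 :=
      image_mono (closedBall_subset_ball (by norm_num))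
    have h2 := hT _ hsub
    simp only [h1] at h2
    have h3 : (X.D F').real (e '' closedBall (0 : ℂ) 1) = 1 :=
      tendsto_nhds_unique h2 tendsto_const_nhds
    have h4 : (X.D F').real (e '' closedBall (0 : ℂ) 1) ≤ (X.D F').real (e '' ball (0 : ℂ) 2) :=
      measureReal_mono hsub
    linarith
  · intro O hO hOU hfr
    have hfU : frontier O ⊆ e '' ball (0 : ℂ) 2 := frontier_subset_closure.trans hOU
    have hfr' : (X.D F').real (frontier O) = 0 := by simp [Measure.real, hfr]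
    have hfc : IsCompact (frontier O) := isClosed_frontier.isCompact
    have hvol : volume (F' '' frontier O) = 0 := by
      have h2 := hA.2 _ _ F' hU hH hfc hfU
      rw [hfr', mul_zero] at h2
      have h3 : volume (F' '' frontier O) ≠ ⊤ :=
        (hfc.image (Harm2.continuous X hH)).measure_lt_top.ne
      have h4 : volume.real (F' '' frontier O) = 0 := le_antisymm h2 measureReal_nonneg
      exact (measureReal_eq_zero_iff h3).1 h4
    refine le_antisymm ?_ (hκ.2 _ _ _ hU hH hO hOU)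
    refine le_of_forall_pos_le_add fun δ hδ => ?_
    obtain ⟨η, hη, hom⟩ := om_usc (Harm2.continuous X hH) hO hvol (div_pos hδ hκ.1)
    have hO4 : closure O ⊆ e '' ball (0 : ℂ) 4 :=
      hOU.trans (image_mono (ball_subset_ball (by norm_num)))
    have hlim : Tendsto (fun n => 1 / (((φ₁ (φ₂ n) : ℕ) : ℝ) + 1) +
        (1 + κ * CA) * (X.D (F (φ₁ (φ₂ n)))).real (frontier O) +
          (κ * volume.real (Om F' O) + δ)) atTop
        (𝓝 (0 + (1 + κ * CA) * (X.D F').real (frontier O) + (κ * volume.real (Om F' O) + δ))) :=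
      (((tendsto_one_div_add_atTop_nhds_zero_nat (𝕜 := ℝ)).comp hφ).add
        ((hT _ hfU).const_mul _)).add_const _
    rw [hfr', mul_zero, add_zero, zero_add] at hlim
    refine le_of_tendsto_of_tendsto (hT _ hOU) hlim ?_
    have e1 := (Metric.tendstoUniformlyOn_iff.1 hu') (η / 2) (by positivity)
    have e2 := (Metric.tendstoUniformlyOn_iff.1 hv) (η / 2) (by positivity)
    filter_upwards [e1, e2] with n a1 a2
    have hb := hom (F (φ₁ (φ₂ n))) (Harm2.continuous X (hF _)) (fun z hz => by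
      have hz2 := hfU hz
      have hz3 : z ∈ e '' closedBall (0 : ℂ) 3 :=
        image_mono ((ball_subset_ball (by norm_num)).trans ball_subset_closedBall) hz2
      have b1 := a1 z hz3
      have b2 := a2 z hz3
      rw [Real.dist_eq, abs_sub_comm] at b1 b2
      refine (Complex.norm_le_abs_re_add_abs_im _).trans ?_
      simp only [Complex.sub_re, Complex.sub_im, hF', Pi.mul_apply, hU1 z hz2, one_mul]
      simp only [reF, imF] at b1 b2
      linarith)
    have hd := hdel (φ₁ (φ₂ n)) O hO hO4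
    unfold del at hd
    have hb' := mul_le_mul_of_nonneg_left hb hκ.1.le
    have hk : κ * (δ / κ) = δ := mul_div_cancel₀ _ hκ.1.ne'
    rw [mul_add, hk] at hb'
    linarith

end DForm

end Crest.Agent.R193.E
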