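import Crest.Agent.R193.VisBasic
import Crest.Agent.R193.Defs

/-! Row 193, block [Z]: triples, doubling, linear local connectedness; `ZPropStmt`. -/

set_option autoImplicit false

namespace Crest.Agent.R193

open Metric

section Top

theorem S2_locPathConnected : LocallyPathConnectedSpace S2 :=
  haveI : Fact (Module.finrank ℝ (EuclideanSpace ℝ (Fin 3)) = 2 + 1) := ⟨by simp⟩
  ChartedSpace.locallyPathConnectedSpace (EuclideanSpace ℝ (Fin 2)) S2

theorem S2_pathConnected : PathConnectedSpace S2 := by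
  rw [← isPathConnected_iff_pathConnectedSpace]
  exact isPathConnected_sphere (by rw [← Module.finrank_eq_rank]; simp) _ zero_le_one

variable {Z : Type} [MetricSpace Z]

theorem compact_of_S2 (hZ : Nonempty (Z ≃ₜ S2)) : CompactSpace Z := hZ.some.symm.compactSpace

theorem lpc_of_S2 (hZ : Nonempty (Z ≃ₜ S2)) : LocallyPathConnectedSpace Z :=
  haveI := S2_locPathConnected
  hZ.some.isOpenEmbedding.locallyPathConnectedSpace

theorem pc_of_S2 (hZ : Nonempty (Z ≃ₜ S2)) : PathConnectedSpace Z :=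
  haveI := S2_pathConnected
  hZ.some.symm.surjective.pathConnectedSpace hZ.some.symm.continuous

theorem nontrivial_of_S2 (hZ : Nonempty (Z ≃ₜ S2)) : Nontrivial Z := by
  have : Nontrivial S2 := by
    refine ⟨⟨⟨EuclideanSpace.single 0 1, by simp⟩, ⟨EuclideanSpace.single 1 1, by simp⟩, ?_⟩⟩
    intro h
    have := congrArg (fun p : S2 => p.1 0) h
    simp at this
  exact hZ.some.symm.injective.nontrivial

/-- uniform local path connectedness -/
theorem unif_lpc [CompactSpace Z] [LocallyPathConnectedSpace Z] {ε : ℝ} (hε : 0 < ε) :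
    ∃ δ : ℝ, 0 < δ ∧ ∀ x y : Z, dist x y < δ → JoinedIn (ball x ε) x y := by
  obtain ⟨δ, hδ, h⟩ := lebesgue_number_lemma_of_metric (s := (Set.univ : Set Z))
    (c := fun z : Z => pathComponentIn (ball z (ε / 2)) z) isCompact_univ
    (fun z => isOpen_ball.pathComponentIn z)
    (fun z _ => Set.mem_iUnion.2 ⟨z, mem_pathComponentIn_self (mem_ball_self (by linarith))⟩)
  refine ⟨δ, hδ, fun x y hxy => ?_⟩
  obtain ⟨z, hz⟩ := h x trivial
  have hx : JoinedIn (ball z (ε / 2)) z x := hz (mem_ball_self hδ)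
  have hy : JoinedIn (ball z (ε / 2)) z y := hz (by rwa [mem_ball, dist_comm])
  refine (hx.symm.trans hy).mono fun w hw => ?_
  have h1 : dist x z < ε / 2 := hx.target_mem
  have h2 : dist w z < ε / 2 := hw
  have := dist_triangle_right w x z
  rw [mem_ball]; linarith

/-- uniform perfectness from connectedness -/
theorem exists_dist_eq [ConnectedSpace Z] [Nontrivial Z] :
    ∃ d0 : ℝ, 0 < d0 ∧ ∀ (ξ : Z) (r : ℝ), 0 ≤ r → r ≤ d0 → ∃ z, dist z ξ = r := by
  obtain ⟨p, q, hpq⟩ := exists_pair_ne Z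
  have h0 := dist_pos.2 hpq
  refine ⟨dist p q / 2, by linarith, fun ξ r hr0 hr => ?_⟩
  have hc : Continuous fun z : Z => dist z ξ := continuous_id.dist continuous_const
  have := dist_triangle_right p q ξ
  rcases le_total (dist p ξ) (dist q ξ) with h | h
  · exact intermediate_value_univ ξ q hc ⟨by simpa using hr0, by linarith⟩
  · exact intermediate_value_univ ξ p hc ⟨by simpa using hr0, by linarith⟩

end Top

namespace Visual

variable {G Z : Type} [Group G] [MetricSpace Z] [MulAction G Z] (V : Visual G Z)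

include V

theorem crBound : CRBound G Z := ⟨V.C ^ 4, pow_pos V.C_pos _, V.cross_ratio⟩

theorem sz_ge_of_pair {g : G} {e : ℝ} (he : 0 < e) {a b : Z} (ha : e / 2 ≤ V.rho g⁻¹ a)
    (hb : e / 2 ≤ V.rho g⁻¹ b) (h : e ≤ dist (g • a) (g • b)) : e * (e / 2) ^ 2 / V.C ≤ V.sz g := by
  have h1 := V.contract_le (by linarith) ha hb
  rw [inv_inv, V.sz_inv, le_div_iff₀ (by positivity)] at h1
  have h2 := V.dist_le_one a b
  have h3 := mul_pos V.C_pos (V.sz_pos g)
  rw [div_le_iff₀ V.C_pos]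
  have h4 : e * (e / 2) ^ 2 ≤ dist (g • a) (g • b) * (e / 2) ^ 2 := by gcongr
  nlinarith

theorem prop3 : Prop3 G Z := by
  intro e he
  refine (V.finite_sz (e := e * (e / 2) ^ 2 / V.C) (by have := V.C_pos; positivity)).subset ?_
  rintro g ⟨a, b, c, ⟨h1, h2, h3⟩, k1, k2, k3⟩
  have hab := V.dist_le_rho_add g⁻¹ a b
  have hbc := V.dist_le_rho_add g⁻¹ b c
  have hac := V.dist_le_rho_add g⁻¹ a c
  by_cases ha : e / 2 ≤ V.rho g⁻¹ a
  · by_cases hb : e / 2 ≤ V.rho g⁻¹ b
    · exact V.sz_ge_of_pair he ha hb k1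
    · exact V.sz_ge_of_pair he ha (by linarith) k3
  · exact V.sz_ge_of_pair he (by linarith) (by linarith) k2

theorem coc3_aux {a b c : Z} (hab : a ≠ b) (h1 : dist a b ≤ dist a c) (h2 : dist a b ≤ dist b c) :
    ∃ g : G, Sep3 (2 * V.C * (V.C + V.a) * (V.C + V.a + 1))⁻¹ (g • a) (g • b) (g • c) := by
  have hr := dist_pos.2 hab
  obtain ⟨g, g1, g2, g3⟩ := V.exists_cell a hr (V.dist_le_one _ _)
  have hC := V.one_le_C
  have ha := V.one_lt_a
  have hs := V.sz_pos g
  set K := V.C + V.a with hK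
  have hK1 : 1 ≤ K := by linarith
  have ra : V.rho g a ≤ K * V.sz g := V.rho_le hK1 (by nlinarith)
  have rb : V.rho g b ≤ K * V.sz g := V.rho_le hK1 (by
    have := dist_triangle_left b (V.ctr g) a
    nlinarith)
  have key : ∀ x y : Z, V.rho g x ≤ K * V.sz g → V.sz g ≤ dist x y →
      (2 * V.C * K * (K + 1))⁻¹ ≤ dist (g⁻¹ • x) (g⁻¹ • y) := by
    intro x y hx hxy
    have k1 := V.le_expand' hx y
    have k2 := V.rho_le_add g y x
    rw [dist_comm y x] at k2
    have k3 : V.rho g y ≤ (K + 1) * dist x y := by nlinarith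
    have hd : 0 < dist x y := hs.trans_le hxy
    have k4 : dist x y ≤ V.C * K * ((K + 1) * dist x y) * dist (g⁻¹ • x) (g⁻¹ • y) :=
      k1.trans (by gcongr)
    rw [inv_le_iff_one_le_mul₀ (by positivity)]
    have k5 : 1 ≤ V.C * K * (K + 1) * dist (g⁻¹ • x) (g⁻¹ • y) :=
      le_of_mul_le_mul_right (by nlinarith) hd
    nlinarith
  exact ⟨g⁻¹, key a b ra g1, key b c rb (g1.trans h2), key a c ra (g1.trans h1)⟩

theorem coc3 : Coc3 G Z := by
  have hC := V.C_pos
  have ha := V.a_pos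
  refine ⟨(2 * V.C * (V.C + V.a) * (V.C + V.a + 1))⁻¹, by positivity, fun a b c hab hbc hac => ?_⟩
  by_cases h1 : dist a b ≤ dist a c ∧ dist a b ≤ dist b c
  · exact V.coc3_aux hab h1.1 h1.2
  by_cases h2 : dist b c ≤ dist b a ∧ dist b c ≤ dist c a
  · obtain ⟨g, k1, k2, k3⟩ := V.coc3_aux hbc h2.1 h2.2
    exact ⟨g, by rwa [dist_comm], k1, by rwa [dist_comm]⟩
  · rw [dist_comm b a, dist_comm c a] at h2
    obtain ⟨g, k1, k2, k3⟩ := V.coc3_aux (c := b) hac
      (by by_contra h; push Not at h h1 h2; linarith [h1 h.le, h2 (h1 h.le).le])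
      (by
        rw [dist_comm c b]
        by_contra h; push Not at h h1 h2
        rcases le_total (dist a b) (dist b c) with h3 | h3
        · linarith [h1 (by linarith)]
        · linarith [h2 h3])
    exact ⟨g, k3, by rwa [dist_comm], k1⟩

theorem doubling : Doubling Z := by
  classical
  intro A
  have hC := V.one_le_C
  have ha := V.one_lt_a
  obtain ⟨N, hN⟩ := V.card_cells (R := 3 * V.C * V.a + |A| + 1) (by positivity)
  refine ⟨N + 1, fun ξ r S hr hS hA => ?_⟩
  by_cases hr1 : 1 < r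
  · refine (Finset.card_le_one.2 fun x hx y hy => ?_).trans (by omega)
    by_contra h
    linarith [hS x hx y hy h, V.dist_le_one x y]
  push Not at hr1
  obtain ⟨n, hn1, hn2⟩ := V.exists_scale (r := r / (3 * V.C)) (by positivity)
    (by rw [div_le_one (by positivity)]; linarith)
  have hp : 0 < (V.a ^ n)⁻¹ := inv_pos.2 (pow_pos V.a_pos _)
  rw [le_div_iff₀ (by positivity)] at hn1
  rw [div_le_iff₀ (by positivity)] at hn2
  obtain ⟨hf, hc⟩ := hN ξ r
  have hinj : Set.InjOn (fun z => V.ray z n) (S : Set Z) := by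
    intro x hx y hy hxy
    by_contra h
    have h1 := hS x hx y hy h
    have h2 := V.ray_ctr x n
    have h3 := V.ray_ctr y n
    have h4 := dist_triangle_right x y (V.ctr (V.ray y n))
    simp only at hxy
    rw [hxy] at h2
    nlinarith
  have h1 := Set.ncard_le_ncard_of_injOn (s := (S : Set Z)) (fun z => V.ray z n)
    (fun z hz => ?_) hinj hf
  · rw [Set.ncard_coe_finset] at h1; omega
  have h2 := hA z hz
  have h3 := V.rho_ray z n
  have h4 := V.rho_le_add (V.ray z n) ξ z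
  have h5 : A * r ≤ |A| * r := by gcongr; exact le_abs_self A
  have h6 : 0 ≤ |A| := abs_nonneg A
  rw [V.sz_ray] at h3
  rw [dist_comm] at h4
  refine ⟨?_, ?_⟩
  · rw [V.sz_ray]; nlinarith
  · have : 0 ≤ 3 * V.C * V.a * r := by positivity
    nlinarith

theorem joinedIn_smul (g : G) {A B : Set Z} {x y : Z} (h : JoinedIn A (g⁻¹ • x) (g⁻¹ • y))
    (hAB : ∀ z, g⁻¹ • z ∈ A → z ∈ B) : JoinedIn B x y := by
  have := h.map (V.continuous_smul g)
  simp only [smul_inv_smul] at this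
  refine this.mono ?_
  rintro _ ⟨w, hw, rfl⟩
  exact hAB _ (by simpa using hw)

theorem llc1' [CompactSpace Z] [LocallyPathConnectedSpace Z] [PathConnectedSpace Z] :
    ∃ L : ℝ, 1 ≤ L ∧ ∀ x y : Z, JoinedIn (closedBall x (L * dist x y)) x y := by
  have hC := V.one_le_C
  have ha := V.one_lt_a
  obtain ⟨δ, hδ, h⟩ := unif_lpc (Z := Z) (ε := (2 * V.C ^ 2)⁻¹) (by positivity)
  set M := 2 * V.C * V.a / δ + 1 with hM
  have hM1 : 1 ≤ M := by have : 0 ≤ 2 * V.C * V.a / δ := by positivity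
                         linarith
  refine ⟨V.C * M, by nlinarith, fun x y => ?_⟩
  rcases eq_or_ne x y with rfl | hxy
  · exact JoinedIn.refl (by simp)
  have hr := dist_pos.2 hxy
  by_cases h1 : 1 < M * dist x y
  · refine (joinedIn_univ.2 (PathConnectedSpace.joined x y)).mono fun z _ => ?_
    have := V.dist_le_one z x
    rw [mem_closedBall]; nlinarith
  push Not at h1
  obtain ⟨g, g1, g2, g3⟩ := V.exists_cell x (by positivity) h1
  have hs := V.sz_pos g
  have rx := V.rho_le hC g3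
  have h2 := V.expand_le g x y
  have h3 : dist (g⁻¹ • x) (g⁻¹ • y) < δ := by
    have e : M * δ = 2 * V.C * V.a + δ := by rw [hM]; field_simp
    by_contra hn
    push Not at hn
    have k1 : δ * V.sz g ≤ V.C * dist x y := le_trans (by gcongr) h2
    have k2 : δ * (M * dist x y) ≤ δ * (V.a * V.sz g) := by gcongr
    have k3 : V.a * (δ * V.sz g) ≤ V.a * (V.C * dist x y) := by gcongr
    have k4 : 0 < V.C * V.a * dist x y := by positivity
    nlinarith [mul_pos hδ hr]
  refine V.joinedIn_smul g (h _ _ h3) fun z hz => ?_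
  rw [mem_ball, dist_comm] at hz
  have k1 := V.le_expand' rx z
  have k2 := V.rho_le_add g z x
  have k0 := V.rho_pos g z
  have k3 : V.C * V.C * V.rho g z * dist (g⁻¹ • x) (g⁻¹ • z) ≤
      V.C * V.C * V.rho g z * (2 * V.C ^ 2)⁻¹ := by gcongr
  have k4 : V.C * V.C * V.rho g z * (2 * V.C ^ 2)⁻¹ = V.rho g z / 2 := by field_simp
  rw [dist_comm x z] at k1
  rw [mem_closedBall]
  nlinarith

theorem llc2' [CompactSpace Z] [LocallyPathConnectedSpace Z] [PathConnectedSpace Z] :
    ∃ L : ℝ, 1 ≤ L ∧ ∀ (ξ x y : Z) (r : ℝ), 0 < r → L * r ≤ dist x ξ → L * r ≤ dist y ξ →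
      JoinedIn {z | r ≤ dist z ξ} x y := by
  have hC := V.one_le_C
  have ha := V.one_lt_a
  obtain ⟨L, hL, h⟩ := V.llc1'
  set M := 2 * V.C ^ 3 * (2 * L + 1) with hM
  have hC3 : 1 ≤ V.C ^ 3 := one_le_pow₀ hC
  have hM1 : 1 ≤ M := by nlinarith
  refine ⟨V.a * (M + V.C), by nlinarith, fun ξ x y r hr hx hy => ?_⟩
  have har : V.a * r ≤ 1 := by
    have := V.dist_le_one x ξ
    have : 0 ≤ V.a * r * (M + V.C - 1) := by
      have : 0 ≤ M + V.C - 1 := by linarith
      positivity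
    nlinarith
  obtain ⟨g, g1, g2, g3⟩ := V.exists_cell ξ (by positivity) har
  have hs := V.sz_pos g
  have g2' : r ≤ V.sz g := le_of_mul_le_mul_left g2 V.a_pos
  have far : ∀ w, V.a * (M + V.C) * r ≤ dist w ξ → V.rho g⁻¹ (g⁻¹ • w) ≤ V.C / M := by
    intro w hw
    refine V.rho_inv_le_of_far (by linarith) ?_
    have k1 := V.dist_le_rho g w
    have k2 := dist_triangle_right w ξ (V.ctr g)
    have k3 : (M + V.C) * V.sz g ≤ (M + V.C) * (V.a * r) := by gcongr
    nlinarith
  have fx := far x hx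
  have fy := far y hy
  refine V.joinedIn_smul g (h _ _) fun z hz => ?_
  rw [mem_closedBall] at hz
  have k1 := V.dist_le_rho_add g⁻¹ (g⁻¹ • x) (g⁻¹ • y)
  have k2 := V.rho_le_add g⁻¹ (g⁻¹ • z) (g⁻¹ • x)
  have k3 : L * dist (g⁻¹ • x) (g⁻¹ • y) ≤ L * (2 * (V.C / M)) := by gcongr; linarith
  have k4 : V.rho g⁻¹ (g⁻¹ • z) ≤ (2 * V.C ^ 2)⁻¹ := by
    have : (2 * L + 1) * (V.C / M) = (2 * V.C ^ 2)⁻¹ := by rw [hM]; field_simp
    nlinarith
  have k5 := V.le_rho_of_inv_near k4
  have k6 : 2 * V.C * V.sz g ≤ V.rho g z := by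
    calc 2 * V.C * V.sz g ≤ 2 * V.C * (V.C * (2 * V.C ^ 2)⁻¹ * V.rho g z) := by gcongr
      _ = _ := by field_simp
  have k7 : 2 * V.C * V.sz g ≤ dist z (V.ctr g) := by
    rcases le_max_iff.1 k6 with k | k
    · nlinarith
    · exact k
  have k8 := dist_triangle z ξ (V.ctr g)
  show r ≤ dist z ξ
  nlinarith

theorem llc1 (hZ : Nonempty (Z ≃ₜ S2)) : LLC1 Z := by
  haveI := compact_of_S2 hZ
  haveI := lpc_of_S2 hZ
  haveI := pc_of_S2 hZ
  obtain ⟨L, hL, h⟩ := V.llc1'
  exact ⟨L, hL, fun a b => h a b⟩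

theorem llc2 (hZ : Nonempty (Z ≃ₜ S2)) : LLC2 Z := by
  haveI := compact_of_S2 hZ
  haveI := lpc_of_S2 hZ
  haveI := pc_of_S2 hZ
  obtain ⟨L, hL, h⟩ := V.llc2'
  exact ⟨L, hL, fun ξ a b r hr ha hb => h ξ a b r hr ha hb⟩

end Visual

theorem zProp : ZPropStmt := fun _ _ _ _ _ V hZ =>
  ⟨V.continuous_smul, V.prop3, V.coc3, V.crBound, V.doubling, V.llc1 hZ, V.llc2 hZ⟩

end Crest.Agent.R193
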