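import Crest.Agent.R193.EDefs
import Crest.Agent.R193.VisProp
import Crest.Agent.R193.Unicoh

/-! Row 193, endgame [E]: the soft geometric input `Geo` from a visual boundary. -/

set_option autoImplicit false

open Set Filter Topology Metric

namespace Crest.Agent.R193.E

theorem isPreconnected_compl_ball {R : ℝ} (hR : 0 < R) : IsPreconnected (ball (0 : ℂ) R)ᶜ := by
  have e : (ball (0 : ℂ) R)ᶜ = (fun x : ℝ × ℝ => circleMap 0 x.1 x.2) '' (Ici R ×ˢ univ) := by
    ext w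
    simp only [mem_compl_iff, mem_ball_zero_iff, not_lt]
    constructor
    · intro hw
      exact ⟨(‖w‖, w.arg), ⟨hw, trivial⟩, by simp [circleMap]⟩
    · rintro ⟨x, ⟨hx, -⟩, rfl⟩
      rw [norm_circleMap_zero]
      exact le_trans hx (le_abs_self _)
  rw [e]
  refine (isPreconnected_Ici.prod isPreconnected_univ).image _ (Continuous.continuousOn ?_)
  unfold circleMap
  fun_prop

variable {G Z : Type} [Group G] [MetricSpace Z] [MulAction G Z]

theorem disc_of_S2 (hZ : Nonempty (Z ≃ₜ S2)) (q : Z) : ∃ e : ℂ → Z, IsOpenEmbedding e ∧ e 0 = q ∧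
    ∀ R : ℝ, 0 < R → IsPreconnected (e '' ball 0 R)ᶜ := by
  have := nontrivial_of_S2 hZ
  have := pc_of_S2 hZ
  obtain ⟨p, hp⟩ := exists_ne q
  obtain ⟨k, φ, hk, hφ, h1, h2, h3⟩ := Uni_chart hZ.some p
  have him : ∀ V : Set ℂ, (fun w => k (w + φ q)) '' V = {p}ᶜ ∩ (fun z => φ z - φ q) ⁻¹' V := by
    intro V
    ext z
    constructor
    · rintro ⟨w, hw, rfl⟩
      exact ⟨h1 _, by simpa [h2] using hw⟩
    · rintro ⟨hz, hz'⟩
      exact ⟨_, hz', by simpa using h3 z hz⟩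
  have hc : Continuous fun w => k (w + φ q) := hk.comp (continuous_add_const _)
  refine ⟨fun w => k (w + φ q), IsOpenEmbedding.of_continuous_injective_isOpenMap hc
    (fun a b e => by simpa [h2] using congrArg φ e) fun V hV => ?_,
    by simpa using h3 q hp.symm, fun R hR => ?_⟩
  · rw [him]
    exact (hφ.sub continuousOn_const).isOpen_inter_preimage isOpen_compl_singleton hV
  · refine ((isPreconnected_compl_ball hR).image _ hc.continuousOn).subset_closure ?_ ?_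
    · rw [him, him]
      exact fun z hz hz' => hz.2 hz'.2
    · intro z hz
      by_cases hzp : z = p
      · subst hzp
        have hK : IsClosed ((fun w => k (w + φ q)) '' closedBall 0 R) :=
          ((isCompact_closedBall 0 R).image hc).isClosed
        have h4 : ∀ᶠ v in 𝓝[≠] z, v ∈ (fun w => k (w + φ q)) '' (ball 0 R)ᶜ := by
          have h5 : ((fun w => k (w + φ q)) '' closedBall 0 R)ᶜ ∈ 𝓝 z :=
            hK.isOpen_compl.mem_nhds (by rintro ⟨w, -, e⟩; exact h1 _ e)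
          filter_upwards [self_mem_nhdsWithin, nhdsWithin_le_nhds h5] with v hv hv'
          rw [him] at hv' ⊢
          exact ⟨hv, fun h => hv' ⟨hv, ball_subset_closedBall h⟩⟩
        exact mem_closure_of_frequently_of_tendsto h4.frequently nhdsWithin_le_nhds
      · rw [him] at hz
        refine subset_closure ?_
        rw [him]
        exact ⟨hzp, fun h => hz ⟨hzp, h⟩⟩

theorem dbl_of_doubling [Nonempty Z] (hD : Doubling Z) (h1 : ∀ x y : Z, dist x y ≤ 1) (lam : ℝ) :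
    ∃ N : ℕ, ∀ r : ℝ, 0 < r → ∃ P : Finset Z, (∀ z, ∃ p ∈ P, dist z p < r) ∧
      ∀ p ∈ P, ((P : Set Z) ∩ closedBall p (lam * r)).ncard ≤ N := by
  classical
  obtain ⟨N, hN⟩ := hD lam
  refine ⟨N, fun r hr => ?_⟩
  obtain ⟨m, hm⟩ := hD r⁻¹
  obtain ⟨ξ⟩ := ‹Nonempty Z›
  have hb : ∀ S : Finset Z, Sepd r S → S.card ≤ m := fun S hS =>
    hm ξ r S hr hS fun z _ => by rw [inv_mul_cancel₀ hr.ne']; exact h1 _ _
  obtain ⟨n, ⟨P, hP, rfl⟩, hmax⟩ := (Set.finite_le_nat m |>.subset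
    (s := {n | n ≤ m}) (t := {n | ∃ S : Finset Z, Sepd r S ∧ S.card = n})
    (by rintro _ ⟨S, hS, rfl⟩; exact hb S hS)).exists_maximal
    ⟨0, ∅, by simp [Sepd], rfl⟩
  refine ⟨P, fun z => ?_, fun p hp => ?_⟩
  · by_contra hz
    push Not at hz
    have hzP : z ∉ P := fun h => by simpa using (hz z h).trans_lt' hr
    have hS : Sepd r (insert z P) := by
      intro x hx y hy hxy
      rcases Finset.mem_insert.1 hx with rfl | hx' <;> rcases Finset.mem_insert.1 hy with rfl | hy'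
      · exact absurd rfl hxy
      · exact hz y hy'
      · rw [dist_comm]; exact hz x hx'
      · exact hP x hx' y hy' hxy
    have := hmax ⟨insert z P, hS, rfl⟩ (Finset.card_le_card (Finset.subset_insert z P))
    rw [Finset.card_insert_of_notMem hzP] at this
    omega
  · have e : (P : Set Z) ∩ closedBall p (lam * r) =
        (P.filter fun z => dist z p ≤ lam * r : Finset Z) := by
      ext z; simp
    rw [e, ncard_coe_finset]
    exact hN p r _ hr (fun x hx y hy => hP x (Finset.mem_filter.1 hx).1 y (Finset.mem_filter.1 hy).1)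
      fun z hz => (Finset.mem_filter.1 hz).2

theorem expand_of_visual (V : Visual G Z) : ∃ c : ℝ, 0 < c ∧ ∃ L : ℝ, 1 ≤ L ∧
    ∀ (p : Z) (r : ℝ), 0 < r → ∃ g : G,
      ∀ ξ ∈ ball p r, ∀ ξ' ∉ ball p (L * r), c ≤ dist (g • ξ) (g • ξ') := by
  have hC := V.one_le_C
  have ha := V.one_lt_a
  refine ⟨(V.C * (V.C + V.a) * (V.C + V.a + 1))⁻¹, by positivity, 2, one_le_two,
    fun p r hr => ?_⟩
  by_cases h1 : r ≤ 1
  swap
  · refine ⟨1, fun ξ _ ξ' h => absurd (mem_ball.2 ?_) h⟩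
    linarith [V.dist_le_one ξ' p]
  obtain ⟨g, g1, g2, g3⟩ := V.exists_cell p hr h1
  refine ⟨g⁻¹, fun ξ hξ ξ' hξ' => ?_⟩
  rw [mem_ball] at hξ hξ'
  have hs := V.sz_pos g
  have h2 : V.rho g ξ ≤ (V.C + V.a) * V.sz g :=
    V.rho_le (by linarith) (by linarith [dist_triangle ξ p (V.ctr g)])
  have h3 := V.le_expand' h2 ξ'
  have h4 : r ≤ dist ξ ξ' := by linarith [dist_triangle_left ξ' p ξ]
  have h5 : V.rho g ξ' ≤ (V.C + V.a + 1) * dist ξ ξ' := by
    have := V.rho_le_add g ξ' ξ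
    rw [dist_comm ξ' ξ] at this
    nlinarith
  rw [inv_le_iff_one_le_mul₀' (by positivity)]
  refine le_of_mul_le_mul_right ?_ (hr.trans_le h4)
  calc 1 * dist ξ ξ' ≤ V.C * (V.C + V.a) * V.rho g ξ' * dist (g⁻¹ • ξ) (g⁻¹ • ξ') := by linarith
    _ ≤ V.C * (V.C + V.a) * ((V.C + V.a + 1) * dist ξ ξ') * dist (g⁻¹ • ξ) (g⁻¹ • ξ') := by gcongr
    _ = _ := by ring

theorem exists_fixed [CompactSpace Z] (h1 : ∀ x y : Z, dist x y ≤ 1) {y : G}
    (hc : Continuous fun z : Z => y • z) {A : Set Z} (hA : IsClosed A) (hne : A.Nonempty)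
    (hm : ∀ z ∈ A, y • z ∈ A) (hl : ∀ z ∈ A, ∀ w ∈ A, dist (y • z) (y • w) ≤ 1 / 2 * dist z w) :
    ∃ p ∈ A, y • p = p ∧ ∀ n : ℕ, ∀ z ∈ A, y ^ n • z ∈ A ∧ dist (y ^ n • z) p ≤ (1 / 2) ^ n := by
  obtain ⟨p, hp, hmin⟩ := hA.isCompact.exists_isMinOn hne
    (f := fun z => dist z (y • z)) (continuous_id.dist hc).continuousOn
  have h2 : dist p (y • p) ≤ dist (y • p) (y • y • p) := hmin (hm p hp)
  have h3 := hl p hp _ (hm p hp)
  have h4 : y • p = p := (dist_le_zero.1 (by linarith)).symm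
  refine ⟨p, hp, h4, fun n z hz => ?_⟩
  induction n with
  | zero => simpa using ⟨hz, h1 z p⟩
  | succ n ih =>
    rw [pow_succ', mul_smul]
    refine ⟨hm _ ih.1, ?_⟩
    have := hl _ ih.1 p hp
    rw [h4] at this
    rw [pow_succ']
    linarith [ih.2]

/-- ping-pong -/
theorem pingpong [CompactSpace Z] (h1 : ∀ x y : Z, dist x y ≤ 1)
    (hc : ∀ g : G, Continuous fun z : Z => g • z) {y : G} {α β : Z} {t s : ℝ} (hst : s < t)
    (ht : 0 < t) (hαβ : 2 * t ≤ dist α β)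
    (hm : ∀ z, t ≤ dist z β → dist (y • z) α ≤ s) (hm' : ∀ z, t ≤ dist z α → dist (y⁻¹ • z) β ≤ s)
    (hl : ∀ z w, t ≤ dist z β → t ≤ dist w β → dist (y • z) (y • w) ≤ 1 / 2 * dist z w)
    (hl' : ∀ z w, t ≤ dist z α → t ≤ dist w α → dist (y⁻¹ • z) (y⁻¹ • w) ≤ 1 / 2 * dist z w) :
    ∃ p q : Z, dist p α ≤ s ∧ p ≠ q ∧ y • p = p ∧ y • q = q ∧ ∀ K : Set Z, IsCompact K → q ∉ K →
      ∀ V ∈ 𝓝 p, ∀ᶠ n : ℕ in atTop, ∀ z ∈ K, y ^ n • z ∈ V := by
  obtain ⟨p, hp, hpf, hpn⟩ := exists_fixed h1 (hc y) (A := {z | t ≤ dist z β})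
    (isClosed_le continuous_const (by fun_prop)) ⟨α, by simp only [mem_ofPred_eq]; linarith⟩
    (fun z hz => by
      have := hm z hz
      have := dist_triangle_left α β (y • z)
      simp only [mem_ofPred_eq]; linarith) fun z hz w hw => hl z w hz hw
  obtain ⟨q, hq, hqf, hqn⟩ := exists_fixed h1 (hc y⁻¹) (A := {z | t ≤ dist z α})
    (isClosed_le continuous_const (by fun_prop))
    ⟨β, by simp only [mem_ofPred_eq]; rw [dist_comm]; linarith⟩
    (fun z hz => by
      have := hm' z hz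
      have := dist_triangle_left α β (y⁻¹ • z)
      simp only [mem_ofPred_eq]; linarith) fun z hz w hw => hl' z w hz hw
  have hpα : dist p α ≤ s := hpf ▸ hm p hp
  refine ⟨p, q, hpα, fun e => ?_, hpf, by rw [inv_smul_eq_iff] at hqf; exact hqf.symm,
    fun K hK hqK V hV => ?_⟩
  · rw [e] at hpα
    exact absurd (hst.trans_le hq) (not_lt.2 hpα)
  · obtain ⟨δ, hδ, hδK⟩ := Metric.mem_nhds_iff.1 (hK.isClosed.isOpen_compl.mem_nhds hqK)
    obtain ⟨ε, hε, hεV⟩ := Metric.mem_nhds_iff.1 hV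
    obtain ⟨n, hn⟩ := exists_pow_lt_of_lt_one hδ (show (1 / 2 : ℝ) < 1 by norm_num)
    obtain ⟨m, hm⟩ := exists_pow_lt_of_lt_one hε (show (1 / 2 : ℝ) < 1 by norm_num)
    filter_upwards [eventually_ge_atTop (m + n)] with j hj z hz
    obtain ⟨i, rfl⟩ := Nat.exists_eq_add_of_le hj
    have h2 : t ≤ dist (y ^ n • z) β := by
      by_contra h
      have h3 : t ≤ dist (y ^ n • z) α := by linarith [dist_triangle_left α β (y ^ n • z)]
      have h4 := (hqn n _ h3).2
      rw [inv_pow, inv_smul_smul] at h4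
      exact hδK (mem_ball.2 (h4.trans_lt hn)) hz
    have h5 := (hpn (m + i) _ h2).2
    rw [← mul_smul, ← pow_add, show m + i + n = m + n + i by ring] at h5
    refine hεV (mem_ball.2 (h5.trans_lt (lt_of_le_of_lt ?_ hm)))
    exact pow_le_pow_of_le_one (by norm_num) (by norm_num) (Nat.le_add_right _ _)

theorem exists_small (V : Visual G Z) (ξ : Z) {e : ℝ} (he : 0 < e) :
    ∃ x : G, V.sz x ≤ e ∧ dist ξ (V.ctr x) ≤ V.C * V.sz x := by
  obtain ⟨g, g1, -, g3⟩ := V.exists_cell ξ (lt_min he one_pos) (min_le_right _ _)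
  exact ⟨g, g1.trans (min_le_left _ _), g3⟩

theorem exists_moved [ConnectedSpace Z] [Nontrivial Z] (V : Visual G Z) {U : Set Z}
    (hU : IsOpen U) (hne : U.Nonempty) : ∃ p ∈ U, ∃ k : G, k⁻¹ • p ≠ p := by
  by_contra h
  push Not at h
  obtain ⟨a, ha⟩ := hne
  have hi := infinite_of_mem_nhds a (hU.mem_nhds ha)
  obtain ⟨b, hb, hba⟩ := (hi.sdiff (finite_singleton a)).nonempty
  obtain ⟨c, hc, hca⟩ := (hi.sdiff ((finite_singleton a).insert b)).nonempty
  simp only [mem_singleton_iff, mem_insert_iff, not_or] at hba hca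
  have hC := V.one_le_C
  obtain ⟨e, he, e1, e2, e3⟩ : ∃ e : ℝ, 0 < e ∧ 2 * e ≤ dist b a ∧ 2 * e ≤ dist c a ∧ e ≤ 1 :=
    ⟨min (min (dist b a / 2) (dist c a / 2)) 1, by
      have := dist_pos.2 hba; have := dist_pos.2 hca.2; positivity,
      by linarith [min_le_left (min (dist b a / 2) (dist c a / 2)) 1,
        min_le_left (dist b a / 2) (dist c a / 2)],
      by linarith [min_le_left (min (dist b a / 2) (dist c a / 2)) 1,
        min_le_right (dist b a / 2) (dist c a / 2)], min_le_right _ _⟩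
  obtain ⟨x, x1, x2⟩ := exists_small V a (e := e ^ 2 / (2 * V.C)) (by positivity)
  rw [le_div_iff₀ (by positivity)] at x1
  have f1 : e ≤ V.rho x b := by
    have := V.dist_le_rho x b
    have := dist_triangle_right b a (V.ctr x)
    nlinarith
  have f2 : e ≤ V.rho x c := by
    have := V.dist_le_rho x c
    have := dist_triangle_right c a (V.ctr x)
    nlinarith
  have h3 := V.contract_le he f1 f2
  rw [h b hb x, h c hc x, le_div_iff₀ (by positivity)] at h3
  have h4 := dist_pos.2 (Ne.symm hca.1)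
  have h5 : 0 < e ^ 2 := by positivity
  nlinarith

theorem ns_of_visual [CompactSpace Z] [ConnectedSpace Z] [Nontrivial Z] (V : Visual G Z)
    {U : Set Z} (hU : IsOpen U) (hne : U.Nonempty) : ∃ (g : G) (p q : Z), p ∈ U ∧ p ≠ q ∧
      g • p = p ∧ g • q = q ∧ ∀ K : Set Z, IsCompact K → q ∉ K → ∀ W ∈ 𝓝 p,
        ∀ᶠ n : ℕ in atTop, ∀ z ∈ K, g ^ n • z ∈ W := by
  obtain ⟨p₀, hp₀, k₀, hk₀⟩ := exists_moved V hU hne
  have hC := V.one_le_C
  obtain ⟨L, hL1, hL, hL'⟩ : ∃ L : ℝ, 1 ≤ L ∧ (∀ z w : Z, dist (k₀ • z) (k₀ • w) ≤ L * dist z w) ∧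
      ∀ z w : Z, dist (k₀⁻¹ • z) (k₀⁻¹ • w) ≤ L * dist z w :=
    ⟨V.C * V.a ^ V.len k₀, one_le_mul_of_one_le_of_one_le hC (one_le_pow₀ V.one_lt_a.le),
      V.dist_smul_le k₀, fun z w => V.len_inv k₀ ▸ V.dist_smul_le k₀⁻¹ z w⟩
  obtain ⟨ε, hε, hεU⟩ := Metric.isOpen_iff.1 hU p₀ hp₀
  have hd := dist_pos.2 hk₀
  obtain ⟨t, ht, ht1, ht2, ht3⟩ : ∃ t : ℝ, 0 < t ∧ t ≤ 1 ∧ t < ε ∧
      6 * L * t ≤ dist (k₀⁻¹ • p₀) p₀ :=
    ⟨min (min 1 (ε / 2)) (dist (k₀⁻¹ • p₀) p₀ / (6 * L)), by positivity,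
      (min_le_left _ _).trans (min_le_left _ _),
      ((min_le_left _ _).trans (min_le_right _ _)).trans_lt (by linarith), by
        rw [← le_div_iff₀' (by positivity)]; exact min_le_right _ _⟩
  obtain ⟨x, x1, x2⟩ := exists_small V p₀ (e := t ^ 2 / (2 * V.C * L ^ 3)) (by positivity)
  rw [le_div_iff₀ (by positivity)] at x1
  have hs := V.sz_pos x
  obtain ⟨k, hk, hk', hβ⟩ : ∃ k : G, (∀ z w : Z, dist (k • z) (k • w) ≤ L * dist z w) ∧
      (∀ z w : Z, dist (k⁻¹ • z) (k⁻¹ • w) ≤ L * dist z w) ∧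
      3 * t ≤ dist (k⁻¹ • V.ctr x⁻¹) p₀ := by
    by_cases h : 3 * t ≤ dist (V.ctr x⁻¹) p₀
    · refine ⟨1, fun z w => ?_, fun z w => ?_, by simpa using h⟩ <;>
        simpa using le_mul_of_one_le_left dist_nonneg hL1
    · refine ⟨k₀, hL, hL', ?_⟩
      have h1 := hL' (V.ctr x⁻¹) p₀
      have h2 := dist_triangle_left (k₀⁻¹ • p₀) p₀ (k₀⁻¹ • V.ctr x⁻¹)
      nlinarith
  have hL3 : L ≤ L ^ 3 := le_self_pow₀ hL1 (by norm_num)
  have hCs : 0 < V.C * V.sz x := by positivity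
  have b1 : V.C * V.sz x * L ≤ t ^ 2 / 2 := by nlinarith
  have b2 : V.C * V.sz x ≤ t / 2 := by nlinarith
  have far : ∀ z, t ≤ dist z (k⁻¹ • V.ctr x⁻¹) → t / L ≤ V.rho x⁻¹ (k • z) := fun z hz => by
    have h1 := hk' (k • z) (V.ctr x⁻¹)
    rw [inv_smul_smul] at h1
    refine le_trans ?_ (V.dist_le_rho _ _)
    rw [div_le_iff₀' (by positivity)]
    linarith
  obtain ⟨p, q, h1, h2⟩ := pingpong V.dist_le_one V.continuous_smul (y := x * k) (α := V.ctr x)
    (β := k⁻¹ • V.ctr x⁻¹) (t := t) (s := t / 2) (by linarith) ht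
    (by linarith [dist_triangle_left (k⁻¹ • V.ctr x⁻¹) p₀ (V.ctr x), dist_comm p₀ (V.ctr x)])
    (fun z hz => by
      have h1 := V.rho_le_of_inv_far (g := x) (ξ := x • k • z) (e := t / L) (by positivity)
        (by rw [inv_smul_smul]; exact far z hz)
      rw [mul_smul]
      refine (V.dist_le_rho _ _).trans (h1.trans ?_)
      rw [div_div_eq_mul_div, div_mul_eq_mul_div, div_le_iff₀ ht]
      nlinarith)
    (fun z hz => by
      have h1 := V.rho_inv_u x z
      have h2 := V.dist_le_rho x z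
      have h3 := V.dist_le_rho x⁻¹ (x⁻¹ • z)
      have h4 := hk' (x⁻¹ • z) (V.ctr x⁻¹)
      have h5 : dist (x⁻¹ • z) (V.ctr x⁻¹) * t ≤ V.C * V.sz x :=
        le_trans (mul_le_mul h3 (hz.trans h2) ht.le (V.rho_pos _ _).le) h1
      rw [mul_inv_rev, mul_smul]
      refine h4.trans (le_of_mul_le_mul_right ?_ ht)
      nlinarith)
    (fun z w hz hw => by
      have h1 := V.contract_le (g := x⁻¹) (by positivity) (far z hz) (far w hw)
      rw [inv_inv, V.sz_inv, div_pow, div_div_eq_mul_div, le_div_iff₀ (by positivity)] at h1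
      have h2 := hk z w
      rw [mul_smul, mul_smul]
      refine le_of_mul_le_mul_right (h1.trans ?_) (show 0 < t ^ 2 by positivity)
      calc _ ≤ V.C * V.sz x * (L * dist z w) * L ^ 2 := by gcongr
        _ = V.sz x * (2 * V.C * L ^ 3) * (dist z w / 2) := by ring
        _ ≤ t ^ 2 * (dist z w / 2) := by gcongr
        _ = _ := by ring)
    (fun z w hz hw => by
      have h1 := V.contract_le (g := x) ht (hz.trans (V.dist_le_rho _ _))
        (hw.trans (V.dist_le_rho _ _))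
      rw [le_div_iff₀ (by positivity)] at h1
      have h2 := hk' (x⁻¹ • z) (x⁻¹ • w)
      rw [mul_inv_rev, mul_smul, mul_smul]
      refine h2.trans (le_of_mul_le_mul_right ?_ (show 0 < t ^ 2 by positivity))
      calc _ = L * (dist (x⁻¹ • z) (x⁻¹ • w) * t ^ 2) := by ring
        _ ≤ L * (V.C * V.sz x * dist z w) := by gcongr
        _ = V.C * V.sz x * L * dist z w := by ring
        _ ≤ t ^ 2 / 2 * dist z w := by gcongr
        _ = _ := by ring)
  refine ⟨x * k, p, q, hεU (mem_ball.2 ?_), h2⟩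
  linarith [dist_triangle_right p p₀ (V.ctr x)]

/-- the soft geometric input -/
theorem geo_of_visual (V : Visual G Z) (hZ : Nonempty (Z ≃ₜ S2)) : Geo G Z := by
  have := nontrivial_of_S2 hZ
  have := pc_of_S2 hZ
  have := compact_of_S2 hZ
  exact ⟨V.continuous_smul, isPreconnected_univ, disc_of_S2 hZ,
    dbl_of_doubling V.doubling V.dist_le_one, expand_of_visual V,
    fun U hU hne => ns_of_visual V hU hne, inferInstance⟩

end Crest.Agent.R193.E
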