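import Crest.Agent.R193.EDefs
import Crest.Agent.Lib.RMT.Basic

/-! Row 193, endgame [E]: a local conformal chart globalises (Koenigs linearisation of a
north-south element). -/

set_option autoImplicit false

open Set Filter Topology Metric Function
open scoped ComplexConjugate

namespace Crest.Agent.R193.E

/-- Koenigs' linearisation theorem -/
theorem koenigs {T : ℂ → ℂ} (hT : AnalyticAt ℂ T 0) (h0 : T 0 = 0) (hl0 : deriv T 0 ≠ 0)
    (hl1 : ‖deriv T 0‖ ≤ 1 / 2) {r : ℝ} (hr : 0 < r) :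
    ∃ (ρ : ℝ) (φ : ℂ → ℂ), 0 < ρ ∧ ρ ≤ r ∧ DifferentiableOn ℂ φ (ball 0 ρ) ∧ InjOn φ (ball 0 ρ) ∧
      φ 0 = 0 ∧ MapsTo T (ball 0 ρ) (ball 0 ρ) ∧
      ∀ w ∈ ball (0 : ℂ) ρ, φ (T w) = deriv T 0 * φ w := by
  set l := deriv T 0 with hl
  have hlp : 0 < ‖l‖ := norm_pos_iff.2 hl0
  obtain ⟨r₁, hr₁, hT₁⟩ := Metric.eventually_nhds_iff_ball.1 hT.eventually_analyticAt
  have hd₁ : DifferentiableOn ℂ T (ball 0 r₁) := fun w hw =>
    (hT₁ w hw).differentiableAt.differentiableWithinAt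
  have hψ : DifferentiableAt ℂ (dslope T 0) 0 :=
    ((Complex.differentiableOn_dslope (ball_mem_nhds 0 hr₁)).2 hd₁).differentiableAt
      (ball_mem_nhds 0 hr₁)
  obtain ⟨C, hC, hb⟩ := hψ.isBigO_sub.exists_pos
  obtain ⟨r₂, hr₂, hT₂⟩ := Metric.eventually_nhds_iff_ball.1 hb.bound
  obtain ⟨ρ, hρ, hρ1, hρ2, hρ3⟩ : ∃ ρ : ℝ, 0 < ρ ∧ ρ ≤ r₁ ∧ ρ ≤ r₂ ∧ C * ρ ≤ ‖l‖ / 4 :=
    ⟨min (min r₁ r₂) (‖l‖ / 4 / C), by positivity, (min_le_left _ _).trans (min_le_left _ _),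
      (min_le_left _ _).trans (min_le_right _ _), by
        rw [← le_div_iff₀' hC]; exact min_le_right _ _⟩
  have hd : DifferentiableOn ℂ T (ball 0 ρ) := hd₁.mono (ball_subset_ball hρ1)
  have hq : ∀ w ∈ ball (0 : ℂ) ρ, ‖T w - l * w‖ ≤ C * ‖w‖ ^ 2 := by
    intro w hw
    have h1 := hT₂ w (ball_subset_ball hρ2 hw)
    have h2 := sub_smul_dslope T 0 w
    rw [dslope_same, sub_zero] at h1
    rw [sub_zero, h0, sub_zero, smul_eq_mul] at h2
    have h3 : T w - l * w = w * (dslope T 0 w - l) := by rw [← h2]; ring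
    rw [h3, norm_mul]
    nlinarith [norm_nonneg w]
  have hs : ∀ w ∈ ball (0 : ℂ) ρ, ‖T w‖ ≤ 5 / 4 * ‖l‖ * ‖w‖ := by
    intro w hw
    have h1 := hq w hw
    have h2 : ‖T w‖ ≤ ‖T w - l * w‖ + ‖l‖ * ‖w‖ := by
      rw [← norm_mul]; exact norm_le_norm_sub_add _ _
    have h3 : ‖w‖ < ρ := mem_ball_zero_iff.1 hw
    have h4 : C * ‖w‖ ≤ ‖l‖ / 4 := le_trans (by gcongr) hρ3
    nlinarith [norm_nonneg w]
  have hs' : ∀ w ∈ ball (0 : ℂ) ρ, ‖T w‖ ≤ ‖w‖ := fun w hw =>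
    (hs w hw).trans (by nlinarith [norm_nonneg w])
  have hm : MapsTo T (ball 0 ρ) (ball 0 ρ) := fun w hw =>
    mem_ball_zero_iff.2 ((hs' w hw).trans_lt (mem_ball_zero_iff.1 hw))
  have hit : ∀ (n : ℕ), ∀ w ∈ ball (0 : ℂ) ρ, ‖T^[n] w‖ ≤ (5 / 4 * ‖l‖) ^ n * ‖w‖ := by
    intro n w hw
    induction n with
    | zero => simp
    | succ n ih =>
      rw [iterate_succ_apply', pow_succ', mul_assoc]
      exact (hs _ (hm.iterate n hw)).trans (by gcongr)
  have hdi : ∀ n : ℕ, DifferentiableOn ℂ T^[n] (ball 0 ρ) := fun n => hd.iterate hm n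
  let u : ℕ → ℂ → ℂ := fun n w => T^[n + 1] w / l ^ (n + 1) - T^[n] w / l ^ n
  have hu : ∀ (n : ℕ), ∀ w ∈ ball (0 : ℂ) ρ, ‖u n w‖ ≤ C / ‖l‖ * ‖w‖ ^ 2 * (25 / 32) ^ n := by
    intro n w hw
    have e : u n w = (T (T^[n] w) - l * T^[n] w) / l ^ (n + 1) := by
      simp only [u, iterate_succ_apply']
      field_simp
      ring
    have h1 := hq _ (hm.iterate n hw)
    have h2 := hit n w hw
    have h3 : ((5 / 4 * ‖l‖) ^ n) ^ 2 ≤ (25 / 32) ^ n * ‖l‖ ^ n := by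
      rw [← pow_mul, mul_comm n 2, pow_mul, ← mul_pow]
      gcongr
      nlinarith
    rw [e, norm_div, norm_pow, div_le_iff₀ (by positivity)]
    calc _ ≤ C * ((5 / 4 * ‖l‖) ^ n * ‖w‖) ^ 2 := h1.trans (by gcongr)
      _ = C * ‖w‖ ^ 2 * ((5 / 4 * ‖l‖) ^ n) ^ 2 := by ring
      _ ≤ C * ‖w‖ ^ 2 * ((25 / 32) ^ n * ‖l‖ ^ n) := by gcongr
      _ = _ := by field_simp; ring
  have hgeo : HasSum (fun n : ℕ => (25 / 32 : ℝ) ^ n) (1 - 25 / 32)⁻¹ :=
    hasSum_geometric_of_lt_one (by norm_num) (by norm_num)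
  let φ : ℂ → ℂ := fun w => w + ∑' n, u n w
  have hφd : DifferentiableOn ℂ φ (ball 0 ρ) := by
    refine differentiableOn_id.add (Complex.differentiableOn_tsum_of_summable_norm
      (hgeo.mul_left (C / ‖l‖ * ρ ^ 2)).summable
      (fun n => ((hdi _).div_const _).sub ((hdi _).div_const _)) isOpen_ball fun n w hw => ?_)
    have h3 : ‖w‖ < ρ := mem_ball_zero_iff.1 hw
    exact (hu n w hw).trans (by gcongr)
  have hφl : ∀ w ∈ ball (0 : ℂ) ρ, Tendsto (fun n : ℕ => T^[n] w / l ^ n) atTop (𝓝 (φ w)) := by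
    intro w hw
    have h1 : Summable fun n => u n w :=
      .of_norm_bounded (hgeo.mul_left (C / ‖l‖ * ‖w‖ ^ 2)).summable fun n => hu n w hw
    refine (h1.hasSum.tendsto_sum_nat.const_add w).congr fun n => ?_
    rw [Finset.sum_range_sub (fun n => T^[n] w / l ^ n)]
    simp
  have hφb : ∀ w ∈ ball (0 : ℂ) ρ, ‖φ w - w‖ ≤ C / ‖l‖ * (1 - 25 / 32)⁻¹ * ‖w‖ ^ 2 := by
    intro w hw
    have h1 := tsum_of_norm_bounded (hgeo.mul_left (C / ‖l‖ * ‖w‖ ^ 2)) fun n => hu n w hw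
    simp only [φ, add_sub_cancel_left]
    linarith
  have hφ0 : φ 0 = 0 := by simpa using hφb 0 (mem_ball_self hρ)
  have hφ1 : HasDerivAt φ 1 0 := by
    rw [hasDerivAt_iff_isLittleO]
    simp only [hφ0, sub_zero, smul_eq_mul, mul_one]
    refine Asymptotics.IsBigO.trans_isLittleO ?_ (Asymptotics.isLittleO_norm_pow_id one_lt_two)
    refine Asymptotics.IsBigO.of_bound (C / ‖l‖ * (1 - 25 / 32)⁻¹) ?_
    filter_upwards [ball_mem_nhds 0 hρ] with w hw
    simpa using hφb w hw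
  have hφs : HasStrictDerivAt φ 1 0 := by
    have := (hφd.analyticAt (ball_mem_nhds 0 hρ)).hasStrictDerivAt
    rwa [hφ1.deriv] at this
  obtain ⟨r₃, hr₃, hinv⟩ := Metric.eventually_nhds_iff_ball.1
    (hφs.hasStrictFDerivAt_equiv one_ne_zero).eventually_left_inverse
  have hsub : ball (0 : ℂ) (min (min ρ r₃) r) ⊆ ball 0 ρ :=
    ball_subset_ball ((min_le_left _ _).trans (min_le_left _ _))
  have hsub' : ball (0 : ℂ) (min (min ρ r₃) r) ⊆ ball 0 r₃ :=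
    ball_subset_ball ((min_le_left _ _).trans (min_le_right _ _))
  refine ⟨min (min ρ r₃) r, φ, by positivity, min_le_right _ _, hφd.mono hsub,
    fun w hw w' hw' e => ?_, hφ0, fun w hw => ?_, fun w hw => ?_⟩
  · rw [← hinv w (hsub' hw), e, hinv w' (hsub' hw')]
  · exact mem_ball_zero_iff.2 ((hs' w (hsub hw)).trans_lt (mem_ball_zero_iff.1 hw))
  · have h1 := hφl _ (hm (hsub hw))
    have h2 := ((hφl w (hsub hw)).comp (tendsto_add_atTop_nat 1)).const_mul l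
    refine tendsto_nhds_unique h1 (h2.congr fun n => ?_)
    simp only [comp_apply, iterate_succ_apply]
    field_simp
    ring

/-- holomorphic or antiholomorphic germ -/
def HA (τ : ℂ → ℂ) (w : ℂ) : Prop :=
  AnalyticAt ℂ τ w ∨ AnalyticAt ℂ (fun w => (starRingEnd ℂ) (τ w)) w

theorem analyticAt_conj_conj {φ : ℂ → ℂ} {x : ℂ} (h : AnalyticAt ℂ φ x) :
    AnalyticAt ℂ (fun w => conj (φ (conj w))) (conj x) := by
  rw [Complex.analyticAt_iff_eventually_differentiableAt] at h ⊢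
  have h1 : Tendsto (fun w : ℂ => conj w) (𝓝 (conj x)) (𝓝 x) := by
    simpa using Complex.continuous_conj.tendsto (conj x)
  filter_upwards [h1.eventually h] with w hw
  exact differentiableAt_conj_conj_iff.2 hw

theorem HA.comp_right {τ ψ : ℂ → ℂ} {w : ℂ} (h : HA τ (ψ w)) (hψ : AnalyticAt ℂ ψ w) :
    HA (fun v => τ (ψ v)) w :=
  h.imp (fun h => h.comp hψ) fun h => h.comp hψ

theorem HA.comp_left {τ φ : ℂ → ℂ} {w : ℂ} (h : HA τ w) (hφ : AnalyticAt ℂ φ (τ w)) :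
    HA (fun v => φ (τ v)) w := by
  refine h.imp (fun h => hφ.comp h) fun h => ?_
  simpa [comp_def] using (analyticAt_conj_conj hφ).comp (f := fun w => conj (τ w)) h

theorem HA.congr {τ τ' : ℂ → ℂ} {w : ℂ} (h : HA τ w) (e : τ =ᶠ[𝓝 w] τ') : HA τ' w :=
  h.imp (fun h => h.congr e) fun h => h.congr (e.mono fun v hv => by simp only [hv])

/-- an injective map of a disc with holomorphic or antiholomorphic germs has one type -/
theorem HA.dichotomy {σ : ℂ → ℂ} {B : Set ℂ} (hB : IsOpen B) (hc : IsPreconnected B)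
    (hi : InjOn σ B) (h : ∀ w ∈ B, HA σ w) :
    (∀ w ∈ B, AnalyticAt ℂ σ w) ∨ ∀ w ∈ B, AnalyticAt ℂ (fun w => conj (σ w)) w := by
  have h1 := hc.subset_or_subset (hB.inter (isOpen_analyticAt ℂ σ))
    (hB.inter (isOpen_analyticAt ℂ fun w => conj (σ w))) ?_
    fun w hw => (h w hw).imp (fun h => ⟨hw, h⟩) fun h => ⟨hw, h⟩
  · exact h1.imp (fun h w hw => (h hw).2) fun h w hw => (h hw).2
  · rw [Set.disjoint_left]
    rintro w ⟨hw, h1⟩ ⟨-, h2⟩
    have hU : IsOpen (B ∩ {w | AnalyticAt ℂ σ w}) := hB.inter (isOpen_analyticAt ℂ σ)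
    refine Lib.RMT.deriv_ne_zero_of_injOn hU
      (fun v hv => hv.2.differentiableAt.differentiableWithinAt) (hi.mono inter_subset_left)
      ⟨hw, h1⟩ ?_
    have d1 := h1.differentiableAt.hasDerivAt.hasFDerivAt.restrictScalars ℝ
    have d2 := h2.differentiableAt.hasDerivAt.hasFDerivAt.restrictScalars ℝ
    have d3 := d2.unique ((Complex.conjCLE : ℂ →L[ℝ] ℂ).hasFDerivAt.comp w d1)
    have e1 := congrArg (fun L : ℂ →L[ℝ] ℂ => L 1) d3
    have eI := congrArg (fun L : ℂ →L[ℝ] ℂ => L Complex.I) d3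
    simp [ContinuousLinearMap.toSpanSingleton_apply] at e1 eI
    rw [e1] at eI
    have : conj (deriv σ w) = 0 := by
      have hI : Complex.I * Complex.I = -1 := Complex.I_mul_I
      linear_combination (-Complex.I / 2) * eI + conj (deriv σ w) * hI
    simpa using this

variable {G Z : Type} [Group G] [MetricSpace Z] [MulAction G Z]

/-- local form of `Atlas` -/
structure LAtlas (G : Type) {Z : Type} [Group G] [MetricSpace Z] [MulAction G Z]
    (U : Set Z) (F : Z → ℂ) : Prop where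
  isOpen : IsOpen U
  cont : ∀ z ∈ U, ContinuousAt F z
  inj : InjOn F U
  nhds : ∀ z ∈ U, 𝓝 (F z) ≤ map F (𝓝 z)
  hol : ∀ (g : G) (z : Z), z ∈ U → g • z ∈ U → ∃ τ : ℂ → ℂ, HA τ (F z) ∧
    ∀ᶠ z' in 𝓝 z, F (g • z') = τ (F z')

theorem Atlas.local {U : Set Z} {F : Z → ℂ} (h : Atlas G U F) : LAtlas G U F := by
  refine ⟨h.isOpen, fun z _ => h.cont.continuousAt, h.inj, fun z hz => ?_, h.hol⟩
  refine Filter.le_map fun s hs => ?_
  obtain ⟨V, hV, hVo, hzV⟩ := _root_.mem_nhds_iff.1 (inter_mem hs (h.isOpen.mem_nhds hz))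
  exact mem_of_superset ((h.isOpenMap V hVo (hV.trans inter_subset_right)).mem_nhds
    (mem_image_of_mem F hzV)) (image_mono (hV.trans inter_subset_left))

namespace LAtlas

variable {U : Set Z} {F : Z → ℂ}

theorem image_mem (h : LAtlas G U F) {z : Z} (hz : z ∈ U) {s : Set Z} (hs : s ∈ 𝓝 z) :
    F '' s ∈ 𝓝 (F z) := h.nhds z hz (image_mem_map hs)

theorem tendsto_inv [Nonempty Z] (h : LAtlas G U F) {z : Z} (hz : z ∈ U) :
    Tendsto (invFunOn F U) (𝓝 (F z)) (𝓝 z) := by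
  refine Tendsto.mono_left ?_ (h.nhds z hz)
  rw [tendsto_map'_iff]
  refine tendsto_id.congr' ?_
  filter_upwards [h.isOpen.mem_nhds hz] with v hv using (h.inj.leftInvOn_invFunOn hv).symm

theorem mono (h : LAtlas G U F) {U' : Set Z} (hU' : IsOpen U') (hs : U' ⊆ U) : LAtlas G U' F :=
  ⟨hU', fun z hz => h.cont z (hs hz), h.inj.mono hs, fun z hz => h.nhds z (hs hz),
    fun g z hz hz' => h.hol g z (hs hz) (hs hz')⟩

theorem comp (hc : ∀ g : G, Continuous fun z : Z => g • z) (h : LAtlas G U F) {φ : ℂ → ℂ}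
    {B : Set ℂ} (hB : IsOpen B) (hφ : DifferentiableOn ℂ φ B) (hi : InjOn φ B)
    (hm : MapsTo F U B) : LAtlas G U fun z => φ (F z) := by
  have ha : ∀ w ∈ B, AnalyticAt ℂ φ w := fun w hw => hφ.analyticAt (hB.mem_nhds hw)
  have hinv : ∀ w ∈ B, AnalyticAt ℂ (invFunOn φ B) (φ w) := by
    intro w hw
    refine DifferentiableOn.analyticAt (s := φ '' B) ?_
      ((Lib.RMT.isOpen_image_of_injOn hB hφ hi).mem_nhds (mem_image_of_mem φ hw))
    rintro _ ⟨v, hv, rfl⟩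
    exact (Lib.RMT.hasStrictDerivAt_invFunOn hB hφ hi
      hv).hasDerivAt.differentiableAt.differentiableWithinAt
  refine ⟨h.isOpen, fun z hz => (ha _ (hm hz)).continuousAt.comp (h.cont z hz),
    fun z hz z' hz' e => h.inj hz hz' (hi (hm hz) (hm hz') e), fun z hz => ?_,
    fun g z hz hz' => ?_⟩
  · rw [← (ha _ (hm hz)).hasStrictDerivAt.map_nhds_eq
      (Lib.RMT.deriv_ne_zero_of_injOn hB hφ hi (hm hz))]
    exact map_mono (h.nhds z hz)
  · obtain ⟨τ, hτ, e⟩ := h.hol g z hz hz'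
    have e1 : invFunOn φ B (φ (F z)) = F z := hi.leftInvOn_invFunOn (hm hz)
    refine ⟨fun v => φ (τ (invFunOn φ B v)), ?_, ?_⟩
    · refine HA.comp_left (τ := fun v => τ (invFunOn φ B v))
        (HA.comp_right (e1.symm ▸ hτ) (hinv _ (hm hz))) ?_
      rw [e1, ← e.self_of_nhds]
      exact ha _ (hm hz')
    · filter_upwards [e, h.isOpen.mem_nhds hz] with v hv hv'
      rw [hv, hi.leftInvOn_invFunOn (hm hv')]

/-- a global chart gives the conclusion -/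
theorem out_of_global {q : Z} (h : LAtlas G {q}ᶜ F) (hs : SurjOn F {q}ᶜ univ) : Out G Z := by
  have : Nonempty Z := ⟨q⟩
  have k1 : ∀ w, invFunOn F {q}ᶜ w ∈ ({q}ᶜ : Set Z) := fun w => invFunOn_mem (hs (mem_univ w))
  have k2 : ∀ w, F (invFunOn F {q}ᶜ w) = w := fun w => invFunOn_eq (hs (mem_univ w))
  have k3 : ∀ z ∈ ({q}ᶜ : Set Z), invFunOn F {q}ᶜ (F z) = z := fun z hz =>
    h.inj.leftInvOn_invFunOn hz
  have k4 : Continuous (invFunOn F {q}ᶜ) := by
    refine continuous_iff_continuousAt.2 fun w => ?_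
    have := h.tendsto_inv (k1 w)
    rwa [k2] at this
  refine ⟨q, invFunOn F {q}ᶜ, (IsOpenEmbedding.of_continuous_injective_isOpenMap k4
    (LeftInverse.injective k2) fun V hV => ?_).isEmbedding, ?_, fun g => ?_⟩
  · have e : invFunOn F {q}ᶜ '' V = {q}ᶜ ∩ F ⁻¹' V := by
      ext z
      constructor
      · rintro ⟨w, hw, rfl⟩
        exact ⟨k1 w, by rwa [mem_preimage, k2]⟩
      · rintro ⟨hz, hz'⟩
        exact ⟨F z, hz', k3 z hz⟩
    rw [e]
    exact ContinuousOn.isOpen_inter_preimage (fun z hz => (h.cont z hz).continuousWithinAt)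
      h.isOpen hV
  · ext z
    exact ⟨by rintro ⟨w, rfl⟩; exact k1 w, fun hz => ⟨F z, k3 z hz⟩⟩
  · refine ⟨fun w => F (g • invFunOn F {q}ᶜ w), fun w hw => k3 _ hw, fun w hw => ?_⟩
    obtain ⟨τ, hτ, e⟩ := h.hol g _ (k1 w) hw
    rw [k2] at hτ
    refine HA.congr hτ ?_
    filter_upwards [(k4.tendsto w).eventually e] with v hv
    rw [hv, k2]

/-- a linearising chart of a north-south element extends to a global chart -/
theorem global_of_linear (hc : ∀ g : G, Continuous fun z : Z => g • z) (h : LAtlas G U F)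
    {g : G} {p q : Z} {l : ℂ} (hl0 : l ≠ 0) (hl1 : ‖l‖ < 1) (hp : p ∈ U) (hFp : F p = 0)
    (hq : q ∉ U) (hgq : g • q = q) (hm : ∀ z ∈ U, g • z ∈ U) (hF : ∀ z ∈ U, F (g • z) = l * F z)
    (hall : ∀ z, z ≠ q → ∃ n : ℕ, g ^ n • z ∈ U) :
    ∃ Φ : Z → ℂ, LAtlas G {q}ᶜ Φ ∧ SurjOn Φ {q}ᶜ univ := by
  classical
  have : ContinuousConstSMul G Z := ⟨hc⟩
  have step : ∀ (m j : ℕ) (z : Z), g ^ m • z ∈ U →
      g ^ (m + j) • z ∈ U ∧ F (g ^ (m + j) • z) = l ^ j * F (g ^ m • z) := by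
    intro m j z hz
    induction j with
    | zero => simpa using hz
    | succ j ih =>
      rw [← add_assoc, pow_succ', mul_smul]
      exact ⟨hm _ ih.1, by rw [hF _ ih.1, ih.2]; ring⟩
  obtain ⟨Φ, hΦ⟩ : ∃ Φ : Z → ℂ, ∀ (n : ℕ) (z : Z), g ^ n • z ∈ U →
      Φ z = (l ^ n)⁻¹ * F (g ^ n • z) := by
    refine ⟨fun z => if H : ∃ n : ℕ, g ^ n • z ∈ U then
      (l ^ H.choose)⁻¹ * F (g ^ H.choose • z) else 0, fun n z hz => ?_⟩
    have H : ∃ n : ℕ, g ^ n • z ∈ U := ⟨n, hz⟩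
    simp only [dif_pos H]
    have h1 := (step _ n z H.choose_spec).2
    have h2 := (step n H.choose z hz).2
    rw [add_comm, h1] at h2
    field_simp
    linear_combination h2
  have hloc : ∀ (n : ℕ) (z : Z), g ^ n • z ∈ U →
      Φ =ᶠ[𝓝 z] fun v => (l ^ n)⁻¹ * F (g ^ n • v) := fun n z hz =>
    (((hc _).tendsto z).eventually (h.isOpen.mem_nhds hz)).mono fun v hv => hΦ n v hv
  have hpow : ∀ n : ℕ, g ^ n • q = q := fun n => by
    induction n with
    | zero => simp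
    | succ n ih => rw [pow_succ, mul_smul, hgq, ih]
  refine ⟨Φ, ⟨isOpen_compl_singleton, fun z hz => ?_, fun z hz z' hz' e => ?_, fun z hz => ?_,
    fun γ z hz hz' => ?_⟩, fun w _ => ?_⟩
  · obtain ⟨n, hn⟩ := hall z hz
    exact (continuousAt_const.mul ((h.cont _ hn).comp (f := fun v : Z => g ^ n • v)
      (hc _).continuousAt)).congr (hloc n z hn).symm
  · obtain ⟨n, hn⟩ := hall z hz
    obtain ⟨m, hm'⟩ := hall z' hz'
    have h1 := (step n m z hn).1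
    have h2 := (step m n z' hm').1
    rw [add_comm] at h2
    rw [hΦ _ _ h1, hΦ _ _ h2] at e
    exact MulAction.injective _ (h.inj h1 h2
      (mul_left_cancel₀ (inv_ne_zero (pow_ne_zero _ hl0)) e))
  · obtain ⟨n, hn⟩ := hall z hz
    have h1 : map (fun v : Z => g ^ n • v) (𝓝 z) = 𝓝 (g ^ n • z) :=
      (Homeomorph.smul (g ^ n)).map_nhds_eq z
    have h2 := h.nhds _ hn
    rw [map_congr (hloc n z hn), hΦ n z hn,
      ← map_mul_left_nhds₀ (inv_ne_zero (pow_ne_zero n hl0))]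
    rw [← h1] at h2
    exact map_mono h2
  · obtain ⟨n, hn⟩ := hall z hz
    obtain ⟨m, hm'⟩ := hall _ hz'
    have e0 : ∀ v : Z, (g ^ m * γ * (g ^ n)⁻¹) • g ^ n • v = g ^ m • γ • v := fun v => by
      simp [mul_smul]
    obtain ⟨τ, hτ, e⟩ := h.hol (g ^ m * γ * (g ^ n)⁻¹) _ hn (by rwa [e0])
    have e1 : ∀ v : Z, g ^ n • v ∈ U → l ^ n * Φ v = F (g ^ n • v) := fun v hv => by
      rw [hΦ n v hv]; field_simp
    refine ⟨fun v => (l ^ m)⁻¹ * τ (l ^ n * v), ?_, ?_⟩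
    · refine HA.comp_left (φ := fun v => (l ^ m)⁻¹ * v) (τ := fun v => τ (l ^ n * v))
        (HA.comp_right (ψ := fun v => l ^ n * v) ?_ (by fun_prop)) (by fun_prop)
      rwa [e1 z hn]
    · filter_upwards [((hc _).tendsto z).eventually e,
        ((hc _).tendsto z).eventually (h.isOpen.mem_nhds hn),
        ((hc γ).tendsto z).eventually (hloc m _ hm')] with v h1 h2 h3
      rw [h3, e1 v h2, ← h1, e0]
  · have h1 := h.image_mem hp (h.isOpen.mem_nhds hp)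
    have h2 : Tendsto (fun n : ℕ => l ^ n * w) atTop (𝓝 (F p)) := by
      simpa [hFp] using (tendsto_pow_atTop_nhds_zero_of_norm_lt_one hl1).mul_const w
    obtain ⟨n, z, hz, e⟩ := (h2.eventually h1).exists
    have e0 : g ^ n • (g ^ n)⁻¹ • z = z := smul_inv_smul _ _
    refine ⟨(g ^ n)⁻¹ • z, fun e' => hq ?_, ?_⟩
    · rw [← hpow n, ← mem_singleton_iff.1 e', e0]
      exact hz
    · rw [hΦ n _ (by rwa [e0]), e0, e]
      field_simp

end LAtlas

/-- globalisation of a local conformal chart -/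
theorem out_of_atlas {U : Set Z} {F : Z → ℂ} (hG : Geo G Z) (hA : Atlas G U F) : Out G Z := by
  obtain ⟨g, p, q, hp, hpq, hgp, hgq, hns⟩ := hG.ns U hA.isOpen hA.ne
  have : Nonempty Z := ⟨p⟩
  have hU : IsOpen (U ∩ {q}ᶜ) := hA.isOpen.inter isOpen_compl_singleton
  obtain ⟨U₁, F₁, h, hp₁, hq₁, hF₁⟩ : ∃ (U₁ : Set Z) (F₁ : Z → ℂ), LAtlas G U₁ F₁ ∧ p ∈ U₁ ∧
      q ∉ U₁ ∧ F₁ p = 0 :=
    ⟨U ∩ {q}ᶜ, fun z => F z - F p, (hA.local.mono hU inter_subset_left).comp hG.cont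
      (φ := fun w => w - F p) isOpen_univ (by fun_prop) (fun a _ b _ e => sub_left_injective e)
      (mapsTo_univ _ _), ⟨hp, hpq⟩, fun h => h.2 rfl, sub_self _⟩
  obtain ⟨r, hr, hrU⟩ := nhds_basis_closedBall.mem_iff.1 (h.image_mem hp₁ (h.isOpen.mem_nhds hp₁))
  rw [hF₁] at hrU
  set k := invFunOn F₁ U₁ with hk
  have k1 : ∀ w ∈ closedBall (0 : ℂ) r, k w ∈ U₁ := fun w hw => invFunOn_mem (hrU hw)
  have k2 : ∀ w ∈ closedBall (0 : ℂ) r, F₁ (k w) = w := fun w hw => invFunOn_eq (hrU hw)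
  have k3 : ∀ z ∈ U₁, k (F₁ z) = z := fun z hz => h.inj.leftInvOn_invFunOn hz
  have k4 : ∀ w ∈ closedBall (0 : ℂ) r, ContinuousAt k w := fun w hw => by
    have := h.tendsto_inv (k1 w hw)
    rwa [k2 w hw] at this
  have hK : IsCompact (k '' closedBall 0 r) :=
    (isCompact_closedBall 0 r).image_of_continuousOn fun w hw => (k4 w hw).continuousWithinAt
  have hnb : ∀ s : ℝ, 0 < s → U₁ ∩ F₁ ⁻¹' ball 0 s ∈ 𝓝 p := fun s hs =>
    inter_mem (h.isOpen.mem_nhds hp₁) (h.cont p hp₁ (by rw [hF₁]; exact ball_mem_nhds 0 hs))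
  obtain ⟨n, hn, hn1⟩ := ((hns _ hK (by rintro ⟨w, hw, e⟩; exact hq₁ (e ▸ k1 w hw)) _
    (hnb (r / 2) (by positivity))).and (eventually_ge_atTop 1)).exists
  have hn' : ∀ w ∈ closedBall (0 : ℂ) r, g ^ n • k w ∈ U₁ ∧ F₁ (g ^ n • k w) ∈ ball 0 (r / 2) :=
    fun w hw => hn _ (mem_image_of_mem k hw)
  have hpow : ∀ (x : Z), g • x = x → ∀ n : ℕ, g ^ n • x = x := fun x hx n => by
    induction n with
    | zero => simp
    | succ n ih => rw [pow_succ, mul_smul, hx, ih]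
  set σ : ℂ → ℂ := fun w => F₁ (g ^ n • k w) with hσ
  have hb : ball (0 : ℂ) r ⊆ closedBall 0 r := ball_subset_closedBall
  have hσm : MapsTo σ (ball 0 r) (ball 0 r) := fun w hw =>
    ball_subset_ball (by linarith) (hn' w (hb hw)).2
  have hσi : InjOn σ (ball 0 r) := fun w hw w' hw' e => by
    have := MulAction.injective _ (h.inj (hn' w (hb hw)).1 (hn' w' (hb hw')).1 e)
    rw [← k2 w (hb hw), this, k2 w' (hb hw')]
  have hσa : ∀ w ∈ ball (0 : ℂ) r, HA σ w := fun w hw => by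
    obtain ⟨τ, hτ, e⟩ := h.hol (g ^ n) _ (k1 w (hb hw)) (hn' w (hb hw)).1
    rw [k2 w (hb hw)] at hτ
    refine hτ.congr ?_
    filter_upwards [(k4 w (hb hw)).eventually e, isOpen_ball.mem_nhds hw] with v h1 h2
    rw [hσ]
    simp only [h1, k2 v (hb h2)]
  have hσ0 : σ 0 = 0 := by
    have := k3 p hp₁
    rw [hF₁] at this
    simp only [hσ, this, hpow p hgp, hF₁]
  have hT : ∀ w ∈ ball (0 : ℂ) r, AnalyticAt ℂ (fun w => σ (σ w)) w := by
    rcases HA.dichotomy isOpen_ball (convex_ball 0 r).isPreconnected hσi hσa with h1 | h1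
    · exact fun w hw => (h1 _ (hσm hw)).comp (h1 w hw)
    · intro w hw
      simpa [comp_def] using (analyticAt_conj_conj (h1 _ (hσm hw))).comp
        (f := fun w => conj (σ w)) (h1 w hw)
  have hTd : DifferentiableOn ℂ (fun w => σ (σ w)) (ball 0 r) := fun w hw =>
    (hT w hw).differentiableAt.differentiableWithinAt
  have hl0 := Lib.RMT.deriv_ne_zero_of_injOn isOpen_ball hTd
    (fun w hw w' hw' e => hσi hw hw' (hσi (hσm hw) (hσm hw') e)) (mem_ball_self hr)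
  have hl1 : ‖deriv (fun w => σ (σ w)) 0‖ ≤ 1 / 2 := by
    refine (Complex.norm_deriv_le_div_of_mapsTo_ball (R₂ := r / 2) hTd (fun w hw => ?_)
      hr).trans_eq (by field_simp)
    simp only [hσ0]
    exact ball_subset_closedBall (hn' _ (hb (hσm hw))).2
  obtain ⟨ρ, φ, hρ, hρr, hφd, hφi, hφ0, hφm, hφe⟩ :=
    koenigs (hT 0 (mem_ball_self hr)) (by simp only [hσ0]) hl0 hl1 hr
  have hb' : ball (0 : ℂ) ρ ⊆ closedBall 0 r := (ball_subset_ball hρr).trans hb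
  have hU₀ : IsOpen (U₁ ∩ F₁ ⁻¹' ball 0 ρ) := ContinuousOn.isOpen_inter_preimage
    (fun z hz => (h.cont z hz).continuousWithinAt) h.isOpen isOpen_ball
  have hstep : ∀ z ∈ U₁, F₁ z ∈ closedBall (0 : ℂ) r →
      g ^ n • z ∈ U₁ ∧ F₁ (g ^ n • z) = σ (F₁ z) ∧ F₁ (g ^ n • z) ∈ closedBall (0 : ℂ) r := by
    intro z hz hz'
    have h1 := hn' _ hz'
    rw [k3 z hz] at h1
    exact ⟨h1.1, by simp only [hσ, k3 z hz], hb (ball_subset_ball (by linarith) h1.2)⟩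
  have hstep2 : ∀ z ∈ U₁ ∩ F₁ ⁻¹' ball 0 ρ,
      (g ^ n * g ^ n) • z ∈ U₁ ∧ F₁ ((g ^ n * g ^ n) • z) = σ (σ (F₁ z)) := by
    intro z hz
    obtain ⟨h1, h2, h3⟩ := hstep z hz.1 (hb' hz.2)
    obtain ⟨h4, h5, -⟩ := hstep _ h1 h3
    rw [mul_smul]
    exact ⟨h4, by rw [h5, h2]⟩
  obtain ⟨Φ, hΦ, hs⟩ := ((h.mono hU₀ inter_subset_left).comp hG.cont isOpen_ball hφd hφi
    fun z hz => hz.2).global_of_linear hG.cont (g := g ^ n * g ^ n) (p := p) (q := q) hl0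
    (hl1.trans_lt (by norm_num)) (mem_of_mem_nhds (hnb ρ hρ)) (by simp only [hF₁, hφ0])
    (fun h' => hq₁ h'.1) (by rw [mul_smul, hpow q hgq, hpow q hgq])
    (fun z hz => ⟨(hstep2 z hz).1, by
      rw [mem_preimage, (hstep2 z hz).2]; exact hφm hz.2⟩)
    (fun z hz => by simp only [(hstep2 z hz).2]; exact hφe _ hz.2)
    (fun z hz => by
      obtain ⟨N, hN⟩ := eventually_atTop.1 (hns {z} isCompact_singleton
        (fun e => hz (mem_singleton_iff.1 e).symm) _ (hnb ρ hρ))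
      refine ⟨N, ?_⟩
      rw [← pow_add, ← pow_mul]
      exact hN _ (by nlinarith) z rfl)
  exact hΦ.out_of_global hs

end Crest.Agent.R193.E
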