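import Crest.Agent.R193.EMeas

/-! Row 193 [E]: truncation, maximum principle, oscillation of harmonic functions. -/

set_option autoImplicit false

open Set Filter Topology MeasureTheory Metric

namespace Crest.Agent.R193.E

/-- a `C¹` clamp: `φ t = m + ∫ s in 0..(t - m), β s` with `β` continuous, `0 ≤ β ≤ 1`, `β = 1` on
`[-2η, 2η]`, `β = 0` outside `[-3η, 3η]` (e.g. `β s = max 0 (min 1 (3 - |s|/η))`). -/
theorem exists_clamp (m : ℝ) {η : ℝ} (hη : 0 < η) : ∃ φ : ℝ → ℝ, ContDiff ℝ 1 φ ∧ Monotone φ ∧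
    (∀ t, |deriv φ t| ≤ 1) ∧ (∀ s t, |φ s - φ t| ≤ |s - t|) ∧
    (∀ t, |t - m| ≤ 2 * η → φ t = t) ∧ ∀ t, |φ t - m| ≤ 3 * η := by
  let β : ℝ → ℝ := fun s => max 0 (min 1 (3 - |s - m| / η))
  have hβ : Continuous β := by fun_prop
  have hβ0 : ∀ s, 0 ≤ β s := fun s => le_max_left _ _
  have hβ1 : ∀ s, β s ≤ 1 := fun s => max_le zero_le_one (min_le_left _ _)
  have hβone : ∀ s, |s - m| ≤ 2 * η → β s = 1 := by
    intro s hs
    have : |s - m| / η ≤ 2 := by rwa [div_le_iff₀ hη]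
    simp only [β]
    rw [min_eq_left (by linarith), max_eq_right zero_le_one]
  have hβzero : ∀ s, 3 * η ≤ |s - m| → β s = 0 := by
    intro s hs
    have : 3 ≤ |s - m| / η := by rwa [le_div_iff₀ hη]
    simp only [β]
    rw [max_eq_left ((min_le_right _ _).trans (by linarith))]
  let φ : ℝ → ℝ := fun t => m + ∫ s in m..t, β s
  have hd : ∀ t, HasDerivAt φ (β t) t := fun t =>
    ((hβ.integral_hasStrictDerivAt m t).hasDerivAt).const_add m
  have hder : deriv φ = β := funext fun t => (hd t).deriv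
  have hdiff : Differentiable ℝ φ := fun t => (hd t).differentiableAt
  have hlip : ∀ s t, |φ s - φ t| ≤ |s - t| := by
    intro s t
    have := Convex.norm_image_sub_le_of_norm_deriv_le (f := φ) (s := univ) (C := 1)
      (fun x _ => hdiff x) (fun x _ => by
        rw [hder, Real.norm_eq_abs, abs_of_nonneg (hβ0 x)]; exact hβ1 x) convex_univ
      (mem_univ t) (mem_univ s)
    simpa [Real.norm_eq_abs] using this
  have hφm : φ m = m := by simp [φ]
  have hconst : ∀ a t, (∀ s ∈ uIcc a t, 3 * η ≤ |s - m|) → φ t = φ a := by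
    intro a t h
    have h1 : ∫ s in a..t, β s = 0 := by
      rw [intervalIntegral.integral_congr (g := fun _ => (0 : ℝ)) fun s hs => hβzero s (h s hs)]
      simp
    have h2 := intervalIntegral.integral_add_adjacent_intervals (μ := volume) (a := m) (b := a)
      (c := t) (hβ.intervalIntegrable _ _) (hβ.intervalIntegrable _ _)
    simp only [φ]
    rw [← h2, h1, add_zero]
  refine ⟨φ, contDiff_one_iff_deriv.2 ⟨hdiff, hder ▸ hβ⟩,
    monotone_of_deriv_nonneg hdiff fun t => hder ▸ hβ0 t, fun t => ?_, hlip, fun t ht => ?_,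
    fun t => ?_⟩
  · rw [hder, abs_of_nonneg (hβ0 t)]; exact hβ1 t
  · have h1 : ∫ s in m..t, β s = ∫ _ in m..t, (1 : ℝ) := by
      refine intervalIntegral.integral_congr fun s hs => hβone s ?_
      refine le_trans ?_ ht
      exact abs_sub_left_of_mem_uIcc hs
    simp only [φ]
    rw [h1]
    simp
  · have key : ∀ a, |a - m| ≤ 3 * η → |φ a - m| ≤ 3 * η := by
      intro a ha
      have := hlip a m
      rw [hφm] at this
      exact this.trans ha
    rcases le_total t (m - 3 * η) with h1 | h1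
    · rw [hconst (m - 3 * η) t]
      · apply key
        rw [abs_le]; constructor <;> linarith
      · intro s hs
        rw [uIcc_of_ge h1] at hs
        rw [le_abs]; right; linarith [hs.2]
    rcases le_total (m + 3 * η) t with h2 | h2
    · rw [hconst (m + 3 * η) t]
      · apply key
        rw [abs_le]; constructor <;> linarith
      · intro s hs
        rw [uIcc_of_le h2] at hs
        rw [le_abs]; left; linarith [hs.1]
    · apply key
      rw [abs_le]; constructor <;> linarith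

/-- Arzela-Ascoli for an asymptotically equicontinuous sequence on a compact connected set, bounded
at one point.  (The set of `p ∈ K` with `(w n p)` bounded is relatively clopen; an ultrafilter
limit `u` is continuous on `K` and `w n → u` uniformly along the ultrafilter; extract a
subsequence.) -/
theorem exists_unif_subseq {Z : Type} [MetricSpace Z] {K : Set Z} (hK : IsCompact K)
    (hKc : IsPreconnected K) (w : ℕ → Z → ℝ) {p₀ : Z} (hp₀ : p₀ ∈ K) {M : ℝ}
    (hM : ∀ n, |w n p₀| ≤ M)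
    (H : ∀ ε : ℝ, 0 < ε → ∀ p ∈ K, ∃ V ∈ 𝓝 p, ∀ᶠ n in atTop, ∀ z ∈ V ∩ K, |w n z - w n p| ≤ ε) :
    ∃ (φ : ℕ → ℕ) (u : Z → ℝ), StrictMono φ ∧ ContinuousOn u K ∧
      TendstoUniformlyOn (fun n => w (φ n)) u atTop K := by
  have hb : ∀ p ∈ K, ∃ C : ℝ, ∀ᶠ n in atTop, |w n p₀ - w n p| ≤ C := by
    intro p hp
    refine hKc.induction₂' (fun x y => ∃ C : ℝ, ∀ᶠ n in atTop, |w n x - w n y| ≤ C) ?_ ?_ hp₀ hp
    · intro x hx
      obtain ⟨V, hV, hev⟩ := H 1 one_pos x hx
      filter_upwards [mem_nhdsWithin_of_mem_nhds hV, self_mem_nhdsWithin] with y hy hyK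
      refine ⟨⟨1, hev.mono fun n hn => ?_⟩, ⟨1, hev.mono fun n hn => hn y ⟨hy, hyK⟩⟩⟩
      rw [abs_sub_comm]; exact hn y ⟨hy, hyK⟩
    · rintro x y z - - - ⟨C1, h1⟩ ⟨C2, h2⟩
      refine ⟨C1 + C2, ?_⟩
      filter_upwards [h1, h2] with n h1 h2
      exact (abs_sub_le _ _ _).trans (add_le_add h1 h2)
  let 𝓤 : Ultrafilter ℕ := Ultrafilter.of atTop
  have h𝓤 : (𝓤 : Filter ℕ) ≤ atTop := Ultrafilter.of_le _
  have hlim : ∀ p, ∃ c : ℝ, p ∈ K → Tendsto (fun n => w n p) 𝓤 (𝓝 c) := by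
    intro p
    by_cases hp : p ∈ K
    swap
    · exact ⟨0, fun h => (hp h).elim⟩
    obtain ⟨C, hC⟩ := hb p hp
    have hle : (𝓤.map fun n => w n p : Ultrafilter ℝ) ≤ 𝓟 (Icc (-(M + C)) (M + C)) := by
      rw [le_principal_iff, Ultrafilter.mem_coe, Ultrafilter.mem_map]
      have : ∀ᶠ n in (𝓤 : Filter ℕ), w n p ∈ Icc (-(M + C)) (M + C) := by
        filter_upwards [h𝓤 hC] with n hn
        have h1 := abs_le.1 (hM n)
        have h2 := abs_le.1 hn
        constructor <;> linarith [h1.1, h1.2, h2.1, h2.2]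
      exact this
    obtain ⟨c, -, hc⟩ := isCompact_Icc.ultrafilter_le_nhds _ hle
    exact ⟨c, fun _ => hc⟩
  choose u hu using hlim
  have hosc : ∀ (ε : ℝ) (p : Z), p ∈ K → ∀ V : Set Z,
      (∀ᶠ n in atTop, ∀ z ∈ V ∩ K, |w n z - w n p| ≤ ε) → ∀ z ∈ V ∩ K, |u z - u p| ≤ ε := by
    intro ε p hp V hev z hz
    have ht : Tendsto (fun n => |w n z - w n p|) 𝓤 (𝓝 |u z - u p|) :=
      ((hu z hz.2).sub (hu p hp)).abs
    exact le_of_tendsto ht ((hev.filter_mono h𝓤).mono fun n hn => hn z hz)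
  have hcont : ContinuousOn u K := by
    intro p hp
    rw [ContinuousWithinAt, Metric.tendsto_nhds]
    intro ε hε
    obtain ⟨V, hV, hev⟩ := H (ε / 2) (half_pos hε) p hp
    filter_upwards [mem_nhdsWithin_of_mem_nhds hV, self_mem_nhdsWithin] with y hy hyK
    rw [Real.dist_eq]
    exact (hosc _ p hp V hev y ⟨hy, hyK⟩).trans_lt (half_lt_self hε)
  have hfreq : ∀ ε : ℝ, 0 < ε → ∃ᶠ n in atTop, ∀ z ∈ K, |w n z - u z| ≤ ε := by
    intro ε hε
    have hε3 : 0 < ε / 3 := by positivity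
    choose! V hV hev using H (ε / 3) hε3
    obtain ⟨t, htK, hcov⟩ := hK.elim_nhds_subcover V hV
    have h1 : ∀ᶠ n in (𝓤 : Filter ℕ), ∀ p ∈ t, (∀ z ∈ V p ∩ K, |w n z - w n p| ≤ ε / 3) ∧
        |w n p - u p| ≤ ε / 3 := by
      rw [Filter.eventually_all_finset]
      intro p hp
      refine ((hev p (htK p hp)).filter_mono h𝓤).and ?_
      have := (Metric.tendsto_nhds.1 (hu p (htK p hp))) _ hε3
      exact this.mono fun n hn => by rw [Real.dist_eq] at hn; exact hn.le
    have h2 : ∀ᶠ n in (𝓤 : Filter ℕ), ∀ z ∈ K, |w n z - u z| ≤ ε := by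
      filter_upwards [h1] with n hn z hz
      obtain ⟨p, hp, hzp⟩ := mem_iUnion₂.1 (hcov hz)
      have a1 := abs_le.1 ((hn p hp).1 z ⟨hzp, hz⟩)
      have a2 := abs_le.1 (hn p hp).2
      have a3 := abs_le.1 (hosc _ p (htK p hp) (V p) (hev p (htK p hp)) z ⟨hzp, hz⟩)
      rw [abs_le]
      constructor <;> linarith [a1.1, a1.2, a2.1, a2.2, a3.1, a3.2]
    exact h2.frequently.filter_mono h𝓤
  obtain ⟨φ, hφ, hP⟩ := Filter.extraction_forall_of_frequently
    (P := fun n k => ∀ z ∈ K, |w k z - u z| ≤ 1 / ((n : ℝ) + 1)) fun n => hfreq _ (by positivity)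
  refine ⟨φ, u, hφ, hcont, Metric.tendstoUniformlyOn_iff.2 fun ε hε => ?_⟩
  have := (tendsto_one_div_add_atTop_nhds_zero_nat (𝕜 := ℝ)).eventually (gt_mem_nhds hε)
  filter_upwards [this] with n hn z hz
  rw [dist_comm, Real.dist_eq]
  exact (hP n z hz).trans_lt hn

namespace DForm

variable {G Z : Type} [Group G] [MetricSpace Z] [CompactSpace Z] [MeasurableSpace Z] [BorelSpace Z]
  [MulAction G Z] (X : DForm G Z)

theorem Harm.mono {W W' : Set Z} {u : Z → ℝ} (h : X.Harm W u) (hW : W' ⊆ W) : X.Harm W' u :=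
  ⟨h.1, fun ψ hψ hs => h.2 ψ hψ (hs.trans hW)⟩

theorem Harm.add {W : Set Z} {u v : Z → ℝ} (hu : X.Harm W u) (hv : X.Harm W v) :
    X.Harm W (u + v) :=
  ⟨X.Fc.add_mem hu.1 hv.1, fun ψ hψ hs => by
    rw [X.B_add₂ 1 u v ψ continuous_one hu.1 hv.1 hψ, hu.2 ψ hψ hs, hv.2 ψ hψ hs, add_zero]⟩

theorem Harm.smul {W : Set Z} {u : Z → ℝ} (hu : X.Harm W u) (c : ℝ) : X.Harm W (c • u) :=
  ⟨X.Fc.smul_mem c hu.1, fun ψ hψ hs => by
    rw [X.B_smul₂ c 1 u ψ continuous_one hu.1 hψ, hu.2 ψ hψ hs, mul_zero]⟩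

theorem Harm.sub {W : Set Z} {u v : Z → ℝ} (hu : X.Harm W u) (hv : X.Harm W v) :
    X.Harm W (u - v) :=
  ⟨X.Fc.sub_mem hu.1 hv.1, fun ψ hψ hs => by
    rw [X.B_sub₂ continuous_one hu.1 hv.1 hψ, hu.2 ψ hψ hs, hv.2 ψ hψ hs, sub_zero]⟩

theorem harm_const (W : Set Z) (c : ℝ) : X.Harm W (fun _ => c) :=
  ⟨X.const_mem c, fun _ hψ _ => X.B_const continuous_one hψ c⟩

/-- test with `ψ ∘ g⁻¹` and use `inv`. -/
theorem Harm.inv (hc : ∀ g : G, Continuous fun z : Z => g • z) {W : Set Z} {u : Z → ℝ}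
    (hu : X.Harm W u) (g : G) : X.Harm ((fun z => g • z) ⁻¹' W) (fun z => u (g • z)) := by
  refine ⟨X.inv_mem g u hu.1, fun ψ hψ hs => ?_⟩
  have h1 : (fun z => ψ (g⁻¹ • z)) ∈ X.Fc := X.inv_mem g⁻¹ ψ hψ
  have h2 : tsupport (fun z => ψ (g⁻¹ • z)) ⊆ W := by
    intro z hz
    have h3 : z ∈ (fun z => g⁻¹ • z) ⁻¹' tsupport ψ :=
      (hc g⁻¹).closure_preimage_subset (Function.support ψ) hz
    have h4 : g • g⁻¹ • z ∈ W := hs h3
    rwa [smul_inv_smul] at h4
  have h5 := X.inv g 1 u _ continuous_one hu.1 h1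
  simp only [inv_smul_smul] at h5
  rw [← hu.2 _ h1 h2, ← h5]
  rfl

/-- `B 1 (u - v) ψ = 0` by `locality` (`u - v = 0` on `W`, `ψ = 0` near points off `tsupport ψ`). -/
theorem Harm.congr {W : Set Z} (hW : IsOpen W) {u v : Z → ℝ} (hu : X.Harm W u) (hv : v ∈ X.Fc)
    (H : ∀ z ∈ W, v z = u z) : X.Harm W v := by
  refine ⟨hv, fun ψ hψ hs => ?_⟩
  have h1 : X.B 1 (v - u) ψ = 0 := by
    refine X.locality continuous_one (X.Fc.sub_mem hv hu.1) hψ fun z => Or.inr ?_
    by_cases hz : z ∈ W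
    · refine Or.inl ⟨0, ?_⟩
      filter_upwards [hW.mem_nhds hz] with y hy
      rw [Pi.sub_apply, H y hy, sub_self]
    · exact Or.inr ⟨0, notMem_tsupport_iff_eventuallyEq.1 fun h => hz (hs h)⟩
  rw [X.B_sub₂ continuous_one hv hu.1 hψ, hu.2 ψ hψ hs, sub_zero] at h1
  exact h1

/-- a real-linear image plus a constant of a harmonic map is harmonic -/
theorem Harm2.affine {W : Set Z} {F : Z → ℂ} (hF : X.Harm2 W F) (A : ℂ →L[ℝ] ℂ) (c : ℂ) :
    X.Harm2 W (fun z => A (F z) + c) := by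
  have key : ∀ z, A (F z) = (F z).re • A 1 + (F z).im • A Complex.I := by
    intro z
    rw [← map_smul, ← map_smul, ← map_add]
    congr 1
    apply Complex.ext <;> simp
  constructor
  · have h1 := Harm.add X (Harm.add X (Harm.smul X hF.1 (A 1).re)
      (Harm.smul X hF.2 (A Complex.I).re)) (X.harm_const W c.re)
    convert h1 using 1
    funext z
    simp only [reF, imF, key, Pi.add_apply, Pi.smul_apply, smul_eq_mul, Complex.add_re,
      Complex.smul_re]
    ring
  · have h1 := Harm.add X (Harm.add X (Harm.smul X hF.1 (A 1).im)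
      (Harm.smul X hF.2 (A Complex.I).im)) (X.harm_const W c.im)
    convert h1 using 1
    funext z
    simp only [reF, imF, key, Pi.add_apply, Pi.smul_apply, smul_eq_mul, Complex.add_im,
      Complex.smul_im]
    ring

theorem Harm2.continuous {W : Set Z} {F : Z → ℂ} (hF : X.Harm2 W F) : Continuous F := by
  have h1 : Continuous (reF F) := X.cont _ hF.1.1
  have h2 : Continuous (imF F) := X.cont _ hF.2.1
  have h3 : F = fun z => ((reF F z : ℝ) : ℂ) + ((imF F z : ℝ) : ℂ) * Complex.I :=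
    funext fun z => (Complex.re_add_im (F z)).symm
  rw [h3]
  fun_prop

/-- Truncation inside `R`: `w' = w + R.indicator (φ ∘ w - w)` with `φ` from `exists_clamp`
(`indicator_mem`: `φ ∘ w - w = 0` on the open set `{|w - m| < 2η} ⊇ frontier R`).  Energy: on `R`,
`Γ w' = Γ (φ ∘ w) ≤ Γ w` (`Γ_congr`, `Γ_comp_le`); on the open set
`(closure R)ᶜ ∪ {|w - m| < 2η} ⊇ Rᶜ`, `w' = w`.  Oscillation on a preconnected `S`: if `x ∈ R`,
`y ∉ R` then `S` contains `s ∈ frontier R`, and `φ (w x)` lies between `w s = φ (w s)` and `w x`. -/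
theorem trunc {w : Z → ℝ} (hw : w ∈ X.Fc) {R : Set Z} (hR : IsOpen R) {m η : ℝ} (hη : 0 < η)
    (H : ∀ z ∈ frontier R, |w z - m| ≤ η) : ∃ w' ∈ X.Fc, (∀ z ∉ R, w' z = w z) ∧
      (∀ z ∈ R, |w' z - m| ≤ 3 * η) ∧ (∀ z, |w z - m| ≤ 2 * η → w' z = w z) ∧ X.Γ w' ≤ X.Γ w ∧
      ∀ S : Set Z, IsPreconnected S → ∀ a : ℝ, (∀ x ∈ S, ∀ y ∈ S, |w x - w y| ≤ a) →
        ∀ x ∈ S, ∀ y ∈ S, |w' x - w' y| ≤ a := by
  classical
  obtain ⟨φ, hφ, hmono, hder, hlip, hid, hbd⟩ := exists_clamp m hη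
  have hwc : Continuous w := X.cont w hw
  have hφw : (fun z => φ (w z)) ∈ X.Fc := X.comp_mem hw hφ
  have hd : ((fun z => φ (w z)) - w) ∈ X.Fc := X.Fc.sub_mem hφw hw
  have hO : IsOpen {z | |w z - m| < 2 * η} :=
    isOpen_lt (by fun_prop) continuous_const
  have hind : R.indicator ((fun z => φ (w z)) - w) ∈ X.Fc := by
    refine X.indicator_mem hd hR fun z hz => ?_
    have hz' : z ∈ {z | |w z - m| < 2 * η} := by
      have := H z hz
      show |w z - m| < 2 * η
      linarith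
    filter_upwards [hO.mem_nhds hz'] with y hy
    have hy' : |w y - m| < 2 * η := hy
    simp [hid (w y) hy'.le]
  have hw' : w + R.indicator ((fun z => φ (w z)) - w) ∈ X.Fc := X.Fc.add_mem hw hind
  have hin : ∀ z ∈ R, (w + R.indicator ((fun z => φ (w z)) - w)) z = φ (w z) := by
    intro z hz
    simp [Set.indicator_of_mem hz]
  have hout : ∀ z ∉ R, (w + R.indicator ((fun z => φ (w z)) - w)) z = w z := by
    intro z hz
    simp [Set.indicator_of_notMem hz]
  have hnear : ∀ z, |w z - m| ≤ 2 * η → (w + R.indicator ((fun z => φ (w z)) - w)) z = w z := by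
    intro z hz
    by_cases h : z ∈ R
    · rw [hin z h, hid _ hz]
    · exact hout z h
  refine ⟨_, hw', hout, fun z hz => by rw [hin z hz]; exact hbd _, hnear, ?_, ?_⟩
  · rw [Measure.le_iff]
    intro A hA
    have hV : IsOpen ((closure R)ᶜ ∪ {z | |w z - m| < 2 * η}) :=
      isClosed_closure.isOpen_compl.union hO
    have h1 : X.Γ (w + R.indicator ((fun z => φ (w z)) - w)) (A ∩ R) =
        X.Γ (fun z => φ (w z)) (A ∩ R) :=
      X.Γ_congr_apply hw' hφw hR (c := 0) (fun z hz => by rw [hin z hz, add_zero])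
        inter_subset_right
    have h2 : X.Γ (w + R.indicator ((fun z => φ (w z)) - w)) (A \ R) = X.Γ w (A \ R) := by
      refine X.Γ_congr_apply hw' hw hV (c := 0) (fun z hz => ?_) (fun z hz => ?_)
      · rw [add_zero]
        rcases hz with hz | hz
        · exact hout z fun h => hz (subset_closure h)
        · exact hnear z (le_of_lt hz)
      · by_cases hc : z ∈ closure R
        · right
          have : z ∈ frontier R := by
            rw [hR.frontier_eq]
            exact ⟨hc, hz.2⟩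
          have := H z this
          show |w z - m| < 2 * η
          linarith
        · exact Or.inl hc
    rw [← measure_inter_add_diff A hR.measurableSet, ← measure_inter_add_diff (μ := X.Γ w) A
      hR.measurableSet, h1, h2]
    exact add_le_add (X.Γ_comp_le hw hφ hder _) le_rfl
  · intro S hS a ha
    have key : ∀ x ∈ S, ∀ y ∈ S, x ∈ R → y ∉ R → |φ (w x) - w y| ≤ a := by
      intro x hx y hy hxR hyR
      obtain ⟨s, hsS, hsf⟩ : ∃ s ∈ S, s ∈ frontier R := by
        by_contra hcon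
        push Not at hcon
        have hsub : S ⊆ R ∪ (closure R)ᶜ := by
          intro z hz
          by_cases h : z ∈ R
          · exact Or.inl h
          · right
            intro hc
            refine hcon z hz ?_
            rw [hR.frontier_eq]
            exact ⟨hc, h⟩
        have := hS.subset_left_of_subset_union hR isClosed_closure.isOpen_compl
          (disjoint_compl_right_iff_subset.2 subset_closure) hsub ⟨x, hx, hxR⟩
        exact hyR (this hy)
      have hs : φ (w s) = w s := hid _ (by have := H s hsf; linarith)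
      have h1 := abs_le.1 (ha x hx y hy)
      have h2 := abs_le.1 (ha s hsS y hy)
      have h3 := hlip (w x) (w s)
      rw [hs] at h3
      rw [abs_le]
      rcases le_total (w s) (w x) with h | h
      · have h4 := hmono h
        rw [hs] at h4
        rw [abs_of_nonneg (sub_nonneg.2 h4), abs_of_nonneg (sub_nonneg.2 h)] at h3
        constructor <;> linarith [h1.1, h1.2, h2.1, h2.2]
      · have h4 := hmono h
        rw [hs] at h4
        rw [abs_of_nonpos (sub_nonpos.2 h4), abs_of_nonpos (sub_nonpos.2 h)] at h3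
        constructor <;> linarith [h1.1, h1.2, h2.1, h2.2]
    intro x hx y hy
    by_cases hxR : x ∈ R <;> by_cases hyR : y ∈ R
    · rw [hin x hxR, hin y hyR]
      exact (hlip _ _).trans (ha x hx y hy)
    · rw [hin x hxR, hout y hyR]
      exact key x hx y hy hxR hyR
    · rw [hout x hxR, hin y hyR, abs_sub_comm]
      exact key y hy x hx hyR hxR
    · rw [hout x hxR, hout y hyR]
      exact ha x hx y hy

/-- maximum principle: `ψ = u' - u` (`trunc`) has `tsupport ψ ⊆ closure R ⊆ W`, so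
`En u' = En u + En ψ ≤ En u`, `En ψ = 0`, `ψ` is constant (`const_of_Γ_zero` on `univ`) and
vanishes at a point outside `R`. -/
theorem maxp (hG : Geo G Z) {W R : Set Z} {u : Z → ℝ} (hu : X.Harm W u) (hR : IsOpen R)
    (hRW : closure R ⊆ W) (hne : R ≠ univ) {m η : ℝ} (hη : 0 < η)
    (H : ∀ z ∈ frontier R, |u z - m| ≤ η) : ∀ z ∈ R, |u z - m| ≤ 3 * η := by
  obtain ⟨w', hw', hout, hin, -, hΓ, -⟩ := X.trunc hu.1 hR hη H
  have hψ : w' - u ∈ X.Fc := X.Fc.sub_mem hw' hu.1
  have hsupp : tsupport (w' - u) ⊆ W := by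
    refine Subset.trans (closure_mono fun z hz => ?_) hRW
    by_contra h
    exact hz (by simp [hout z h])
  have h0 := hu.2 _ hψ hsupp
  have h1 := X.En_add hu.1 hψ
  rw [add_sub_cancel, h0] at h1
  have h2 : X.En w' ≤ X.En u := by
    rw [X.En_eq hw', X.En_eq hu.1]
    exact ENNReal.toReal_mono (measure_ne_top _ _) (hΓ univ)
  have h3 : X.En (w' - u) = 0 := le_antisymm (by linarith) (X.En_nonneg hψ)
  rw [X.En_eq hψ] at h3
  have h4 : X.Γ (w' - u) univ = 0 := (measureReal_eq_zero_iff (measure_ne_top _ _)).1 h3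
  obtain ⟨z₀, hz₀⟩ := (ne_univ_iff_exists_notMem R).1 hne
  intro z hz
  have h5 := X.const_of_Γ_zero hG hψ isOpen_univ hG.conn h4 z (mem_univ _) z₀ (mem_univ _)
  simp only [Pi.sub_apply, hout z₀ hz₀, sub_self] at h5
  have h6 := hin z hz
  rwa [sub_eq_zero.1 h5] at h6

/-- `Z` has two points (`Geo.disc`); take `4 L r₁ ≤ dist a b`. -/
theorem exists_r1 (hG : Geo G Z) :
    ∃ r₁ : ℝ, 0 < r₁ ∧ r₁ ≤ X.r₀ ∧ ∀ p : Z, closedBall p (X.L * r₁) ≠ univ := by
  rcases isEmpty_or_nonempty Z with hZ | ⟨⟨q⟩⟩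
  · exact ⟨X.r₀, X.r₀_pos, le_rfl, fun p => (hZ.false p).elim⟩
  obtain ⟨e, he, -, -⟩ := hG.disc q
  have hL : 0 < X.L := lt_trans one_pos X.one_lt_L
  have hd : 0 < dist (e 0) (e 1) := dist_pos.2 fun h => zero_ne_one (he.injective h)
  refine ⟨min X.r₀ (dist (e 0) (e 1) / (4 * X.L)), lt_min X.r₀_pos (by positivity),
    min_le_left _ _, fun p hp => ?_⟩
  have h1 : X.L * min X.r₀ (dist (e 0) (e 1) / (4 * X.L)) ≤ dist (e 0) (e 1) / 4 := by
    calc _ ≤ X.L * (dist (e 0) (e 1) / (4 * X.L)) :=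
          mul_le_mul_of_nonneg_left (min_le_right _ _) hL.le
      _ = _ := by field_simp
  have h2 : e 0 ∈ closedBall p (X.L * min X.r₀ (dist (e 0) (e 1) / (4 * X.L))) := by
    rw [hp]; exact mem_univ _
  have h3 : e 1 ∈ closedBall p (X.L * min X.r₀ (dist (e 0) (e 1) / (4 * X.L))) := by
    rw [hp]; exact mem_univ _
  rw [mem_closedBall] at h2 h3
  have := dist_triangle_right (e 0) (e 1) p
  linarith

/-- `loops` + `maxp`, then `δ → 0`. -/
theorem osc_le (hG : Geo G Z) : ∃ r₁ : ℝ, 0 < r₁ ∧ ∀ (W : Set Z) (u : Z → ℝ), X.Harm W u →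
    ∀ (p : Z) (r : ℝ), 0 < r → r ≤ r₁ → closedBall p (X.L * r) ⊆ W → ∀ z ∈ ball p r,
      |u z - u p| ≤ 6 * X.Cs * √((X.Γ u).real (closedBall p (X.L * r))) := by
  obtain ⟨r₁, hr₁, hr₀, hne⟩ := X.exists_r1 hG
  refine ⟨r₁, hr₁, fun W u hu p r hr hrr hW z hz => ?_⟩
  have hL : 0 < X.L := lt_trans one_pos X.one_lt_L
  refine le_of_forall_pos_le_add fun δ hδ => ?_
  obtain ⟨R, m, hR, hb, hRb, hf⟩ := X.loops u hu.1 p r hr (hrr.trans hr₀) (δ / 6) (by positivity)
  have hcl : closure R ⊆ closedBall p (X.L * r) :=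
    (closure_mono hRb).trans closure_ball_subset_closedBall
  have hRne : R ≠ univ := by
    intro h
    refine hne p (eq_univ_of_univ_subset ?_)
    rw [← h]
    exact (subset_closure.trans hcl).trans
      (closedBall_subset_closedBall (mul_le_mul_of_nonneg_left hrr hL.le))
  have hCs := X.Cs_pos
  have hη : 0 < X.Cs * √((X.Γ u).real (closedBall p (X.L * r) \ ball p r)) + δ / 6 := by
    positivity
  have hm := X.maxp hG hu hR (hcl.trans hW) hRne hη hf
  have h1 := abs_le.1 (hm z (hb hz))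
  have h2 := abs_le.1 (hm p (hb (mem_ball_self hr)))
  have h3 : X.Cs * √((X.Γ u).real (closedBall p (X.L * r) \ ball p r)) ≤
      X.Cs * √((X.Γ u).real (closedBall p (X.L * r))) :=
    mul_le_mul_of_nonneg_left (Real.sqrt_le_sqrt (measureReal_mono diff_subset)) hCs.le
  rw [abs_le]
  constructor <;> linarith [h1.1, h1.2, h2.1, h2.2]

/-- logarithmic gain: the annuli `closedBall p (L r_j) \ ball p r_j`, `r_j = ρ' / (2L)^(j+1)`,
`j < J`, `ρ' = min ρ r₀`, are disjoint subsets of `ball p ρ`, one has energy `≤ M / J`;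
`s = r_J`. -/
theorem loops_log {ρ ε M : ℝ} (hρ : 0 < ρ) (hε : 0 < ε) : ∃ s : ℝ, 0 < s ∧ ∀ w ∈ X.Fc, ∀ p : Z,
    (X.Γ w).real (closedBall p ρ) ≤ M → ∃ (R : Set Z) (m : ℝ), IsOpen R ∧ ball p s ⊆ R ∧
      closure R ⊆ ball p ρ ∧ ∀ z ∈ frontier R, |w z - m| ≤ ε := by
  have hL := X.one_lt_L
  have hC := X.Cs_pos
  set ρ' := min ρ X.r₀ with hρ'
  have hρ'0 : 0 < ρ' := lt_min hρ X.r₀_pos
  set q : ℝ := (2 * X.L)⁻¹ with hq
  have hq0 : 0 < q := by positivity
  have hLq : X.L * q = 1 / 2 := by rw [hq]; field_simp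
  have hq1 : q ≤ 1 := by nlinarith
  set r : ℕ → ℝ := fun j => ρ' * q ^ (j + 1) with hr
  have hr0 : ∀ j, 0 < r j := fun j => by positivity
  have hLr : ∀ j, X.L * r j = ρ' * q ^ j / 2 := fun j => by
    simp only [hr, pow_succ]
    linear_combination ρ' * q ^ j * hLq
  have hanti : ∀ {j k : ℕ}, j ≤ k → ρ' * q ^ k ≤ ρ' * q ^ j := fun h =>
    mul_le_mul_of_nonneg_left (pow_le_pow_of_le_one hq0.le hq1 h) hρ'0.le
  have hle : ∀ j, ρ' * q ^ j ≤ ρ' := fun j => by simpa using hanti (Nat.zero_le j)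
  obtain ⟨J, hJ⟩ := exists_nat_gt (X.Cs ^ 2 * max M 0 / (ε / 2) ^ 2)
  have hJ0 : (0 : ℝ) < J := lt_of_le_of_lt (by positivity) hJ
  refine ⟨r J, hr0 J, fun w hw p hM => ?_⟩
  set A : ℕ → Set Z := fun j => closedBall p (X.L * r j) \ ball p (r j) with hA
  have hAm : ∀ j, MeasurableSet (A j) := fun j =>
    measurableSet_closedBall.diff measurableSet_ball
  have hlt : ∀ j, X.L * r j < ρ := fun j => by
    rw [hLr]
    linarith [hle j, min_le_left ρ X.r₀]
  have hdis : ∀ {j k : ℕ}, j < k → Disjoint (A j) (A k) := fun {j k} h => by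
    refine Set.disjoint_left.2 fun z hj hk => hj.2 ?_
    have h1 : dist z p ≤ X.L * r k := hk.1
    have h2 := hanti (Nat.succ_le_of_lt h)
    have h3 := hr0 j
    rw [hLr] at h1
    simp only [hr] at h3 ⊢
    rw [mem_ball]
    simp only [Nat.succ_eq_add_one] at h2
    linarith
  have hsum : ∑ j ∈ Finset.range J, (X.Γ w).real (A j) ≤ ∑ _j ∈ Finset.range J, max M 0 / J := by
    rw [← measureReal_biUnion_finset (fun j _ k _ hjk => by
      rcases lt_or_gt_of_ne hjk with h | h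
      exacts [hdis h, (hdis h).symm]) (fun j _ => hAm j)]
    rw [Finset.sum_const, Finset.card_range, nsmul_eq_mul, mul_div_cancel₀ _ hJ0.ne']
    refine le_trans (measureReal_mono ?_) (hM.trans (le_max_left _ _))
    exact iUnion₂_subset fun j _ => diff_subset.trans (closedBall_subset_closedBall (hlt j).le)
  obtain ⟨j, hj, hjA⟩ := Finset.exists_le_of_sum_le
    (Finset.nonempty_range_iff.2 (by exact_mod_cast hJ0.ne')) hsum
  obtain ⟨R, m, hR, h1, h2, h3⟩ := X.loops w hw p (r j) (hr0 j)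
    ((hle _).trans (min_le_right _ _)) (ε / 2) (by positivity)
  refine ⟨R, m, hR, (ball_subset_ball ?_).trans h1, ?_, fun z hz => (h3 z hz).trans ?_⟩
  · exact hanti (Nat.succ_le_succ (Finset.mem_range.1 hj).le)
  · exact (closure_minimal (h2.trans ball_subset_closedBall) isClosed_closedBall).trans
      (closedBall_subset_ball (hlt j))
  · have h4 : X.Cs * √((X.Γ w).real (A j)) ≤ ε / 2 := by
      rw [← Real.sqrt_sq hC.le, ← Real.sqrt_mul (sq_nonneg _), Real.sqrt_le_left (by positivity)]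
      rw [div_lt_iff₀ (by positivity)] at hJ
      rw [le_div_iff₀ hJ0] at hjA
      have h5 := mul_le_mul_of_nonneg_left hjA (sq_nonneg X.Cs)
      nlinarith
    simp only [hA] at h4
    linarith

/-- `loops_log` (with `ρ` replaced by `min ρ (L r₁)`) + `maxp`. -/
theorem osc_log (hG : Geo G Z) {ρ ε M : ℝ} (hρ : 0 < ρ) (hε : 0 < ε) : ∃ s : ℝ, 0 < s ∧
    ∀ (W : Set Z) (u : Z → ℝ), X.Harm W u → ∀ p : Z, closedBall p ρ ⊆ W →
      (X.Γ u).real (closedBall p ρ) ≤ M → ∀ z ∈ ball p s, |u z - u p| ≤ ε := by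
  obtain ⟨r₁, hr₁, -, hne⟩ := X.exists_r1 hG
  have hL := X.one_lt_L
  have hρ' : 0 < min ρ (X.L * r₁) := lt_min hρ (by positivity)
  obtain ⟨s, hs, H⟩ := X.loops_log (M := M) hρ' (show 0 < ε / 6 by positivity)
  refine ⟨s, hs, fun W u hu p hW hM z hz => ?_⟩
  obtain ⟨R, m, hR, h1, h2, h3⟩ := H u hu.1 p
    ((measureReal_mono (closedBall_subset_closedBall (min_le_left _ _))).trans hM)
  have h4 := X.maxp hG hu hR
    (h2.trans (ball_subset_closedBall.trans
      ((closedBall_subset_closedBall (min_le_left _ _)).trans hW)))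
    (fun h => hne p (univ_subset_iff.1 (h ▸ subset_closure.trans (h2.trans
      (ball_subset_closedBall.trans (closedBall_subset_closedBall (min_le_right _ _)))))))
    (show 0 < ε / 6 by positivity) h3
  have h5 := abs_le.1 (h4 z (h1 hz))
  have h6 := abs_le.1 (h4 p (h1 (mem_ball_self hs)))
  rw [abs_le]
  constructor <;> linarith [h5.1, h5.2, h6.1, h6.2]

/-- Caccioppoli identity: `En (χ u) = B χ² u u + 2 B (χ u) u χ + B u² χ χ` and
`0 = B 1 u (χ² u) = B χ² u u + 2 B (χ u) u χ`. -/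
theorem cacc {W : Set Z} {u χ : Z → ℝ} (hu : X.Harm W u) (hχ : χ ∈ X.Fc) (hs : tsupport χ ⊆ W) :
    X.En (χ * u) = X.B (u * u) χ χ := by
  have hcu := X.cont _ hu.1
  have hcχ := X.cont _ hχ
  have hm := X.mul_mem hχ hu.1
  have h0 := hu.2 (χ * (χ * u)) (X.mul_mem hχ hm) (tsupport_mul_subset_left.trans hs)
  rw [X.leibniz₃ hχ hm continuous_one hu.1, one_mul, one_mul,
    X.leibniz₃ hχ hu.1 hcχ hu.1] at h0
  unfold En
  rw [X.leibniz hχ hu.1 continuous_one hm, one_mul, one_mul, X.leibniz₃ hχ hu.1 hcu hχ,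
    X.leibniz₃ hχ hu.1 hcχ hu.1, X.B_symm (u * χ) χ u (hcu.mul hcχ) hχ hu.1, mul_comm u χ]
  linarith

/-- `B u² χ χ = ∫ u² dΓ χ` and `Γ χ (tsupport χ)ᶜ = 0`. -/
theorem cacc_le {W : Set Z} {u χ : Z → ℝ} (hu : X.Harm W u) (hχ : χ ∈ X.Fc) (hs : tsupport χ ⊆ W)
    {a : ℝ} (ha : ∀ z ∈ tsupport χ, |u z| ≤ a) : X.En (χ * u) ≤ a ^ 2 * X.En χ := by
  have hcu := X.cont _ hu.1
  rw [X.cacc hu hχ hs, ← X.int_Γ χ hχ _ (hcu.mul hcu), X.En_eq hχ]
  have h0 : X.Γ χ (tsupport χ)ᶜ = 0 :=
    X.Γ_eq_zero_of_const hχ (isClosed_tsupport χ).isOpen_compl (c := 0)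
      fun z hz => image_eq_zero_of_notMem_tsupport hz
  have h1 : ∀ᵐ z ∂(X.Γ χ), z ∈ tsupport χ := h0
  have h2 : ∫ z, (u * u) z ∂(X.Γ χ) ≤ ∫ _, a ^ 2 ∂(X.Γ χ) := by
    refine integral_mono_ae ((hcu.mul hcu).integrable_of_hasCompactSupport
      (HasCompactSupport.of_compactSpace _)) (integrable_const _) ?_
    filter_upwards [h1] with z hz
    have := ha z hz
    rw [Pi.mul_apply, ← sq, ← sq_abs]
    exact pow_le_pow_left₀ (abs_nonneg _) this 2
  rw [integral_const, smul_eq_mul] at h2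
  exact h2.trans_eq (mul_comm _ _)

/-- limits of harmonic functions: `χ u_n` is uniformly convergent and Cauchy in energy
(`cacc_le` for `u_n - u_m`), `closable`; harmonic on `V`: `χ u_n` is harmonic on `V`
(`Harm.congr`, `V ⊆ tsupport χ ⊆ W`), pass to the limit with `cs_En`. -/
theorem harm_lim {W : Set Z} {w : ℕ → Z → ℝ} {u χ : Z → ℝ} (hw : ∀ n, X.Harm W (w n))
    (hχ : χ ∈ X.Fc) (hs : tsupport χ ⊆ W) (H : TendstoUniformlyOn w u atTop (tsupport χ)) :
    χ * u ∈ X.Fc ∧ Tendsto (fun n => X.En (χ * w n - χ * u)) atTop (𝓝 0) ∧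
      ∀ V : Set Z, IsOpen V → (∀ z ∈ V, χ z = 1) → X.Harm V (χ * u) := by
  have hcχ := X.cont _ hχ
  obtain ⟨M, hM⟩ := (isCompact_univ.image_of_continuousOn hcχ.continuousOn).isBounded.exists_norm_le
  have hM' : ∀ z, |χ z| ≤ M := fun z => hM _ ⟨z, mem_univ z, rfl⟩
  have hmem : ∀ n, χ * w n ∈ X.Fc := fun n => X.mul_mem hχ (hw n).1
  have hU : TendstoUniformly (fun n => χ * w n) (χ * u) atTop := by
    rw [Metric.tendstoUniformly_iff]
    intro ε hε
    have hp : 0 < |M| + 1 := by positivity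
    filter_upwards [Metric.tendstoUniformlyOn_iff.1 H (ε / (|M| + 1)) (div_pos hε hp)] with n hn z
    by_cases hz : z ∈ tsupport χ
    · have h1 := hn z hz
      rw [Real.dist_eq] at h1 ⊢
      rw [Pi.mul_apply, Pi.mul_apply, ← mul_sub, abs_mul]
      rw [lt_div_iff₀ hp] at h1
      have h2 : |χ z| ≤ |M| + 1 := by linarith [hM' z, le_abs_self M]
      nlinarith [abs_nonneg (u z - w n z)]
    · simp only [Pi.mul_apply, image_eq_zero_of_notMem_tsupport hz, zero_mul, dist_self]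
      exact hε
  have hC : ∀ ε : ℝ, 0 < ε → ∃ N, ∀ n ≥ N, ∀ m ≥ N,
      X.B 1 (χ * w n - χ * w m) (χ * w n - χ * w m) ≤ ε := by
    intro ε hε
    have hE := X.En_nonneg hχ
    have hp : 0 < X.En χ + 1 := by linarith
    have ha : 0 < √(ε / (X.En χ + 1)) := Real.sqrt_pos.2 (div_pos hε hp)
    obtain ⟨N, hN⟩ := eventually_atTop.1
      (Metric.tendstoUniformlyOn_iff.1 H (√(ε / (X.En χ + 1)) / 2) (half_pos ha))
    refine ⟨N, fun n hn m hm => ?_⟩
    have h1 := X.cacc_le (Harm.sub X (hw n) (hw m)) hχ hs (a := √(ε / (X.En χ + 1))) (by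
      intro z hz
      have a1 := hN n hn z hz
      have a2 := hN m hm z hz
      rw [Real.dist_eq, abs_lt] at a1 a2
      rw [Pi.sub_apply, abs_le]
      constructor <;> linarith [a1.1, a1.2, a2.1, a2.2])
    rw [Real.sq_sqrt (div_pos hε hp).le, mul_sub] at h1
    refine le_trans h1 ?_
    rw [div_mul_eq_mul_div, div_le_iff₀ hp]
    nlinarith
  obtain ⟨h1, h2⟩ := X.closable _ _ hmem hU hC
  refine ⟨h1, h2, fun V hV hV1 => ⟨h1, fun ψ hψ hψs => ?_⟩⟩
  have hVW : V ⊆ W := fun z hz =>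
    hs (subset_tsupport χ (by rw [Function.mem_support, hV1 z hz]; exact one_ne_zero))
  have h3 : ∀ n, X.B 1 (χ * w n) ψ = 0 := fun n =>
    (Harm.congr X hV (Harm.mono X (hw n) hVW) (hmem n)
      (fun z hz => by rw [Pi.mul_apply, hV1 z hz, one_mul])).2 ψ hψ hψs
  have h4 : ∀ n, |X.B 1 (χ * u) ψ| ≤ √(X.En (χ * w n - χ * u)) * √(X.En ψ) := fun n => by
    have := X.cs_En (X.Fc.sub_mem (hmem n) h1) hψ
    rwa [X.B_sub₂ continuous_one (hmem n) h1 hψ, h3 n, zero_sub, abs_neg] at this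
  have h5 : Tendsto (fun n => √(X.En (χ * w n - χ * u)) * √(X.En ψ)) atTop (𝓝 (√0 * √(X.En ψ))) :=
    (Filter.Tendsto.sqrt h2).mul_const _
  rw [Real.sqrt_zero, zero_mul] at h5
  exact abs_nonpos_iff.1 (ge_of_tendsto' h5 h4)

/-- area bound.  For open `V` with `K ⊆ V ⊆ W` take `r ≤ r₁` with `closedBall p (L r) ⊆ V` whenever
`ball p r` meets `K`, a net `P` from `Geo.dbl (2 L)`; `F '' (ball p r) ⊆ closedBall (F p) (12 Cs
√(D (closedBall p (L r))))` (`osc_le` for both coordinates), area `≤ π 144 Cs² D(...)`,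
`sum_real_le_of_overlap`; finally outer regularity of `D F` at `K`. -/
theorem exists_areaBd (hG : Geo G Z) : ∃ CA : ℝ, X.AreaBd CA := by
  classical
  obtain ⟨r₁, hr₁, hosc⟩ := X.osc_le hG
  obtain ⟨N, hN⟩ := hG.dbl (2 * X.L)
  have hL := X.one_lt_L
  have hC := X.Cs_pos
  set c : ℝ := Real.pi * (12 * X.Cs) ^ 2 with hc
  have hc0 : 0 < c := by positivity
  refine ⟨c * N + 1, by positivity, fun W K F hW hF hK hKW => ?_⟩
  have key : ∀ V : Set Z, IsOpen V → K ⊆ V → V ⊆ W →
      volume.real (F '' K) ≤ c * N * (X.D F).real V := by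
    intro V hV hKV hVW
    obtain ⟨δ, hδ, hδV⟩ := hK.exists_cthickening_subset_open hV hKV
    set r := min r₁ (δ / (X.L + 1)) with hr
    have hr0 : 0 < r := lt_min hr₁ (by positivity)
    have hrδ : X.L * r + r ≤ δ := by
      have := min_le_right r₁ (δ / (X.L + 1))
      rw [le_div_iff₀ (by positivity)] at this
      linarith
    obtain ⟨P, hP, hPN⟩ := hN r hr0
    set P' := P.filter fun p => ∃ k ∈ K, dist k p < r with hP'
    have hsub : ∀ p ∈ P', closedBall p (X.L * r) ⊆ V := by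
      intro p hp z hz
      obtain ⟨-, k, hk, hkp⟩ := Finset.mem_filter.1 hp
      refine hδV (mem_cthickening_of_dist_le z k δ K hk ?_)
      have h1 : dist z p ≤ X.L * r := hz
      linarith [dist_triangle_right z k p]
    have hcov : F '' K ⊆ ⋃ p ∈ P', closedBall (F p)
        (12 * X.Cs * √((X.D F).real (closedBall p (X.L * r)))) := by
      rintro _ ⟨z, hz, rfl⟩
      obtain ⟨p, hp, hzp⟩ := hP z
      have hp' : p ∈ P' := Finset.mem_filter.2 ⟨hp, z, hz, hzp⟩
      refine mem_iUnion₂.2 ⟨p, hp', ?_⟩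
      have h1 := hosc W _ hF.1 p r hr0 (min_le_left _ _) ((hsub p hp').trans hVW) z hzp
      have h2 := hosc W _ hF.2 p r hr0 (min_le_left _ _) ((hsub p hp').trans hVW) z hzp
      have h3 : (X.D F).real (closedBall p (X.L * r)) =
          (X.Γ (reF F)).real (closedBall p (X.L * r)) +
            (X.Γ (imF F)).real (closedBall p (X.L * r)) := by
        rw [D, measureReal_add_apply]
      have h4 : √((X.Γ (reF F)).real (closedBall p (X.L * r))) ≤
          √((X.D F).real (closedBall p (X.L * r))) :=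
        Real.sqrt_le_sqrt (by rw [h3]; exact le_add_of_nonneg_right measureReal_nonneg)
      have h5 : √((X.Γ (imF F)).real (closedBall p (X.L * r))) ≤
          √((X.D F).real (closedBall p (X.L * r))) :=
        Real.sqrt_le_sqrt (by rw [h3]; exact le_add_of_nonneg_left measureReal_nonneg)
      have h6 := Complex.norm_le_abs_re_add_abs_im (F z - F p)
      rw [mem_closedBall, dist_eq_norm]
      change |(F z).re - (F p).re| ≤ _ at h1
      change |(F z).im - (F p).im| ≤ _ at h2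
      rw [Complex.sub_re, Complex.sub_im] at h6
      have h7 := mul_le_mul_of_nonneg_left h4 (show 0 ≤ 6 * X.Cs by positivity)
      have h8 := mul_le_mul_of_nonneg_left h5 (show 0 ≤ 6 * X.Cs by positivity)
      linarith
    have hov := sum_real_le_of_overlap (X.D F) P' (fun p => closedBall p (X.L * r))
      (fun p _ => measurableSet_closedBall) hV.measurableSet hsub N (fun z => by
        rcases Set.eq_empty_or_nonempty {p | p ∈ P' ∧ z ∈ closedBall p (X.L * r)} with
          h | ⟨p₀, hp₀⟩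
        · rw [h]; simp
        · refine le_trans (Set.ncard_le_ncard (fun p hp => ?_)
            ((Finset.finite_toSet P).inter_of_left _)) (hPN p₀ (Finset.mem_filter.1 hp₀.1).1)
          refine ⟨(Finset.mem_filter.1 hp.1).1, ?_⟩
          have h1 : dist z p ≤ X.L * r := hp.2
          have h2 : dist z p₀ ≤ X.L * r := hp₀.2
          rw [mem_closedBall]
          linarith [dist_triangle_left p p₀ z])
    calc volume.real (F '' K)
        ≤ volume.real (⋃ p ∈ P', closedBall (F p)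
          (12 * X.Cs * √((X.D F).real (closedBall p (X.L * r))))) :=
          measureReal_mono hcov (((Finset.finite_toSet P').isCompact_biUnion
            fun p _ => isCompact_closedBall _ _).measure_lt_top.ne)
      _ ≤ ∑ p ∈ P', volume.real (closedBall (F p)
          (12 * X.Cs * √((X.D F).real (closedBall p (X.L * r))))) :=
          measureReal_biUnion_finset_le _ _
      _ = ∑ p ∈ P', c * (X.D F).real (closedBall p (X.L * r)) := by
          refine Finset.sum_congr rfl fun p _ => ?_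
          rw [Measure.real, Complex.volume_closedBall, ENNReal.toReal_mul, ENNReal.toReal_pow,
            ENNReal.toReal_ofReal (by positivity), mul_pow, Real.sq_sqrt measureReal_nonneg, hc]
          simp only [ENNReal.coe_toReal, NNReal.coe_real_pi]
          ring
      _ ≤ c * N * (X.D F).real V := by
          rw [← Finset.mul_sum, mul_assoc c]
          exact mul_le_mul_of_nonneg_left hov hc0.le
  refine le_of_forall_pos_le_add fun ε hε => ?_
  have hε' : 0 < ε / (c * N + 1) := by positivity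
  obtain ⟨U, hKU, hU, hlt⟩ := K.exists_isOpen_lt_add (μ := X.D F) (measure_ne_top _ _)
    (ε := ENNReal.ofReal (ε / (c * N + 1))) (by simpa using hε')
  have h1 : (X.D F).real U ≤ (X.D F).real K + ε / (c * N + 1) := by
    have := ENNReal.toReal_mono (by finiteness) hlt.le
    rwa [ENNReal.toReal_add (measure_ne_top _ _) ENNReal.ofReal_ne_top,
      ENNReal.toReal_ofReal hε'.le] at this
  have h2 := key (U ∩ W) (hU.inter hW) (subset_inter hKU hKW) inter_subset_right
  have h3 : (X.D F).real (U ∩ W) ≤ (X.D F).real U := measureReal_mono inter_subset_left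
  have h4 : 0 ≤ (X.D F).real (U ∩ W) := measureReal_nonneg
  have h5 : (c * N + 1) * (ε / (c * N + 1)) = ε := by field_simp
  have h6 : (c * N + 1) * (X.D F).real (U ∩ W) ≤
      (c * N + 1) * ((X.D F).real K + ε / (c * N + 1)) :=
    mul_le_mul_of_nonneg_left (h3.trans h1) (by positivity)
  nlinarith

end DForm

end Crest.Agent.R193.E
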