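import Mathlib

/-! Row 193, endgame [E]: Weyl's lemma in the plane and the holomorphic/antiholomorphic
dichotomy. -/

set_option autoImplicit false

open Set Filter Topology MeasureTheory Metric Complex
open scoped Convolution ComplexConjugate

namespace Crest.Agent.R193.E

/-- the Laplacian -/
noncomputable def lap (χ : ℂ → ℝ) (w : ℂ) : ℝ :=
  fderiv ℝ (fun v => fderiv ℝ χ v 1) w 1 + fderiv ℝ (fun v => fderiv ℝ χ v Complex.I) w Complex.I

/-- `u` is near `z` the real part of an analytic function -/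
def LocRe (u : ℂ → ℝ) (z : ℂ) : Prop :=
  ∃ f : ℂ → ℂ, AnalyticAt ℂ f z ∧ u =ᶠ[𝓝 z] fun w => (f w).re

theorem fderiv_conv {b : ℂ → ℝ} (hb : ContDiff ℝ 1 b) (hbc : HasCompactSupport b)
    {g : ℂ → ℝ} (hg : LocallyIntegrable g) (v : ℂ) :
    (fun x => fderiv ℝ (b ⋆[ContinuousLinearMap.lsmul ℝ ℝ, volume] g) x v)
      = (fun y => fderiv ℝ b y v) ⋆[ContinuousLinearMap.lsmul ℝ ℝ, volume] g := by
  funext x
  have h1 := (hbc.hasFDerivAt_convolution_left (ContinuousLinearMap.lsmul ℝ ℝ) hb hg x).fderiv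
  rw [h1, convolution_eq_swap, convolution_eq_swap]
  have hex : ConvolutionExistsAt (fderiv ℝ b) g x
      ((ContinuousLinearMap.lsmul ℝ ℝ : ℝ →L[ℝ] ℝ →L[ℝ] ℝ).precompL ℂ) volume :=
    (hbc.fderiv ℝ).convolutionExists_left _ (hb.continuous_fderiv one_ne_zero) hg x
  rw [ContinuousLinearMap.integral_apply hex.integrable_swap]
  rfl

theorem contDiff_dir {b : ℂ → ℝ} (hb : ContDiff ℝ 2 b) (v : ℂ) :
    ContDiff ℝ 1 fun y => fderiv ℝ b y v :=
  (hb.fderiv_right (m := 1) le_rfl).clm_apply contDiff_const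

theorem lap_conv {b : ℂ → ℝ} (hb : ContDiff ℝ 2 b) (hbc : HasCompactSupport b)
    {g : ℂ → ℝ} (hg : LocallyIntegrable g) (x : ℂ) :
    lap (b ⋆[ContinuousLinearMap.lsmul ℝ ℝ, volume] g) x = ∫ t, g t * lap b (x - t) := by
  have hb1 : ContDiff ℝ 1 b := hb.of_le one_le_two
  have key : ∀ v : ℂ, fderiv ℝ (fun y => fderiv ℝ
      (b ⋆[ContinuousLinearMap.lsmul ℝ ℝ, volume] g) y v) x v =
        ∫ t, fderiv ℝ (fun y => fderiv ℝ b y v) (x - t) v * g t ∧
      Integrable fun t => fderiv ℝ (fun y => fderiv ℝ b y v) (x - t) v * g t := by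
    intro v
    have hc : HasCompactSupport fun y => fderiv ℝ b y v := hbc.fderiv_apply ℝ v
    refine ⟨?_, ?_⟩
    · rw [fderiv_conv hb1 hbc hg v, congrFun (fderiv_conv (contDiff_dir hb v) hc hg v) x,
        convolution_eq_swap]
      rfl
    · have hex : ConvolutionExistsAt (fun y => fderiv ℝ (fun y => fderiv ℝ b y v) y v) g x
          (ContinuousLinearMap.lsmul ℝ ℝ : ℝ →L[ℝ] ℝ →L[ℝ] ℝ) volume :=
        (hc.fderiv_apply ℝ v).convolutionExists_left _
          (((contDiff_dir hb v).continuous_fderiv one_ne_zero).clm_apply continuous_const) hg x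
      exact hex.integrable_swap
  rw [lap, (key 1).1, (key I).1, ← integral_add (key 1).2 (key I).2]
  refine integral_congr_ae (Eventually.of_forall fun t => ?_)
  simp only [lap]
  ring

theorem fderiv_refl {b : ℂ → ℝ} (hb : Differentiable ℝ b) (x y v : ℂ) :
    fderiv ℝ (fun y => b (x - y)) y v = -fderiv ℝ b (x - y) v := by
  have h2 : HasFDerivAt (fun y : ℂ => x - y) (-(ContinuousLinearMap.id ℝ ℂ)) y := by
    simpa using (hasFDerivAt_id y).const_sub x
  have h3 : HasFDerivAt (fun y => b (x - y)) _ y := (hb (x - y)).hasFDerivAt.comp y h2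
  rw [h3.fderiv]
  simp

theorem lap_refl {b : ℂ → ℝ} (hb : ContDiff ℝ 2 b) (x y : ℂ) :
    lap (fun y => b (x - y)) y = lap b (x - y) := by
  have key : ∀ v : ℂ, fderiv ℝ (fun y => fderiv ℝ (fun y => b (x - y)) y v) y v =
      fderiv ℝ (fun y => fderiv ℝ b y v) (x - y) v := by
    intro v
    have e : (fun y => fderiv ℝ (fun y => b (x - y)) y v) =
        fun y => (fun w => -fderiv ℝ b w v) (x - y) :=
      funext fun y => fderiv_refl (hb.differentiable two_ne_zero) x y v
    have hd := (contDiff_dir hb v).differentiable one_ne_zero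
    rw [e, fderiv_refl (b := fun w => -fderiv ℝ b w v) hd.neg, fderiv_fun_neg]
    simp
  rw [lap, lap, key, key]

theorem lap_eq_zero {b : ℂ → ℝ} {y : ℂ} (hy : y ∉ tsupport b) : lap b y = 0 := by
  have key : ∀ v : ℂ, fderiv ℝ (fun y => fderiv ℝ b y v) y v = 0 := by
    intro v
    have h1 : (fun y => fderiv ℝ b y v) =ᶠ[𝓝 y] fun _ => 0 := by
      filter_upwards [(notMem_tsupport_iff_eventuallyEq.1 hy).eventuallyEq_nhds] with w hw
      rw [hw.fderiv_eq]
      simp
    rw [h1.fderiv_eq]
    simp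
  rw [lap, key, key, add_zero]

theorem harmonicAt_of_lap {f : ℂ → ℝ} (hf : ContDiff ℝ 2 f) {x : ℂ}
    (h : ∀ᶠ y in 𝓝 x, lap f y = 0) : InnerProductSpace.HarmonicAt f x := by
  refine ⟨hf.contDiffAt, ?_⟩
  filter_upwards [h] with y hy
  have hd : DifferentiableAt ℝ (fderiv ℝ f) y :=
    ((hf.fderiv_right (m := 1) le_rfl).differentiable one_ne_zero) y
  rw [lap, fderiv_clm_apply hd (differentiableAt_const _),
    fderiv_clm_apply hd (differentiableAt_const _)] at hy
  simpa [InnerProductSpace.laplacian_eq_iteratedFDeriv_complexPlane, iteratedFDeriv_two_apply]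
    using hy

/-- a uniform limit of harmonic functions is locally the real part of an analytic function -/
theorem locRe_of_limit {F : ℕ → ℂ → ℝ} {u : ℂ → ℝ} {z : ℂ} {r : ℝ} (hr : 0 < r)
    (hF : ∀ n, InnerProductSpace.HarmonicOnNhd (F n) (closedBall z r))
    (hu : ContinuousOn u (closedBall z r))
    (hl : TendstoUniformlyOn F u atTop (closedBall z r)) : LocRe u z := by
  have hs : sphere z |r| ⊆ closedBall z r := by
    rw [abs_of_pos hr]; exact sphere_subset_closedBall
  have hui : CircleIntegrable (fun ζ => u (ζ + z)) 0 r := by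
    refine ContinuousOn.circleIntegrable' (hu.comp (by fun_prop) fun ζ hζ => hs ?_)
    simpa using hζ
  have hui' : CircleIntegrable (fun ζ => (u (ζ + z) : ℂ)) 0 r := by
    simp only [CircleIntegrable, intervalIntegrable_iff] at hui ⊢
    exact Complex.ofRealCLM.integrable_comp hui
  have ha := analyticOnNhd_circleAverage_herglotzRieszKernel_smul hui'
  refine ⟨fun w => Real.circleAverage
    (fun ζ => herglotzRieszKernel 0 (w - z) ζ • (u (ζ + z) : ℂ)) 0 r, ?_, ?_⟩
  · have h0 := ha 0 (mem_ball_self hr)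
    exact h0.comp_of_eq (f := fun w => w - z) (by fun_prop) (sub_self z)
  · filter_upwards [ball_mem_nhds z hr] with w hw
    have hw' : w - z ∈ ball (0 : ℂ) r := by simpa [dist_eq_norm] using hw
    rw [re_circleAverage_herglotzRieszKernel_smul hui hw']
    have e : Real.circleAverage ((re ∘ herglotzRieszKernel 0 (w - z)) • fun ζ => u (ζ + z)) 0 r =
        Real.circleAverage ((re ∘ herglotzRieszKernel z w) • u) z r := by
      rw [← Real.circleAverage_map_add_const (c := z)]
      congr 1
      funext ζ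
      simp [herglotzRieszKernel_add_const]
    rw [e]
    have hK : ContinuousOn (re ∘ herglotzRieszKernel z w) (sphere z |r|) :=
      continuous_re.comp_continuousOn (continuousOn_herglotzRieszKernel_sphere hw)
    obtain ⟨M, hM⟩ := (isCompact_sphere z |r|).exists_bound_of_continuousOn hK
    have hM0 : 0 < |M| + 1 := by positivity
    have i1 : CircleIntegrable ((re ∘ herglotzRieszKernel z w) • u) z r :=
      (hK.smul (hu.mono hs)).circleIntegrable'
    have h1 : Tendsto (fun n => F n w) atTop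
        (𝓝 (Real.circleAverage ((re ∘ herglotzRieszKernel z w) • u) z r)) := by
      rw [Metric.tendsto_nhds]
      intro ε hε
      filter_upwards [Metric.tendstoUniformlyOn_iff.1 hl (ε / 2 / (|M| + 1)) (by positivity)]
        with n hn
      have i2 : CircleIntegrable ((re ∘ herglotzRieszKernel z w) • F n) z r :=
        (hK.smul ((hF n).continuousOn.mono hs)).circleIntegrable'
      rw [← (hF n).circleAverage_re_herglotzRieszKernel_smul hw, Real.dist_eq,
        ← Real.circleAverage_sub i2 i1]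
      refine (Real.abs_circleAverage_le_circleAverage_abs.trans
        (Real.circleAverage_mono_on_of_le_circle (a := ε / 2) (i2.sub i1).abs
          fun ζ hζ => ?_)).trans_lt (by linarith)
      have h2 := hM ζ hζ
      have h3 := hn ζ (hs hζ)
      rw [Real.dist_eq, abs_sub_comm, lt_div_iff₀ hM0] at h3
      change |(re ∘ herglotzRieszKernel z w) ζ * F n ζ - (re ∘ herglotzRieszKernel z w) ζ * u ζ| ≤ _
      rw [← mul_sub, abs_mul]
      rw [Real.norm_eq_abs] at h2
      have h4 := le_abs_self M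
      nlinarith [abs_nonneg (F n ζ - u ζ)]
    exact tendsto_nhds_unique (hl.tendsto_at (ball_subset_closedBall hw)) h1

/-- Weyl's lemma -/
theorem weyl {Y : Set ℂ} (hY : IsOpen Y) {u : ℂ → ℝ} (hu : ContinuousOn u Y)
    (h : ∀ χ : ℂ → ℝ, ContDiff ℝ 2 χ → HasCompactSupport χ → tsupport χ ⊆ Y →
      ∫ w, u w * lap χ w = 0) {z : ℂ} (hz : z ∈ Y) : LocRe u z := by
  obtain ⟨ε, hε, hεY⟩ := Metric.isOpen_iff.1 hY z hz
  obtain ⟨r, hr⟩ : ∃ r : ℝ, r = ε / 4 := ⟨_, rfl⟩
  have hr0 : 0 < r := by rw [hr]; positivity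
  have hsub : closedBall z (3 * r) ⊆ Y :=
    (closedBall_subset_ball (by rw [hr]; linarith)).trans hεY
  set K : Set ℂ := closedBall z (3 * r) with hK
  have hKc : IsCompact K := isCompact_closedBall _ _
  have hHK : ContinuousOn u K := hu.mono hsub
  set g : ℂ → ℝ := K.indicator u with hg
  have hgi : Integrable g := by
    rw [hg, integrable_indicator_iff measurableSet_closedBall]
    exact hHK.integrableOn_compact hKc
  let φ : ℕ → ContDiffBump (0 : ℂ) := fun n =>
    ⟨r / (2 * ((n : ℝ) + 1)), r / ((n : ℝ) + 1), by positivity, by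
      have : (0 : ℝ) < (n : ℝ) + 1 := by positivity
      rw [div_lt_div_iff₀ (by positivity) this]; nlinarith⟩
  have hφr : ∀ n, (φ n).rOut ≤ r := by
    intro n
    show r / ((n : ℝ) + 1) ≤ r
    have : (1 : ℝ) ≤ (n : ℝ) + 1 := by have := Nat.cast_nonneg (α := ℝ) n; linarith
    exact div_le_self hr0.le this
  let F : ℕ → ℂ → ℝ := fun n =>
    (φ n).normed volume ⋆[ContinuousLinearMap.lsmul ℝ ℝ, volume] g
  have hF : ∀ n, InnerProductSpace.HarmonicOnNhd (F n) (closedBall z r) := by
    intro n x₀ hx₀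
    have hb2 : ContDiff ℝ 2 ((φ n).normed volume) := (φ n).contDiff_normed
    have hbc : HasCompactSupport ((φ n).normed volume) := (φ n).hasCompactSupport_normed
    refine harmonicAt_of_lap (hbc.contDiff_convolution_left _ hb2 hgi.locallyIntegrable) ?_
    have hn : ball z (2 * r) ∈ 𝓝 x₀ :=
      isOpen_ball.mem_nhds (closedBall_subset_ball (by linarith) hx₀)
    filter_upwards [hn] with x hx
    set b := (φ n).normed volume with hbdef
    have hts : tsupport (fun y => b (x - y)) ⊆ K := by
      refine closure_minimal (fun y hy => ?_) isClosed_closedBall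
      have h1 : x - y ∈ Function.support b := hy
      rw [hbdef, (φ n).support_normed_eq, mem_ball, dist_zero_right, ← dist_eq_norm] at h1
      have h2 := dist_triangle_left y z x
      have h3 := hφr n
      have h4 : dist x z < 2 * r := hx
      simp only [hK, mem_closedBall]
      linarith
    have h0 := h (fun y => b (x - y)) (hb2.comp (contDiff_const.sub contDiff_id))
      (hKc.of_isClosed_subset (isClosed_tsupport _) hts) (hts.trans hsub)
    rw [lap_conv hb2 hbc hgi.locallyIntegrable, ← h0]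
    refine integral_congr_ae (Eventually.of_forall fun t => ?_)
    simp only [← lap_refl hb2 x t]
    by_cases ht : t ∈ K
    · rw [hg, indicator_of_mem ht]
    · rw [lap_eq_zero fun h' => ht (hts h'), mul_zero, mul_zero]
  have hlim : TendstoUniformlyOn F u atTop (closedBall z r) := by
    rw [Metric.tendstoUniformlyOn_iff]
    intro ε hε
    obtain ⟨δ, hδ, hu⟩ := Metric.uniformContinuousOn_iff.1
      (hKc.uniformContinuousOn_of_continuous hHK) (ε / 2) (by positivity)
    have ht : Tendsto (fun n : ℕ => r / ((n : ℝ) + 1)) atTop (𝓝 0) := by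
      have := tendsto_one_div_add_atTop_nhds_zero_nat (𝕜 := ℝ).const_mul r
      simpa [div_eq_mul_inv] using this
    filter_upwards [ht.eventually (gt_mem_nhds hδ)] with n hn x hx
    have hxK : x ∈ K := (closedBall_subset_closedBall (by linarith)) hx
    have hd := (φ n).dist_normed_convolution_le (μ := volume) (x₀ := x) (ε := ε / 2)
      hgi.aestronglyMeasurable (by
        intro y hy
        have hyK : y ∈ K := by
          have h1 : dist y x < r := lt_of_lt_of_le hy (hφr n)
          have h2 : dist x z ≤ r := hx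
          have := dist_triangle y x z
          simp only [hK, mem_closedBall]
          linarith
        rw [hg, indicator_of_mem hyK, indicator_of_mem hxK]
        exact (hu y hyK x hxK (lt_trans hy hn)).le)
    have hgx : g x = u x := by rw [hg, indicator_of_mem hxK]
    rw [hgx] at hd
    rw [dist_comm]
    exact lt_of_le_of_lt hd (by linarith)
  exact locRe_of_limit hr0 hF (hHK.mono (closedBall_subset_closedBall (by linarith))) hlim

/-- applying `∂/∂z` to `a * conj b = p + conj q` -/
theorem del_conj {a b p q : ℂ → ℂ} {z : ℂ} (ha : AnalyticAt ℂ a z) (hb : AnalyticAt ℂ b z)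
    (hp : AnalyticAt ℂ p z) (hq : AnalyticAt ℂ q z)
    (h : ∀ᶠ w in 𝓝 z, a w * conj (b w) = p w + conj (q w)) :
    ∀ᶠ w in 𝓝 z, deriv a w * conj (b w) = deriv p w := by
  filter_upwards [h.eventually_nhds, ha.eventually_analyticAt, hb.eventually_analyticAt,
    hp.eventually_analyticAt, hq.eventually_analyticAt] with w hw ha hb hp hq
  have D : ∀ {f : ℂ → ℂ}, AnalyticAt ℂ f w → HasFDerivAt f
      ((ContinuousLinearMap.toSpanSingleton ℂ (deriv f w)).restrictScalars ℝ) w := fun hf =>
    hf.differentiableAt.hasDerivAt.hasFDerivAt.restrictScalars ℝ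
  have C : ∀ {f : ℂ → ℂ}, AnalyticAt ℂ f w → HasFDerivAt (fun w => conj (f w))
      ((conjCLE : ℂ →L[ℝ] ℂ).comp
        ((ContinuousLinearMap.toSpanSingleton ℂ (deriv f w)).restrictScalars ℝ)) w := fun hf =>
    (conjCLE : ℂ →L[ℝ] ℂ).hasFDerivAt.comp w (D hf)
  have h1 := (D ha).mul (C hb)
  have h2 := ((D hp).add (C hq)).congr_of_eventuallyEq hw
  have h3 := h1.unique h2
  have e1 := congrArg (fun L : ℂ →L[ℝ] ℂ => L 1) h3
  have eI := congrArg (fun L : ℂ →L[ℝ] ℂ => L I) h3
  simp [ContinuousLinearMap.toSpanSingleton_apply] at e1 eI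
  have hI : I * I = -1 := I_mul_I
  linear_combination (1 / 2) * e1 - (I / 2) * eI +
    ((conj (b w) * deriv a w - a w * conj (deriv b w) - deriv p w + conj (deriv q w)) / 2) * hI

theorem split_re_im {τ : ℂ → ℂ} {z : ℂ} (h1 : LocRe (fun w => (τ w).re) z)
    (h2 : LocRe (fun w => (τ w).im) z) : ∃ a b : ℂ → ℂ, AnalyticAt ℂ a z ∧ AnalyticAt ℂ b z ∧
      ∀ᶠ w in 𝓝 z, τ w = a w + conj (b w) := by
  obtain ⟨f, hf, e1⟩ := h1
  obtain ⟨g, hg, e2⟩ := h2
  refine ⟨fun w => (f w + I * g w) / 2, fun w => (f w - I * g w) / 2, by fun_prop, by fun_prop, ?_⟩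
  filter_upwards [e1, e2] with w h1 h2
  apply Complex.ext
  · simp [h1, map_ofNat]; ring
  · simp [h2, map_ofNat]; ring

theorem eventually_const_of_deriv {a : ℂ → ℂ} {z : ℂ} (ha : AnalyticAt ℂ a z)
    (h : ∀ᶠ w in 𝓝 z, deriv a w = 0) : ∀ᶠ w in 𝓝 z, a w = a z := by
  obtain ⟨r, hr, hb⟩ := Metric.eventually_nhds_iff_ball.1 (h.and ha.eventually_analyticAt)
  filter_upwards [ball_mem_nhds z hr] with w hw
  exact isOpen_ball.is_const_of_deriv_eq_zero (convex_ball z r).isPreconnected
    (fun x hx => (hb x hx).2.differentiableAt.differentiableWithinAt) (fun x hx => (hb x hx).1)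
    hw (mem_ball_self hr)

/-- if `τ` and `τ²` are harmonic then `τ` is holomorphic or antiholomorphic -/
theorem hol_or_anti {τ : ℂ → ℂ} {z : ℂ} (h1 : LocRe (fun w => (τ w).re) z)
    (h2 : LocRe (fun w => (τ w).im) z) (h3 : LocRe (fun w => (τ w ^ 2).re) z)
    (h4 : LocRe (fun w => (τ w ^ 2).im) z) :
    AnalyticAt ℂ τ z ∨ AnalyticAt ℂ (fun w => (starRingEnd ℂ) (τ w)) z := by
  obtain ⟨a, b, ha, hb, e⟩ := split_re_im h1 h2
  obtain ⟨c, d, hc, hd, e'⟩ := split_re_im (τ := fun w => τ w ^ 2) h3 h4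
  have k1 : ∀ᶠ w in 𝓝 z, a w * conj (b w) =
      (fun w => (c w - a w ^ 2) / 2) w + conj ((fun w => (d w - b w ^ 2) / 2) w) := by
    filter_upwards [e, e'] with w hw hw'
    rw [hw] at hw'
    simp only [map_div₀, map_sub, map_pow, map_ofNat]
    linear_combination (1 / 2) * hw'
  have k2 := del_conj ha hb (by fun_prop) (by fun_prop) k1
  have hp : AnalyticAt ℂ (deriv fun w => (c w - a w ^ 2) / 2) z :=
    AnalyticAt.deriv (by fun_prop)
  have k3 : ∀ᶠ w in 𝓝 z, b w * conj (deriv a w) =
      (fun _ => (0 : ℂ)) w + conj ((deriv fun w => (c w - a w ^ 2) / 2) w) := by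
    filter_upwards [k2] with w hw
    rw [← hw]
    simp [mul_comm]
  have k4 := del_conj hb ha.deriv analyticAt_const hp k3
  rcases ha.deriv.eventually_eq_zero_or_eventually_ne_zero with h0 | h0
  · right
    refine (AnalyticAt.add (analyticAt_const (v := conj (a z))) hb).congr ?_
    filter_upwards [e, eventually_const_of_deriv ha h0] with w hw hw'
    simp [hw, hw']
  · left
    have k5 : ∀ᶠ w in 𝓝[≠] z, deriv b w = 0 := by
      filter_upwards [h0, nhdsWithin_le_nhds k4] with w hw hw'
      simpa [hw] using hw'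
    have k6 := hb.deriv.frequently_zero_iff_eventually_zero.1 k5.frequently
    refine (AnalyticAt.add ha (analyticAt_const (v := conj (b z)))).congr ?_
    filter_upwards [e, eventually_const_of_deriv hb k6] with w hw hw'
    simp [hw, hw']

end Crest.Agent.R193.E
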