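import Mathlib
import Crest.Agent.R193.Defs

/-! Row 193, block [T] (Sullivan-Tukia zoom): definitions.

Plan of the block.  A local quasisymmetric chart `F` of `Z` turns every `g : G` into a partial
homeomorphism `phi F g` of `ℂ` which is locally weakly `H`-quasisymmetric with `H` independent of
`g` (`PG`).  Such maps are a.e. differentiable (Stepanov), have `L²`-bounded difference quotients,
invertible derivative of bounded eccentricity a.e. and preserve null sets (`TA*`).  The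
Binet-Legendre ellipse of the norm `sup_g |Dg v| / sqrt |det Dg|` is an invariant measurable field
`b` of quadratic forms (`TB1`).  Zooming at a Lebesgue point of `b` (`TZ*`) conjugates every `g` to
a map `W` with `W` and `W²` weakly harmonic (`TB2`, `TM`), so `W` is holomorphic or
antiholomorphic (`TW2`). -/

set_option autoImplicit false

namespace Crest.Agent.R193.T

open MeasureTheory Set Metric Filter Topology

/-- partial homeomorphisms of the plane -/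
abbrev PH : Type := OpenPartialHomeomorph ℂ ℂ

/-- weak quasisymmetry on a set -/
def QSOn (H : ℝ) (φ : ℂ → ℂ) (s : Set ℂ) : Prop :=
  ∀ a ∈ s, ∀ b ∈ s, ∀ c ∈ s, dist a b ≤ 4 * dist a c → dist (φ a) (φ b) ≤ H * dist (φ a) (φ c)

/-- local weak quasisymmetry -/
def LocQS (H : ℝ) (φ : PH) : Prop :=
  ∀ x ∈ φ.source, ∃ r : ℝ, 0 < r ∧ ball x r ⊆ φ.source ∧ QSOn H φ (ball x r)

/-- a map and its inverse are locally weakly quasisymmetric -/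
structure IsQC (H : ℝ) (φ : PH) : Prop where
  one_le : 1 ≤ H
  fwd : LocQS H φ
  bwd : LocQS H φ.symm

theorem IsQC.symm {H : ℝ} {φ : PH} (h : IsQC H φ) : IsQC H φ.symm :=
  ⟨h.one_le, h.bwd, by simpa using h.fwd⟩

/-- a pseudogroup action of `G` on `Ω` by uniformly quasiconformal maps -/
structure PG (G : Type) [Group G] (H : ℝ) (Ω : Set ℂ) (φ : G → PH) : Prop where
  qc : ∀ g, IsQC H (φ g)
  src : ∀ g, (φ g).source ⊆ Ω
  one_src : (φ 1).source = Ω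
  one_eq : ∀ x ∈ Ω, φ 1 x = x
  mul_src : ∀ g k, ∀ x ∈ (φ k).source, (φ k x ∈ (φ g).source ↔ x ∈ (φ (g * k)).source)
  mul_eq : ∀ g k, ∀ x ∈ (φ k).source, φ k x ∈ (φ g).source → φ (g * k) x = φ g (φ k x)

/-- coefficients `(b₁₁, b₁₂, b₂₂)` of a symmetric form on covectors -/
abbrev Coef : Type := ℝ × ℝ × ℝ

/-- the symmetric bilinear pairing of two complex valued covectors -/
noncomputable def Q (b : Coef) (α β : ℂ →L[ℝ] ℂ) : ℂ :=
  (b.1 : ℂ) * (α 1 * β 1) + (b.2.1 : ℂ) * (α 1 * β Complex.I + α Complex.I * β 1) +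
    (b.2.2 : ℂ) * (α Complex.I * β Complex.I)

/-- positive definiteness -/
def PosDef (b : Coef) : Prop := 0 < b.1 ∧ b.2.1 ^ 2 < b.1 * b.2.2

/-- the field `b` is conformally invariant under `φ` -/
def Inv (b : ℂ → Coef) (φ : PH) : Prop :=
  ∀ᵐ x, x ∈ φ.source → ∀ α β : ℂ →L[ℝ] ℂ,
    Q (b x) (α.comp (fderiv ℝ φ x)) (β.comp (fderiv ℝ φ x)) =
      ((|(fderiv ℝ φ x).det| : ℝ) : ℂ) * Q (b (φ x)) α β

/-- the constant coefficient operator `∂_{e₁}² + ∂_{e₂}²` -/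
noncomputable def L (e₁ e₂ : ℂ) (θ : ℂ → ℂ) (x : ℂ) : ℂ :=
  fderiv ℝ (fun y => fderiv ℝ θ y e₁) x e₁ + fderiv ℝ (fun y => fderiv ℝ θ y e₂) x e₂

/-- test functions in `U` -/
structure Test (U : Set ℂ) (θ : ℂ → ℂ) : Prop where
  cd : ContDiff ℝ 2 θ
  cs : HasCompactSupport θ
  sub : tsupport θ ⊆ U

/-- weakly harmonic on `U` -/
def WeakHarm (U : Set ℂ) (W : ℂ → ℂ) : Prop :=
  ∀ θ : ℂ → ℂ, Test U θ → ∫ w, W w * L 1 Complex.I θ w = 0

section Act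

variable {G Z : Type} [Group G] [MetricSpace Z] [MulAction G Z]

/-- the homeomorphism given by a group element -/
def act (hcont : ∀ g : G, Continuous fun z : Z => g • z) (g : G) : Z ≃ₜ Z where
  toFun z := g • z
  invFun z := g⁻¹ • z
  left_inv z := inv_smul_smul g z
  right_inv z := smul_inv_smul g z
  continuous_toFun := hcont g
  continuous_invFun := hcont g⁻¹

/-- a group element read in the chart `F` -/
noncomputable def phi (hcont : ∀ g : G, Continuous fun z : Z => g • z)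
    (F : OpenPartialHomeomorph Z ℂ) (g : G) : PH :=
  F.symm.trans ((act hcont g).toOpenPartialHomeomorph.trans F)

variable (hcont : ∀ g : G, Continuous fun z : Z => g • z) (F : OpenPartialHomeomorph Z ℂ) (g : G)

theorem mem_phi_source (x : ℂ) :
    x ∈ (phi hcont F g).source ↔ x ∈ F.target ∧ g • F.symm x ∈ F.source := by
  simp [phi, act]

theorem phi_apply (x : ℂ) : phi hcont F g x = F (g • F.symm x) := by
  simp [phi, act]

theorem mem_phi_target (x : ℂ) :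
    x ∈ (phi hcont F g).target ↔ x ∈ F.target ∧ g⁻¹ • F.symm x ∈ F.source := by
  simp [phi, act]

theorem phi_symm_apply (x : ℂ) : (phi hcont F g).symm x = F (g⁻¹ • F.symm x) := by
  simp [phi, act]

end Act

/-- the zoom map `y ↦ s⁻¹ A (y - y₀)` -/
noncomputable def aff (y₀ : ℂ) (A : ℂ ≃L[ℝ] ℂ) (s : ℝ) (y : ℂ) : ℂ := s⁻¹ • A (y - y₀)

/-- its inverse `w ↦ y₀ + s A⁻¹ w` -/
noncomputable def affi (y₀ : ℂ) (A : ℂ ≃L[ℝ] ℂ) (s : ℝ) (w : ℂ) : ℂ := y₀ + s • A.symm w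

theorem aff_affi (y₀ : ℂ) (A : ℂ ≃L[ℝ] ℂ) {s : ℝ} (hs : s ≠ 0) (w : ℂ) :
    aff y₀ A s (affi y₀ A s w) = w := by
  simp only [aff, affi, add_sub_cancel_left, map_smul, ContinuousLinearEquiv.apply_symm_apply,
    smul_smul, inv_mul_cancel₀ hs, one_smul]

theorem affi_aff (y₀ : ℂ) (A : ℂ ≃L[ℝ] ℂ) {s : ℝ} (hs : s ≠ 0) (y : ℂ) :
    affi y₀ A s (aff y₀ A s y) = y := by
  simp only [aff, affi, map_smul, ContinuousLinearEquiv.symm_apply_apply, smul_smul,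
    mul_inv_cancel₀ hs, one_smul, add_sub_cancel]

/-- A sequence of partially defined maps `e n : U n → ℂ` with right inverses `k n` which is
equicontinuous, uniformly injective and uniformly proper away from `η`. -/
structure Approx {Z : Type} [MetricSpace Z] (𝒰 : Ultrafilter ℕ) (η : Z) (U : ℕ → Set Z)
    (e : ℕ → Z → ℂ) (k : ℕ → ℂ → Z) : Prop where
  dom : ∀ δ : ℝ, 0 < δ → ∀ᶠ n in (𝒰 : Filter ℕ), ∀ z, δ ≤ dist z η → z ∈ U n
  bdd : ∀ δ : ℝ, 0 < δ → ∃ R : ℝ, ∀ᶠ n in (𝒰 : Filter ℕ), ∀ z, δ ≤ dist z η → ‖e n z‖ ≤ R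
  equi : ∀ δ : ℝ, 0 < δ → ∀ ε : ℝ, 0 < ε → ∃ τ : ℝ, 0 < τ ∧ ∀ᶠ n in (𝒰 : Filter ℕ), ∀ z z',
    δ ≤ dist z η → δ ≤ dist z' η → dist z z' ≤ τ → dist (e n z) (e n z') ≤ ε
  inj : ∀ δ : ℝ, 0 < δ → ∀ τ : ℝ, 0 < τ → ∃ m : ℝ, 0 < m ∧ ∀ᶠ n in (𝒰 : Filter ℕ), ∀ z z',
    δ ≤ dist z η → δ ≤ dist z' η → τ ≤ dist z z' → m ≤ dist (e n z) (e n z')
  prop : ∀ R : ℝ, ∃ δ : ℝ, 0 < δ ∧ ∀ᶠ n in (𝒰 : Filter ℕ), ∀ z ∈ U n, ‖e n z‖ ≤ R →
    δ ≤ dist z η
  tgt : ∀ R : ℝ, ∀ᶠ n in (𝒰 : Filter ℕ), ∀ w : ℂ, ‖w‖ ≤ R → k n w ∈ U n ∧ e n (k n w) = w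

/-- The limit of an `Approx` sequence. -/
structure Lim {Z : Type} [MetricSpace Z] (𝒰 : Ultrafilter ℕ) (η : Z)
    (e : ℕ → Z → ℂ) (k : ℕ → ℂ → Z) (h : Z → ℂ) (κ : ℂ → Z) : Prop where
  emb : IsEmbedding κ
  range_eq : range κ = {η}ᶜ
  cont : ContinuousOn h {η}ᶜ
  hk : ∀ w, h (κ w) = w
  kh : ∀ z, z ≠ η → κ (h z) = z
  conv : ∀ δ : ℝ, 0 < δ → ∀ ε : ℝ, 0 < ε → ∀ᶠ n in (𝒰 : Filter ℕ), ∀ z, δ ≤ dist z η →
    dist (e n z) (h z) ≤ ε
  convi : ∀ R : ℝ, ∀ ε : ℝ, 0 < ε → ∀ᶠ n in (𝒰 : Filter ℕ), ∀ w : ℂ, ‖w‖ ≤ R →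
    dist (k n w) (κ w) ≤ ε

/-- Output of the analytic half: at a Lebesgue point `y₀` of the invariant field and in the frame
`A`, holomorphic functions composed with the zoomed maps are almost weakly harmonic. -/
def TAStmt : Prop :=
  ∀ (G : Type) [Group G] [Countable G] (H : ℝ) (Ω : Set ℂ) (φ : G → PH), Ω.Nonempty →
    PG G H Ω φ → ∃ y₀ ∈ Ω, ∃ A : ℂ ≃L[ℝ] ℂ, ∀ ε : ℝ, 0 < ε → ∀ R : ℝ, 0 < R →
      ∃ ρ₀ : ℝ, 0 < ρ₀ ∧ ∀ ρ : ℝ, 0 < ρ → ρ < ρ₀ → ∀ (g : G) (f θ : ℂ → ℂ), Differentiable ℂ f → Test (ball 0 R) θ →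
        (∀ z ∈ tsupport θ, affi y₀ A ρ z ∈ (φ g).source ∧
          aff y₀ A ρ (φ g (affi y₀ A ρ z)) ∈ ball (0 : ℂ) R) →
        ∀ a b : ℝ, (∀ z, ‖fderiv ℝ θ z‖ ≤ a) → (∀ z ∈ ball (0 : ℂ) R, ‖fderiv ℝ f z‖ ≤ b) →
          ‖∫ z, f (aff y₀ A ρ (φ g (affi y₀ A ρ z))) * L 1 Complex.I θ z‖ ≤ ε * a * b

end Crest.Agent.R193.T
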