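import Mathlib
import Crest.Agent.R193.TDefs

/-! Row 193, block [T]: Weyl's lemma; `W` and `W²` weakly harmonic imply that `W` is locally
holomorphic or antiholomorphic. -/

set_option autoImplicit false

namespace Crest.Agent.R193.T

open MeasureTheory Set Metric Filter Topology Complex InnerProductSpace
open scoped ComplexConjugate Convolution Laplacian

/-- A uniform limit of real harmonic functions on a ball is the real part of a holomorphic
function on the half ball. -/
theorem TW_lim {c : ℂ} {R : ℝ} (hR : 0 < R) (u : ℕ → ℂ → ℝ) (f : ℂ → ℝ)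
    (hu : ∀ n, HarmonicOnNhd (u n) (ball c R)) (hl : TendstoUniformlyOn u f atTop (ball c R)) :
    ∃ F : ℂ → ℂ, AnalyticOnNhd ℂ F (ball c (R / 2)) ∧ ∀ z ∈ ball c (R / 2), (F z).re = f z := by
  choose F0 hF0 hF0e using fun n => (hu n).exists_analyticOnNhd_ball_re_eq
  set F : ℕ → ℂ → ℂ := fun n z => F0 n z - ((F0 n c).im : ℂ) * I with hF
  have hFa : ∀ n, AnalyticOnNhd ℂ (F n) (ball c R) := fun n =>
    (hF0 n).sub analyticOnNhd_const
  have hFe : ∀ n, ∀ z ∈ ball c R, (F n z).re = u n z := fun n z hz => by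
    simp only [hF, sub_re, mul_re, ofReal_re, I_re, ofReal_im, I_im]
    rw [← hF0e n hz]; ring
  have hFc : ∀ n, (F n c).im = 0 := fun n => by simp [hF]
  have hsub : ball c (R / 2) ⊆ ball c R := ball_subset_ball (by linarith)
  have hcau : UniformCauchySeqOn F atTop (ball c (R / 2)) := by
    rw [Metric.uniformCauchySeqOn_iff]
    intro ε hε
    obtain ⟨N, hN⟩ := (Metric.uniformCauchySeqOn_iff.1 hl.uniformCauchySeqOn) (ε / 6)
      (by positivity)
    refine ⟨N, fun m hm n hn z hz => ?_⟩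
    have hmem : ∀ w ∈ ball (0 : ℂ) R, c + w ∈ ball c R := fun w hw => by simpa using hw
    have hd : DifferentiableOn ℂ (fun w => F m (c + w) - F n (c + w)) (ball 0 R) := by
      intro w hw
      refine DifferentiableAt.differentiableWithinAt (DifferentiableAt.sub ?_ ?_)
      · exact (hFa m _ (hmem w hw)).differentiableAt.comp w (by fun_prop)
      · exact (hFa n _ (hmem w hw)).differentiableAt.comp w (by fun_prop)
    have hre : ∀ w ∈ ball (0 : ℂ) R, |(F m (c + w) - F n (c + w)).re| ≤ ε / 6 := by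
      intro w hw
      rw [sub_re, hFe m _ (hmem w hw), hFe n _ (hmem w hw), ← Real.dist_eq]
      exact (hN m hm n hn _ (hmem w hw)).le
    have hz' : ‖z - c‖ < R / 2 := by simpa [dist_eq_norm] using hz
    have hzR : z - c ∈ ball (0 : ℂ) R := by simp only [mem_ball, dist_zero_right]; linarith
    have hb := borelCaratheodory (M := ε / 6) (by positivity) hd
      (fun w hw => (le_abs_self _).trans (hre w hw)) hR hzR
    have h0 : ‖F m (c + 0) - F n (c + 0)‖ ≤ ε / 6 := by
      have h1 := hre 0 (mem_ball_self hR)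
      have h2 : (F m (c + 0) - F n (c + 0)).im = 0 := by simp [hFc]
      rw [← abs_re_eq_norm.2 h2]; exact h1
    simp only [add_sub_cancel] at hb
    rw [dist_eq_norm]
    have hpos : 0 < R - ‖z - c‖ := by linarith
    have hn0 := norm_nonneg (z - c)
    have e1 : 2 * (ε / 6) * ‖z - c‖ / (R - ‖z - c‖) ≤ 2 * (ε / 6) := by
      rw [div_le_iff₀ hpos]; nlinarith
    have e2 : ‖F m (c + 0) - F n (c + 0)‖ * (R + ‖z - c‖) / (R - ‖z - c‖) ≤ 3 * (ε / 6) := by
      rw [div_le_iff₀ hpos]
      nlinarith [norm_nonneg (F m (c + 0) - F n (c + 0))]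
    linarith
  have hex : ∀ z ∈ ball c (R / 2), ∃ y, Tendsto (fun n => F n z) atTop (𝓝 y) := fun z hz =>
    cauchySeq_tendsto_of_complete (hcau.cauchySeq hz)
  choose! G hG using hex
  have hlim : TendstoUniformlyOn F G atTop (ball c (R / 2)) :=
    hcau.tendstoUniformlyOn_of_tendsto hG
  have hGd : DifferentiableOn ℂ G (ball c (R / 2)) :=
    hlim.tendstoLocallyUniformlyOn.differentiableOn
      (Eventually.of_forall fun n => ((hFa n).mono hsub).differentiableOn) isOpen_ball
  refine ⟨G, hGd.analyticOnNhd isOpen_ball, fun z hz => ?_⟩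
  have h1 : Tendsto (fun n => (F n z).re) atTop (𝓝 (G z).re) :=
    (continuous_re.tendsto _).comp (hG z hz)
  have h2 : Tendsto (fun n => (F n z).re) atTop (𝓝 (f z)) :=
    (hl.tendsto_at (hsub hz)).congr fun n => (hFe n z (hsub hz)).symm
  exact tendsto_nhds_unique h1 h2

theorem TW_fderiv_conv (b : ℂ → ℝ) (hb : ContDiff ℝ 1 b) (hbc : HasCompactSupport b)
    (g : ℂ → ℂ) (hg : LocallyIntegrable g) (x v : ℂ) :
    fderiv ℝ (b ⋆[ContinuousLinearMap.lsmul ℝ ℝ, volume] g) x v
      = ((fun y => fderiv ℝ b y v) ⋆[ContinuousLinearMap.lsmul ℝ ℝ, volume] g) x := by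
  have h1 := (hbc.hasFDerivAt_convolution_left (ContinuousLinearMap.lsmul ℝ ℝ) hb hg x).fderiv
  rw [h1, convolution_eq_swap, convolution_eq_swap]
  have hex : ConvolutionExistsAt (fderiv ℝ b) g x
      ((ContinuousLinearMap.lsmul ℝ ℝ : ℝ →L[ℝ] ℂ →L[ℝ] ℂ).precompL ℂ) volume :=
    (hbc.fderiv ℝ).convolutionExists_left _ (hb.continuous_fderiv one_ne_zero) hg x
  rw [ContinuousLinearMap.integral_apply hex.integrable_swap]
  rfl

theorem TW_fderiv_test (b : ℂ → ℝ) (hb : ContDiff ℝ 1 b) (x y v : ℂ) :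
    fderiv ℝ (fun y : ℂ => b (x - y)) y v = -fderiv ℝ b (x - y) v := by
  have h1 : HasFDerivAt b (fderiv ℝ b (x - y)) (x - y) :=
    (hb.differentiable one_ne_zero (x - y)).hasFDerivAt
  have h2 : HasFDerivAt (fun y : ℂ => x - y) (-(ContinuousLinearMap.id ℝ ℂ)) y := by
    simpa using (hasFDerivAt_id y).const_sub x
  have h4 : HasFDerivAt (fun y : ℂ => b (x - y))
      ((fderiv ℝ b (x - y)).comp (-(ContinuousLinearMap.id ℝ ℂ))) y := h1.comp y h2
  rw [h4.fderiv]
  simp

/-- second directional derivative -/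
noncomputable def d2 (ψ : ℂ → ℝ) (v x : ℂ) : ℝ := fderiv ℝ (fun y => fderiv ℝ ψ y v) x v

theorem TW_d1 {b : ℂ → ℝ} (hb : ContDiff ℝ 2 b) (v : ℂ) :
    ContDiff ℝ 1 fun y => fderiv ℝ b y v :=
  (hb.fderiv_right (m := 1) (by norm_num)).clm_apply contDiff_const

theorem TW_d2_test {b : ℂ → ℝ} (hb : ContDiff ℝ 2 b) (x y v : ℂ) :
    d2 (fun y : ℂ => b (x - y)) v y = d2 b v (x - y) := by
  have h1 : (fun y => fderiv ℝ (fun y : ℂ => b (x - y)) y v) =
      fun y => -(fun s => fderiv ℝ b s v) (x - y) :=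
    funext fun y => TW_fderiv_test b (hb.of_le (by norm_num)) x y v
  rw [d2, h1, fderiv_fun_neg, neg_apply,
    TW_fderiv_test (fun s => fderiv ℝ b s v) (TW_d1 hb v), neg_neg, d2]

theorem TW_lap {F : Type} [NormedAddCommGroup F] [NormedSpace ℝ F] {f : ℂ → F}
    (hf : ContDiff ℝ 2 f) (x : ℂ) :
    Δ f x = fderiv ℝ (fun y => fderiv ℝ f y 1) x 1 + fderiv ℝ (fun y => fderiv ℝ f y I) x I := by
  have hd : DifferentiableAt ℝ (fderiv ℝ f) x :=
    (hf.fderiv_right (m := 1) (by norm_num)).differentiable one_ne_zero x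
  have h : ∀ v : ℂ, fderiv ℝ (fun y => fderiv ℝ f y v) x v = fderiv ℝ (fderiv ℝ f) x v v := by
    intro v
    rw [fderiv_clm_apply hd (differentiableAt_const v)]
    simp
  rw [laplacian_eq_iteratedFDeriv_complexPlane, h, h]
  simp [iteratedFDeriv_two_apply]

/-- Weyl's lemma, with real smooth test functions: local form. -/
theorem weyl_local {U : Set ℂ} (hU : IsOpen U) {W : ℂ → ℂ} (hc : ContinuousOn W U)
    (h : ∀ ψ : ℂ → ℝ, ContDiff ℝ (⊤ : ℕ∞) ψ → HasCompactSupport ψ → tsupport ψ ⊆ U →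
      ∫ w, W w * ((d2 ψ 1 w + d2 ψ I w : ℝ) : ℂ) = 0) {z0 : ℂ} (hz0 : z0 ∈ U) :
    ∃ r : ℝ, 0 < r ∧ ball z0 r ⊆ U ∧ ∃ A B : ℂ → ℂ, AnalyticOnNhd ℂ A (ball z0 r) ∧
      AnalyticOnNhd ℂ B (ball z0 r) ∧ ∀ z ∈ ball z0 r, W z = A z + conj (B z) := by
  obtain ⟨ε, hε, hεU⟩ := Metric.isOpen_iff.1 hU z0 hz0
  set r : ℝ := ε / 4 with hr
  have hr0 : 0 < r := by positivity
  have hsub : closedBall z0 (3 * r) ⊆ U :=
    (closedBall_subset_ball (by rw [hr]; linarith)).trans hεU
  set K : Set ℂ := closedBall z0 (3 * r) with hK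
  have hKc : IsCompact K := isCompact_closedBall _ _
  have hHK : ContinuousOn W K := hc.mono hsub
  set g : ℂ → ℂ := K.indicator W with hg
  have hgi : Integrable g := by
    rw [hg, integrable_indicator_iff measurableSet_closedBall]
    exact hHK.integrableOn_compact hKc
  let φ : ℕ → ContDiffBump (0 : ℂ) := fun n =>
    ⟨r / (2 * ((n : ℝ) + 1)), r / ((n : ℝ) + 1), by positivity, by
      have : (0 : ℝ) < (n : ℝ) + 1 := by positivity
      rw [div_lt_div_iff₀ (by positivity) this]; nlinarith⟩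
  have hφr : ∀ n, (φ n).rOut ≤ r := by
    intro n
    change r / ((n : ℝ) + 1) ≤ r
    have : (1 : ℝ) ≤ (n : ℝ) + 1 := by have := Nat.cast_nonneg (α := ℝ) n; linarith
    exact div_le_self hr0.le this
  let F : ℕ → ℂ → ℂ := fun n =>
    (φ n).normed volume ⋆[ContinuousLinearMap.lsmul ℝ ℝ, volume] g
  have hF : ∀ n, HarmonicOnNhd (F n) (ball z0 r) := by
    intro n
    have hbt : ContDiff ℝ (⊤ : ℕ∞) ((φ n).normed volume) := (φ n).contDiff_normed
    have hb2 : ContDiff ℝ 2 ((φ n).normed volume) := (φ n).contDiff_normed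
    have hbc : HasCompactSupport ((φ n).normed volume) := (φ n).hasCompactSupport_normed
    have hts := (φ n).tsupport_normed_eq (μ := volume)
    set b := (φ n).normed volume with hbdef
    have hF2 : ContDiff ℝ 2 (F n) :=
      hbc.contDiff_convolution_left _ hb2 hgi.locallyIntegrable
    have hdd : ∀ x v, fderiv ℝ (fun y => fderiv ℝ (F n) y v) x v = ∫ t, d2 b v (x - t) • g t := by
      intro x v
      have e1 : (fun y => fderiv ℝ (F n) y v) =
          (fun y => fderiv ℝ b y v) ⋆[ContinuousLinearMap.lsmul ℝ ℝ, volume] g :=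
        funext fun y => TW_fderiv_conv b (hb2.of_le (by norm_num)) hbc g hgi.locallyIntegrable y v
      rw [e1, TW_fderiv_conv _ (TW_d1 hb2 v) (hbc.fderiv_apply ℝ v) g hgi.locallyIntegrable,
        convolution_eq_swap]
      rfl
    have hint : ∀ x v, Integrable fun t => d2 b v (x - t) • g t := by
      intro x v
      have hc : Continuous (d2 b v) :=
        ((TW_d1 hb2 v).continuous_fderiv one_ne_zero).clm_apply continuous_const
      have hs : HasCompactSupport (d2 b v) := (hbc.fderiv_apply ℝ v).fderiv_apply ℝ v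
      have hex : ConvolutionExistsAt (d2 b v) g x
          (ContinuousLinearMap.lsmul ℝ ℝ : ℝ →L[ℝ] ℂ →L[ℝ] ℂ) volume :=
        hs.convolutionExists_left _ hc hgi.locallyIntegrable x
      exact hex.integrable_swap
    have hlap : ∀ x ∈ ball z0 r, Δ (F n) x = 0 := by
      intro x hx
      have hx' : ‖x - z0‖ < r := by simpa [dist_eq_norm] using hx
      have hsupp : tsupport (fun y : ℂ => b (x - y)) ⊆ K := by
        refine closure_minimal (fun y hy => ?_) isClosed_closedBall
        have hm : x - y ∈ tsupport b := subset_tsupport b hy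
        rw [hts] at hm
        have h1 : ‖x - y‖ ≤ r := by
          have := hφr n
          simp only [mem_closedBall, dist_zero_right] at hm
          linarith
        have h2 : ‖y - z0‖ ≤ ‖x - y‖ + ‖x - z0‖ := by
          have := norm_add_le (-(x - y)) (x - z0)
          rw [norm_neg] at this
          simpa using this
        simp only [hK, mem_closedBall, dist_eq_norm]
        linarith
      have h0 := h (fun y => b (x - y)) (hbt.comp (contDiff_const.sub contDiff_id))
        (hKc.of_isClosed_subset (isClosed_tsupport _) hsupp) (hsupp.trans hsub)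
      rw [TW_lap hF2, hdd, hdd, ← integral_add (hint x 1) (hint x I), ← h0]
      refine integral_congr_ae (Eventually.of_forall fun t => ?_)
      simp only [← TW_d2_test hb2]
      by_cases ht : t ∈ K
      · rw [hg, indicator_of_mem ht]
        simp only [real_smul]
        push_cast
        ring
      · have hz : ∀ v, d2 (fun y : ℂ => b (x - y)) v t = 0 := by
          intro v
          by_contra hne
          have h1 : t ∈ tsupport fun y => fderiv ℝ (fun y : ℂ => b (x - y)) y v := by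
            refine support_fderiv_subset ℝ fun h => hne ?_
            rw [d2, h]; rfl
          exact ht (hsupp (tsupport_fderiv_apply_subset ℝ v h1))
        simp [hz]
    intro x hx
    refine ⟨hF2.contDiffAt, ?_⟩
    filter_upwards [isOpen_ball.mem_nhds hx] with y hy using hlap y hy
  have hlim : TendstoUniformlyOn F W atTop (ball z0 r) := by
    rw [Metric.tendstoUniformlyOn_iff]
    intro ε hε
    obtain ⟨δ, hδ, hu⟩ := Metric.uniformContinuousOn_iff.1
      (hKc.uniformContinuousOn_of_continuous hHK) (ε / 2) (by positivity)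
    have ht : Tendsto (fun n : ℕ => r / ((n : ℝ) + 1)) atTop (𝓝 0) := by
      have := tendsto_one_div_add_atTop_nhds_zero_nat (𝕜 := ℝ).const_mul r
      simpa [div_eq_mul_inv] using this
    filter_upwards [ht.eventually (gt_mem_nhds hδ)] with n hn x hx
    have hxK : x ∈ K := (ball_subset_closedBall.trans
      (closedBall_subset_closedBall (by linarith))) hx
    have hd := (φ n).dist_normed_convolution_le (μ := volume) (x₀ := x) (ε := ε / 2)
      hgi.aestronglyMeasurable (by
        intro y hy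
        have hyK : y ∈ K := by
          have h1 : dist y x < r := lt_of_lt_of_le hy (hφr n)
          have h2 : dist x z0 < r := hx
          have := dist_triangle y x z0
          simp only [hK, mem_closedBall]
          linarith
        rw [hg, indicator_of_mem hyK, indicator_of_mem hxK]
        exact (hu y hyK x hxK (lt_trans hy hn)).le)
    have hgx : g x = W x := by rw [hg, indicator_of_mem hxK]
    rw [hgx] at hd
    rw [dist_comm]
    exact lt_of_le_of_lt hd (by linarith)
  obtain ⟨P, hP, hPe⟩ := TW_lim hr0 (fun n => reCLM ∘ F n) (reCLM ∘ W)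
    (fun n => (hF n).comp_CLM reCLM)
    (reCLM.uniformContinuous.comp_tendstoUniformlyOn hlim)
  obtain ⟨Q, hQ, hQe⟩ := TW_lim hr0 (fun n => imCLM ∘ F n) (imCLM ∘ W)
    (fun n => (hF n).comp_CLM imCLM)
    (imCLM.uniformContinuous.comp_tendstoUniformlyOn hlim)
  refine ⟨r / 2, by positivity, (ball_subset_ball (by rw [hr]; linarith)).trans hεU,
    fun z => (P z + I * Q z) / 2, fun z => (P z - I * Q z) / 2, ?_, ?_, fun z hz => ?_⟩
  · exact (hP.add (analyticOnNhd_const.mul hQ)).div_const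
  · exact (hP.sub (analyticOnNhd_const.mul hQ)).div_const
  · have h1 : (P z).re = (W z).re := hPe z hz
    have h2 : (Q z).re = (W z).im := hQe z hz
    rw [map_div₀, map_ofNat]
    apply Complex.ext <;> simp [← h1, ← h2] <;> ring

theorem TW_d2_ofReal {ψ : ℂ → ℝ} (hψ : ContDiff ℝ 2 ψ) (v x : ℂ) :
    fderiv ℝ (fun y => fderiv ℝ (fun w => (ψ w : ℂ)) y v) x v = (d2 ψ v x : ℂ) := by
  have key : ∀ f : ℂ → ℝ, ContDiff ℝ 1 f → ∀ y, fderiv ℝ (fun w => (f w : ℂ)) y v =
      (fderiv ℝ f y v : ℂ) := by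
    intro f hf y
    have h1 := (ofRealCLM.hasFDerivAt (x := f y)).comp y (hf.differentiable one_ne_zero y).hasFDerivAt
    have h2 : HasFDerivAt (fun w => (f w : ℂ)) (ofRealCLM.comp (fderiv ℝ f y)) y := h1
    rw [h2.fderiv]; rfl
  have e : (fun y => fderiv ℝ (fun w => (ψ w : ℂ)) y v) = fun y => ((fderiv ℝ ψ y v : ℝ) : ℂ) :=
    funext fun y => key ψ (hψ.of_le (by norm_num)) y
  rw [e, key _ (TW_d1 hψ v), d2]

theorem WeakHarm.real {U : Set ℂ} {W : ℂ → ℂ} (h : WeakHarm U W) (ψ : ℂ → ℝ)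
    (hψ : ContDiff ℝ (⊤ : ℕ∞) ψ) (hc : HasCompactSupport ψ) (hs : tsupport ψ ⊆ U) :
    ∫ w, W w * ((d2 ψ 1 w + d2 ψ I w : ℝ) : ℂ) = 0 := by
  have h2 : ContDiff ℝ 2 ψ := contDiff_infty.1 hψ 2
  have hts : tsupport (fun w => (ψ w : ℂ)) ⊆ tsupport ψ :=
    closure_mono fun w hw h => hw (by simp [h])
  have := h (fun w => (ψ w : ℂ)) ⟨ofRealCLM.contDiff.comp h2,
    hc.of_isClosed_subset (isClosed_tsupport _) hts, hts.trans hs⟩
  simp only [L, TW_d2_ofReal h2] at this
  simpa using this

/-- **Weyl's lemma.** -/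
theorem weyl_harm {U : Set ℂ} (hU : IsOpen U) {W : ℂ → ℂ} (hc : ContinuousOn W U)
    (h : WeakHarm U W) : HarmonicOnNhd W U := by
  intro z hz
  obtain ⟨r, hr, -, A, B, hA, hB, hW⟩ := weyl_local hU hc h.real hz
  have h1 : HarmonicAt (A + conj B) z :=
    (hA z (mem_ball_self hr)).harmonicAt.add (hB z (mem_ball_self hr)).harmonicAt_conj
  refine (harmonicAt_congr_nhds ?_).1 h1
  filter_upwards [ball_mem_nhds z hr] with w hw
  simp [hW w hw]

/-- If `B` and its conjugate are holomorphic near `z` then the derivative of `B` vanishes. -/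
theorem TW_deriv_zero {B : ℂ → ℂ} {z : ℂ} (h1 : DifferentiableAt ℂ B z)
    (h2 : DifferentiableAt ℂ (fun w => conj (B w)) z) : deriv B z = 0 := by
  have e1 : HasFDerivAt (fun w => conj (B w))
      (conjCLE.toContinuousLinearMap.comp
        ((ContinuousLinearMap.toSpanSingleton ℂ (deriv B z)).restrictScalars ℝ)) z :=
    conjCLE.toContinuousLinearMap.hasFDerivAt.comp z (h1.hasDerivAt.hasFDerivAt.restrictScalars ℝ)
  have e2 := h2.hasDerivAt.hasFDerivAt.restrictScalars ℝ
  have e := e1.unique e2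
  have a1 := congrArg (fun T : ℂ →L[ℝ] ℂ => T 1) e
  have a2 := congrArg (fun T : ℂ →L[ℝ] ℂ => T I) e
  simp at a1 a2
  rw [← a1] at a2
  have : conj (deriv B z) = 0 := by
    have h3 : (2 * I) * conj (deriv B z) = 0 := by linear_combination (-1 : ℂ) * a2
    rcases mul_eq_zero.1 h3 with h | h
    · simp at h
    · exact h
  simpa using this

/-- `W` and `W²` weakly harmonic (real smooth test functions). -/
theorem anal_of_weak_real {U : Set ℂ} (hU : IsOpen U) {W : ℂ → ℂ} (hc : ContinuousOn W U)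
    (h1 : ∀ ψ : ℂ → ℝ, ContDiff ℝ (⊤ : ℕ∞) ψ → HasCompactSupport ψ → tsupport ψ ⊆ U →
      ∫ w, W w * ((d2 ψ 1 w + d2 ψ I w : ℝ) : ℂ) = 0)
    (h2 : ∀ ψ : ℂ → ℝ, ContDiff ℝ (⊤ : ℕ∞) ψ → HasCompactSupport ψ → tsupport ψ ⊆ U →
      ∫ w, W w ^ 2 * ((d2 ψ 1 w + d2 ψ I w : ℝ) : ℂ) = 0) :
    ∀ z ∈ U, AnalyticAt ℂ W z ∨ AnalyticAt ℂ (fun w => conj (W w)) z := by
  intro z hz
  obtain ⟨r₁, hr₁, -, A, B, hA, hB, hW⟩ := weyl_local hU hc h1 hz
  obtain ⟨r₂, hr₂, -, A₂, B₂, hA₂, hB₂, hW₂⟩ :=
    weyl_local (W := fun w => W w ^ 2) hU (hc.pow 2) h2 hz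
  set r := min r₁ r₂ with hr
  have hr0 : 0 < r := lt_min hr₁ hr₂
  have s1 : ball z r ⊆ ball z r₁ := ball_subset_ball (min_le_left _ _)
  have s2 : ball z r ⊆ ball z r₂ := ball_subset_ball (min_le_right _ _)
  replace hA := hA.mono s1
  replace hB := hB.mono s1
  set A₃ : ℂ → ℂ := fun w => (A₂ w - A w ^ 2) / 2 with hA₃
  set B₃ : ℂ → ℂ := fun w => (B₂ w - B w ^ 2) / 2 with hB₃
  have hA₃a : AnalyticOnNhd ℂ A₃ (ball z r) := ((hA₂.mono s2).sub (hA.pow 2)).div_const
  have hB₃a : AnalyticOnNhd ℂ B₃ (ball z r) := ((hB₂.mono s2).sub (hB.pow 2)).div_const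
  have hid : ∀ w ∈ ball z r, A w * conj (B w) = A₃ w + conj (B₃ w) := by
    intro w hw
    have e1 := hW w (s1 hw)
    have e2 := hW₂ w (s2 hw)
    simp only [hA₃, hB₃, map_div₀, map_sub, map_pow, map_ofNat]
    simp only [e1] at e2
    linear_combination (1 / 2 : ℂ) * e2
  have hder : ∀ w ∈ ball z r, deriv A w * conj (B w) = deriv A₃ w := by
    intro w hw
    have hD : ∀ f : ℂ → ℂ, AnalyticOnNhd ℂ f (ball z r) → HasFDerivAt f
        ((ContinuousLinearMap.toSpanSingleton ℂ (deriv f w)).restrictScalars ℝ) w := fun f hf =>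
      (hf w hw).differentiableAt.hasDerivAt.hasFDerivAt.restrictScalars ℝ
    have hC : ∀ f : ℂ → ℂ, AnalyticOnNhd ℂ f (ball z r) → HasFDerivAt (fun w => conj (f w))
        (conjCLE.toContinuousLinearMap.comp
          ((ContinuousLinearMap.toSpanSingleton ℂ (deriv f w)).restrictScalars ℝ)) w := fun f hf =>
      conjCLE.toContinuousLinearMap.hasFDerivAt.comp w (hD f hf)
    have e1 := (hD A hA).mul (hC B hB)
    have e2 := (hD A₃ hA₃a).add (hC B₃ hB₃a)
    have e3 : (A * fun w => conj (B w)) =ᶠ[𝓝 w] (A₃ + fun w => conj (B₃ w)) := by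
      filter_upwards [isOpen_ball.mem_nhds hw] with y hy using hid y hy
    have e := (e1.congr_of_eventuallyEq e3.symm).unique e2
    have a1 := congrArg (fun T : ℂ →L[ℝ] ℂ => T 1) e
    have a2 := congrArg (fun T : ℂ →L[ℝ] ℂ => T I) e
    simp at a1 a2
    have hI : I * I = -1 := I_mul_I
    linear_combination (1 / 2 : ℂ) * a1 - (I / 2) * a2 +
      (1 / 2 : ℂ) * (deriv A w * conj (B w) - A w * conj (deriv B w) - deriv A₃ w +
        conj (deriv B₃ w)) * hI
  have hconst : ∀ f : ℂ → ℂ, AnalyticOnNhd ℂ f (ball z r) → (∀ w ∈ ball z r, deriv f w = 0) →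
      ∀ w ∈ ball z r, f w = f z := fun f hf h0 w hw =>
    isOpen_ball.is_const_of_deriv_eq_zero (convex_ball z r).isPreconnected hf.differentiableOn
      h0 hw (mem_ball_self hr0)
  by_cases hA0 : ∀ w ∈ ball z r, deriv A w = 0
  · right
    have : AnalyticAt ℂ (fun w => conj (A z) + B w) z :=
      analyticAt_const.add (hB z (mem_ball_self hr0))
    refine this.congr ?_
    filter_upwards [ball_mem_nhds z hr0] with w hw
    rw [hW w (s1 hw), hconst A hA hA0 w hw]
    simp
  · left
    push Not at hA0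
    obtain ⟨z₁, hz₁, hne⟩ := hA0
    have hne' : ∀ᶠ w in 𝓝 z₁, deriv A w ≠ 0 :=
      (hA.deriv z₁ hz₁).continuousAt.eventually_ne hne
    have hloc : ∀ᶠ w in 𝓝 z₁, conj (B w) = deriv A₃ w / deriv A w := by
      filter_upwards [hne', isOpen_ball.mem_nhds hz₁] with w hw1 hw2
      rw [← hder w hw2]
      field_simp
    have hB0 : deriv B =ᶠ[𝓝 z₁] 0 := by
      filter_upwards [hne', isOpen_ball.mem_nhds hz₁, hloc.eventually_nhds] with w hw1 hw2 hw3
      refine TW_deriv_zero (hB w hw2).differentiableAt ?_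
      exact (((hA₃a.deriv w hw2).div (hA.deriv w hw2) hw1).differentiableAt).congr_of_eventuallyEq
        hw3
    have hB1 : EqOn (deriv B) 0 (ball z r) :=
      hB.deriv.eqOn_zero_of_preconnected_of_eventuallyEq_zero (convex_ball z r).isPreconnected
        hz₁ hB0
    have : AnalyticAt ℂ (fun w => A w + conj (B z)) z :=
      (hA z (mem_ball_self hr0)).add analyticAt_const
    refine this.congr ?_
    filter_upwards [ball_mem_nhds z hr0] with w hw
    rw [hW w (s1 hw), hconst B hB hB1 w hw]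

/-- `W` and `W²` weakly harmonic imply locally holomorphic or antiholomorphic. -/
theorem anal_of_weakHarm {U : Set ℂ} (hU : IsOpen U) {W : ℂ → ℂ} (hc : ContinuousOn W U)
    (h1 : WeakHarm U W) (h2 : WeakHarm U fun w => W w ^ 2) :
    ∀ z ∈ U, AnalyticAt ℂ W z ∨ AnalyticAt ℂ (fun w => (starRingEnd ℂ) (W w)) z :=
  anal_of_weak_real hU hc h1.real h2.real

end Crest.Agent.R193.T
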