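import Crest.Agent.R193.EConf
import Crest.Agent.R193.TW
import Crest.Agent.R193.EWeyl

/-! Row 193 [E]: in a conformal chart the group acts by holomorphic or antiholomorphic germs. -/

set_option autoImplicit false

open Set Filter Topology MeasureTheory Metric

namespace Crest.Agent.R193.E

/-- the Laplacian of a real function on the plane -/
noncomputable def lapl (χ : ℂ → ℝ) (w : ℂ) : ℝ :=
  fderiv ℝ (fun v => fderiv ℝ χ v 1) w 1 + fderiv ℝ (fun v => fderiv ℝ χ v Complex.I) w Complex.I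

theorem h54_contDiff_fderiv {χ : ℂ → ℝ} (hχ : ContDiff ℝ 2 χ) (a : ℂ) :
    ContDiff ℝ 1 fun v => fderiv ℝ χ v a :=
  (hχ.fderiv_right (m := 1) (by norm_num)).clm_apply contDiff_const

theorem h54_lapl_sq (ℓ : ℂ →L[ℝ] ℝ) (w : ℂ) : lapl (fun v => ℓ (v ^ 2)) w = 0 := by
  have h1 : ∀ v a : ℂ, fderiv ℝ (fun v => ℓ (v ^ 2)) v a = ℓ (2 * v * a) := by
    intro v a
    have h : HasFDerivAt (fun v : ℂ => ℓ (v ^ 2)) _ v :=
      ℓ.hasFDerivAt.comp v (((hasDerivAt_pow 2 v).hasFDerivAt).restrictScalars ℝ)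
    rw [h.fderiv]
    simp [mul_comm]
  have h2 : ∀ a b : ℂ, fderiv ℝ (fun v => ℓ (2 * v * a)) w b = ℓ (2 * b * a) := by
    intro a b
    have h : HasFDerivAt (fun v : ℂ => ℓ (2 * v * a)) _ w :=
      ℓ.hasFDerivAt.comp w
        (((((hasDerivAt_id w).const_mul 2).mul_const a).hasFDerivAt).restrictScalars ℝ)
    rw [h.fderiv]
    simp [mul_comm, mul_left_comm]
  unfold lapl
  simp only [h1, h2]
  rw [← map_add, mul_assoc, mul_assoc, Complex.I_mul_I]
  simp

theorem h54_lapl_zero {θ : ℂ → ℝ} {w : ℂ} (hw : w ∉ tsupport θ) : lapl θ w = 0 := by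
  have h : θ =ᶠ[𝓝 w] fun _ => 0 := notMem_tsupport_iff_eventuallyEq.1 hw
  have h2 : ∀ a : ℂ, (fun v => fderiv ℝ θ v a) =ᶠ[𝓝 w] fun _ => 0 := fun a => by
    filter_upwards [h.fderiv (𝕜 := ℝ)] with v hv
    rw [hv]
    simp
  unfold lapl
  rw [(h2 1).fderiv_eq, (h2 Complex.I).fderiv_eq]
  simp

/-- Weyl's lemma in the form needed (from `T.weyl_local` / `T.anal_of_weakHarm` in `R193/TW`). -/
theorem anal_of_weak {Y : Set ℂ} (hY : IsOpen Y) {τ : ℂ → ℂ} (hτ : ContinuousOn τ Y)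
    (H : ∀ θ : ℂ → ℝ, ContDiff ℝ 2 θ → HasCompactSupport θ → tsupport θ ⊆ Y →
      (∫ w, (τ w).re * lapl θ w = 0) ∧ (∫ w, (τ w).im * lapl θ w = 0) ∧
      (∫ w, (τ w ^ 2).re * lapl θ w = 0) ∧ (∫ w, (τ w ^ 2).im * lapl θ w = 0)) :
    ∀ w ∈ Y, AnalyticAt ℂ τ w ∨ AnalyticAt ℂ (fun v => (starRingEnd ℂ) (τ v)) w := by
  intro w hw
  have h2 : ContinuousOn (fun w => τ w ^ 2) Y := hτ.pow 2
  exact hol_or_anti
    (weyl hY (Complex.continuous_re.comp_continuousOn hτ) (fun θ a b c => (H θ a b c).1) hw)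
    (weyl hY (Complex.continuous_im.comp_continuousOn hτ) (fun θ a b c => (H θ a b c).2.1) hw)
    (weyl hY (Complex.continuous_re.comp_continuousOn h2) (fun θ a b c => (H θ a b c).2.2.1) hw)
    (weyl hY (Complex.continuous_im.comp_continuousOn h2) (fun θ a b c => (H θ a b c).2.2.2) hw)

namespace DForm

variable {G Z : Type} [Group G] [MetricSpace Z] [CompactSpace Z] [MeasurableSpace Z] [BorelSpace Z]
  [MulAction G Z] (X : DForm G Z)

theorem Conf.mono {U U' : Set Z} {F : Z → ℂ} (hF : X.Conf U F) (hU' : IsOpen U') (h : U' ⊆ U) :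
    X.Conf U' F := by
  refine ⟨hU', ⟨Harm.mono X hF.harm.1 h, Harm.mono X hF.harm.2 h⟩, ?_,
    fun k hk hs => hF.orth k hk (hs.trans h)⟩
  rw [← Measure.restrict_restrict_of_subset h, hF.eq, Measure.restrict_restrict_of_subset h]

/-- `Harm.inv`, `Γ_inv`, `inv`. -/
theorem Conf.inv (hc : ∀ g : G, Continuous fun z : Z => g • z) {U : Set Z} {F : Z → ℂ}
    (hF : X.Conf U F) (g : G) : X.Conf ((fun z => g • z) ⁻¹' U) (fun z => F (g • z)) := by
  refine ⟨hF.isOpen.preimage (hc g), ⟨Harm.inv X hc hF.harm.1 g, Harm.inv X hc hF.harm.2 g⟩, ?_,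
    fun k hk hs => ?_⟩
  · ext s hs
    have hA : MeasurableSet ((fun z : Z => g⁻¹ • z) ⁻¹' s) := (hc g⁻¹).measurable hs
    have e : s ∩ (fun z => g • z) ⁻¹' U =
        (fun z => g • z) ⁻¹' ((fun z : Z => g⁻¹ • z) ⁻¹' s ∩ U) := by
      ext z; simp
    have h1 := X.Γ_inv hc g hF.harm.1.1 (hA.inter hF.isOpen.measurableSet)
    have h2 := X.Γ_inv hc g hF.harm.2.1 (hA.inter hF.isOpen.measurableSet)
    rw [← Measure.restrict_apply hA] at h1 h2
    rw [Measure.restrict_apply hs, Measure.restrict_apply hs, e]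
    exact h1.trans (by rw [hF.eq]; exact h2.symm)
  · have h1 : Continuous fun z => k (g⁻¹ • z) := hk.comp (hc g⁻¹)
    have h2 := X.inv g (fun z => k (g⁻¹ • z)) _ _ h1 hF.harm.1.1 hF.harm.2.1
    simp only [inv_smul_smul] at h2
    refine h2.trans (hF.orth _ h1 fun z hz => ?_)
    have h3 : g⁻¹ • z ∈ tsupport k := tsupport_comp_subset_preimage k (hc g⁻¹) hz
    simpa using hs h3

theorem h54_mem {U : Set Z} {F : Z → ℂ} (hF : X.Harm2 U F) {φ : ℂ → ℝ} (hφ : ContDiff ℝ 1 φ) :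
    (fun z => φ (F z)) ∈ X.Fc :=
  X.chain_mem _ hF.1.1 _ hF.2.1 φ hφ

theorem h54_chain {U : Set Z} {F : Z → ℂ} (hF : X.Harm2 U F) {φ : ℂ → ℝ} (hφ : ContDiff ℝ 1 φ)
    {h k : Z → ℝ} (hh : Continuous h) (hk : k ∈ X.Fc) :
    X.B h (fun z => φ (F z)) k = X.B (fun z => h z * fderiv ℝ φ (F z) 1) (reF F) k +
      X.B (fun z => h z * fderiv ℝ φ (F z) Complex.I) (imF F) k :=
  X.chain _ hF.1.1 _ hF.2.1 φ hφ h k hh hk

/-- integration by parts against a harmonic function -/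
theorem h54_parts {U : Set Z} {u a ψ : Z → ℝ} (hu : X.Harm U u) (ha : a ∈ X.Fc) (hψ : ψ ∈ X.Fc)
    (hs : tsupport ψ ⊆ U) : X.B a u ψ = -X.B ψ a u := by
  have h1 := hu.2 (a * ψ) (X.mul_mem ha hψ) ((tsupport_mul_subset_right).trans hs)
  rw [X.leibniz₃ ha hψ continuous_one hu.1, one_mul, one_mul,
    X.B_symm ψ u a (X.cont _ hψ) hu.1 ha] at h1
  linarith

theorem h54_vv {U : Set Z} {F : Z → ℂ} (hF : X.Conf U F) {h : Z → ℝ} (hh : Continuous h)
    (hs : tsupport h ⊆ U) : X.B h (imF F) (imF F) = X.B h (reF F) (reF F) := by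
  have h0 : ∀ z ∉ U, h z = 0 := fun z hz => image_eq_zero_of_notMem_tsupport fun h' => hz (hs h')
  rw [← X.int_Γ _ hF.harm.1.1 h hh, ← X.int_Γ _ hF.harm.2.1 h hh,
    ← setIntegral_eq_integral_of_forall_compl_eq_zero h0,
    ← setIntegral_eq_integral_of_forall_compl_eq_zero (μ := X.Γ (reF F)) h0, hF.eq]

theorem h54_emb {κ : ℝ} {U : Set Z} {F : Z → ℂ} (h : X.Chart κ U F) {W : Set Z} (hW : IsOpen W)
    (hWU : W ⊆ U) : IsOpenEmbedding fun z : W => F z := by
  refine IsOpenEmbedding.of_continuous_injective_isOpenMap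
    ((Harm2.continuous X h.conf.harm).comp continuous_subtype_val)
    (fun a b hab => Subtype.ext (h.inj (hWU a.2) (hWU b.2) hab)) fun V hV => ?_
  rw [← Set.image_image F Subtype.val]
  exact h.isOpenMap _ (hW.isOpenMap_subtype_val V hV) ((Subtype.coe_image_subset W V).trans hWU)

/-- Green's formula.  `B 1 (χ F) ψ = B (χ_x F) u ψ + B (χ_y F) v ψ` (`chain`);
`0 = B 1 u (χ_x F * ψ) = B ψ u (χ_x F) + B (χ_x F) u ψ` (`leibniz₃`, harmonicity);
`B ψ (χ_x F) u = B (ψ χ_xx F) u u + B (ψ χ_xy F) v u = ∫ ψ χ_xx(F) dΓ u` (`orth`); same for `v`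
with `eq`. -/
theorem Conf.green {U : Set Z} {F : Z → ℂ} (hF : X.Conf U F) {χ : ℂ → ℝ} (hχ : ContDiff ℝ 2 χ)
    {ψ : Z → ℝ} (hψ : ψ ∈ X.Fc) (hs : tsupport ψ ⊆ U) :
    X.B 1 (fun z => χ (F z)) ψ = -∫ z, ψ z * lapl χ (F z) ∂(X.Γ (reF F)) := by
  have hu := hF.harm.1
  have hv := hF.harm.2
  have hFc := Harm2.continuous X hF.harm
  have hψc := X.cont _ hψ
  have hc : ∀ a b : ℂ, Continuous fun z => ψ z * fderiv ℝ (fun v => fderiv ℝ χ v a) (F z) b :=
    fun a b => hψc.mul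
      ((((h54_contDiff_fderiv hχ a).continuous_fderiv one_ne_zero).comp hFc).clm_apply
        continuous_const)
  have hs' : ∀ a b : ℂ, tsupport (fun z => ψ z * fderiv ℝ (fun v => fderiv ℝ χ v a) (F z) b) ⊆ U :=
    fun a b => (tsupport_mul_subset_left (f := ψ)).trans hs
  rw [h54_chain X hF.harm (hχ.of_le (by norm_num)) continuous_one hψ]
  simp only [Pi.one_apply, one_mul]
  rw [h54_parts X hu (h54_mem X hF.harm (h54_contDiff_fderiv hχ 1)) hψ hs,
    h54_parts X hv (h54_mem X hF.harm (h54_contDiff_fderiv hχ Complex.I)) hψ hs,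
    h54_chain X hF.harm (h54_contDiff_fderiv hχ 1) hψc hu.1,
    h54_chain X hF.harm (h54_contDiff_fderiv hχ Complex.I) hψc hv.1,
    X.B_symm _ (imF F) (reF F) (hc _ _) hv.1 hu.1, hF.orth _ (hc _ _) (hs' _ _),
    hF.orth _ (hc _ _) (hs' _ _), h54_vv X hF (hc _ _) (hs' _ _), add_zero, zero_add, ← neg_add,
    ← X.B_add₁ _ _ _ _ (hc _ _) (hc _ _) hu.1 hu.1,
    ← X.int_Γ _ hu.1 _ ((hc _ _).add (hc _ _))]
  congr 2
  funext z
  simp only [lapl, Pi.add_apply, mul_add]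

/-- `green` with `χ w = (w²).re`, `(w²).im` (`lapl χ = 0`). -/
theorem Conf.harm_sq {U : Set Z} {F : Z → ℂ} (hF : X.Conf U F) :
    X.Harm2 U (fun z => F z ^ 2) := by
  have key : ∀ ℓ : ℂ →L[ℝ] ℝ, X.Harm U fun z => ℓ (F z ^ 2) := fun ℓ => by
    have hχ : ContDiff ℝ 2 fun v : ℂ => ℓ (v ^ 2) := ℓ.contDiff.comp (contDiff_id.pow 2)
    refine ⟨h54_mem X hF.harm (hχ.of_le (by norm_num)), fun ψ hψ hs => ?_⟩
    rw [Conf.green X hF hχ hψ hs]
    simp [h54_lapl_sq]
  exact ⟨key Complex.reCLM, key Complex.imCLM⟩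

/-- `D F = 2 Γ u` on `U`; both measures are finite and agree on open sets `Y`
(`push` for `V = U ∩ F⁻¹ Y`, `F '' V = F '' U ∩ Y`). -/
theorem Chart.map_eq {κ : ℝ} {U : Set Z} {F : Z → ℂ} (h : X.Chart κ U F) :
    ((X.Γ (reF F)).restrict U).map F =
      ENNReal.ofReal (κ / 2) • (volume : Measure ℂ).restrict (F '' U) := by
  have hFc := Harm2.continuous X h.conf.harm
  have hU := h.conf.isOpen
  have hfin : (volume : Measure ℂ) (F '' U) ≠ ⊤ :=
    ((measure_mono (image_subset_range F U)).trans_lt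
      (isCompact_range hFc).measure_lt_top).ne
  have : IsFiniteMeasure ((volume : Measure ℂ).restrict (F '' U)) :=
    isFiniteMeasure_restrict.2 hfin
  have : IsFiniteMeasure (ENNReal.ofReal (κ / 2) • (volume : Measure ℂ).restrict (F '' U)) :=
    Measure.smul_finite _ ENNReal.ofReal_ne_top
  refine Measure.OuterRegular.ext_isOpen fun Y hY => ?_
  have hV : IsOpen (F ⁻¹' Y ∩ U) := (hY.preimage hFc).inter hU
  have h1 := h.push _ hV inter_subset_right
  have h2 : X.Γ (imF F) (F ⁻¹' Y ∩ U) = X.Γ (reF F) (F ⁻¹' Y ∩ U) := by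
    rw [← Measure.restrict_apply (hY.preimage hFc).measurableSet,
      ← Measure.restrict_apply (hY.preimage hFc).measurableSet, h.conf.eq]
  rw [Measure.map_apply hFc.measurable hY.measurableSet,
    Measure.restrict_apply (hY.preimage hFc).measurableSet, Measure.smul_apply,
    Measure.restrict_apply hY.measurableSet, smul_eq_mul, ← Set.image_preimage_inter]
  have h3 : (volume : Measure ℂ) (F '' (F ⁻¹' Y ∩ U)) ≠ ⊤ :=
    ne_top_of_le_ne_top hfin (measure_mono (image_mono inter_subset_right))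
  rw [D, measureReal_add_apply, measureReal_def, measureReal_def, measureReal_def, h2] at h1
  rw [← ENNReal.toReal_eq_toReal_iff' (measure_ne_top _ _)
    (ENNReal.mul_ne_top ENNReal.ofReal_ne_top h3), ENNReal.toReal_mul,
    ENNReal.toReal_ofReal (by linarith [h.pos])]
  linarith

/-- harmonic functions are weakly harmonic in the chart.  `K = W ∩ F⁻¹ (tsupport θ)` is compact;
`ψ₀` a cut-off equal to `1` on an open `V ⊇ K`, `tsupport ψ₀ ⊆ W`.  By `leibniz₃`, `leibniz` and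
`locality` (`θ ∘ F = 0` near points of `W \ K`, `ψ₀` is constant near points of `V` and off its
support): `B 1 (θ F) (ψ₀ f) = B ψ₀ (θ F) f = B 1 (ψ₀ θ F) f = 0`.  By `green` and `map_eq` the left
side is `-(κ/2) ∫ fτ * lapl θ`. -/
theorem Chart.weak {κ : ℝ} {U : Set Z} {F : Z → ℂ} (h : X.Chart κ U F) {W : Set Z}
    (hW : IsOpen W) (hWU : W ⊆ U) {f : Z → ℝ} (hf : X.Harm W f) {fτ : ℂ → ℝ}
    (hτ : ∀ z ∈ W, fτ (F z) = f z) {θ : ℂ → ℝ} (hθ : ContDiff ℝ 2 θ) (hc : HasCompactSupport θ)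
    (hs : tsupport θ ⊆ F '' W) : ∫ w, fτ w * lapl θ w = 0 := by
  have hFc := Harm2.continuous X h.conf.harm
  have hU := h.conf.isOpen
  have hK : IsCompact (W ∩ F ⁻¹' tsupport θ) := by
    have h1 := ((h54_emb X h hW hWU).isInducing.isCompact_preimage' hc.isCompact
      (by rwa [← Set.image_eq_range])).image continuous_subtype_val
    rwa [show (fun z : W => F z) ⁻¹' tsupport θ = Subtype.val ⁻¹' (F ⁻¹' tsupport θ) from rfl,
      Subtype.image_preimage_coe] at h1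
  obtain ⟨V, hV, hKV, hVW⟩ := normal_exists_closure_subset hK.isClosed hW inter_subset_left
  obtain ⟨ψ, hψ, -, hψ1, hψW⟩ := X.cutoff _ W isClosed_closure hW hVW
  have ht := h54_mem X h.conf.harm (hθ.of_le (by norm_num) : ContDiff ℝ 1 θ)
  have tri : ∀ z, (∃ c, ψ =ᶠ[𝓝 z] fun _ => c) ∨ ((fun z => θ (F z)) =ᶠ[𝓝 z] fun _ => 0) := by
    intro z
    by_cases h1 : z ∈ V
    · exact Or.inl ⟨1, by filter_upwards [hV.mem_nhds h1] with y hy using hψ1 y (subset_closure hy)⟩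
    by_cases h2 : z ∈ tsupport ψ
    · have h3 : F z ∉ tsupport θ := fun h3 => h1 (hKV ⟨hψW h2, h3⟩)
      exact Or.inr (hFc.continuousAt.eventually (notMem_tsupport_iff_eventuallyEq.1 h3))
    · exact Or.inl ⟨0, notMem_tsupport_iff_eventuallyEq.1 h2⟩
  have e1 : X.B f (fun z => θ (F z)) ψ = 0 := X.locality (X.cont _ hf.1) ht hψ fun z =>
    (tri z).elim (fun h' => Or.inr (Or.inr h')) fun h' => Or.inr (Or.inl ⟨0, h'⟩)
  have e2 : X.B (fun z => θ (F z)) ψ f = 0 := X.locality (X.cont _ ht) hψ hf.1 fun z =>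
    (tri z).elim (fun h' => Or.inr (Or.inl h')) Or.inl
  have e3 := hf.2 _ (X.mul_mem hψ ht) ((tsupport_mul_subset_left).trans hψW)
  rw [X.B_symm _ _ _ continuous_one hf.1 (X.mul_mem hψ ht),
    X.leibniz hψ ht continuous_one hf.1, one_mul, one_mul, e2, zero_add] at e3
  have e4 := Conf.green X h.conf hθ (X.mul_mem hψ hf.1)
    (((tsupport_mul_subset_left).trans hψW).trans hWU)
  rw [X.leibniz₃ hψ hf.1 continuous_one ht, one_mul, one_mul, e1, e3, zero_add, eq_comm,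
    neg_eq_zero] at e4
  have e5 : ∫ z in U, fτ (F z) * lapl θ (F z) ∂(X.Γ (reF F)) = 0 := by
    rw [← e4, ← setIntegral_eq_integral_of_forall_compl_eq_zero (s := U)
      (f := fun z => (ψ * f) z * lapl θ (F z)) fun z hz => ?_]
    · refine setIntegral_congr_fun hU.measurableSet fun z hz => ?_
      by_cases h1 : F z ∈ tsupport θ
      · obtain ⟨y, hy, hyz⟩ := hs h1
        have hz' : z ∈ W := h.inj (hWU hy) hz hyz ▸ hy
        simp only [Pi.mul_apply, hψ1 z (subset_closure (hKV ⟨hz', h1⟩)), hτ z hz', one_mul]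
      · simp only [h54_lapl_zero h1, mul_zero]
    · have h1 : ψ z = 0 := image_eq_zero_of_notMem_tsupport fun h' => hz (hWU (hψW h'))
      simp only [Pi.mul_apply, h1, zero_mul]
  have e6 : ∫ w, fτ w * lapl θ w ∂(((X.Γ (reF F)).restrict U).map F) = 0 := by
    rw [← map_comap_subtype_coe hU.measurableSet,
      Measure.map_map hFc.measurable measurable_subtype_coe, ← e5,
      ← integral_subtype_comap hU.measurableSet]
    exact (h54_emb X h hU subset_rfl).measurableEmbedding.integral_map _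
  rw [Chart.map_eq X h, integral_smul_measure,
    ENNReal.toReal_ofReal (by linarith [h.pos]), smul_eq_mul,
    setIntegral_eq_integral_of_forall_compl_eq_zero fun w hw => ?_] at e6
  · exact (mul_eq_zero.1 e6).resolve_left (by linarith [h.pos])
  · rw [h54_lapl_zero fun h' => hw (image_mono hWU (hs h')), mul_zero]

/-- `W = U ∩ g⁻¹ U`, `τ w = F (g • Function.invFunOn F U w)` is continuous on the open set
`F '' W`; `Conf.inv`, `harm_sq`, `weak`, `anal_of_weak`. -/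
theorem Chart.atlas (hG : Geo G Z) {κ : ℝ} {U : Set Z} {F : Z → ℂ} (h : X.Chart κ U F) :
    Atlas G U F := by
  have hFc : Continuous F := Harm2.continuous X h.conf.harm
  refine ⟨h.conf.isOpen, h.ne, hFc, h.inj, h.isOpenMap, fun g z hz hgz => ?_⟩
  have : Nonempty Z := ⟨z⟩
  have hW : IsOpen (U ∩ (fun z => g • z) ⁻¹' U) :=
    h.conf.isOpen.inter (h.conf.isOpen.preimage (hG.cont g))
  have hWU : U ∩ (fun z => g • z) ⁻¹' U ⊆ U := inter_subset_left
  have hY := h.isOpenMap _ hW hWU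
  have hi : ∀ x ∈ U, Function.invFunOn F U (F x) = x := fun x hx => h.inj.leftInvOn_invFunOn hx
  have hic : ContinuousOn (Function.invFunOn F U) (F '' (U ∩ (fun z => g • z) ⁻¹' U)) := by
    rw [continuousOn_open_iff hY]
    intro t ht
    have e : F '' (U ∩ (fun z => g • z) ⁻¹' U) ∩ Function.invFunOn F U ⁻¹' t =
        F '' ((U ∩ (fun z => g • z) ⁻¹' U) ∩ t) := by
      ext y
      constructor
      · rintro ⟨⟨x, hx, rfl⟩, h2⟩
        rw [mem_preimage, hi x hx.1] at h2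
        exact ⟨x, ⟨hx, h2⟩, rfl⟩
      · rintro ⟨x, ⟨hx, h2⟩, rfl⟩
        exact ⟨⟨x, hx, rfl⟩, by rw [mem_preimage, hi x hx.1]; exact h2⟩
    rw [e]
    exact h.isOpenMap _ (hW.inter ht) (inter_subset_left.trans hWU)
  have hC : X.Conf (U ∩ (fun z => g • z) ⁻¹' U) (fun z => F (g • z)) :=
    Conf.mono X (Conf.inv X hG.cont h.conf g) hW inter_subset_right
  have hS := Conf.harm_sq X hC
  refine ⟨fun w => F (g • Function.invFunOn F U w), anal_of_weak hY
    ((hFc.comp (hG.cont g)).comp_continuousOn hic) (fun θ a b c => ⟨?_, ?_, ?_, ?_⟩) _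
    ⟨z, ⟨hz, hgz⟩, rfl⟩, ?_⟩
  · exact Chart.weak X h hW hWU hC.harm.1 (fun x hx => by
      simp only [Function.comp_apply, hi x hx.1]; rfl) a b c
  · exact Chart.weak X h hW hWU hC.harm.2 (fun x hx => by
      simp only [Function.comp_apply, hi x hx.1]; rfl) a b c
  · exact Chart.weak X h hW hWU hS.1 (fun x hx => by
      simp only [Function.comp_apply, hi x hx.1]; rfl) a b c
  · exact Chart.weak X h hW hWU hS.2 (fun x hx => by
      simp only [Function.comp_apply, hi x hx.1]; rfl) a b c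
  · filter_upwards [h.conf.isOpen.mem_nhds hz] with x hx
    rw [hi x hx]

include X in
theorem exists_atlas (hG : Geo G Z) : ∃ (U : Set Z) (F : Z → ℂ), Atlas G U F := by
  obtain ⟨κ, CA, U, F, hκ, hA, h⟩ := X.exists_extremal hG
  exact ⟨U, F, Chart.atlas X hG (Extremal.chart X hG hκ hA h)⟩

end DForm

end Crest.Agent.R193.E
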