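import Crest.Agent.R193.Defs
import Crest.Agent.R193.Unicoh
import Crest.Agent.R193.VisProp

/-! Row 193 [E], metric layer: oscillation energy on nets, co-area, short loops, Loewner bound. -/

set_option autoImplicit false

open Set Filter Topology MeasureTheory Metric

namespace Crest.Agent.R193.E

/-- metric hypotheses -/
structure MGeo (Z : Type) [MetricSpace Z] : Prop where
  sph : Nonempty (Z ≃ₜ S2)
  dbl : Doubling Z
  llc1 : LLC1 Z
  llc2 : LLC2 Z
  ub : UB Z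

variable {Z : Type} [MetricSpace Z]

/-- a `δ`-net -/
structure Net (δ : ℝ) (S : Finset Z) : Prop where
  pos : 0 < δ
  sep : Sepd δ S
  cov : ∀ x, ∃ z ∈ S, dist x z < δ

/-- bounded function -/
def Bdd (φ : Z → ℝ) : Prop := ∃ M : ℝ, ∀ z, |φ z| ≤ M

/-- oscillation on a ball -/
noncomputable def osc (φ : Z → ℝ) (z : Z) (δ : ℝ) : ℝ := diam (φ '' ball z δ)

open Classical in
/-- oscillation energy of the cells centred in `A` -/
noncomputable def Oe (φ : Z → ℝ) (δ : ℝ) (S : Finset Z) (A : Set Z) : ℝ :=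
  ∑ z ∈ S.filter (fun z => z ∈ A), osc φ z δ ^ 2

/-- `φ` crosses the level `t` on the ball -/
def Cross (φ : Z → ℝ) (z : Z) (δ t : ℝ) : Prop :=
  (∃ x ∈ ball z δ, φ x ≤ t) ∧ ∃ x ∈ ball z δ, t ≤ φ x

/-- maximal separated set in a compact space -/
theorem exists_net [CompactSpace Z] {δ : ℝ} (hδ : 0 < δ) : ∃ S : Finset Z, Net δ S := by
  classical
  obtain ⟨t, -, ht, hc⟩ := finite_cover_balls_of_compact (isCompact_univ (X := Z)) (half_pos hδ)
  choose c hct hc using fun z : Z => mem_iUnion₂.1 (hc (mem_univ z))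
  have hfin : (Finset.card '' {S : Finset Z | Sepd δ S}).Finite := by
    refine (finite_Iic ht.toFinset.card).subset ?_
    rintro _ ⟨S, hS, rfl⟩
    refine Finset.card_le_card_of_injOn c (fun z _ => by simpa using hct z) fun x hx y hy e => ?_
    by_contra hne
    have h1 := hS x hx y hy hne
    have h2 := dist_triangle_right x y (c x)
    have h3 := mem_ball.1 (hc x)
    have h4 := mem_ball.1 (hc y)
    rw [← e] at h4
    linarith
  obtain ⟨_, ⟨S, hS, rfl⟩, hmax⟩ := Set.exists_max_image _ id hfin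
    ⟨0, ∅, fun _ h => absurd h (Finset.notMem_empty _), rfl⟩
  refine ⟨S, hδ, hS, fun x => ?_⟩
  by_contra hn
  push Not at hn
  have hx : x ∉ S := fun h => by simpa [hδ.not_ge] using hn x h
  have := hmax _ ⟨insert x S, fun a ha b hb hab => by
    rcases Finset.mem_insert.1 ha with rfl | ha' <;> rcases Finset.mem_insert.1 hb with rfl | hb'
    · exact absurd rfl hab
    · exact hn b hb'
    · rw [dist_comm]; exact hn a ha'
    · exact hS a ha' b hb' hab, rfl⟩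
  simp [Finset.card_insert_of_notMem hx] at this

theorem osc_nonneg (φ : Z → ℝ) (z : Z) (δ : ℝ) : 0 ≤ osc φ z δ := diam_nonneg

theorem abs_sub_le_osc {φ : Z → ℝ} (hφ : Bdd φ) {z x y : Z} {δ : ℝ} (hx : x ∈ ball z δ)
    (hy : y ∈ ball z δ) : |φ x - φ y| ≤ osc φ z δ := by
  obtain ⟨M, hM⟩ := hφ
  rw [← Real.dist_eq]
  refine dist_le_diam_of_mem ((isBounded_Icc (-M) M).subset ?_) (mem_image_of_mem φ hx)
    (mem_image_of_mem φ hy)
  rintro _ ⟨u, -, rfl⟩
  exact abs_le.1 (hM u)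

theorem osc_le_of {φ : Z → ℝ} {z : Z} {δ a : ℝ} (ha : 0 ≤ a)
    (H : ∀ x ∈ ball z δ, ∀ y ∈ ball z δ, |φ x - φ y| ≤ a) : osc φ z δ ≤ a := by
  refine diam_le_of_forall_dist_le ha ?_
  rintro _ ⟨x, hx, rfl⟩ _ ⟨y, hy, rfl⟩
  exact H x hx y hy

theorem Oe_nonneg (φ : Z → ℝ) (δ : ℝ) (S : Finset Z) (A : Set Z) : 0 ≤ Oe φ δ S A := by
  exact Finset.sum_nonneg fun _ _ => sq_nonneg _

theorem Oe_mono (φ : Z → ℝ) (δ : ℝ) (S : Finset Z) {A B : Set Z} (h : A ⊆ B) :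
    Oe φ δ S A ≤ Oe φ δ S B := by
  classical
  exact Finset.sum_le_sum_of_subset_of_nonneg
    (fun z hz => Finset.mem_filter.2 ⟨(Finset.mem_filter.1 hz).1, h (Finset.mem_filter.1 hz).2⟩)
    fun _ _ _ => sq_nonneg _

theorem Oe_le_of_En {φ : Z → ℝ} {δ M : ℝ} {S : Finset Z} (hS : Net δ S) (h : En φ δ M)
    (A : Set Z) : Oe φ δ S A ≤ M := by
  classical
  exact h _ fun x hx y hy => hS.sep x (Finset.mem_filter.1 hx).1 y (Finset.mem_filter.1 hy).1

/-- disjoint regions -/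
theorem sum_Oe_le {ι : Type} (φ : Z → ℝ) (δ : ℝ) (S : Finset Z) (P : Finset ι) (A : ι → Set Z)
    (N : ℕ) (hN : ∀ z, {p | p ∈ P ∧ z ∈ A p}.ncard ≤ N) :
    ∑ p ∈ P, Oe φ δ S (A p) ≤ N * Oe φ δ S univ := by
  classical
  unfold Oe
  simp only [Finset.sum_filter, mem_univ, if_true]
  rw [Finset.sum_comm, Finset.mul_sum]
  refine Finset.sum_le_sum fun z _ => ?_
  rw [← Finset.sum_filter, Finset.sum_const, nsmul_eq_mul]
  refine mul_le_mul_of_nonneg_right ?_ (sq_nonneg _)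
  have e : {p | p ∈ P ∧ z ∈ A p} = ↑(P.filter fun p => z ∈ A p) := by
    ext p
    simp
  have := hN z
  rw [e, ncard_coe_finset] at this
  exact_mod_cast this

open Classical in
theorem h50_coarea {φ : Z → ℝ} (hφ : Bdd φ) (T : Finset Z) (δ : ℝ) (c : Z → ℝ)
    (hc : ∀ z, 0 ≤ c z) {a b l : ℝ} (hab : a ≤ b)
    (H : ∀ t ∈ Ioo a b, l ≤ ∑ z ∈ T.filter (fun z => Cross φ z δ t), c z) :
    l * (b - a) ≤ ∑ z ∈ T, osc φ z δ * c z := by
  have hm : ∀ z, MeasurableSet {t | Cross φ z δ t} := fun z =>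
    Set.OrdConnected.measurableSet ⟨fun t₁ ⟨⟨x, hx, h1⟩, _⟩ t₂ ⟨_, ⟨y, hy, h2⟩⟩ t ht =>
      ⟨⟨x, hx, h1.trans ht.1⟩, ⟨y, hy, ht.2.trans h2⟩⟩⟩
  have hv : ∀ z, volume {t | Cross φ z δ t} ≤ ENNReal.ofReal (osc φ z δ) := fun z =>
    (Real.volume_le_diam _).trans (ediam_le_of_forall_dist_le
      fun t₁ ⟨⟨x, hx, h1⟩, ⟨x', hx', h1'⟩⟩ t₂ ⟨⟨y, hy, h2⟩, ⟨y', hy', h2'⟩⟩ => by
        have e1 := abs_le.1 (abs_sub_le_osc hφ hx' hy)
        have e2 := abs_le.1 (abs_sub_le_osc hφ hy' hx)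
        rw [Real.dist_eq, abs_le]
        constructor <;> linarith [e1.2, e2.2])
  have hi : ∀ z, Integrable ({t | Cross φ z δ t}.indicator fun _ => c z)
      (volume.restrict (Ioo a b)) := fun z => (integrable_const _).indicator (hm z)
  have h1 := setIntegral_mono_on (μ := volume) (s := Ioo a b) (f := fun _ => l)
    (g := fun t => ∑ z ∈ T, {t | Cross φ z δ t}.indicator (fun _ => c z) t)
    (integrable_const _) (integrable_finsetSum _ fun z _ => hi z) measurableSet_Ioo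
    fun t ht => (H t ht).trans (le_of_eq (by
      rw [Finset.sum_filter]
      exact Finset.sum_congr rfl fun z _ => by simp [indicator_apply]))
  rw [setIntegral_const, Real.volume_real_Ioo_of_le hab, smul_eq_mul, mul_comm,
    integral_finsetSum _ fun z _ => hi z] at h1
  refine h1.trans (Finset.sum_le_sum fun z _ => ?_)
  rw [integral_indicator_const _ (hm z), smul_eq_mul]
  exact mul_le_mul_of_nonneg_right (ENNReal.toReal_le_of_le_ofReal (osc_nonneg φ z δ)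
    ((Measure.restrict_apply_le _ _).trans (hv z))) (hc z)

theorem h50_cross {φ : Z → ℝ} {K : Set Z} (hK : IsPreconnected K) (T : Finset Z)
    {δ : ℝ} (hT : ∀ x ∈ K, ∃ z ∈ T, x ∈ ball z δ) {x y : Z} (hx : x ∈ K) (hy : y ∈ K) {t : ℝ}
    (ht : t ∈ Ioo (φ y) (φ x)) : ∃ z ∈ T, Cross φ z δ t := by
  by_contra hn
  have hor : ∀ z ∈ T, (∀ u ∈ ball z δ, t < φ u) ∨ ∀ u ∈ ball z δ, φ u < t := fun z hz => by
    by_contra h
    push Not at h
    exact hn ⟨z, hz, h⟩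
  let U : Set Z := ⋃ z ∈ {z | ∀ u ∈ ball z δ, t < φ u}, ball z δ
  let V : Set Z := ⋃ z ∈ {z | ∀ u ∈ ball z δ, φ u < t}, ball z δ
  have hU : ∀ u ∈ U, t < φ u := fun u hu => by
    obtain ⟨z, hz, h⟩ := mem_iUnion₂.1 hu
    exact hz u h
  have hV : ∀ u ∈ V, φ u < t := fun u hu => by
    obtain ⟨z, hz, h⟩ := mem_iUnion₂.1 hu
    exact hz u h
  have hc : K ⊆ U ∪ V := fun u hu => by
    obtain ⟨z, hz, h⟩ := hT u hu
    exact (hor z hz).imp (fun h' => mem_biUnion h' h) fun h' => mem_biUnion h' h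
  obtain ⟨u, -, h1, h2⟩ := hK U V (isOpen_biUnion fun _ _ => isOpen_ball)
    (isOpen_biUnion fun _ _ => isOpen_ball) hc
    ⟨x, hx, (hc hx).resolve_right fun h => (hV x h).not_gt ht.2⟩
    ⟨y, hy, (hc hy).resolve_left fun h => (hU y h).not_gt ht.1⟩
  exact (hU u h1).not_gt (hV u h2)

theorem h50_chain {φ : Z → ℝ} (hφ : Bdd φ) {K : Set Z} (hK : IsPreconnected K) (T : Finset Z)
    {δ : ℝ} (hT : ∀ x ∈ K, ∃ z ∈ T, x ∈ ball z δ) {x y : Z} (hx : x ∈ K) (hy : y ∈ K) :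
    φ x - φ y ≤ ∑ z ∈ T, osc φ z δ := by
  classical
  rcases le_total (φ x) (φ y) with h | h
  · exact (sub_nonpos.2 h).trans (Finset.sum_nonneg fun z _ => osc_nonneg φ z δ)
  · have := h50_coarea hφ T δ (fun _ => 1) (fun _ => zero_le_one) (l := 1) h fun t ht => by
      obtain ⟨z, hz, hc⟩ := h50_cross hK T hT hx hy ht
      exact Finset.single_le_sum (f := fun _ => (1 : ℝ)) (fun _ _ => zero_le_one)
        (Finset.mem_filter.2 ⟨hz, hc⟩)
    simpa using this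

/-- The values of `t` with `Cross φ z δ t` form an interval of length `≤ osc φ z δ`.  If some `t`
strictly between `φ x` and `φ y` were crossed on no ball, the unions of the balls on which `φ < t`,
resp. `φ > t`, would disconnect `K`.  So the intervals cover `(φ y, φ x)`; compare Lebesgue
measures. -/
theorem chain_osc {φ : Z → ℝ} (hφ : Bdd φ) {K : Set Z} (hK : IsPreconnected K) (T : Finset Z)
    {δ : ℝ} (hT : ∀ x ∈ K, ∃ z ∈ T, x ∈ ball z δ) {x y : Z} (hx : x ∈ K) (hy : y ∈ K) :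
    |φ x - φ y| ≤ ∑ z ∈ T, osc φ z δ := by
  rw [abs_le]
  exact ⟨by linarith [h50_chain hφ hK T hT hy hx], h50_chain hφ hK T hT hx hy⟩

open Classical in
/-- co-area: integrate `t ↦ ∑ z, indicator {t | Cross φ z δ t} (c z)` over `(a, b)`
(the sets are order-connected, hence measurable, of measure `≤ osc φ z δ`). -/
theorem coarea {φ : Z → ℝ} (hφ : Bdd φ) (T : Finset Z) (δ : ℝ) (c : Z → ℝ) (hc : ∀ z, 0 ≤ c z)
    {a b l : ℝ} (hab : a ≤ b)
    (H : ∀ t ∈ Ioo a b, l ≤ ∑ z ∈ T.filter (fun z => Cross φ z δ t), c z) :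
    l * (b - a) ≤ ∑ z ∈ T, osc φ z δ * c z := by
  exact h50_coarea hφ T δ c hc hab H

/-- separation by a level of a discontinuous function.  `U₁`, `U₂` = unions of the balls
`ball z δ`, `z ∈ S`, on which `φ < t`, resp. `φ > t`; they are open and disjoint, `A ⊆ U₁`,
`B ⊆ U₂`; apply `exists_sep_continuum` to `F = (U₁ ∪ U₂)ᶜ`. -/
theorem sep_level (hZ : Nonempty (Z ≃ₜ S2)) {φ : Z → ℝ} {δ : ℝ} {S : Finset Z} (hS : Net δ S)
    {A B : Set Z} (hA : IsConnected A) (hB : IsConnected B) {t : ℝ}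
    (hAt : ∀ x ∈ A, ∀ y ∈ ball x (2 * δ), φ y < t) (hBt : ∀ x ∈ B, ∀ y ∈ ball x (2 * δ), t < φ y) :
    ∃ K : Set Z, IsCompact K ∧ IsConnected K ∧ Disjoint K A ∧ Disjoint K B ∧
      (∀ x ∈ K, ∀ z ∈ S, x ∈ ball z δ → Cross φ z δ t) ∧
      ∀ C, IsPreconnected C → (C ∩ A).Nonempty → (C ∩ B).Nonempty → (C ∩ K).Nonempty := by
  obtain ⟨Φ⟩ := hZ
  let U : Set Z := ⋃ z ∈ {z | ∀ u ∈ ball z δ, φ u < t}, ball z δ
  let V : Set Z := ⋃ z ∈ {z | ∀ u ∈ ball z δ, t < φ u}, ball z δ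
  have hU : ∀ u ∈ U, φ u < t := fun u hu => by
    obtain ⟨z, hz, h⟩ := mem_iUnion₂.1 hu
    exact hz u h
  have hV : ∀ u ∈ V, t < φ u := fun u hu => by
    obtain ⟨z, hz, h⟩ := mem_iUnion₂.1 hu
    exact hz u h
  have hUo : IsOpen U := isOpen_biUnion fun _ _ => isOpen_ball
  have hVo : IsOpen V := isOpen_biUnion fun _ _ => isOpen_ball
  have hb : ∀ x z : Z, dist x z < δ → ball z δ ⊆ ball x (2 * δ) := fun x z hxz =>
    ball_subset_ball' (by rw [dist_comm]; linarith)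
  have hAU : A ⊆ U := fun x hx => by
    obtain ⟨z, -, hz⟩ := hS.cov x
    exact mem_biUnion (x := z) (fun u hu => hAt x hx u (hb x z hz hu)) hz
  have hBV : B ⊆ V := fun x hx => by
    obtain ⟨z, -, hz⟩ := hS.cov x
    exact mem_biUnion (x := z) (fun u hu => hBt x hx u (hb x z hz hu)) hz
  have hAF : Disjoint A (U ∪ V)ᶜ := disjoint_left.2 fun x hx h => h (Or.inl (hAU hx))
  have hBF : Disjoint B (U ∪ V)ᶜ := disjoint_left.2 fun x hx h => h (Or.inr (hBV hx))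
  obtain ⟨K, hKF, hKc, hKn, hK⟩ := exists_sep_continuum Φ (F := (U ∪ V)ᶜ)
    (hUo.union hVo).isClosed_compl hA hB hAF hBF (fun a ha b hb' hj => by
      rw [compl_compl] at hj
      obtain ⟨u, -, h1, h2⟩ := isPreconnected_range hj.somePath.continuous U V hUo hVo
        (by rintro _ ⟨s, rfl⟩; exact hj.somePath_mem s)
        ⟨a, hj.somePath.source_mem_range, hAU ha⟩ ⟨b, hj.somePath.target_mem_range, hBV hb'⟩
      exact (hU u h1).not_gt (hV u h2))
  refine ⟨K, hKc, hKn, (hAF.mono_right hKF).symm, (hBF.mono_right hKF).symm,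
    fun x hx z _ hxz => ⟨?_, ?_⟩, hK⟩
  · by_contra hcon
    push Not at hcon
    exact hKF hx (Or.inr (mem_biUnion (x := z) hcon hxz))
  · by_contra hcon
    push Not at hcon
    exact hKF hx (Or.inl (mem_biUnion (x := z) hcon hxz))

/-- nearby points: an `LLC1` path from `x` to `y`, `chain_osc` with the at most `m` net points
within `(L₁ T + 1) δ` of `x` (`Doubling`), Cauchy-Schwarz. -/
theorem near_le (h : MGeo Z) (T : ℝ) : ∃ C L : ℝ, 0 < C ∧ 0 < L ∧ ∀ (δ : ℝ) (S : Finset Z),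
    Net δ S → ∀ φ : Z → ℝ, Bdd φ → ∀ x y : Z, dist x y ≤ T * δ →
      |φ x - φ y| ≤ C * √(Oe φ δ S (ball x (L * δ))) := by
  classical
  obtain ⟨L₁, hL₁, hl⟩ := h.llc1
  have hT0 : 0 ≤ max T 0 := le_max_right _ _
  have hL0 : 0 < L₁ := lt_of_lt_of_le one_pos hL₁
  obtain ⟨m, hm⟩ := h.dbl (L₁ * max T 0 + 1)
  refine ⟨√(m : ℝ) + 1, L₁ * max T 0 + 1, by positivity, by positivity, ?_⟩
  intro δ S hS φ hφ x y hxy
  have hδ := hS.pos
  obtain ⟨γ, hγ⟩ := hl x y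
  set R : Finset Z := S.filter (fun z => z ∈ ball x ((L₁ * max T 0 + 1) * δ)) with hR
  have hxy' : dist x y ≤ max T 0 * δ :=
    hxy.trans (mul_le_mul_of_nonneg_right (le_max_left _ _) hδ.le)
  have h1 := chain_osc hφ (isPreconnected_range γ.continuous) R (δ := δ) (by
    rintro _ ⟨s, rfl⟩
    obtain ⟨z, hz, hd⟩ := hS.cov (γ s)
    refine ⟨z, Finset.mem_filter.2 ⟨hz, ?_⟩, hd⟩
    have h2 := hγ s
    have h3 := dist_triangle_left z x (γ s)
    have h4 : L₁ * dist x y ≤ L₁ * (max T 0 * δ) := mul_le_mul_of_nonneg_left hxy' hL0.le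
    rw [mem_ball]
    nlinarith) γ.source_mem_range γ.target_mem_range
  have hcard : R.card ≤ m := hm x δ R hδ
    (fun u hu v hv => hS.sep u (Finset.mem_filter.1 hu).1 v (Finset.mem_filter.1 hv).1)
    fun z hz => le_of_lt (Finset.mem_filter.1 hz).2
  have h2 := Real.sum_mul_le_sqrt_mul_sqrt R (fun _ => (1 : ℝ)) (fun z => osc φ z δ)
  simp only [one_mul, one_pow, Finset.sum_const, nsmul_eq_mul, mul_one] at h2
  have h3 : √(R.card : ℝ) ≤ √(m : ℝ) + 1 :=
    (Real.sqrt_le_sqrt (Nat.cast_le.2 hcard)).trans (by linarith)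
  have e : Oe φ δ S (ball x ((L₁ * max T 0 + 1) * δ)) = ∑ z ∈ R, osc φ z δ ^ 2 := by
    unfold Oe
    congr 1
  rw [e]
  exact h1.trans (h2.trans (mul_le_mul_of_nonneg_right h3 (Real.sqrt_nonneg _)))

open Classical in
private theorem h67_level {g φ : Z → ℝ} (hg : Bdd g) {δ M : ℝ} {S : Finset Z} (hS : Net δ S)
    (hE : En g δ M) (W : Set Z) {η : ℝ} (hη : 0 < η) :
    ∃ t ∈ Ioo (0 : ℝ) 1, ∃ T : Finset Z, (∀ z ∈ S, z ∈ W → Cross g z δ t → z ∈ T) ∧
      ∑ z ∈ T, osc φ z δ ≤ √M * √(Oe φ δ S W) + η := by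
  by_contra hcon
  push Not at hcon
  have H : ∀ t ∈ Ioo (0 : ℝ) 1, √M * √(Oe φ δ S W) + η ≤
      ∑ z ∈ (S.filter (fun z => z ∈ W)).filter (fun z => Cross g z δ t), osc φ z δ := by
    intro t ht
    refine (hcon t ht _ (fun z hz hzW hc => ?_)).le
    simp only [Finset.mem_filter]
    exact ⟨⟨hz, hzW⟩, hc⟩
  have h1 := coarea hg (S.filter (fun z => z ∈ W)) δ (fun z => osc φ z δ)
    (fun z => osc_nonneg _ _ _) zero_le_one H
  have h2 := Real.sum_mul_le_sqrt_mul_sqrt (S.filter (fun z => z ∈ W)) (fun z => osc g z δ)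
    (fun z => osc φ z δ)
  have h3 : Oe g δ S W ≤ M := Oe_le_of_En hS hE W
  have h4 : √(Oe g δ S W) ≤ √M := Real.sqrt_le_sqrt h3
  have h5 : √(Oe g δ S W) * √(Oe φ δ S W) ≤ √M * √(Oe φ δ S W) :=
    mul_le_mul_of_nonneg_right h4 (Real.sqrt_nonneg _)
  have h6 : ∑ z ∈ S.filter (fun z => z ∈ W), osc g z δ * osc φ z δ ≤
      √(Oe g δ S W) * √(Oe φ δ S W) := h2
  linarith

private theorem h67_frontier_comp [LocallyConnectedSpace Z] {K : Set Z} (hK : IsClosed K) (p : Z) :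
    frontier (connectedComponentIn Kᶜ p) ⊆ K := by
  intro x hx
  have hR : IsOpen (connectedComponentIn Kᶜ p) := hK.isOpen_compl.connectedComponentIn
  rw [hR.frontier_eq] at hx
  by_contra hxK
  have hC : IsOpen (connectedComponentIn Kᶜ x) := hK.isOpen_compl.connectedComponentIn
  have hxC : x ∈ connectedComponentIn Kᶜ x := mem_connectedComponentIn hxK
  obtain ⟨y, hy1, hy2⟩ := mem_closure_iff.1 hx.1 _ hC hxC
  apply hx.2
  rw [connectedComponentIn_eq hy2, ← connectedComponentIn_eq hy1]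
  exact hxC

/-- **Short loops.**  `L₁, L₂` from LLC, `lam = 2 L₁ + 3`, `g` the `UB` cut-off (`1` on
`ball p (lam r)`, `0` off `ball p (2 lam r)`, scale `δ`), `A` = path component of `p` in
`ball p ((2 L₁ + 1) r)` (contains `ball p (2 r)`), `s = 2 lam r + 4 r`, `b₀` a point with
`dist b₀ p ≥ L₂ s` (exists for small `r₀`), `B` = path component of `b₀` in `(ball p s)ᶜ` (contains
all points at distance `≥ L₂ s`), `L = L₂ (2 lam + 4)`.  For `t ∈ (0,1)` apply `sep_level` to `g`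
(with `B`, `A` in this order); net points crossed at level `t` lie in the annulus
`lam r - δ ≤ dist z p ≤ 2 lam r + δ`; by `coarea` (with `c z = osc φ z δ` on the annulus, `0`
elsewhere), Cauchy-Schwarz and `Oe_le_of_En` some `t` has
`∑_{crossed} osc φ ≤ √M √Oe + η`; `chain_osc` on `K`.  `R = connectedComponentIn Kᶜ p`.
Size of `K`: otherwise `LLC2` at a point of `K` joins `p` to `b₀` off `K`. -/
theorem loops_d (h : MGeo Z) : ∃ L C r₀ : ℝ, 2 ≤ L ∧ 0 < C ∧ 0 < r₀ ∧ ∀ (δ : ℝ) (S : Finset Z),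
    Net δ S → ∀ φ : Z → ℝ, Bdd φ → ∀ (p : Z) (r : ℝ), δ ≤ r → r ≤ r₀ → ∀ η : ℝ, 0 < η →
      ∃ R K : Set Z, IsOpen R ∧ ball p (2 * r) ⊆ R ∧ R ⊆ ball p (L * r) ∧ frontier R ⊆ K ∧
        IsCompact K ∧ IsConnected K ∧ K ⊆ ball p (L * r) \ ball p (2 * r) ∧
        (∃ x ∈ K, ∃ y ∈ K, r / L ≤ dist x y) ∧
        ∀ x ∈ K, ∀ y ∈ K, |φ x - φ y| ≤ C * √(Oe φ δ S (ball p (L * r) \ ball p r)) + η := by
  obtain ⟨L₁, hL₁, H₁⟩ := h.llc1
  obtain ⟨L₂, hL₂, H₂⟩ := h.llc2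
  obtain ⟨M, r0, hr0, HU⟩ := h.ub
  haveI := lpc_of_S2 h.sph
  haveI := nontrivial_of_S2 h.sph
  obtain ⟨u, v, huv⟩ := exists_pair_ne Z
  have hD : 0 < dist u v := dist_pos.2 huv
  obtain ⟨lam, hlam⟩ : ∃ lam : ℝ, lam = 2 * L₁ + 3 := ⟨_, rfl⟩
  have hlam5 : 5 ≤ lam := by linarith
  obtain ⟨L, hL⟩ : ∃ L : ℝ, L = L₂ * (2 * lam + 4) := ⟨_, rfl⟩
  have hLge : 2 * lam + 4 ≤ L := by rw [hL]; nlinarith
  have hLL₂ : L₂ ≤ L := by rw [hL]; nlinarith
  have hLpos : 0 < L := by linarith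
  refine ⟨L, √M + 1, min (r0 / lam) (dist u v / (2 * L)), by linarith,
    by positivity, lt_min (by positivity) (by positivity), ?_⟩
  intro δ S hS φ hφ p r hδr hr η hη
  have hδ := hS.pos
  have hrpos : 0 < r := by linarith
  have hr1 : lam * r ≤ r0 := by
    have := hr.trans (min_le_left _ _)
    rw [le_div_iff₀ (by linarith)] at this
    linarith
  have hr2 : 2 * (L * r) ≤ dist u v := by
    have := hr.trans (min_le_right _ _)
    rw [le_div_iff₀ (by linarith)] at this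
    linarith
  have hlr : 5 * r ≤ lam * r := by nlinarith
  have hLr : (2 * lam + 4) * r ≤ L * r := by nlinarith
  obtain ⟨g, hg01, hg1, hg0, hE⟩ := HU p (lam * r) δ hδ (by linarith) hr1
  have hg : Bdd g := ⟨1, fun z => by rw [abs_le]; constructor <;> linarith [hg01 z]⟩
  obtain ⟨b₀, hb₀⟩ : ∃ b₀ : Z, L * r ≤ dist b₀ p := by
    by_contra hcon
    push Not at hcon
    have h1 := hcon u
    have h2 := hcon v
    have h3 := dist_triangle_right u v p
    linarith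
  obtain ⟨s, hs⟩ : ∃ s : ℝ, s = (2 * lam + 4) * r := ⟨_, rfl⟩
  have hspos : 0 < s := by rw [hs]; positivity
  have hLs : L₂ * s = L * r := by rw [hs, hL]; ring
  have hpA0 : p ∈ ball p ((2 * L₁ + 1) * r) := mem_ball_self (by positivity)
  have hbB0 : b₀ ∈ (ball p s)ᶜ := by
    simp only [mem_compl_iff, mem_ball, not_lt]
    linarith
  have hAc : IsConnected (pathComponentIn (ball p ((2 * L₁ + 1) * r)) p) :=
    (isPathConnected_pathComponentIn hpA0).isConnected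
  have hBc : IsConnected (pathComponentIn (ball p s)ᶜ b₀) :=
    (isPathConnected_pathComponentIn hbB0).isConnected
  have hpA : p ∈ pathComponentIn (ball p ((2 * L₁ + 1) * r)) p := mem_pathComponentIn_self hpA0
  have hbB : b₀ ∈ pathComponentIn (ball p s)ᶜ b₀ := mem_pathComponentIn_self hbB0
  have hAsub : pathComponentIn (ball p ((2 * L₁ + 1) * r)) p ⊆ ball p ((2 * L₁ + 1) * r) :=
    pathComponentIn_subset
  have hBsub : pathComponentIn (ball p s)ᶜ b₀ ⊆ (ball p s)ᶜ := pathComponentIn_subset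
  have hballA : ball p (2 * r) ⊆ pathComponentIn (ball p ((2 * L₁ + 1) * r)) p := by
    intro x hx
    obtain ⟨γ, hγ⟩ := H₁ p x
    refine ⟨γ, fun t => ?_⟩
    have h1 := hγ t
    rw [mem_ball, dist_comm] at hx
    rw [mem_ball]
    nlinarith
  have hfarB : ∀ x, L * r ≤ dist x p → x ∈ pathComponentIn (ball p s)ᶜ b₀ := by
    intro x hx
    obtain ⟨γ, hγ⟩ := H₂ p b₀ x s hspos (by linarith) (by linarith)
    refine ⟨γ, fun t => ?_⟩
    simp only [mem_compl_iff, mem_ball, not_lt]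
    exact hγ t
  generalize pathComponentIn (ball p ((2 * L₁ + 1) * r)) p = A at hAc hpA hAsub hballA
  generalize pathComponentIn (ball p s)ᶜ b₀ = B at hBc hbB hBsub hfarB
  obtain ⟨t, ht, T, hT, hsum⟩ := h67_level (φ := φ) hg hS hE (ball p (L * r) \ ball p r) hη
  have hBt : ∀ x ∈ B, ∀ y ∈ ball x (2 * δ), g y < t := by
    intro x hx y hy
    have h1 := hBsub hx
    simp only [mem_compl_iff, mem_ball, not_lt] at h1
    rw [mem_ball] at hy
    have h2 := dist_triangle_left x p y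
    rw [hg0 y ?_]
    · exact ht.1
    · simp only [mem_ball, not_lt]
      nlinarith
  have hAt : ∀ x ∈ A, ∀ y ∈ ball x (2 * δ), t < g y := by
    intro x hx y hy
    have h1 := hAsub hx
    rw [mem_ball] at h1 hy
    have h2 := dist_triangle y x p
    rw [hg1 y ?_]
    · exact ht.2
    · rw [mem_ball, hlam]
      nlinarith
  obtain ⟨K, hKc, hKconn, hKB, hKA, hcross, hsep⟩ := sep_level h.sph hS hBc hAc hBt hAt
  -- location of crossed net points
  have hloc : ∀ z, Cross g z δ t → lam * r - δ < dist z p ∧ dist z p < 2 * (lam * r) + δ := by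
    rintro z ⟨⟨y, hy, hyt⟩, ⟨y', hy', hyt'⟩⟩
    rw [mem_ball] at hy hy'
    constructor
    · have h1 : y ∉ ball p (lam * r) := fun hh => by
        rw [hg1 y hh] at hyt
        exact absurd ht.2 (not_lt.2 hyt)
      rw [mem_ball, not_lt] at h1
      have h2 := dist_triangle y z p
      linarith
    · have h1 : y' ∈ ball p (2 * (lam * r)) := by
        by_contra hh
        rw [hg0 y' hh] at hyt'
        exact absurd ht.1 (not_lt.2 hyt')
      rw [mem_ball] at h1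
      have h2 := dist_triangle_left z p y'
      linarith
  have hKloc : ∀ x ∈ K, 2 * r ≤ dist x p ∧ dist x p < 2 * (lam * r) + 2 * r := by
    intro x hx
    obtain ⟨z, hz, hxz⟩ := hS.cov x
    obtain ⟨h1, h2⟩ := hloc z (hcross x hx z hz hxz)
    have h3 := dist_triangle x z p
    have h4 := dist_triangle_left z p x
    constructor <;> linarith
  have hKT : ∀ x ∈ K, ∃ z ∈ T, x ∈ ball z δ := by
    intro x hx
    obtain ⟨z, hz, hxz⟩ := hS.cov x
    have hc := hcross x hx z hz hxz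
    obtain ⟨h1, h2⟩ := hloc z hc
    refine ⟨z, hT z hz ⟨?_, ?_⟩ hc, hxz⟩
    · rw [mem_ball]; linarith
    · rw [mem_ball, not_lt]; linarith
  have hpK : p ∈ Kᶜ := fun hh => disjoint_left.1 hKA hh hpA
  have hAR : A ⊆ connectedComponentIn Kᶜ p :=
    hAc.isPreconnected.subset_connectedComponentIn hpA
      (fun x hx hh => disjoint_left.1 hKA hh hx)
  refine ⟨connectedComponentIn Kᶜ p, K, hKc.isClosed.isOpen_compl.connectedComponentIn,
    hballA.trans hAR, ?_, h67_frontier_comp hKc.isClosed p, hKc, hKconn, ?_, ?_, ?_⟩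
  · intro x hx
    by_contra hxb
    rw [mem_ball, not_lt] at hxb
    obtain ⟨y, hy1, hy2⟩ := hsep _ isPreconnected_connectedComponentIn ⟨x, hx, hfarB x hxb⟩
      ⟨p, mem_connectedComponentIn hpK, hpA⟩
    exact connectedComponentIn_subset _ _ hy1 hy2
  · intro x hx
    obtain ⟨h1, h2⟩ := hKloc x hx
    constructor
    · rw [mem_ball]; linarith
    · rw [mem_ball, not_lt]; exact h1
  · obtain ⟨x₀, hx₀⟩ := hKconn.nonempty
    obtain ⟨h1, h2⟩ := hKloc x₀ hx₀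
    have hρ : L₂ * (r / L) ≤ r := by
      rw [← mul_div_assoc, div_le_iff₀ hLpos]
      nlinarith
    have h3 := dist_triangle b₀ x₀ p
    obtain ⟨γ, hγ⟩ := H₂ x₀ p b₀ (r / L) (by positivity) (by rw [dist_comm]; linarith)
      (by linarith)
    obtain ⟨y, ⟨τ, rfl⟩, hy2⟩ := hsep (range γ) (isPreconnected_range γ.continuous)
      ⟨b₀, γ.target_mem_range, hbB⟩ ⟨p, γ.source_mem_range, hpA⟩
    exact ⟨γ τ, hy2, x₀, hx₀, hγ τ⟩
  · intro x hx y hy
    have h1 := chain_osc hφ hKconn.isPreconnected T hKT hx hy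
    have h2 := Real.sqrt_nonneg (Oe φ δ S (ball p (L * r) \ ball p r))
    nlinarith

/-- **Loewner bound, general form.**  For `t ∈ (a, b)` the continuum `K` of `sep_level` meets `P` at
some `x ∈ ball q τ`, `q ∈ Q`, and leaves `ball x (4 τ)` (else `LLC2` joins `A` to `B` off `K`); the
`UB` cut-off `g q` of `ball q τ` oscillates by `1` on `K`, so `1 ≤ ∑_{crossed} ∑_q osc (g q)`
(`chain_osc`); `coarea`, and `osc (g q) z δ = 0` unless `dist z q < 3 τ`; Cauchy-Schwarz. -/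
theorem loewner_d (h : MGeo Z) : ∃ L C r₀ : ℝ, 1 ≤ L ∧ 0 < C ∧ 0 < r₀ ∧ ∀ (δ : ℝ) (S : Finset Z),
    Net δ S → ∀ φ : Z → ℝ, Bdd φ → ∀ τ : ℝ, δ ≤ τ → τ ≤ r₀ → ∀ (P A B W : Set Z) (Q : Finset Z),
      IsPreconnected P → (∀ x ∈ P, ∃ q ∈ Q, x ∈ ball q τ) → (∀ q ∈ Q, ball q (3 * τ) ⊆ W) →
      IsConnected A → IsConnected B → (P ∩ A).Nonempty → (P ∩ B).Nonempty →
      (∀ x, ∃ z ∈ A, L * τ ≤ dist z x) → (∀ x, ∃ z ∈ B, L * τ ≤ dist z x) → ∀ a b : ℝ, a ≤ b →
      (∀ x ∈ A, ∀ y ∈ ball x (2 * δ), φ y ≤ a) → (∀ x ∈ B, ∀ y ∈ ball x (2 * δ), b ≤ φ y) →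
      b - a ≤ C * Q.card * √(Oe φ δ S W) := by
  classical
  obtain ⟨L₂, hL₂, hl⟩ := h.llc2
  obtain ⟨M, r₀, hr₀, hub⟩ := h.ub
  refine ⟨2 * L₂, √M + 1, r₀, by linarith, by positivity, hr₀, ?_⟩
  intro δ S hS φ hφ τ hδτ hτ P A B W Q hP hPQ hQW hA hB hPA hPB hAf hBf a b hab ha hb
  have hδ := hS.pos
  have hτ0 : 0 < τ := hδ.trans_le hδτ
  choose g hg01 hg1 hg0 hgE using fun q : Z => hub q τ δ hδ hδτ hτ
  have hgb : ∀ q, Bdd (g q) := fun q => ⟨1, fun z => by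
    rw [abs_of_nonneg (hg01 q z).1]; exact (hg01 q z).2⟩
  have h1 := coarea hφ S δ (fun z => ∑ q ∈ Q, osc (g q) z δ)
    (fun z => Finset.sum_nonneg fun q _ => osc_nonneg _ _ _) (l := 1) hab (fun t ht => by
      obtain ⟨K, -, hKn, -, -, hKx, hK⟩ := sep_level h.sph (φ := φ) hS hA hB (t := t)
        (fun x hx y hy => (ha x hx y hy).trans_lt ht.1)
        (fun x hx y hy => ht.2.trans_le (hb x hx y hy))
      obtain ⟨x, hxP, hxK⟩ := hK P hP hPA hPB
      obtain ⟨q, hq, hxq⟩ := hPQ x hxP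
      obtain ⟨a', ha', ha''⟩ := hAf q
      obtain ⟨b', hb', hb''⟩ := hBf q
      obtain ⟨γ, hγ⟩ := hl q a' b' (2 * τ) (by positivity) (by linarith) (by linarith)
      obtain ⟨_, ⟨s, rfl⟩, hyK⟩ := hK (range γ) (isPreconnected_range γ.continuous)
        ⟨a', γ.source_mem_range, ha'⟩ ⟨b', γ.target_mem_range, hb'⟩
      have h2 := chain_osc (hgb q) hKn.isPreconnected (S.filter fun z => Cross φ z δ t) (δ := δ)
        (fun u hu => by
          obtain ⟨z, hz, hd⟩ := hS.cov u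
          exact ⟨z, Finset.mem_filter.2 ⟨hz, hKx u hu z hz hd⟩, hd⟩) hxK hyK
      rw [hg1 q x hxq, hg0 q (γ s) (fun hh => (hγ s).not_gt hh), sub_zero, abs_one] at h2
      exact h2.trans (Finset.sum_le_sum fun z _ =>
        Finset.single_le_sum (f := fun q => osc (g q) z δ) (fun q _ => osc_nonneg _ _ _) hq))
  rw [one_mul] at h1
  refine h1.trans ?_
  simp only [Finset.mul_sum]
  rw [Finset.sum_comm]
  have h3 : ∀ q ∈ Q, ∑ z ∈ S, osc φ z δ * osc (g q) z δ ≤ (√M + 1) * √(Oe φ δ S W) := by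
    intro q hq
    have e : ∑ z ∈ S, osc φ z δ * osc (g q) z δ =
        ∑ z ∈ S.filter (fun z => z ∈ W), osc φ z δ * osc (g q) z δ := by
      refine (Finset.sum_filter_of_ne fun z _ hz => ?_).symm
      by_contra hW
      have hd : 3 * τ ≤ dist z q := not_lt.1 fun hh => hW (hQW q hq hh)
      have hz0 : ∀ u ∈ ball z δ, g q u = 0 := fun u hu => hg0 q u fun hh => by
        have h4 := dist_triangle_left z q u
        rw [mem_ball] at hu hh
        linarith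
      have : osc (g q) z δ = 0 := le_antisymm (osc_le_of le_rfl fun u hu v hv => by
        rw [hz0 u hu, hz0 v hv, sub_zero, abs_zero]) (osc_nonneg _ _ _)
      exact hz (by rw [this, mul_zero])
    have h4 := Real.sum_mul_le_sqrt_mul_sqrt (S.filter fun z => z ∈ W) (fun z => osc φ z δ)
      (fun z => osc (g q) z δ)
    have e1 : Oe φ δ S W = ∑ z ∈ S.filter (fun z => z ∈ W), osc φ z δ ^ 2 := by
      unfold Oe
      congr 1
    have e2 : Oe (g q) δ S W = ∑ z ∈ S.filter (fun z => z ∈ W), osc (g q) z δ ^ 2 := by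
      unfold Oe
      congr 1
    rw [← e1, ← e2] at h4
    have h5 : √(Oe (g q) δ S W) ≤ √M + 1 :=
      (Real.sqrt_le_sqrt (Oe_le_of_En hS (hgE q) W)).trans (by linarith)
    rw [e, mul_comm (√M + 1)]
    exact h4.trans (mul_le_mul_of_nonneg_left h5 (Real.sqrt_nonneg _))
  refine (Finset.sum_le_sum h3).trans (le_of_eq ?_)
  rw [Finset.sum_const, nsmul_eq_mul]
  ring

theorem h58_maxsep {P : Set Z} {τ : ℝ} (hτ : 0 < τ) (m : ℕ)
    (hm : ∀ Q : Finset Z, (∀ q ∈ Q, q ∈ P) → Sepd τ Q → Q.card ≤ m) :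
    ∃ Q : Finset Z, (∀ q ∈ Q, q ∈ P) ∧ Q.card ≤ m ∧ ∀ x ∈ P, ∃ q ∈ Q, x ∈ ball q τ := by
  classical
  have hne : {n : ℕ | ∃ Q : Finset Z, (∀ q ∈ Q, q ∈ P) ∧ Sepd τ Q ∧ Q.card = n}.Nonempty :=
    ⟨0, ∅, by simp, by simp [Sepd], rfl⟩
  have hbd : BddAbove {n : ℕ | ∃ Q : Finset Z, (∀ q ∈ Q, q ∈ P) ∧ Sepd τ Q ∧ Q.card = n} :=
    ⟨m, fun n ⟨Q, h1, h2, h3⟩ => h3 ▸ hm Q h1 h2⟩
  obtain ⟨Q, h1, h2, h3⟩ := Nat.sSup_mem hne hbd
  refine ⟨Q, h1, hm Q h1 h2, fun x hx => ?_⟩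
  by_contra hcon
  push Not at hcon
  have hfar : ∀ q ∈ Q, τ ≤ dist x q := fun q hq => not_lt.1 (hcon q hq)
  have hxQ : x ∉ Q := fun h => by
    have := hfar x h
    rw [dist_self] at this
    linarith
  have hsep : Sepd τ (insert x Q) := by
    intro u hu v hv huv
    rcases Finset.mem_insert.1 hu with rfl | hu'
    · rcases Finset.mem_insert.1 hv with rfl | hv'
      · exact absurd rfl huv
      · exact hfar v hv'
    · rcases Finset.mem_insert.1 hv with rfl | hv'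
      · rw [dist_comm]; exact hfar u hu'
      · exact h2 u hu' v hv' huv
  have hle := le_csSup hbd (a := (insert x Q).card) ⟨insert x Q, fun q hq => by
    rcases Finset.mem_insert.1 hq with rfl | hq'
    · exact hx
    · exact h1 q hq', hsep, rfl⟩
  rw [Finset.card_insert_of_notMem hxQ, h3] at hle
  omega

theorem h58_far {A : Set Z} {s : ℝ} (h : ∃ x ∈ A, ∃ y ∈ A, 2 * s ≤ dist x y) (w : Z) :
    ∃ z ∈ A, s ≤ dist z w := by
  obtain ⟨x, hx, y, hy, hxy⟩ := h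
  by_contra hcon
  push Not at hcon
  have := hcon x hx
  have := hcon y hy
  have := dist_triangle_right x y w
  linarith

/-- **Loewner bound, quantitative form.**  `τ = r / (2 T L')`; `P` an `LLC1` path from `A` to `B`
inside `ball p ((2 L₁ + 1) T r)`, `Q` = a maximal `τ`-separated subset of `P` (cardinality bounded
by `Doubling`); `near_le` extends the bounds from `A`, `B` to their `2δ`-neighbourhoods. -/
theorem loewner_q (h : MGeo Z) (T : ℝ) (hT : 1 ≤ T) : ∃ L C c r₀ : ℝ, 0 < L ∧ 0 < C ∧ 0 < c ∧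
    0 < r₀ ∧ ∀ (δ : ℝ) (S : Finset Z), Net δ S → ∀ φ : Z → ℝ, Bdd φ → ∀ (p : Z) (r : ℝ),
      δ ≤ c * r → r ≤ r₀ → ∀ A B : Set Z, IsConnected A → IsConnected B → A ⊆ ball p (T * r) →
      B ⊆ ball p (T * r) → (∃ x ∈ A, ∃ y ∈ A, r / T ≤ dist x y) →
      (∃ x ∈ B, ∃ y ∈ B, r / T ≤ dist x y) → ∀ a b : ℝ, (∀ x ∈ A, φ x ≤ a) → (∀ x ∈ B, b ≤ φ x) →
      b - a ≤ C * √(Oe φ δ S (ball p (L * r))) := by
  obtain ⟨Ld, Cd, r₀, hLd, hCd, hr₀, hd⟩ := loewner_d h
  obtain ⟨Cn, Ln, hCn, hLn, hn⟩ := near_le h 2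
  obtain ⟨L₁, hL₁, hl⟩ := h.llc1
  obtain ⟨m, hm⟩ := h.dbl ((2 * L₁ + 1) * T * (2 * T * Ld))
  have hT0 : 0 < T := lt_of_lt_of_le one_pos hT
  have hLd0 : 0 < Ld := lt_of_lt_of_le one_pos hLd
  have hL0 : 0 < L₁ := lt_of_lt_of_le one_pos hL₁
  have hk : 1 ≤ 2 * T * Ld := by nlinarith
  have hk0 : 0 < 2 * T * Ld := by positivity
  refine ⟨(2 * L₁ + 1) * T + 3 + Ln, Cd * m + 2 * Cn, (2 * T * Ld)⁻¹, r₀, by positivity,
    by positivity, by positivity, hr₀, ?_⟩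
  intro δ S hS φ hφ p r hδ hr A B hA hB hAp hBp hAd hBd a b ha hb
  have hδ0 := hS.pos
  have hc1 : (2 * T * Ld)⁻¹ ≤ 1 := inv_le_one_of_one_le₀ hk
  have hc0 : 0 < (2 * T * Ld)⁻¹ := inv_pos.2 hk0
  have hr0 : 0 < r := by
    by_contra hneg
    push Not at hneg
    have := mul_nonpos_of_nonneg_of_nonpos hc0.le hneg
    linarith
  obtain ⟨τ, hτ⟩ : ∃ τ, τ = (2 * T * Ld)⁻¹ * r := ⟨_, rfl⟩
  rw [← hτ] at hδ
  have hτ0 : 0 < τ := hδ0.trans_le hδ
  have hτr : τ ≤ r := by rw [hτ]; nlinarith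
  have hτe : 2 * T * Ld * τ = r := by rw [hτ]; field_simp
  have hτ2 : 2 * (Ld * τ) = r / T := by rw [← hτe]; field_simp
  obtain ⟨x₀, hx₀⟩ := hA.nonempty
  obtain ⟨y₀, hy₀⟩ := hB.nonempty
  obtain ⟨γ, hγ⟩ := hl x₀ y₀
  have hx₀p : dist x₀ p < T * r := hAp hx₀
  have hy₀p : dist y₀ p < T * r := hBp hy₀
  have hP : ∀ q ∈ range γ, dist q p ≤ (2 * L₁ + 1) * T * r := by
    rintro q ⟨t, rfl⟩
    have h1 := hγ t
    have h2 := dist_triangle_right x₀ y₀ p
    have h3 := dist_triangle (γ t) x₀ p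
    have h4 : L₁ * dist x₀ y₀ ≤ L₁ * (2 * (T * r)) :=
      mul_le_mul_of_nonneg_left (by linarith) hL0.le
    nlinarith
  obtain ⟨Q, hQP, hQm, hQc⟩ := h58_maxsep (P := range γ) hτ0 m fun Q h1 h2 =>
    hm p τ Q hτ0 h2 fun z hz => by
      rw [mul_assoc _ (2 * T * Ld), hτe]
      exact hP z (h1 z hz)
  have hE := Real.sqrt_nonneg (Oe φ δ S (ball p (((2 * L₁ + 1) * T + 3 + Ln) * r)))
  have hTr : 0 < T * r := by positivity
  have hnear : ∀ x ∈ ball p (T * r), ∀ y ∈ ball x (2 * δ),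
      |φ x - φ y| ≤ Cn * √(Oe φ δ S (ball p (((2 * L₁ + 1) * T + 3 + Ln) * r))) := by
    intro x hx y hy
    refine (hn δ S hS φ hφ x y (by rw [dist_comm]; exact le_of_lt hy)).trans ?_
    refine mul_le_mul_of_nonneg_left (Real.sqrt_le_sqrt (Oe_mono φ δ S ?_)) hCn.le
    refine ball_subset_ball' ?_
    have h1 : dist x p < T * r := hx
    have h2 : Ln * δ ≤ Ln * r := mul_le_mul_of_nonneg_left (hδ.trans hτr) hLn.le
    have h3 : 0 < L₁ * (T * r) := by positivity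
    nlinarith
  generalize hEd : √(Oe φ δ S (ball p (((2 * L₁ + 1) * T + 3 + Ln) * r))) = E at hE hnear ⊢
  have hCm : 0 ≤ Cd * m * E := by positivity
  rcases le_or_gt (a + Cn * E) (b - Cn * E) with hab | hab
  · have key := hd δ S hS φ hφ τ hδ (hτr.trans hr) (range γ) A B
      (ball p (((2 * L₁ + 1) * T + 3 + Ln) * r)) Q (isPreconnected_range γ.continuous) hQc
      (fun q hq => ball_subset_ball' (by
        have h1 := hP q (hQP q hq)
        have h2 : 0 < Ln * r := by positivity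
        nlinarith)) hA hB ⟨x₀, ⟨0, γ.source⟩, hx₀⟩ ⟨y₀, ⟨1, γ.target⟩, hy₀⟩
      (h58_far (by rw [hτ2]; exact hAd)) (h58_far (by rw [hτ2]; exact hBd))
      (a + Cn * E) (b - Cn * E) hab
      (fun x hx y hy => by
        have := abs_le.1 (hnear x (hAp hx) y hy)
        linarith [ha x hx, this.1])
      (fun x hx y hy => by
        have := abs_le.1 (hnear x (hBp hx) y hy)
        linarith [hb x hx, this.2])
    rw [hEd] at key
    have h1 : Cd * Q.card * E ≤ Cd * m * E :=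
      mul_le_mul_of_nonneg_right (mul_le_mul_of_nonneg_left (by exact_mod_cast hQm) hCd.le) hE
    linarith
  · linarith

end Crest.Agent.R193.E
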