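import Crest.Agent.R193.EM1

/-! Row 193 [E], metric layer: pointwise telescoping (auxiliary to `EM2`). -/

set_option autoImplicit false

open Set Filter Topology MeasureTheory Metric

namespace Crest.Agent.R193.E

variable {Z : Type} [MetricSpace Z]

theorem h18_sqrt_mono (φ : Z → ℝ) (δ : ℝ) (S : Finset Z) (p : Z) {a b : ℝ} (hab : a ≤ b) :
    √(Oe φ δ S (ball p a)) ≤ √(Oe φ δ S (ball p b)) :=
  Real.sqrt_le_sqrt (Oe_mono φ δ S (ball_subset_ball hab))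

set_option maxHeartbeats 1600000 in
theorem h18_telescope (h : MGeo Z) (T : ℝ) : ∃ L C r₀ : ℝ, 0 < L ∧ 0 < C ∧ 0 < r₀ ∧
    ∀ (δ : ℝ) (S : Finset Z), Net δ S → ∀ φ : Z → ℝ, Bdd φ → ∀ r : ℝ, δ ≤ r → r ≤ r₀ →
      ∀ n : ℕ, r / 2 ^ n ≤ δ → ∀ ξ ξ' : Z, dist ξ ξ' ≤ T * r →
        |φ ξ - φ ξ'| ≤ C * ∑ k ∈ Finset.range (n + 1),
          (√(Oe φ δ S (ball ξ (L * r / 2 ^ k))) + √(Oe φ δ S (ball ξ' (L * r / 2 ^ k)))) := by
  obtain ⟨L₀, C₀, r₁, hL₀, hC₀, hr₁, H₀⟩ := loops_d h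
  have hT0 : 0 ≤ |T| := abs_nonneg T
  obtain ⟨L₂, C₂, c, r₂, hL₂, hC₂, hc, hr₂, H₂⟩ := loewner_q h (|T| + 2 * L₀) (by linarith)
  obtain ⟨c', hc'0, hc'c, hc'h⟩ : ∃ c' : ℝ, 0 < c' ∧ c' ≤ c ∧ c' ≤ 1 / 2 :=
    ⟨min c (1 / 2), lt_min hc (by norm_num), min_le_left _ _, min_le_right _ _⟩
  obtain ⟨C₃, L₃, hC₃, hL₃, H₃⟩ := near_le h ((|T| + L₀) / c')
  obtain ⟨L, hL, hL0, hL2, hL3⟩ : ∃ L : ℝ, 0 < L ∧ L₀ ≤ L ∧ L₂ ≤ L ∧ L₃ ≤ L :=
    ⟨L₀ + L₂ + L₃, by linarith, by linarith, by linarith, by linarith⟩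
  obtain ⟨C, hC, hCa, hCb⟩ : ∃ C : ℝ, 0 < C ∧ C₂ + 2 * C₀ ≤ C ∧ C₃ ≤ C :=
    ⟨C₂ + 2 * C₀ + C₃, by linarith, by linarith, by linarith⟩
  refine ⟨L, 2 * C, min r₁ r₂, hL, by linarith, lt_min hr₁ hr₂, ?_⟩
  intro δ S hS φ hφ r hδr hr n hn ξ ξ' hξ
  have hδ : 0 < δ := hS.pos
  -- energies
  set E : Z → ℝ → ℝ := fun p a => √(Oe φ δ S (ball p a)) with hE
  have hEm : ∀ p a b, a ≤ b → E p a ≤ E p b := fun p a b hab => h18_sqrt_mono φ δ S p hab
  have hE0 : ∀ p a, 0 ≤ E p a := fun p a => Real.sqrt_nonneg _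
  -- near points
  have hnear : ∀ (ρ : ℝ) (x y : Z), δ ≤ ρ → c' * ρ < δ → dist x y ≤ (|T| + L₀) * ρ →
      |φ x - φ y| ≤ C * E x (L * ρ) := by
    intro ρ x y h1 h2 h3
    have h4 : dist x y ≤ (|T| + L₀) / c' * δ := by
      refine h3.trans ?_
      rw [div_mul_eq_mul_div, le_div_iff₀ hc'0]
      have : 0 ≤ |T| + L₀ := by linarith
      nlinarith
    refine (H₃ δ S hS φ hφ x y h4).trans ?_
    have h5 : L₃ * δ ≤ L * ρ := mul_le_mul hL3 h1 hδ.le hL.le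
    exact mul_le_mul hCb (hEm x _ _ h5) (hE0 _ _) hC.le
  -- comparison of two continua
  have hcmp : ∀ (ρ : ℝ) (p : Z) (K K' : Set Z) (o o' : ℝ), δ ≤ c' * ρ → ρ ≤ min r₁ r₂ →
      IsConnected K → IsConnected K' → K ⊆ ball p ((|T| + 2 * L₀) * ρ) →
      K' ⊆ ball p ((|T| + 2 * L₀) * ρ) →
      (∃ x ∈ K, ∃ y ∈ K, ρ / (|T| + 2 * L₀) ≤ dist x y) →
      (∃ x ∈ K', ∃ y ∈ K', ρ / (|T| + 2 * L₀) ≤ dist x y) →
      (∀ x ∈ K, ∀ y ∈ K, |φ x - φ y| ≤ o) → (∀ x ∈ K', ∀ y ∈ K', |φ x - φ y| ≤ o') →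
      ∀ x ∈ K, ∀ x' ∈ K', |φ x - φ x'| ≤ C₂ * E p (L * ρ) + o + o' := by
    intro ρ p K K' o o' h1 h2 hK hK' hs hs' hd hd' ho ho' x hx x' hx'
    have hρ : 0 < ρ := by
      by_contra hρ
      have := mul_nonpos_of_nonneg_of_nonpos hc'0.le (not_lt.1 hρ)
      linarith
    have h1' : δ ≤ c * ρ := h1.trans (mul_le_mul_of_nonneg_right hc'c hρ.le)
    have h2' : ρ ≤ r₂ := h2.trans (min_le_right _ _)
    have hm : C₂ * E p (L₂ * ρ) ≤ C₂ * E p (L * ρ) :=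
      mul_le_mul_of_nonneg_left (hEm p _ _ (mul_le_mul_of_nonneg_right hL2 hρ.le)) hC₂.le
    have a1 := H₂ δ S hS φ hφ p ρ h1' h2' K K' hK hK' hs hs' hd hd' (φ x + o) (φ x' - o')
      (fun y hy => by have := abs_le.1 (ho y hy x hx); linarith [this.2])
      (fun y hy => by have := abs_le.1 (ho' y hy x' hx'); linarith [this.1])
    have a2 := H₂ δ S hS φ hφ p ρ h1' h2' K' K hK' hK hs' hs hd' hd (φ x' + o') (φ x - o)
      (fun y hy => by have := abs_le.1 (ho' y hy x' hx'); linarith [this.2])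
      (fun y hy => by have := abs_le.1 (ho y hy x hx); linarith [this.1])
    change _ ≤ C₂ * E p (L₂ * ρ) at a1 a2
    rw [abs_le]
    constructor <;> linarith
  -- loops
  have hloop : ∀ (η : ℝ), 0 < η → ∀ (p : Z) (ρ : ℝ), δ ≤ ρ → ρ ≤ min r₁ r₂ → ∃ K : Set Z,
      IsConnected K ∧ K ⊆ ball p (L₀ * ρ) ∧ (∃ x ∈ K, ∃ y ∈ K, ρ / L₀ ≤ dist x y) ∧
      ∀ x ∈ K, ∀ y ∈ K, |φ x - φ y| ≤ C₀ * E p (L * ρ) + η := by
    intro η hη p ρ h1 h2
    obtain ⟨R, K, -, -, -, -, -, hK, hs, hd, ho⟩ :=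
      H₀ δ S hS φ hφ p ρ h1 (h2.trans (min_le_left _ _)) η hη
    refine ⟨K, hK, hs.trans sdiff_subset, hd, fun x hx y hy => (ho x hx y hy).trans ?_⟩
    have hρ : 0 ≤ ρ := hδ.le.trans h1
    have : √(Oe φ δ S (ball p (L₀ * ρ) \ ball p ρ)) ≤ E p (L * ρ) :=
      Real.sqrt_le_sqrt (Oe_mono φ δ S (sdiff_subset.trans
        (ball_subset_ball (mul_le_mul_of_nonneg_right hL0 hρ))))
    have := mul_le_mul_of_nonneg_left this hC₀.le
    linarith
  have hL₀' : 0 < L₀ := by linarith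
  -- the telescoping induction
  have htel : ∀ (η : ℝ), 0 < η → ∀ (p : Z) (m : ℕ) (ρ : ℝ), δ ≤ ρ → ρ ≤ min r₁ r₂ →
      ρ / 2 ^ m ≤ δ → ∀ K : Set Z, IsConnected K → K ⊆ ball p (L₀ * ρ) →
      (∃ x ∈ K, ∃ y ∈ K, ρ / L₀ ≤ dist x y) →
      (∀ x ∈ K, ∀ y ∈ K, |φ x - φ y| ≤ C₀ * E p (L * ρ) + η) → ∀ x ∈ K,
      |φ p - φ x| ≤ C * ∑ k ∈ Finset.range (m + 1), E p (L * ρ / 2 ^ k) + 2 * m * η := by
    intro η hη p m
    induction m with
    | zero =>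
      intro ρ h1 h2 h3 K _ hs _ _ x hx
      have hρ : 0 < ρ := hδ.trans_le h1
      have h4 : c' * ρ < δ := by
        simp only [pow_zero, div_one] at h3
        nlinarith
      have h5 : dist p x ≤ (|T| + L₀) * ρ := by
        have := mem_ball'.1 (hs hx)
        nlinarith
      simpa using hnear ρ p x h1 h4 h5
    | succ m ih =>
      intro ρ h1 h2 h3 K hK hs hd ho x hx
      have hρ : 0 < ρ := hδ.trans_le h1
      have hsum : ∑ k ∈ Finset.range (m + 1 + 1), E p (L * ρ / 2 ^ k) =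
          ∑ k ∈ Finset.range (m + 1), E p (L * (ρ / 2) / 2 ^ k) + E p (L * ρ) := by
        rw [Finset.sum_range_succ']
        congr 1
        · refine Finset.sum_congr rfl fun k _ => ?_
          congr 1
          rw [pow_succ]; ring
        · simp
      have hS0 : 0 ≤ ∑ k ∈ Finset.range (m + 1), E p (L * (ρ / 2) / 2 ^ k) :=
        Finset.sum_nonneg fun k _ => hE0 _ _
      rw [hsum]
      by_cases h4 : c' * ρ < δ
      · have h5 : dist p x ≤ (|T| + L₀) * ρ := by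
          have := mem_ball'.1 (hs hx)
          nlinarith
        have h6 := hnear ρ p x h1 h4 h5
        have h7 : 0 ≤ C * ∑ k ∈ Finset.range (m + 1), E p (L * (ρ / 2) / 2 ^ k) :=
          mul_nonneg hC.le hS0
        have h8 : 0 ≤ 2 * ((m + 1 : ℕ) : ℝ) * η := by positivity
        rw [mul_add]
        linarith
      · have h4' : δ ≤ c' * ρ := not_lt.1 h4
        have h5 : δ ≤ ρ / 2 := by nlinarith
        have h6 : ρ / 2 ≤ min r₁ r₂ := by linarith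
        obtain ⟨K', hK', hs', hd', ho'⟩ := hloop η hη p (ρ / 2) h5 h6
        obtain ⟨x', hx'⟩ := hK'.nonempty
        have h7 : ρ / 2 / 2 ^ m ≤ δ := by
          rw [pow_succ] at h3
          calc ρ / 2 / 2 ^ m = ρ / (2 ^ m * 2) := by field_simp
            _ ≤ δ := h3
        have a1 := ih (ρ / 2) h5 h6 h7 K' hK' hs' hd' ho' x' hx'
        have a2 := hcmp ρ p K K' _ _ h4' h2 hK hK'
          (hs.trans (ball_subset_ball (by nlinarith)))
          (hs'.trans (ball_subset_ball (by nlinarith)))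
          (by
            obtain ⟨u, hu, v, hv, huv⟩ := hd
            exact ⟨u, hu, v, hv, le_trans (div_le_div_of_nonneg_left hρ.le hL₀' (by linarith)) huv⟩)
          (by
            obtain ⟨u, hu, v, hv, huv⟩ := hd'
            refine ⟨u, hu, v, hv, le_trans ?_ huv⟩
            rw [div_div]
            exact div_le_div_of_nonneg_left hρ.le (by positivity) (by linarith))
          ho ho' x hx x' hx'
        have a3 : E p (L * (ρ / 2)) ≤ E p (L * ρ) := hEm p _ _ (by nlinarith)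
        have a4 : C₀ * E p (L * (ρ / 2)) ≤ C₀ * E p (L * ρ) :=
          mul_le_mul_of_nonneg_left a3 hC₀.le
        have a5 : (C₂ + 2 * C₀) * E p (L * ρ) ≤ C * E p (L * ρ) :=
          mul_le_mul_of_nonneg_right hCa (hE0 _ _)
        have a6 : |φ p - φ x| ≤ |φ p - φ x'| + |φ x - φ x'| := by
          rw [abs_sub_comm (φ x) (φ x')]
          exact abs_sub_le _ _ _
        push_cast
        rw [mul_add]
        linarith
  -- conclusion
  have hr0 : 0 < r := hδ.trans_le hδr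
  change _ ≤ 2 * C * ∑ k ∈ Finset.range (n + 1), (E ξ (L * r / 2 ^ k) + E ξ' (L * r / 2 ^ k))
  rw [Finset.sum_add_distrib]
  have hfirst : ∀ p : Z, E p (L * r) ≤ ∑ k ∈ Finset.range (n + 1), E p (L * r / 2 ^ k) := by
    intro p
    have := Finset.single_le_sum (f := fun k : ℕ => E p (L * r / 2 ^ k))
      (fun k _ => hE0 _ _) (Finset.mem_range.2 (Nat.succ_pos n))
    simpa using this
  set s₁ := ∑ k ∈ Finset.range (n + 1), E ξ (L * r / 2 ^ k) with hs₁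
  set s₂ := ∑ k ∈ Finset.range (n + 1), E ξ' (L * r / 2 ^ k) with hs₂
  have f1 : E ξ (L * r) ≤ s₁ := hfirst ξ
  have f2 : E ξ' (L * r) ≤ s₂ := hfirst ξ'
  have g1 : C * E ξ (L * r) ≤ C * s₁ := mul_le_mul_of_nonneg_left f1 hC.le
  have g2 : C * E ξ' (L * r) ≤ C * s₂ := mul_le_mul_of_nonneg_left f2 hC.le
  have p1 : 0 ≤ C * E ξ (L * r) := mul_nonneg hC.le (hE0 _ _)
  have p2 : 0 ≤ C * E ξ' (L * r) := mul_nonneg hC.le (hE0 _ _)
  have hξ' : dist ξ ξ' ≤ |T| * r := hξ.trans (mul_le_mul_of_nonneg_right (le_abs_self T) hr0.le)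
  by_cases h4 : c' * r < δ
  · have h6 := hnear r ξ ξ' hδr h4 (by nlinarith)
    linarith
  · have h4' : δ ≤ c' * r := not_lt.1 h4
    refine le_of_forall_pos_le_add fun ε hε => ?_
    have hη : 0 < ε / (4 * n + 2) := by positivity
    obtain ⟨K, hK, hs, hd, ho⟩ := hloop _ hη ξ r hδr hr
    obtain ⟨K', hK', hs', hd', ho'⟩ := hloop _ hη ξ' r hδr hr
    obtain ⟨x, hx⟩ := hK.nonempty
    obtain ⟨x', hx'⟩ := hK'.nonempty
    have a1 := htel _ hη ξ n r hδr hr hn K hK hs hd ho x hx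
    have a2 := htel _ hη ξ' n r hδr hr hn K' hK' hs' hd' ho' x' hx'
    have hdd : ∀ K : Set Z, (∃ x ∈ K, ∃ y ∈ K, r / L₀ ≤ dist x y) →
        ∃ x ∈ K, ∃ y ∈ K, r / (|T| + 2 * L₀) ≤ dist x y := by
      rintro K ⟨u, hu, v, hv, huv⟩
      exact ⟨u, hu, v, hv, le_trans (div_le_div_of_nonneg_left hr0.le hL₀' (by linarith)) huv⟩
    have a3 := hcmp r ξ K K' _ _ h4' hr hK hK'
      (hs.trans (ball_subset_ball (by nlinarith)))
      (fun y hy => by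
        have h1 := mem_ball.1 (hs' hy)
        have h2 := dist_triangle y ξ' ξ
        rw [dist_comm ξ' ξ] at h2
        rw [mem_ball]
        nlinarith)
      (hdd K hd) (hdd K' hd') ho ho' x hx x' hx'
    have a4 : (C₂ + C₀) * E ξ (L * r) ≤ C * E ξ (L * r) :=
      mul_le_mul_of_nonneg_right (by linarith) (hE0 _ _)
    have a5 : C₀ * E ξ' (L * r) ≤ C * E ξ' (L * r) :=
      mul_le_mul_of_nonneg_right (by linarith) (hE0 _ _)
    have a6 : |φ ξ - φ ξ'| ≤ |φ ξ - φ x| + |φ x - φ x'| + |φ ξ' - φ x'| := by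
      rw [abs_sub_comm (φ ξ') (φ x')]
      have := abs_sub_le (φ ξ) (φ x') (φ ξ')
      have := abs_sub_le (φ ξ) (φ x) (φ x')
      linarith
    have a7 : 2 * (n : ℝ) * (ε / (4 * n + 2)) + 2 * n * (ε / (4 * n + 2)) +
        ε / (4 * n + 2) + ε / (4 * n + 2) = ε := by
      field_simp; ring
    rw [← hs₁] at a1
    rw [← hs₂] at a2
    linarith

end Crest.Agent.R193.E
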