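import Crest.Agent.R193.EM1

/-! Row 193 [E]: auxiliary lemmas for `pair_le` and `exists_frost`. -/

set_option autoImplicit false

open Set Filter Topology MeasureTheory Metric

namespace Crest.Agent.R193.E

variable {Z : Type} [MetricSpace Z]

/-- a measurable section of the distance to `a` -/
theorem h32_section [MeasurableSpace Z] [BorelSpace Z] (hZ : Nonempty (Z ≃ₜ S2)) {a b : Z}
    {ρ : ℝ} (hab : ρ ≤ dist a b) :
    ∃ s : ℝ → Z, Measurable s ∧ ∀ u ∈ Icc 0 ρ, dist (s u) a = u := by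
  have := pc_of_S2 hZ
  obtain ⟨γ⟩ := PathConnectedSpace.joined a b
  set g : ℝ → ℝ := fun t => dist (γ.extend t) a with hg
  have hgc : Continuous g := (γ.continuous_extend).dist continuous_const
  have hg0 : g 0 = 0 := by simp [hg]
  have hg1 : ρ ≤ g 1 := by simpa [hg, dist_comm] using hab
  set A : ℝ → Set ℝ := fun u => {t | t ∈ Icc (0 : ℝ) 1 ∧ min u ρ ≤ g t} with hA
  have hne : ∀ u, (A u).Nonempty := fun u =>
    ⟨1, ⟨zero_le_one, le_rfl⟩, (min_le_right _ _).trans hg1⟩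
  have hbd : ∀ u, BddBelow (A u) := fun u => ⟨0, fun t ht => ht.1.1⟩
  have hcl : ∀ u, IsClosed (A u) := fun u =>
    isClosed_Icc.inter (isClosed_le continuous_const hgc)
  have hmono : Monotone fun u => sInf (A u) := by
    intro u v huv
    exact csInf_le_csInf (hbd u) (hne v) fun t ht => ⟨ht.1, (min_le_min_right _ huv).trans ht.2⟩
  refine ⟨fun u => γ.extend (sInf (A u)),
    γ.continuous_extend.measurable.comp hmono.measurable, fun u hu => ?_⟩
  have hm : sInf (A u) ∈ A u := (hcl u).csInf_mem (hne u) (hbd u)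
  have hmin : min u ρ = u := min_eq_left hu.2
  have h1 : u ≤ g (sInf (A u)) := by have := hm.2; rwa [hmin] at this
  obtain ⟨t, ht, htu⟩ : u ∈ g '' Icc 0 (sInf (A u)) :=
    intermediate_value_Icc hm.1.1 hgc.continuousOn ⟨by rw [hg0]; exact hu.1, h1⟩
  have htA : t ∈ A u := ⟨⟨ht.1, ht.2.trans hm.1.2⟩, by rw [hmin, htu]⟩
  have : t = sInf (A u) := le_antisymm ht.2 (csInf_le (hbd u) htA)
  show g (sInf (A u)) = u
  rw [← this, htu]

theorem h32_frost [MeasurableSpace Z] [BorelSpace Z] (hZ : Nonempty (Z ≃ₜ S2)) {a b : Z}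
    {ρ : ℝ} (hρ : 0 < ρ) (hab : ρ ≤ dist a b) : ∃ ν : Measure Z, IsProbabilityMeasure ν ∧
      (∀ (z : Z) (s : ℝ), 0 < s → ν.real (ball z s) ≤ 2 * s / ρ) ∧ ∀ᵐ ξ ∂ν, dist ξ a ≤ ρ := by
  obtain ⟨s, hs, hd⟩ := h32_section hZ hab
  set μ : Measure ℝ := (ENNReal.ofReal ρ)⁻¹ • (volume : Measure ℝ).restrict (Icc 0 ρ) with hμ
  have hρ0 : ENNReal.ofReal ρ ≠ 0 := by simpa using hρ
  have : IsProbabilityMeasure μ := ⟨by
    simp only [hμ, Measure.smul_apply, Measure.restrict_apply MeasurableSet.univ, univ_inter,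
      Real.volume_Icc, sub_zero, smul_eq_mul]
    exact ENNReal.inv_mul_cancel hρ0 ENNReal.ofReal_ne_top⟩
  refine ⟨μ.map s, Measure.isProbabilityMeasure_map hs.aemeasurable, fun z r hr => ?_, ?_⟩
  · have hb : MeasurableSet (ball z r) := measurableSet_ball
    have hle : (μ.map s) (ball z r) ≤ ENNReal.ofReal (2 * r / ρ) := by
      rw [Measure.map_apply hs hb, hμ, Measure.smul_apply, Measure.restrict_apply (hs hb),
        smul_eq_mul]
      have hsub : s ⁻¹' ball z r ∩ Icc 0 ρ ⊆ Ioo (dist z a - r) (dist z a + r) := by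
        intro u hu
        have h1 : dist (s u) z < r := hu.1
        have h2 := hd u hu.2
        have h3 := abs_dist_sub_le (s u) z a
        rw [h2, abs_le] at h3
        constructor <;> linarith [h3.1, h3.2]
      calc (ENNReal.ofReal ρ)⁻¹ * volume (s ⁻¹' ball z r ∩ Icc 0 ρ)
          ≤ (ENNReal.ofReal ρ)⁻¹ * volume (Ioo (dist z a - r) (dist z a + r)) := by
            gcongr
        _ = ENNReal.ofReal (2 * r / ρ) := by
            rw [Real.volume_Ioo, ENNReal.ofReal_div_of_pos hρ, ENNReal.div_eq_inv_mul]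
            congr 2; ring
    exact ENNReal.toReal_le_of_le_ofReal (by positivity) hle
  · rw [ae_map_iff hs.aemeasurable]
    · have : ∀ᵐ u ∂μ, u ∈ Icc 0 ρ := by
        rw [hμ]
        exact Measure.ae_smul_measure (ae_restrict_mem measurableSet_Icc) _
      filter_upwards [this] with u hu
      rw [hd u hu]; exact hu.2
    · exact (isClosed_le (continuous_id.dist continuous_const) continuous_const).measurableSet

/-- weighted Cauchy-Schwarz -/
theorem h32_cs (n : ℕ) (a b : ℕ → ℝ) (ha : ∀ k, 0 ≤ a k) (hb : ∀ k, 0 ≤ b k) :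
    (∑ k ∈ Finset.range n, (√(a k) + √(b k))) ^ 2 ≤
      6 * (∑ k ∈ Finset.range n, (3 / 2 : ℝ) ^ k * a k +
        ∑ k ∈ Finset.range n, (3 / 2 : ℝ) ^ k * b k) := by
  have hw : ∀ k : ℕ, (0 : ℝ) < (3 / 2 : ℝ) ^ k := fun k => by positivity
  have h1 := Finset.sum_mul_sq_le_sq_mul_sq (Finset.range n)
    (fun k => (√((3 / 2 : ℝ) ^ k))⁻¹) (fun k => √((3 / 2 : ℝ) ^ k) * (√(a k) + √(b k)))
  have e1 : ∑ k ∈ Finset.range n, (√((3 / 2 : ℝ) ^ k))⁻¹ * (√((3 / 2 : ℝ) ^ k) *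
      (√(a k) + √(b k))) = ∑ k ∈ Finset.range n, (√(a k) + √(b k)) := by
    refine Finset.sum_congr rfl fun k _ => ?_
    have : √((3 / 2 : ℝ) ^ k) ≠ 0 := (Real.sqrt_pos.2 (hw k)).ne'
    field_simp
  have e2 : ∑ k ∈ Finset.range n, ((√((3 / 2 : ℝ) ^ k))⁻¹) ^ 2 ≤ 3 := by
    have : ∀ k ∈ Finset.range n, ((√((3 / 2 : ℝ) ^ k))⁻¹) ^ 2 = (2 / 3 : ℝ) ^ k := by
      intro k _
      rw [inv_pow, Real.sq_sqrt (hw k).le, ← inv_pow]; norm_num
    rw [Finset.sum_congr rfl this]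
    have h := (summable_geometric_of_lt_one (r := (2 / 3 : ℝ)) (by norm_num) (by norm_num)).sum_le_tsum
      (Finset.range n) (fun k _ => by positivity)
    rw [tsum_geometric_of_lt_one (by norm_num) (by norm_num)] at h
    norm_num at h ⊢
    exact h
  have e3 : ∑ k ∈ Finset.range n, (√((3 / 2 : ℝ) ^ k) * (√(a k) + √(b k))) ^ 2 ≤
      2 * (∑ k ∈ Finset.range n, (3 / 2 : ℝ) ^ k * a k +
        ∑ k ∈ Finset.range n, (3 / 2 : ℝ) ^ k * b k) := by
    rw [← Finset.sum_add_distrib, Finset.mul_sum]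
    refine Finset.sum_le_sum fun k _ => ?_
    rw [mul_pow, Real.sq_sqrt (hw k).le]
    have h2 : (√(a k) + √(b k)) ^ 2 ≤ 2 * (a k + b k) := by
      nlinarith [Real.sq_sqrt (ha k), Real.sq_sqrt (hb k), sq_nonneg (√(a k) - √(b k))]
    nlinarith [hw k]
  rw [e1] at h1
  have h0 : 0 ≤ ∑ k ∈ Finset.range n, (√((3 / 2 : ℝ) ^ k) * (√(a k) + √(b k))) ^ 2 :=
    Finset.sum_nonneg fun k _ => sq_nonneg _
  calc _ ≤ _ := h1
    _ ≤ 3 * (2 * (∑ k ∈ Finset.range n, (3 / 2 : ℝ) ^ k * a k +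
        ∑ k ∈ Finset.range n, (3 / 2 : ℝ) ^ k * b k)) :=
      mul_le_mul e2 e3 h0 (by norm_num)
    _ = _ := by ring

open Classical in
/-- the majorant of the local energies -/
noncomputable def h32G (φ : Z → ℝ) (δ : ℝ) (S : Finset Z) (x : Z) (R ρ : ℝ) (n : ℕ) (ξ : Z) : ℝ :=
  ∑ k ∈ Finset.range n, (3 / 2 : ℝ) ^ k * ∑ z ∈ S.filter (fun z => z ∈ ball x R),
    osc φ z δ ^ 2 * (ball z (ρ / 2 ^ k)).indicator (fun _ => (1 : ℝ)) ξ

theorem h32G_integrable [MeasurableSpace Z] [BorelSpace Z] (φ : Z → ℝ) (δ : ℝ) (S : Finset Z)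
    (x : Z) (R ρ : ℝ) (n : ℕ) (ν : Measure Z) [IsFiniteMeasure ν] :
    Integrable (h32G φ δ S x R ρ n) ν := by
  unfold h32G
  refine integrable_finsetSum _ fun k _ => Integrable.const_mul ?_ _
  refine integrable_finsetSum _ fun z _ => Integrable.const_mul ?_ _
  exact (integrable_const (1 : ℝ)).indicator measurableSet_ball

theorem h32G_integral [MeasurableSpace Z] [BorelSpace Z] (φ : Z → ℝ) (δ : ℝ) (S : Finset Z)
    (x : Z) (R ρ : ℝ) (hρ : 0 < ρ) (n : ℕ) (ν : Measure Z) [IsFiniteMeasure ν] {B : ℝ}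
    (hB : 0 ≤ B) (hν : ∀ (z : Z) (s : ℝ), 0 < s → ν.real (ball z s) ≤ B * s) :
    ∫ ξ, h32G φ δ S x R ρ n ξ ∂ν ≤ 4 * B * ρ * Oe φ δ S (ball x R) := by
  classical
  have hI : ∀ (k : ℕ) (z : Z), Integrable (fun ξ => osc φ z δ ^ 2 *
      (ball z (ρ / 2 ^ k)).indicator (fun _ => (1 : ℝ)) ξ) ν := fun k z =>
    ((integrable_const (1 : ℝ)).indicator measurableSet_ball).const_mul _
  have hO : 0 ≤ Oe φ δ S (ball x R) := Finset.sum_nonneg fun z _ => sq_nonneg _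
  unfold h32G
  rw [integral_finsetSum _ fun k _ => (integrable_finsetSum _ fun z _ => hI k z).const_mul _]
  have hk : ∀ k ∈ Finset.range n, ∫ ξ, (3 / 2 : ℝ) ^ k * ∑ z ∈ S.filter (fun z => z ∈ ball x R),
      osc φ z δ ^ 2 * (ball z (ρ / 2 ^ k)).indicator (fun _ => (1 : ℝ)) ξ ∂ν ≤
      (3 / 4 : ℝ) ^ k * (B * ρ * Oe φ δ S (ball x R)) := by
    intro k _
    rw [integral_const_mul, integral_finsetSum _ fun z _ => hI k z]
    have h1 : ∑ z ∈ S.filter (fun z => z ∈ ball x R), ∫ ξ, osc φ z δ ^ 2 *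
        (ball z (ρ / 2 ^ k)).indicator (fun _ => (1 : ℝ)) ξ ∂ν ≤
        B * (ρ / 2 ^ k) * Oe φ δ S (ball x R) := by
      unfold Oe
      rw [Finset.mul_sum]
      refine Finset.sum_le_sum fun z _ => ?_
      rw [integral_const_mul, integral_indicator measurableSet_ball, setIntegral_const,
        smul_eq_mul, mul_one, mul_comm]
      exact mul_le_mul_of_nonneg_right (hν z _ (by positivity)) (sq_nonneg _)
    calc _ ≤ (3 / 2 : ℝ) ^ k * (B * (ρ / 2 ^ k) * Oe φ δ S (ball x R)) :=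
          mul_le_mul_of_nonneg_left h1 (by positivity)
      _ = _ := by
          have : (3 / 4 : ℝ) ^ k = (3 / 2 : ℝ) ^ k / 2 ^ k := by
            rw [← div_pow]; norm_num
          rw [this]; ring
  refine (Finset.sum_le_sum hk).trans ?_
  rw [← Finset.sum_mul]
  have h := (summable_geometric_of_lt_one (r := (3 / 4 : ℝ)) (by norm_num) (by norm_num)).sum_le_tsum
    (Finset.range n) (fun k _ => by positivity)
  rw [tsum_geometric_of_lt_one (by norm_num) (by norm_num)] at h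
  have h4 : ∑ k ∈ Finset.range n, (3 / 4 : ℝ) ^ k ≤ 4 := by
    refine h.trans (le_of_eq ?_); norm_num
  calc _ ≤ 4 * (B * ρ * Oe φ δ S (ball x R)) :=
        mul_le_mul_of_nonneg_right h4 (by positivity)
    _ = _ := by ring

theorem h32G_ge (φ : Z → ℝ) (δ : ℝ) (S : Finset Z) (x : Z) {R ρ t : ℝ} (hρ : 0 < ρ)
    (hR : ρ + t ≤ R) (n : ℕ) {ξ : Z} (hξ : dist ξ x ≤ t) :
    ∑ k ∈ Finset.range n, (3 / 2 : ℝ) ^ k * Oe φ δ S (ball ξ (ρ / 2 ^ k)) ≤
      h32G φ δ S x R ρ n ξ := by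
  classical
  unfold h32G
  refine Finset.sum_le_sum fun k _ => mul_le_mul_of_nonneg_left ?_ (by positivity)
  unfold Oe
  have hk : ρ / 2 ^ k ≤ ρ := div_le_self hρ.le (one_le_pow₀ (by norm_num))
  calc ∑ z ∈ S.filter (fun z => z ∈ ball ξ (ρ / 2 ^ k)), osc φ z δ ^ 2
      = ∑ z ∈ S.filter (fun z => z ∈ ball ξ (ρ / 2 ^ k)), osc φ z δ ^ 2 *
          (ball z (ρ / 2 ^ k)).indicator (fun _ => (1 : ℝ)) ξ := by
        refine Finset.sum_congr rfl fun z hz => ?_
        have : ξ ∈ ball z (ρ / 2 ^ k) := mem_ball_comm.1 (Finset.mem_filter.1 hz).2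
        rw [indicator_of_mem this, mul_one]
    _ ≤ _ := by
        refine Finset.sum_le_sum_of_subset_of_nonneg (fun z hz => ?_) fun z _ _ => ?_
        · rw [Finset.mem_filter] at hz ⊢
          refine ⟨hz.1, ?_⟩
          have h1 : dist z ξ < ρ / 2 ^ k := hz.2
          have := dist_triangle z ξ x
          show dist z x < R
          linarith
        · exact mul_nonneg (sq_nonneg _) (indicator_nonneg (fun _ _ => zero_le_one) _)

/-- `pair_le` from the telescoping bound -/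
theorem h32_pair [MeasurableSpace Z] [BorelSpace Z] {T L C : ℝ} (hT : 0 < T) (hL : 0 < L)
    (hC : 0 < C) {δ : ℝ} {S : Finset Z} {φ : Z → ℝ} {r : ℝ} (hr : 0 < r) (n : ℕ)
    (H : ∀ ξ ξ' : Z, dist ξ ξ' ≤ 2 * T * r → |φ ξ - φ ξ'| ≤ C * ∑ k ∈ Finset.range (n + 1),
      (√(Oe φ δ S (ball ξ (L * r / 2 ^ k))) + √(Oe φ δ S (ball ξ' (L * r / 2 ^ k)))))
    (x : Z) (ν ν' : Measure Z) [IsProbabilityMeasure ν] [IsProbabilityMeasure ν']
    (h1 : ∀ᵐ ξ ∂ν, dist ξ x ≤ T * r) (h1' : ∀ᵐ ξ ∂ν', dist ξ x ≤ T * r)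
    (h2 : ∀ (z : Z) (s : ℝ), 0 < s → ν.real (ball z s) ≤ T * s / r)
    (h2' : ∀ (z : Z) (s : ℝ), 0 < s → ν'.real (ball z s) ≤ T * s / r)
    (f : Z → ℝ) (η : ℝ) (hf : ∀ z, |f z - φ z| ≤ η) :
    ∫ q, (f q.1 - f q.2) ^ 2 ∂(ν.prod ν') ≤
      (96 * C ^ 2 * T * L + 8) * (Oe φ δ S (ball x ((L + T) * r)) + η ^ 2) := by
  set G := h32G φ δ S x ((L + T) * r) (L * r) (n + 1) with hG
  have hO : ∀ A, 0 ≤ Oe φ δ S A := fun A => Finset.sum_nonneg fun z _ => sq_nonneg _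
  have hi : Integrable G ν := h32G_integrable _ _ _ _ _ _ _ _
  have hi' : Integrable G ν' := h32G_integrable _ _ _ _ _ _ _ _
  have hb : ∫ ξ, G ξ ∂ν ≤ 4 * (T / r) * (L * r) * Oe φ δ S (ball x ((L + T) * r)) :=
    h32G_integral _ _ _ _ _ _ (by positivity) _ _ (by positivity) fun z s hs =>
      (h2 z s hs).trans (le_of_eq (by ring))
  have hb' : ∫ ξ, G ξ ∂ν' ≤ 4 * (T / r) * (L * r) * Oe φ δ S (ball x ((L + T) * r)) :=
    h32G_integral _ _ _ _ _ _ (by positivity) _ _ (by positivity) fun z s hs =>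
      (h2' z s hs).trans (le_of_eq (by ring))
  have e : 4 * (T / r) * (L * r) = 4 * T * L := by field_simp
  rw [e] at hb hb'
  have hI1 : Integrable (fun q : Z × Z => G q.1) (ν.prod ν') := hi.comp_fst ν'
  have hI2 : Integrable (fun q : Z × Z => G q.2) (ν.prod ν') := hi'.comp_snd ν
  have hle : ∫ q, (f q.1 - f q.2) ^ 2 ∂(ν.prod ν') ≤
      ∫ q : Z × Z, (12 * C ^ 2 * (G q.1 + G q.2) + 8 * η ^ 2) ∂(ν.prod ν') := by
    refine integral_mono_of_nonneg (Eventually.of_forall fun q => sq_nonneg _)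
      (((hI1.add hI2).const_mul _).add (integrable_const _)) ?_
    filter_upwards [Measure.quasiMeasurePreserving_fst.ae h1,
      Measure.quasiMeasurePreserving_snd.ae h1'] with q hq hq'
    have hd : dist q.1 q.2 ≤ 2 * T * r := by
      have := dist_triangle_right q.1 q.2 x
      linarith
    have h3 := H q.1 q.2 hd
    have h4 := h32_cs (n + 1) (fun k => Oe φ δ S (ball q.1 (L * r / 2 ^ k)))
      (fun k => Oe φ δ S (ball q.2 (L * r / 2 ^ k))) (fun k => hO _) (fun k => hO _)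
    have h5 := h32G_ge φ δ S x (R := (L + T) * r) (ρ := L * r) (t := T * r) (by positivity)
      (le_of_eq (by ring)) (n + 1) hq
    have h6 := h32G_ge φ δ S x (R := (L + T) * r) (ρ := L * r) (t := T * r) (by positivity)
      (le_of_eq (by ring)) (n + 1) hq'
    set s := ∑ k ∈ Finset.range (n + 1),
      (√(Oe φ δ S (ball q.1 (L * r / 2 ^ k))) + √(Oe φ δ S (ball q.2 (L * r / 2 ^ k)))) with hs
    have h7 : s ^ 2 ≤ 6 * (G q.1 + G q.2) := by
      refine h4.trans ?_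
      rw [hG]; linarith
    have h8 : (φ q.1 - φ q.2) ^ 2 ≤ C ^ 2 * s ^ 2 := by
      rw [← mul_pow, ← sq_abs]
      exact pow_le_pow_left₀ (abs_nonneg _) h3 2
    have h9 : (φ q.1 - φ q.2) ^ 2 ≤ C ^ 2 * (6 * (G q.1 + G q.2)) :=
      h8.trans (mul_le_mul_of_nonneg_left h7 (sq_nonneg _))
    have ha := abs_le.1 (hf q.1)
    have hb := abs_le.1 (hf q.2)
    have h10 : ((f q.1 - φ q.1) - (f q.2 - φ q.2)) ^ 2 ≤ 4 * η ^ 2 := by
      have : ((f q.1 - φ q.1) - (f q.2 - φ q.2)) ^ 2 ≤ (2 * η) ^ 2 :=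
        sq_le_sq' (by linarith [ha.1, hb.2]) (by linarith [ha.2, hb.1])
      linarith
    show (f q.1 - f q.2) ^ 2 ≤ 12 * C ^ 2 * (G q.1 + G q.2) + 8 * η ^ 2
    nlinarith [sq_nonneg ((φ q.1 - φ q.2) - ((f q.1 - φ q.1) - (f q.2 - φ q.2)))]
  have hI3 : Integrable (fun q : Z × Z => 12 * C ^ 2 * (G q.1 + G q.2)) (ν.prod ν') :=
    (hI1.add hI2).const_mul _
  rw [integral_add hI3 (integrable_const _), integral_const_mul,
    integral_add hI1 hI2, integral_fun_fst, integral_fun_snd] at hle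
  simp only [probReal_univ, integral_const, smul_eq_mul, one_mul] at hle
  have hO' := hO (ball x ((L + T) * r))
  have hη : 0 ≤ η ^ 2 := sq_nonneg _
  have hc : 0 ≤ C ^ 2 := sq_nonneg _
  have h11 : 12 * C ^ 2 * (∫ ξ, G ξ ∂ν + ∫ ξ, G ξ ∂ν') ≤
      12 * C ^ 2 * (8 * T * L * Oe φ δ S (ball x ((L + T) * r))) :=
    mul_le_mul_of_nonneg_left (by linarith) (by positivity)
  have h12 : 0 ≤ 96 * C ^ 2 * T * L * η ^ 2 := by positivity
  nlinarith

end Crest.Agent.R193.E
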