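import Crest.Agent.R193.EM1
import Crest.Agent.R193.EM2Tel
import Crest.Agent.R193.EHarm
import Crest.Agent.R193.EM2h32

/-! Row 193 [E], metric layer: telescoping, weak monotonicity, continuous cut-offs. -/

set_option autoImplicit false

open Set Filter Topology MeasureTheory Metric

namespace Crest.Agent.R193.E

variable {Z : Type} [MetricSpace Z]

/-- **Pointwise telescoping.**  For `r_k = r / 2^k ≥ δ / c` let `K(ξ,k)` be the continuum of
`loops_d` at `(ξ, r_k)` and `m(ξ,k)` the value of `φ` at one of its points.  `loewner_q` compares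
`m(ξ,k)` with `m(ξ,k+1)` and `m(ξ,0)` with `m(ξ',0)`; `near_le` compares `φ ξ` with the last
`m(ξ,k)` (and settles the case `c r < δ` directly); let `η → 0`. -/
theorem telescope (h : MGeo Z) (T : ℝ) : ∃ L C r₀ : ℝ, 0 < L ∧ 0 < C ∧ 0 < r₀ ∧
    ∀ (δ : ℝ) (S : Finset Z), Net δ S → ∀ φ : Z → ℝ, Bdd φ → ∀ r : ℝ, δ ≤ r → r ≤ r₀ →
      ∀ n : ℕ, r / 2 ^ n ≤ δ → ∀ ξ ξ' : Z, dist ξ ξ' ≤ T * r →
        |φ ξ - φ ξ'| ≤ C * ∑ k ∈ Finset.range (n + 1),
          (√(Oe φ δ S (ball ξ (L * r / 2 ^ k))) + √(Oe φ δ S (ball ξ' (L * r / 2 ^ k)))) :=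
  h18_telescope h T

/-- a probability measure living at scale `r` near `x`, of dimension at least one -/
structure Frost [MeasurableSpace Z] (T : ℝ) (x : Z) (r : ℝ) (ν : Measure Z) : Prop where
  prob : IsProbabilityMeasure ν
  supp : ∀ᵐ ξ ∂ν, dist ξ x ≤ T * r
  small : ∀ (z : Z) (s : ℝ), 0 < s → ν.real (ball z s) ≤ T * s / r

/-- **Weak monotonicity, local form.**  By `telescope` (with `2 T`) and weighted Cauchy-Schwarz,
`|φ ξ - φ ξ'|² ≤ C' ∑ k, √2^k (a k ξ + a k ξ')`, `a k ξ = Oe φ δ S (ball ξ (L r / 2^k)) =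
∑ z ∈ S, osc² * indicator (ball z (L r/2^k)) 1 ξ`, and `∫ a k dν ≤ (T L / 2^k) Oe φ δ S (ball x
((L + T + 1) r))`. -/
theorem pair_le [CompactSpace Z] [MeasurableSpace Z] [BorelSpace Z] (h : MGeo Z) (T : ℝ)
    (hT : 0 < T) : ∃ L C r₀ : ℝ, 0 < L ∧ 0 < C ∧ 0 < r₀ ∧
    ∀ (δ : ℝ) (S : Finset Z), Net δ S → ∀ φ : Z → ℝ, Bdd φ → ∀ r : ℝ, δ ≤ r → r ≤ r₀ →
      ∀ (x : Z) (ν ν' : Measure Z), Frost T x r ν → Frost T x r ν' → ∀ (f : Z → ℝ) (η : ℝ),
        Continuous f → (∀ z, |f z - φ z| ≤ η) →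
        ∫ q, (f q.1 - f q.2) ^ 2 ∂(ν.prod ν') ≤ C * (Oe φ δ S (ball x (L * r)) + η ^ 2) := by
  obtain ⟨L, C, r₀, hL, hC, hr₀, H⟩ := telescope h (2 * T)
  refine ⟨L + T, 96 * C ^ 2 * T * L + 8, r₀, by positivity, by positivity, hr₀, ?_⟩
  intro δ S hS φ hφ r hδ hr x ν ν2 hν hν2 f η _ hf
  have hr0 : 0 < r := hS.pos.trans_le hδ
  obtain ⟨n, hn⟩ : ∃ n : ℕ, r / 2 ^ n ≤ δ := by
    obtain ⟨n, hn⟩ := pow_unbounded_of_one_lt (r / δ) (by norm_num : (1 : ℝ) < 2)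
    refine ⟨n, ?_⟩
    rw [div_lt_iff₀ hS.pos] at hn
    rw [div_le_iff₀ (by positivity)]
    linarith
  have := hν.prob
  have := hν2.prob
  exact h32_pair hT hL hC hr0 n (H δ S hS φ hφ r hδ hr n hn) x ν ν2 hν.supp hν2.supp hν.small
    hν2.small f η hf

/-- Frostman measures: a path `γ` from `a` to a point at distance `≥ ρ`; `s u = γ (sInf {t | u ≤
dist (γ t) a})` for `u ∈ [0, ρ]` is measurable (monotone composed with continuous) and
`dist (s u) a = u`; push forward the normalised Lebesgue measure of `[0, ρ]`. -/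
theorem exists_frost [MeasurableSpace Z] [BorelSpace Z] (hZ : Nonempty (Z ≃ₜ S2)) {a b : Z}
    {ρ : ℝ} (hρ : 0 < ρ) (hab : ρ ≤ dist a b) : ∃ ν : Measure Z, Frost 2 a ρ ν ∧
      ∀ᵐ ξ ∂ν, dist ξ a ≤ ρ := by
  obtain ⟨ν, h1, h2, h3⟩ := h32_frost hZ hρ hab
  refine ⟨ν, ⟨h1, ?_, h2⟩, h3⟩
  filter_upwards [h3] with ξ hξ
  linarith

private theorem helper28_front {C R : Set Z} (hC : IsPreconnected C) (hR : IsOpen R) {a b : Z}
    (ha : a ∈ C) (haR : a ∈ R) (hb : b ∈ C) (hbR : b ∉ R) : ∃ y ∈ C, y ∈ frontier R := by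
  by_contra hne
  push Not at hne
  have h1 := hC.subset_of_closure_inter_subset hR ⟨a, ha, haR⟩ (fun y hy => by
    by_contra hyR
    exact hne y hy.2 (by rw [hR.frontier_eq]; exact ⟨hy.1, hyR⟩))
  exact hbR (h1 hb)

/-- loops with logarithmic gain, including the values near the loop: among `J` disjoint annuli
`ball p (L' r_j) \ ball p (r_j / 2)` one has energy `≤ M / J`; `loops_d`, and `near_le` for the
points of a cell `ball z δ` meeting both `R` and `Rᶜ` (an `LLC1` path between two such points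
meets `frontier R ⊆ K` within `2 L₁ δ`). -/
theorem loops_log_d (h : MGeo Z) {ρ ε : ℝ} (M : ℝ) (hρ : 0 < ρ) (hε : 0 < ε) : ∃ s : ℝ, 0 < s ∧
    ∀ (δ : ℝ) (S : Finset Z), Net δ S → δ ≤ s → ∀ φ : Z → ℝ, Bdd φ → Oe φ δ S univ ≤ M →
      ∀ p : Z, ∃ (R : Set Z) (m : ℝ), IsOpen R ∧ ball p s ⊆ R ∧ R ⊆ ball p ρ ∧
        (∀ x ∈ frontier R, |φ x - m| ≤ ε) ∧ ∀ z ∈ S, (ball z δ ∩ R).Nonempty →
          ¬ ball z δ ⊆ R → ∀ x ∈ ball z δ, |φ x - m| ≤ ε := by
  classical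
  obtain ⟨L, C, r₀, hL, hC, hr₀, H⟩ := loops_d h
  obtain ⟨L₁, hL₁, H₁⟩ := h.llc1
  obtain ⟨C', L', hC', hL', H'⟩ := near_le h (2 * L₁ + 2)
  set ρ' := min ρ r₀ with hρ'
  have hρ'0 : 0 < ρ' := lt_min hρ hr₀
  set q : ℝ := (L + 1)⁻¹ with hq
  have hq0 : 0 < q := by positivity
  have hLq : (L + 1) * q = 1 := mul_inv_cancel₀ (by positivity)
  have hq1 : q ≤ 1 := inv_le_one_of_one_le₀ (by linarith)
  set u : ℕ → ℝ := fun j => ρ' * q ^ j with hu
  have hu0 : ∀ j, 0 < u j := fun j => by positivity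
  have hLu : ∀ j, (L + 1) * u (j + 1) = u j := fun j => by
    simp only [hu, pow_succ]
    linear_combination ρ' * q ^ j * hLq
  have hanti : ∀ {j k : ℕ}, j ≤ k → u k ≤ u j := fun hjk =>
    mul_le_mul_of_nonneg_left (pow_le_pow_of_le_one hq0.le hq1 hjk) hρ'0.le
  have hle : ∀ j, u j ≤ ρ' := fun j => by simpa [hu] using hanti (Nat.zero_le j)
  obtain ⟨J, hJ⟩ := exists_nat_gt ((C + C') ^ 2 * max M 0 / (ε / 2) ^ 2)
  have hJ0 : (0 : ℝ) < J := lt_of_le_of_lt (by positivity) hJ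
  refine ⟨u J / (L' + 1), div_pos (hu0 J) (by linarith), fun δ S hS hδ φ hφ hM p => ?_⟩
  have hδ0 := hS.pos
  have hδ1 : δ * (L' + 1) ≤ u J := (le_div_iff₀ (by linarith)).1 hδ
  have hs1 : u J / (L' + 1) ≤ u J := div_le_self (hu0 J).le (by linarith)
  set A : ℕ → Set Z := fun j => ball p (u j) \ ball p (u (j + 1)) with hA
  have hsum := sum_Oe_le φ δ S (Finset.range J) A 1 (fun z => by
    refine (Set.ncard_le_one ((Finset.range J).finite_toSet.subset fun j hj => hj.1)).2 ?_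
    rintro i ⟨-, hi⟩ j ⟨-, hj⟩
    by_contra hij
    rcases lt_or_gt_of_ne hij with hlt | hlt
    · exact hi.2 (ball_subset_ball (hanti (Nat.succ_le_of_lt hlt)) hj.1)
    · exact hj.2 (ball_subset_ball (hanti (Nat.succ_le_of_lt hlt)) hi.1))
  obtain ⟨j, hj, hE⟩ : ∃ j ∈ Finset.range J, Oe φ δ S (A j) ≤ max M 0 / J := by
    refine Finset.exists_le_of_sum_le ⟨0, Finset.mem_range.2 (by exact_mod_cast hJ0)⟩ ?_
    rw [Finset.sum_const, Finset.card_range, nsmul_eq_mul, mul_div_cancel₀ _ hJ0.ne']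
    rw [Nat.cast_one, one_mul] at hsum
    exact hsum.trans (hM.trans (le_max_left _ _))
  have hjJ : u J ≤ u (j + 1) := hanti (Nat.succ_le_of_lt (Finset.mem_range.1 hj))
  have hsq : (C + C') * √(Oe φ δ S (A j)) ≤ ε / 2 := by
    have h1 : ((C + C') * √(Oe φ δ S (A j))) ^ 2 ≤ (ε / 2) ^ 2 := by
      rw [mul_pow, Real.sq_sqrt (Oe_nonneg _ _ _ _)]
      rw [div_lt_iff₀ (by positivity)] at hJ
      rw [le_div_iff₀ hJ0] at hE
      have h2 := mul_le_mul_of_nonneg_left hE (sq_nonneg (C + C'))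
      have h3 : (C + C') ^ 2 * Oe φ δ S (A j) * J ≤ (ε / 2) ^ 2 * J := by linarith
      exact le_of_mul_le_mul_right h3 hJ0
    exact (pow_le_pow_iff_left₀ (by positivity) (by positivity) two_ne_zero).1 h1
  have hLδ : L' * δ ≤ u (j + 1) := by nlinarith
  have hδu : δ ≤ u (j + 1) := by nlinarith
  have huj := hu0 (j + 1)
  obtain ⟨R, K, hR, h1, h2, h3, -, -, h4, ⟨x₀, hx₀, -⟩, h5⟩ := H δ S hS φ hφ p (u (j + 1)) hδu
    ((hle _).trans (min_le_right _ _)) (ε / 2) (by positivity)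
  have hLj : L * u (j + 1) ≤ u j := by linarith [hLu j]
  have hs0 := Real.sqrt_nonneg (Oe φ δ S (A j))
  have hK : ∀ y ∈ K, |φ y - φ x₀| ≤ C * √(Oe φ δ S (A j)) + ε / 2 := fun y hy => by
    refine (h5 y hy x₀ hx₀).trans ?_
    gcongr
    exact Oe_mono _ _ _ (sdiff_subset_sdiff_left (ball_subset_ball hLj))
  refine ⟨R, φ x₀, hR, (ball_subset_ball (by linarith)).trans h1,
    h2.trans (ball_subset_ball (hLj.trans ((hle _).trans (min_le_left _ _)))),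
    fun x hx => ?_, ?_⟩
  · have := hK x (h3 hx)
    nlinarith
  · rintro z - ⟨x₁, hx₁, hx₁R⟩ hn x hx
    obtain ⟨x₂, hx₂, hx₂R⟩ := not_subset.1 hn
    obtain ⟨γ, hγ⟩ := H₁ x₁ x₂
    obtain ⟨_, ⟨t, rfl⟩, hy⟩ := helper28_front (isPreconnected_range γ.continuous) hR
      ⟨0, γ.source⟩ hx₁R ⟨1, γ.target⟩ hx₂R
    have hyK := h3 hy
    have d1 : dist x₁ x₂ ≤ 2 * δ := by
      have := dist_triangle_right x₁ x₂ z
      linarith [mem_ball.1 hx₁, mem_ball.1 hx₂]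
    have d2 : dist x₁ x ≤ 2 * δ := by
      have := dist_triangle_right x₁ x z
      linarith [mem_ball.1 hx₁, mem_ball.1 hx]
    have d3 : dist (γ t) x ≤ (2 * L₁ + 2) * δ := by
      have a1 := dist_triangle (γ t) x₁ x
      have a2 := mul_le_mul_of_nonneg_left d1 (by linarith : 0 ≤ L₁)
      linarith [hγ t]
    have a3 := H' δ S hS φ hφ (γ t) x d3
    have a4 : √(Oe φ δ S (ball (γ t) (L' * δ))) ≤ √(Oe φ δ S (A j)) := by
      refine Real.sqrt_le_sqrt (Oe_mono _ _ _ fun w hw => ⟨?_, fun hw' => ?_⟩)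
      · have b1 := mem_ball.1 (h4 hyK).1
        have b2 := dist_triangle w (γ t) p
        have b3 := mem_ball.1 hw
        rw [mem_ball]
        linarith [hLu j]
      · have b1 : 2 * u (j + 1) ≤ dist (γ t) p := not_lt.1 (h4 hyK).2
        have b2 := dist_triangle_left (γ t) p w
        have b3 := mem_ball.1 hw
        have b4 := mem_ball.1 hw'
        linarith
    have a5 := mul_le_mul_of_nonneg_left a4 hC'.le
    have a6 := hK _ hyK
    have a7 := abs_sub_le (φ x) (φ (γ t)) (φ x₀)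
    rw [abs_sub_comm] at a3
    linarith

private theorem h48_clamp_lip (l u a b : ℝ) :
    |max l (min u a) - max l (min u b)| ≤ |a - b| := by
  refine (abs_max_sub_max_le_max _ _ _ _).trans ?_
  rw [sub_self, abs_zero]
  refine max_le (abs_nonneg _) ((abs_min_sub_min_le_max _ _ _ _).trans ?_)
  rw [sub_self, abs_zero]
  exact max_le (abs_nonneg _) le_rfl

private theorem h48_clamp_between {l u a s y c : ℝ} (h1 : l ≤ s) (h2 : s ≤ u) (ha : |a - y| ≤ c)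
    (hs : |s - y| ≤ c) : |max l (min u a) - y| ≤ c := by
  rw [abs_le] at ha hs ⊢
  obtain ⟨ha1, ha2⟩ := ha
  obtain ⟨hs1, hs2⟩ := hs
  rcases le_total u a with h | h
  · rw [min_eq_left h, max_eq_right (h1.trans h2)]
    constructor <;> linarith
  · rw [min_eq_right h]
    rcases le_total l a with h' | h'
    · rw [max_eq_right h']
      constructor <;> linarith
    · rw [max_eq_left h']
      constructor <;> linarith

private theorem h48_trunc {δ : ℝ} {S : Finset Z} {φ : Z → ℝ} (hφ : Bdd φ) {R : Set Z}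
    (hR : IsOpen R) {m η : ℝ} (hη : 0 ≤ η) (hfr : ∀ x ∈ frontier R, |φ x - m| ≤ η)
    (hcell : ∀ z ∈ S, (ball z δ ∩ R).Nonempty → ¬ ball z δ ⊆ R → ∀ x ∈ ball z δ, |φ x - m| ≤ η) :
    ∃ φ' : Z → ℝ, Bdd φ' ∧ Oe φ' δ S univ ≤ Oe φ δ S univ ∧ (∀ x ∉ R, φ' x = φ x) ∧
      (∀ x ∈ R, |φ' x - m| ≤ η) ∧
      ∀ C : Set Z, IsPreconnected C → ∀ a : ℝ, (∀ x ∈ C, ∀ y ∈ C, |φ x - φ y| ≤ a) →
        ∀ x ∈ C, ∀ y ∈ C, |φ' x - φ' y| ≤ a := by
  classical
  let φ' : Z → ℝ := fun x => if x ∈ R then max (m - η) (min (m + η) (φ x)) else φ x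
  have hin : ∀ x ∈ R, φ' x = max (m - η) (min (m + η) (φ x)) := fun x hx => if_pos hx
  have hout : ∀ x ∉ R, φ' x = φ x := fun x hx => if_neg hx
  have hR' : ∀ x ∈ R, |φ' x - m| ≤ η := by
    intro x hx
    rw [hin x hx, abs_le]
    constructor
    · linarith [le_max_left (m - η) (min (m + η) (φ x))]
    · have : max (m - η) (min (m + η) (φ x)) ≤ m + η := max_le (by linarith) (min_le_left _ _)
      linarith
  have hsame : ∀ x, |φ x - m| ≤ η → φ' x = φ x := by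
    intro x hx
    by_cases hxR : x ∈ R
    · rw [abs_le] at hx
      rw [hin x hxR, min_eq_right (by linarith [hx.2]), max_eq_right (by linarith [hx.1])]
    · exact hout x hxR
  have hb : Bdd φ' := by
    obtain ⟨M, hM⟩ := hφ
    refine ⟨max M (|m| + η), fun x => ?_⟩
    by_cases hxR : x ∈ R
    · refine le_trans ?_ (le_max_right _ _)
      have := abs_sub_abs_le_abs_sub (φ' x) m
      linarith [hR' x hxR]
    · rw [hout x hxR]
      exact (hM x).trans (le_max_left _ _)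
  refine ⟨φ', hb, ?_, hout, hR', ?_⟩
  · unfold Oe
    refine Finset.sum_le_sum fun z hz => ?_
    have hz' : z ∈ S := by simpa using hz
    refine pow_le_pow_left₀ (osc_nonneg _ _ _) (osc_le_of (osc_nonneg _ _ _) fun x hx y hy => ?_) 2
    refine le_trans ?_ (abs_sub_le_osc hφ hx hy)
    by_cases h1 : ball z δ ⊆ R
    · rw [hin x (h1 hx), hin y (h1 hy)]
      exact h48_clamp_lip _ _ _ _
    · by_cases h2 : (ball z δ ∩ R).Nonempty
      · rw [hsame x (hcell z hz' h2 h1 x hx), hsame y (hcell z hz' h2 h1 y hy)]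
      · rw [hout x fun h => h2 ⟨x, hx, h⟩, hout y fun h => h2 ⟨y, hy, h⟩]
  · intro C hC a ha
    have mixed : ∀ x ∈ C, ∀ y ∈ C, x ∈ R → y ∉ R → |φ' x - φ' y| ≤ a := by
      intro x hx y hy hxR hyR
      have hs : ∃ s ∈ C, s ∈ frontier R := by
        by_contra hcon
        refine hyR (hC.subset_of_closure_inter_subset hR ⟨x, hx, hxR⟩ ?_ hy)
        rintro s ⟨hs1, hs2⟩
        by_contra hsR
        exact hcon ⟨s, hs2, by rw [hR.frontier_eq]; exact ⟨hs1, hsR⟩⟩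
      obtain ⟨s, hsC, hsf⟩ := hs
      have hs' := abs_le.1 (hfr s hsf)
      rw [hin x hxR, hout y hyR]
      exact h48_clamp_between (s := φ s) (by linarith [hs'.1]) (by linarith [hs'.2])
        (ha x hx y hy) (ha s hsC y hy)
    intro x hx y hy
    by_cases hxR : x ∈ R <;> by_cases hyR : y ∈ R
    · rw [hin x hxR, hin y hyR]
      exact (h48_clamp_lip _ _ _ _).trans (ha x hx y hy)
    · exact mixed x hx y hy hxR hyR
    · rw [abs_sub_comm]
      exact mixed y hy x hx hyR hxR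
    · rw [hout x hxR, hout y hyR]
      exact ha x hx y hy

/-- one smoothing step for discontinuous functions (compare `DForm.smooth_step`).  `ρ` smaller than
`dist(A, B)/2` and such that neither `A` nor `B` lies in a ball of radius `ρ`; finite cover by
connected open `V i ⊆ ball (p i) s`; successively replace `φ` on `R` by
`max (m - ε/2) (min (m + ε/2) φ)` (`loops_log_d` with `ε/2`).  If `R` meets `A` then `frontier R`
meets `A`, so `|1 - m| ≤ ε/2` and the values on `A` are kept (same for `B`); `osc` does not increase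
on any cell; on a preconnected set meeting `R` and `Rᶜ` use a point of `frontier R`. -/
theorem smooth_step_d (h : MGeo Z) {A B : Set Z} (hA : IsPreconnected A) (hAn : A.Nontrivial)
    (hB : IsPreconnected B) (hBn : B.Nontrivial) {d : ℝ} (hd : 0 < d)
    (hAB : ∀ x ∈ A, ∀ y ∈ B, d ≤ dist x y) (M : ℝ) {ε : ℝ} (hε : 0 < ε) :
    ∃ (𝒱 : Finset (Set Z)) (s : ℝ), 0 < s ∧ (∀ V ∈ 𝒱, IsOpen V ∧ IsPreconnected V) ∧
      (∀ z, ∃ V ∈ 𝒱, z ∈ V) ∧ ∀ (δ : ℝ) (S : Finset Z), Net δ S → δ ≤ s → ∀ φ : Z → ℝ, Bdd φ →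
        Oe φ δ S univ ≤ M → (∀ x ∈ A, φ x = 1) → (∀ x ∈ B, φ x = 0) →
        ∃ φ' : Z → ℝ, Bdd φ' ∧ Oe φ' δ S univ ≤ M ∧ (∀ x ∈ A, φ' x = 1) ∧ (∀ x ∈ B, φ' x = 0) ∧
          (∀ V ∈ 𝒱, ∀ x ∈ V, ∀ y ∈ V, |φ' x - φ' y| ≤ ε) ∧
          ∀ C : Set Z, IsPreconnected C → ∀ a : ℝ, (∀ x ∈ C, ∀ y ∈ C, |φ x - φ y| ≤ a) →
            ∀ x ∈ C, ∀ y ∈ C, |φ' x - φ' y| ≤ a := by
  classical
  have : CompactSpace Z := compact_of_S2 h.sph
  have : LocallyPathConnectedSpace Z := lpc_of_S2 h.sph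
  obtain ⟨a₁, ha₁, a₂, ha₂, hane⟩ := hAn
  obtain ⟨b₁, hb₁, b₂, hb₂, hbne⟩ := hBn
  have hda : 0 < dist a₁ a₂ := dist_pos.2 hane
  have hdb : 0 < dist b₁ b₂ := dist_pos.2 hbne
  have hρ : 0 < min (dist a₁ a₂ / 2) (dist b₁ b₂ / 2) := lt_min (half_pos hda) (half_pos hdb)
  obtain ⟨s, hs, hloop⟩ := loops_log_d h M hρ (half_pos hε)
  let V : Z → Set Z := fun p => connectedComponentIn (ball p s) p
  have hVo : ∀ p, IsOpen (V p) := fun p => isOpen_ball.connectedComponentIn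
  have hVp : ∀ p, p ∈ V p := fun p => mem_connectedComponentIn (mem_ball_self hs)
  have hVc : ∀ p, IsPreconnected (V p) := fun p => isPreconnected_connectedComponentIn
  obtain ⟨P, hP⟩ := isCompact_univ.elim_finite_subcover V hVo fun z _ => mem_iUnion.2 ⟨z, hVp z⟩
  have keep : ∀ {E : Set Z} {e₁ e₂ : Z} {c : ℝ} {p : Z} {R : Set Z} {φ φ' : Z → ℝ},
      IsPreconnected E → e₁ ∈ E → e₂ ∈ E → R ⊆ ball p (dist e₁ e₂ / 2) → (∀ x ∈ E, φ x = c) →
      (∀ x ∉ R, φ' x = φ x) →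
      (∀ C : Set Z, IsPreconnected C → ∀ a : ℝ, (∀ x ∈ C, ∀ y ∈ C, |φ x - φ y| ≤ a) →
        ∀ x ∈ C, ∀ y ∈ C, |φ' x - φ' y| ≤ a) → ∀ x ∈ E, φ' x = c := by
    intro E e₁ e₂ c p R φ φ' hE h1 h2 hR hc hout hosc x hx
    obtain ⟨y, hy, hyR⟩ : ∃ y ∈ E, y ∉ R := by
      by_contra hcon
      push Not at hcon
      have k1 := mem_ball.1 (hR (hcon e₁ h1))
      have k2 := mem_ball.1 (hR (hcon e₂ h2))
      linarith [dist_triangle_right e₁ e₂ p]
    have := hosc E hE 0 (fun x hx y hy => by rw [hc x hx, hc y hy, sub_self, abs_zero]) x hx y hy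
    rw [abs_nonpos_iff, sub_eq_zero] at this
    rw [this, hout y hyR, hc y hy]
  refine ⟨P.image V, s, hs, ?_, ?_, ?_⟩
  · intro W hW
    obtain ⟨p, -, rfl⟩ := Finset.mem_image.1 hW
    exact ⟨hVo p, hVc p⟩
  · intro z
    obtain ⟨p, hp, hz⟩ := mem_iUnion₂.1 (hP (mem_univ z))
    exact ⟨V p, Finset.mem_image_of_mem V hp, hz⟩
  intro δ S hS hδ φ hφ hM hA1 hB0
  have key : ∀ Q : Finset Z, ∃ φ' : Z → ℝ, Bdd φ' ∧ Oe φ' δ S univ ≤ M ∧ (∀ x ∈ A, φ' x = 1) ∧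
      (∀ x ∈ B, φ' x = 0) ∧ (∀ p ∈ Q, ∀ x ∈ V p, ∀ y ∈ V p, |φ' x - φ' y| ≤ ε) ∧
      ∀ C : Set Z, IsPreconnected C → ∀ a : ℝ, (∀ x ∈ C, ∀ y ∈ C, |φ x - φ y| ≤ a) →
        ∀ x ∈ C, ∀ y ∈ C, |φ' x - φ' y| ≤ a := by
    intro Q
    induction Q using Finset.induction_on with
    | empty => exact ⟨φ, hφ, hM, hA1, hB0, by simp, fun _ _ _ ha => ha⟩
    | insert p Q _ ih =>
      obtain ⟨ψ, hψ, hψM, hψA, hψB, hψV, hψC⟩ := ih
      obtain ⟨R, m, hRo, hR1, hR2, hfr, hcell⟩ := hloop δ S hS hδ ψ hψ hψM p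
      obtain ⟨ψ', hb, hOe, hout, hin, hosc⟩ := h48_trunc hψ hRo (half_pos hε).le hfr hcell
      refine ⟨ψ', hb, hOe.trans hψM,
        keep hA ha₁ ha₂ (hR2.trans (ball_subset_ball (min_le_left _ _))) hψA hout hosc,
        keep hB hb₁ hb₂ (hR2.trans (ball_subset_ball (min_le_right _ _))) hψB hout hosc, ?_,
        fun C hC a ha => hosc C hC a (hψC C hC a ha)⟩
      intro q hq
      rcases Finset.mem_insert.1 hq with rfl | hq
      · intro x hx y hy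
        have k1 := abs_le.1 (hin x (hR1 (connectedComponentIn_subset _ _ hx)))
        have k2 := abs_le.1 (hin y (hR1 (connectedComponentIn_subset _ _ hy)))
        rw [abs_le]
        constructor <;> linarith [k1.1, k1.2, k2.1, k2.2]
      · exact hosc (V q) (hVc q) ε (hψV q hq)
  obtain ⟨φ', h1, h2, h3, h4, h5, h6⟩ := key P
  refine ⟨φ', h1, h2, h3, h4, fun W hW => ?_, h6⟩
  obtain ⟨p, hp, rfl⟩ := Finset.mem_image.1 hW
  exact h5 p hp

/-- `χ` is a uniform limit of functions of bounded oscillation energy at finer and finer scales -/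
def Appr (χ : Z → ℝ) : Prop :=
  ∃ M : ℝ, ∀ η : ℝ, 0 < η → ∃ (δ : ℝ) (S : Finset Z) (φ : Z → ℝ), Net δ S ∧ δ ≤ η ∧ Bdd φ ∧
    (∀ z, |χ z - φ z| ≤ η) ∧ Oe φ δ S univ ≤ M

/-- **Continuous cut-offs.**  `A` = path component of `p` in `ball p r` (a neighbourhood of `p`),
`B` = path component of a far point in `(ball p (2 r))ᶜ`, which contains all points at distance
`≥ 2 L₂ r` (`LLC2`), `closedBall p (2 L₂ r) ⊆ V`.  For each `n` take `δ n ≤ min (1/(n+1), s_0, ..,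
s_n, r)`, the `UB` cut-off at scale `δ n`, apply `smooth_step_d` with `ε = 1/(k+1)`, `k = 0..n`;
`exists_unif_subseq` on `univ`; compose the limit and the approximants with `max 0 (min 1 ·)`. -/
theorem exists_cut (h : MGeo Z) (p : Z) {V : Set Z} (hV : V ∈ 𝓝 p) : ∃ χ : Z → ℝ,
    Continuous χ ∧ (∀ z, 0 ≤ χ z ∧ χ z ≤ 1) ∧ (∀ᶠ z in 𝓝 p, χ z = 1) ∧ tsupport χ ⊆ V ∧
      Appr χ := by
  obtain ⟨Φ⟩ := h.sph
  have := Uni_compact Φ
  have := Uni_connected Φ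
  have := Uni_locPath Φ
  obtain ⟨M, r0, hr0, hU⟩ := h.ub
  obtain ⟨L₂, hL₂, H₂⟩ := h.llc2
  obtain ⟨κ, ψ, -, -, hκp, hψκ, -⟩ := Uni_chart Φ p
  have hb : κ 0 ≠ κ 1 := fun e => by
    have := hψκ 0
    rw [e, hψκ 1] at this
    exact one_ne_zero this
  have : Nontrivial Z := ⟨⟨_, _, hb⟩⟩
  obtain ⟨ρ, hρ, hρV⟩ := nhds_basis_closedBall.mem_iff.1 hV
  have d0 := dist_pos.2 (hκp 0)
  have d1 := dist_pos.2 (hκp 1)
  obtain ⟨r, hr, hrr, hr1, hr2, hr3⟩ : ∃ r : ℝ, 0 < r ∧ r ≤ r0 ∧ L₂ * (2 * r) ≤ ρ ∧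
      L₂ * (2 * r) ≤ dist (κ 0) p ∧ L₂ * (2 * r) ≤ dist (κ 1) p := by
    set m := min ρ (min (dist (κ 0) p) (dist (κ 1) p)) with hm
    have hm0 : 0 < m := lt_min hρ (lt_min d0 d1)
    have e : L₂ * (2 * min r0 (m / (2 * L₂))) ≤ m := by
      have a1 : min r0 (m / (2 * L₂)) ≤ m / (2 * L₂) := min_le_right _ _
      rw [le_div_iff₀ (by positivity)] at a1
      linarith
    exact ⟨min r0 (m / (2 * L₂)), lt_min hr0 (by positivity), min_le_left _ _,
      e.trans (min_le_left _ _), e.trans ((min_le_right _ _).trans (min_le_left _ _)),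
      e.trans ((min_le_right _ _).trans (min_le_right _ _))⟩
  set A := connectedComponentIn (ball p r) p with hA
  set B := connectedComponentIn (ball p (2 * r))ᶜ (κ 0) with hB
  have hAn : A ∈ 𝓝 p := connectedComponentIn_mem_nhds (ball_mem_nhds p hr)
  have hAs : A ⊆ ball p r := connectedComponentIn_subset _ _
  have hBs : B ⊆ (ball p (2 * r))ᶜ := connectedComponentIn_subset _ _
  have hBm : ∀ z, L₂ * (2 * r) ≤ dist z p → z ∈ B := fun z hz => by
    obtain ⟨γ, hγ⟩ := H₂ p (κ 0) z (2 * r) (by positivity) hr2 hz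
    refine (isPreconnected_range γ.continuous).subset_connectedComponentIn ⟨0, γ.source⟩ ?_
      ⟨1, γ.target⟩
    rintro _ ⟨t, rfl⟩
    exact not_lt.2 (hγ t)
  have hAt : A.Nontrivial := by
    obtain ⟨y, hy, hyp⟩ := Filter.nonempty_of_mem (f := 𝓝[≠] p)
      (inter_mem (mem_nhdsWithin_of_mem_nhds hAn) self_mem_nhdsWithin)
    exact ⟨y, hy, p, mem_of_mem_nhds hAn, hyp⟩
  have hBt : B.Nontrivial := ⟨_, hBm _ hr2, _, hBm _ hr3, hb⟩
  have hAB : ∀ x ∈ A, ∀ y ∈ B, r ≤ dist x y := fun x hx y hy => by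
    have a1 := mem_ball.1 (hAs hx)
    have a2 : 2 * r ≤ dist y p := not_lt.1 (hBs hy)
    have a3 := dist_triangle_left y p x
    linarith
  choose 𝒱 s hs h𝒱 hcov hstep using fun k : ℕ => smooth_step_d h isPreconnected_connectedComponentIn
    hAt isPreconnected_connectedComponentIn hBt hr hAB M (ε := 1 / ((k : ℝ) + 1))
    Nat.one_div_pos_of_nat
  have hiter : ∀ (δ : ℝ) (S : Finset Z), Net δ S → ∀ n : ℕ, (∀ k < n, δ ≤ s k) → ∀ w : Z → ℝ,
      Bdd w → Oe w δ S univ ≤ M → (∀ x ∈ A, w x = 1) → (∀ x ∈ B, w x = 0) →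
      ∃ w' : Z → ℝ, Bdd w' ∧ Oe w' δ S univ ≤ M ∧ (∀ x ∈ A, w' x = 1) ∧ (∀ x ∈ B, w' x = 0) ∧
        ∀ k < n, ∀ V ∈ 𝒱 k, ∀ x ∈ V, ∀ y ∈ V, |w' x - w' y| ≤ 1 / ((k : ℝ) + 1) := by
    intro δ S hS n hn w h1 h2 h3 h4
    induction n with
    | zero => exact ⟨w, h1, h2, h3, h4, fun k hk => absurd hk (Nat.not_lt_zero k)⟩
    | succ n ih =>
      obtain ⟨w₁, a1, a2, a3, a4, a5⟩ := ih fun k hk => hn k (Nat.lt_succ_of_lt hk)
      obtain ⟨w₂, b1, b2, b3, b4, b5, b6⟩ := hstep n δ S hS (hn n (Nat.lt_succ_self n)) w₁ a1 a2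
        a3 a4
      refine ⟨w₂, b1, b2, b3, b4, fun k hk V hV => ?_⟩
      rcases Nat.lt_succ_iff_lt_or_eq.1 hk with hk | rfl
      · exact b6 V (h𝒱 k V hV).2 _ (a5 k hk V hV)
      · exact b5 V hV
  have hδex : ∀ n : ℕ, ∃ δ : ℝ, 0 < δ ∧ ∀ k < n, δ ≤ s k := fun n => by
    induction n with
    | zero => exact ⟨1, one_pos, fun k hk => absurd hk (Nat.not_lt_zero k)⟩
    | succ n ih =>
      obtain ⟨δ, h1, h2⟩ := ih
      refine ⟨min δ (s n), lt_min h1 (hs n), fun k hk => ?_⟩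
      rcases Nat.lt_succ_iff_lt_or_eq.1 hk with hk | rfl
      · exact (min_le_left _ _).trans (h2 k hk)
      · exact min_le_right _ _
  have hseq : ∀ n : ℕ, ∃ (δ : ℝ) (S : Finset Z) (w : Z → ℝ), Net δ S ∧ δ ≤ 1 / ((n : ℝ) + 1) ∧
      Bdd w ∧ Oe w δ S univ ≤ M ∧ (∀ x ∈ A, w x = 1) ∧ (∀ x ∈ B, w x = 0) ∧
        ∀ k < n, ∀ V ∈ 𝒱 k, ∀ x ∈ V, ∀ y ∈ V, |w x - w y| ≤ 1 / ((k : ℝ) + 1) := by
    intro n
    obtain ⟨δ₀, h1, h2⟩ := hδex n
    have hδ : 0 < min δ₀ (min r (1 / ((n : ℝ) + 1))) :=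
      lt_min h1 (lt_min hr Nat.one_div_pos_of_nat)
    obtain ⟨S, hS⟩ := exists_net (Z := Z) hδ
    obtain ⟨f, f1, f2, f3, f4⟩ := hU p r _ hδ ((min_le_right _ _).trans (min_le_left _ _)) hrr
    obtain ⟨w, hw⟩ := hiter _ S hS n (fun k hk => (min_le_left _ _).trans (h2 k hk)) f
      ⟨1, fun z => abs_le.2 ⟨by linarith [(f1 z).1], (f1 z).2⟩⟩ (Oe_le_of_En hS f4 _)
      (fun x hx => f2 x (hAs hx)) (fun x hx => f3 x (hBs hx))
    exact ⟨_, S, w, hS, (min_le_right _ _).trans (min_le_right _ _), hw⟩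
  choose δ S w hS hδ hwb hwE hwA hwB hwo using hseq
  obtain ⟨σ, u, hσ, huc, hu⟩ := exists_unif_subseq isCompact_univ isPreconnected_univ w
    (mem_univ p) (M := 1) (fun n => by rw [hwA n p (mem_of_mem_nhds hAn), abs_one])
    (fun ε hε x _ => by
      obtain ⟨k, hk⟩ := exists_nat_one_div_lt hε
      obtain ⟨V, hV, hpV⟩ := hcov k x
      refine ⟨V, (h𝒱 k V hV).1.mem_nhds hpV, ?_⟩
      filter_upwards [eventually_gt_atTop k] with n hn z hz
      exact (hwo n k hn V hV z hz.1 x hpV).trans hk.le)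
  rw [tendstoUniformlyOn_univ] at hu
  rw [continuousOn_univ] at huc
  have hlim : ∀ (x : Z) (c : ℝ), (∀ n, w n x = c) → u x = c := fun x c hc =>
    tendsto_nhds_unique (hu.tendsto_at x) (by simpa only [hc] using tendsto_const_nhds)
  have hlip : ∀ a b : ℝ, |max 0 (min 1 a) - max 0 (min 1 b)| ≤ |a - b| := fun a b => by
    rw [max_comm 0, max_comm 0]
    refine (abs_max_sub_max_le_abs _ _ _).trans ((abs_min_sub_min_le_max _ _ _ _).trans ?_)
    simp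
  refine ⟨fun z => max 0 (min 1 (u z)), continuous_const.max (continuous_const.min huc),
    fun z => ⟨le_max_left _ _, max_le zero_le_one (min_le_left _ _)⟩, ?_, ?_, M, fun η hη => ?_⟩
  · filter_upwards [hAn] with z hz
    rw [hlim z 1 fun n => hwA n z hz]
    simp
  · refine (closure_minimal (fun z hz => ?_) isClosed_closedBall).trans hρV
    by_contra hz'
    have a1 : ρ < dist z p := not_le.1 hz'
    apply hz
    show max 0 (min 1 (u z)) = 0
    rw [hlim z 0 fun n => hwB n z (hBm z (by linarith))]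
    simp
  · obtain ⟨k, hk⟩ := exists_nat_one_div_lt hη
    obtain ⟨n, hn1, hn2⟩ := ((Metric.tendstoUniformly_iff.1 hu η hη).and
      (eventually_ge_atTop k)).exists
    refine ⟨δ (σ n), S (σ n), fun z => max 0 (min 1 (w (σ n) z)), hS _, ?_,
      ⟨1, fun z => abs_le.2 ⟨by linarith [le_max_left 0 (min 1 (w (σ n) z))],
        max_le zero_le_one (min_le_left _ _)⟩⟩, fun z => (hlip _ _).trans (hn1 z).le, ?_⟩
    · refine (hδ _).trans (le_trans ?_ hk.le)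
      have : (k : ℝ) ≤ σ n := by exact_mod_cast hn2.trans (hσ.id_le n)
      gcongr
    · refine le_trans ?_ (hwE (σ n))
      unfold Oe
      refine Finset.sum_le_sum fun z _ => pow_le_pow_left₀ (osc_nonneg _ _ _) ?_ 2
      exact osc_le_of (osc_nonneg _ _ _) fun x hx y hy =>
        (hlip _ _).trans (abs_sub_le_osc (hwb _) hx hy)

end Crest.Agent.R193.E
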