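import Mathlib

/-!
Row 193, block [H], part 1: conformal self-maps of the Riemann sphere are induced by linear
isometries of Minkowski space (light-cone coordinates `ℝ × ℝ × ℂ`).
-/

set_option autoImplicit false

open Filter Topology Set OnePoint
open scoped ComplexConjugate

namespace Crest.Agent.R193.H

/-- An injective entire function tending to infinity at infinity is affine. -/
theorem hol_affine (ψ : ℂ → ℂ) (hd : Differentiable ℂ ψ) (hinj : Function.Injective ψ)
    (hlim : Tendsto ψ (cocompact ℂ) (cocompact ℂ)) :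
    ∃ a b : ℂ, a ≠ 0 ∧ ∀ z, ψ z = a * z + b := by
  obtain ⟨w, hw⟩ : ∃ w, deriv ψ w ≠ 0 := by
    by_contra h
    push Not at h
    have := is_const_of_deriv_eq_zero hd h 0 1
    exact zero_ne_one (hinj this)
  set F : ℂ → ℂ := dslope ψ w with hF
  have hFd : Differentiable ℂ F := by
    have : DifferentiableOn ℂ F univ :=
      (Complex.differentiableOn_dslope (f := ψ) (s := univ) (c := w) univ_mem).2 hd.differentiableOn
    exact differentiableOn_univ.1 this
  have hFz : ∀ z, z ≠ w → F z = (z - w)⁻¹ * (ψ z - ψ w) := by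
    intro z hz
    rw [hF, dslope_of_ne _ hz, slope_def_module, smul_eq_mul]
  have hF0 : ∀ z, F z ≠ 0 := by
    intro z
    by_cases hz : z = w
    · subst hz; rw [hF, dslope_same]; exact hw
    · rw [hFz z hz]
      exact mul_ne_zero (inv_ne_zero (sub_ne_zero.2 hz))
        (sub_ne_zero.2 fun h => hz (hinj h))
  -- the function `g u = 1 / (ψ (w + 1/u) - ψ w)`
  set g : ℂ → ℂ := fun u => (ψ (w + u⁻¹) - ψ w)⁻¹ with hg
  have hg0 : g 0 = 0 := by simp [hg]
  have hcob : Tendsto ψ (Bornology.cobounded ℂ) (Bornology.cobounded ℂ) := by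
    rwa [Metric.cobounded_eq_cocompact]
  have hgc : ContinuousAt g 0 := by
    have h1 : Tendsto (fun u : ℂ => w + u⁻¹) (𝓝[≠] 0) (Bornology.cobounded ℂ) :=
      (tendsto_add_const_cobounded w |>.comp tendsto_inv₀_nhdsNE_zero).congr
        fun u => by simp [add_comm]
    have h2 : Tendsto (fun u : ℂ => ψ (w + u⁻¹) - ψ w) (𝓝[≠] 0) (Bornology.cobounded ℂ) :=
      ((tendsto_add_const_cobounded (-ψ w)).comp (hcob.comp h1)).congr
        fun u => by simp [sub_eq_add_neg]
    have h3 : Tendsto g (𝓝[≠] 0) (𝓝 0) := tendsto_inv₀_cobounded.comp h2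
    rw [← continuousWithinAt_compl_self]
    unfold ContinuousWithinAt
    rw [hg0]; exact h3
  have hgd : ∀ᶠ u in 𝓝[≠] (0 : ℂ), DifferentiableAt ℂ g u := by
    filter_upwards [self_mem_nhdsWithin] with u hu
    have hu0 : u ≠ 0 := hu
    refine DifferentiableAt.inv ?_ ?_
    · exact ((hd _).comp u ((differentiableAt_inv hu0).const_add w)).sub_const _
    · refine sub_ne_zero.2 fun h => ?_
      have := hinj h
      simp [hu0] at this
  have hga : AnalyticAt ℂ g 0 :=
    Complex.analyticAt_of_differentiable_on_punctured_nhds_of_continuousAt hgd hgc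
  have hsl : Tendsto (fun u : ℂ => u⁻¹ • (g u - g 0)) (𝓝[≠] 0) (𝓝 (deriv g 0)) := by
    have := hasDerivAt_iff_tendsto_slope.1 hga.differentiableAt.hasDerivAt
    refine this.congr fun u => ?_
    rw [slope_def_module, sub_zero]
  have hinv : Tendsto (fun z : ℂ => (z - w)⁻¹) (cocompact ℂ) (𝓝[≠] 0) := by
    rw [← Metric.cobounded_eq_cocompact]
    have h1 : Tendsto (fun z : ℂ => z - w) (Bornology.cobounded ℂ) (Bornology.cobounded ℂ) :=
      (tendsto_add_const_cobounded (-w)).congr fun u => by simp [sub_eq_add_neg]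
    exact tendsto_inv₀_cobounded'.comp h1
  have hne : ∀ᶠ z in cocompact ℂ, z ≠ w := by
    filter_upwards [(isCompact_singleton (x := w)).compl_mem_cocompact] with z hz using hz
  have hlimF : Tendsto (fun z => (F z)⁻¹) (cocompact ℂ) (𝓝 (deriv g 0)) := by
    refine (hsl.comp hinv).congr' ?_
    filter_upwards [hne] with z hz
    have hzw : z - w ≠ 0 := sub_ne_zero.2 hz
    simp only [Function.comp, hg0, sub_zero, smul_eq_mul, inv_inv, hFz z hz, hg, mul_inv]
    congr 3
    ring
  have hconst : ∀ z, (F z)⁻¹ = deriv g 0 := fun z =>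
    (hFd.inv hF0).apply_eq_of_tendsto_cocompact z hlimF
  refine ⟨F w, ψ w - F w * w, hF0 w, fun z => ?_⟩
  by_cases hz : z = w
  · subst hz; ring
  · have h1 : F z = F w := inv_injective ((hconst z).trans (hconst w).symm)
    have hzw : z - w ≠ 0 := sub_ne_zero.2 hz
    rw [← h1, hFz z hz]
    field_simp
    ring

/-- Minkowski space in light-cone coordinates. -/
abbrev V : Type := ℝ × ℝ × ℂ

/-- The Lorentz form (signature `+ - - -`). -/
noncomputable def lf (X Y : V) : ℝ :=
  (X.1 * Y.2.1 + X.2.1 * Y.1) / 2 - (X.2.2.re * Y.2.2.re + X.2.2.im * Y.2.2.im)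

/-- The light-like vector attached to a point of the Riemann sphere. -/
noncomputable def lc (ξ : OnePoint ℂ) : V :=
  ξ.elim (1, 0, 0) fun z => (z.re ^ 2 + z.im ^ 2, 1, z)

@[simp] theorem lc_infty : lc ∞ = (1, 0, 0) := rfl
@[simp] theorem lc_coe (z : ℂ) : lc (z : OnePoint ℂ) = (z.re ^ 2 + z.im ^ 2, 1, z) := rfl

/-- `φ` is induced by a linear isometry of Minkowski space. -/
def Lor (φ : OnePoint ℂ → OnePoint ℂ) : Prop :=
  ∃ A : V →ₗ[ℝ] V, (∀ X Y, lf (A X) (A Y) = lf X Y) ∧
    ∀ ξ, ∃ μ : ℝ, 0 < μ ∧ A (lc ξ) = μ • lc (φ ξ)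

theorem Lor.comp {φ ψ : OnePoint ℂ → OnePoint ℂ} (h1 : Lor φ) (h2 : Lor ψ) : Lor (φ ∘ ψ) := by
  obtain ⟨A, hA, hA'⟩ := h1
  obtain ⟨B, hB, hB'⟩ := h2
  refine ⟨A ∘ₗ B, fun X Y => by simp [hA, hB], fun ξ => ?_⟩
  obtain ⟨μ, hμ, h⟩ := hB' ξ
  obtain ⟨ν, hν, h'⟩ := hA' (ψ ξ)
  refine ⟨μ * ν, mul_pos hμ hν, ?_⟩
  simp [h, h', smul_smul]

theorem lor_add (c : ℂ) : Lor (OnePoint.map fun z => z + c) := by
  refine ⟨{ toFun := fun X => (X.1 + 2 * (X.2.2.re * c.re + X.2.2.im * c.im)
              + (c.re ^ 2 + c.im ^ 2) * X.2.1, X.2.1, X.2.2 + c * X.2.1)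
            map_add' := fun X Y => ?_
            map_smul' := fun t X => ?_ }, fun X Y => ?_, fun ξ => ⟨1, one_pos, ?_⟩⟩
  · refine Prod.ext ?_ (Prod.ext ?_ ?_) <;> simp <;> ring
  · refine Prod.ext ?_ (Prod.ext ?_ ?_) <;> simp <;> ring
  · simp [lf]; ring
  · induction ξ using OnePoint.rec with
    | infty => simp
    | coe z => refine Prod.ext ?_ (Prod.ext ?_ ?_) <;> simp; ring

theorem lor_mul (a : ℂ) (ha : a ≠ 0) : Lor (OnePoint.map fun z => a * z) := by
  have hn : 0 < ‖a‖ := norm_pos_iff.2 ha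
  have hsq : a.re ^ 2 + a.im ^ 2 = ‖a‖ ^ 2 := by
    rw [Complex.sq_norm, Complex.normSq_apply]; ring
  refine ⟨{ toFun := fun X => (‖a‖ * X.1, ‖a‖⁻¹ * X.2.1, ‖a‖⁻¹ • (a * X.2.2))
            map_add' := fun X Y => ?_
            map_smul' := fun t X => ?_ }, fun X Y => ?_, fun ξ => ?_⟩
  · refine Prod.ext ?_ (Prod.ext ?_ ?_) <;> simp <;> ring
  · refine Prod.ext ?_ (Prod.ext ?_ ?_) <;> simp <;> ring
  · simp only [lf, LinearMap.coe_mk, AddHom.coe_mk, Complex.smul_re, Complex.smul_im,
      Complex.mul_re, Complex.mul_im, smul_eq_mul]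
    field_simp
    linear_combination (-2 * (X.2.2.re * Y.2.2.re + X.2.2.im * Y.2.2.im)) * hsq
  · induction ξ using OnePoint.rec with
    | infty => exact ⟨‖a‖, hn, by simp⟩
    | coe z =>
      refine ⟨‖a‖⁻¹, inv_pos.2 hn, ?_⟩
      refine Prod.ext ?_ (Prod.ext ?_ ?_)
      · simp only [LinearMap.coe_mk, AddHom.coe_mk, lc_coe, map_some, Prod.smul_mk,
          Complex.mul_re, Complex.mul_im, smul_eq_mul]
        field_simp
        linear_combination (-(z.re ^ 2 + z.im ^ 2)) * hsq
      · simp
      · simp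

theorem lor_conj : Lor (OnePoint.map fun z => conj z) := by
  refine ⟨{ toFun := fun X => (X.1, X.2.1, conj X.2.2)
            map_add' := fun X Y => ?_
            map_smul' := fun t X => ?_ }, fun X Y => ?_, fun ξ => ⟨1, one_pos, ?_⟩⟩
  · refine Prod.ext ?_ (Prod.ext ?_ ?_) <;> simp
  · refine Prod.ext ?_ (Prod.ext ?_ ?_) <;> simp
  · simp [lf]
  · induction ξ using OnePoint.rec with
    | infty => simp
    | coe z => refine Prod.ext ?_ (Prod.ext ?_ ?_) <;> simp

open Classical in
/-- The inversion `z ↦ 1 / z` of the Riemann sphere. -/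
noncomputable def iv (ξ : OnePoint ℂ) : OnePoint ℂ :=
  ξ.elim ((0 : ℂ) : OnePoint ℂ) fun z => if z = 0 then ∞ else ((z⁻¹ : ℂ) : OnePoint ℂ)

@[simp] theorem iv_infty : iv ∞ = ((0 : ℂ) : OnePoint ℂ) := rfl
@[simp] theorem iv_zero : iv ((0 : ℂ) : OnePoint ℂ) = ∞ := by simp [iv]
theorem iv_coe {z : ℂ} (hz : z ≠ 0) : iv (z : OnePoint ℂ) = ((z⁻¹ : ℂ) : OnePoint ℂ) := by
  simp [iv, hz]

theorem iv_iv (ξ : OnePoint ℂ) : iv (iv ξ) = ξ := by
  induction ξ using OnePoint.rec with
  | infty => simp
  | coe z =>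
    by_cases hz : z = 0
    · subst hz; simp
    · rw [iv_coe hz, iv_coe (inv_ne_zero hz), inv_inv]

theorem lor_iv : Lor iv := by
  refine ⟨{ toFun := fun X => (X.2.1, X.1, conj X.2.2)
            map_add' := fun X Y => ?_
            map_smul' := fun t X => ?_ }, fun X Y => ?_, fun ξ => ?_⟩
  · refine Prod.ext ?_ (Prod.ext ?_ ?_) <;> simp
  · refine Prod.ext ?_ (Prod.ext ?_ ?_) <;> simp
  · simp [lf]; ring
  · induction ξ using OnePoint.rec with
    | infty => exact ⟨1, one_pos, by simp⟩
    | coe z =>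
      by_cases hz : z = 0
      · subst hz; exact ⟨1, one_pos, by simp⟩
      · have hn : 0 < Complex.normSq z := Complex.normSq_pos.2 hz
        have hsq : z.re ^ 2 + z.im ^ 2 = Complex.normSq z := by
          rw [Complex.normSq_apply]; ring
        refine ⟨Complex.normSq z, hn, ?_⟩
        rw [iv_coe hz]
        refine Prod.ext ?_ (Prod.ext ?_ ?_)
        · simp only [LinearMap.coe_mk, AddHom.coe_mk, lc_coe, Prod.smul_mk, Complex.inv_re,
            Complex.inv_im, smul_eq_mul]
          field_simp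
          linear_combination (-1 : ℝ) * hsq
        · simp [hsq]
        · simp only [LinearMap.coe_mk, AddHom.coe_mk, lc_coe, Prod.smul_mk, Complex.real_smul]
          rw [Complex.normSq_eq_conj_mul_self]
          field_simp

theorem continuous_iv : Continuous iv := by
  rw [OnePoint.continuous_iff]
  constructor
  · rw [coclosedCompact_eq_cocompact, ← Metric.cobounded_eq_cocompact, iv_infty]
    have h1 : Tendsto (fun z : ℂ => ((z⁻¹ : ℂ) : OnePoint ℂ)) (Bornology.cobounded ℂ)
        (𝓝 ((0 : ℂ) : OnePoint ℂ)) :=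
      (OnePoint.continuous_coe.tendsto 0).comp tendsto_inv₀_cobounded
    refine h1.congr' ?_
    filter_upwards [(Bornology.isBounded_singleton (x := (0 : ℂ))).compl] with z hz
    exact (iv_coe hz).symm
  · rw [continuous_iff_continuousAt]
    intro z
    by_cases hz : z = 0
    · subst hz
      rw [← continuousWithinAt_compl_self]
      unfold ContinuousWithinAt
      simp only [iv_zero]
      have h1 : Tendsto (fun z : ℂ => ((z⁻¹ : ℂ) : OnePoint ℂ)) (𝓝[≠] 0) (𝓝 ∞) := by
        refine OnePoint.tendsto_coe_infty.comp ?_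
        rw [coclosedCompact_eq_cocompact, ← Metric.cobounded_eq_cocompact]
        exact tendsto_inv₀_nhdsNE_zero
      refine h1.congr' ?_
      filter_upwards [self_mem_nhdsWithin] with z hz
      exact (iv_coe hz).symm
    · have h1 : ContinuousAt (fun z : ℂ => ((z⁻¹ : ℂ) : OnePoint ℂ)) z :=
        OnePoint.continuous_coe.continuousAt.comp (continuousAt_inv₀ hz)
      refine h1.congr ?_
      filter_upwards [isOpen_ne.mem_nhds hz] with u hu
      exact (iv_coe hu).symm

theorem continuous_map_of_homeo (e : ℂ ≃ₜ ℂ) : Continuous (OnePoint.map e) := by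
  refine OnePoint.continuous_map e.continuous ?_
  rw [coclosedCompact_eq_cocompact]
  exact e.isClosedEmbedding.tendsto_cocompact

/-- A continuous injective self-map of the sphere fixing `∞`, holomorphic off one point. -/
theorem lor_of_fix (φ : OnePoint ℂ → OnePoint ℂ) (hc : Continuous φ)
    (hinj : Function.Injective φ) (hinf : φ ∞ = ∞) (f : ℂ → ℂ)
    (hf : ∀ z : ℂ, φ z = f z) (p : ℂ) (hd : ∀ z, z ≠ p → DifferentiableAt ℂ f z) : Lor φ := by
  have hfc : Continuous f := by
    rw [OnePoint.isOpenEmbedding_coe.isEmbedding.continuous_iff]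
    exact (hc.comp OnePoint.continuous_coe).congr fun z => hf z
  have hfd : Differentiable ℂ f := by
    intro z
    by_cases hz : z = p
    · subst hz
      refine (Complex.analyticAt_of_differentiable_on_punctured_nhds_of_continuousAt ?_
        hfc.continuousAt).differentiableAt
      filter_upwards [self_mem_nhdsWithin] with u hu using hd u hu
    · exact hd z hz
  have hfi : Function.Injective f := fun a b h => by
    have : φ a = φ b := by rw [hf, hf, h]
    exact OnePoint.coe_injective (hinj this)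
  have hlim : Tendsto f (cocompact ℂ) (cocompact ℂ) := by
    rw [← coclosedCompact_eq_cocompact]
    have h1 : Tendsto (fun z : ℂ => φ z) (coclosedCompact ℂ) (𝓝 ∞) := by
      have := (hc.tendsto ∞).comp OnePoint.tendsto_coe_infty
      rwa [hinf] at this
    conv_rhs => rw [← OnePoint.comap_coe_nhds_infty]
    rw [tendsto_comap_iff]
    exact h1.congr fun z => hf z
  obtain ⟨a, b, ha, hab⟩ := hol_affine f hfd hfi hlim
  have : φ = (OnePoint.map fun z => z + b) ∘ (OnePoint.map fun z => a * z) := by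
    funext ξ
    induction ξ using OnePoint.rec with
    | infty => simpa using hinf
    | coe z => simp [hf, hab]
  rw [this]
  exact (lor_add b).comp (lor_mul a ha)

/-- A continuous injective self-map of the sphere, holomorphic off the pole. -/
theorem lor_of_hol (φ : OnePoint ℂ → OnePoint ℂ) (hc : Continuous φ)
    (hinj : Function.Injective φ) (f : ℂ → ℂ) (hf : ∀ z : ℂ, φ z ≠ ∞ → φ z = f z)
    (hd : ∀ z : ℂ, φ z ≠ ∞ → DifferentiableAt ℂ f z) : Lor φ := by
  classical
  by_cases hinf : φ ∞ = ∞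
  · have hne : ∀ z : ℂ, φ z ≠ ∞ := fun z h => by
      have := hinj (h.trans hinf.symm)
      simp at this
    exact lor_of_fix φ hc hinj hinf f (fun z => hf z (hne z)) 0 fun z _ => hd z (hne z)
  obtain ⟨w, hw⟩ := OnePoint.ne_infty_iff_exists.1 hinf
  obtain ⟨p, hp⟩ : ∃ p : ℂ, ∀ z : ℂ, z ≠ p → φ z ≠ ∞ := by
    by_cases h : ∃ p : ℂ, φ p = ∞
    · obtain ⟨p, hp⟩ := h
      exact ⟨p, fun z hz h => hz (OnePoint.coe_injective (hinj (h.trans hp.symm)))⟩
    · push Not at h
      exact ⟨0, fun z _ => h z⟩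
  have hfw : ∀ z : ℂ, φ z ≠ ∞ → f z + -w ≠ 0 := by
    intro z hz h
    have h1 : f z = w := by linear_combination h
    have : φ z = φ ∞ := by rw [hf z hz, h1, hw]
    simpa using hinj this
  set ψ : OnePoint ℂ → OnePoint ℂ := iv ∘ (OnePoint.map fun z => z + -w) ∘ φ with hψ
  have hback : φ = (OnePoint.map fun z => z + w) ∘ iv ∘ ψ := by
    funext ξ
    simp only [hψ, Function.comp, iv_iv]
    induction φ ξ using OnePoint.rec with
    | infty => simp
    | coe z => simp
  have hψc : Continuous ψ :=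
    continuous_iv.comp ((continuous_map_of_homeo (Homeomorph.addRight (-w))).comp hc)
  have hψi : Function.Injective ψ := fun a b h => hinj (by
    rw [hback]; simp only [Function.comp, h])
  have hψinf : ψ ∞ = ∞ := by simp [hψ, ← hw]
  have hL : Lor ψ := by
    refine lor_of_fix ψ hψc hψi hψinf (fun z => if φ z = ∞ then 0 else (f z + -w)⁻¹) ?_ p ?_
    · intro z
      by_cases hz : φ z = ∞
      · simp [hψ, hz]
      · simp only [hψ, Function.comp, if_neg hz]
        rw [hf z hz, map_some, iv_coe (hfw z hz)]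
    · intro z hz
      have h1 : DifferentiableAt ℂ (fun z => (f z + -w)⁻¹) z :=
        ((hd z (hp z hz)).add_const _).inv (hfw z (hp z hz))
      refine h1.congr_of_eventuallyEq ?_
      filter_upwards [isOpen_ne.mem_nhds hz] with u hu
      rw [if_neg (hp u hu)]
  rw [hback]
  exact (lor_add w).comp (lor_iv.comp hL)

/-- A continuous injective self-map of the sphere which is locally holomorphic or
antiholomorphic off the pole is induced by a Lorentz isometry. -/
theorem lor_of_conf (φ : OnePoint ℂ → OnePoint ℂ) (hc : Continuous φ)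
    (hinj : Function.Injective φ) (f : ℂ → ℂ) (hf : ∀ z : ℂ, φ z ≠ ∞ → φ z = f z)
    (hd : ∀ z : ℂ, φ z ≠ ∞ → AnalyticAt ℂ f z ∨ AnalyticAt ℂ (fun w => conj (f w)) z) :
    Lor φ := by
  set U : Set ℂ := {z | φ z ≠ ∞} with hU
  have hUo : IsOpen U :=
    isOpen_ne.preimage (hc.comp OnePoint.continuous_coe)
  have hUc : IsPreconnected U := by
    have hfin : (Uᶜ).Countable := by
      refine Set.Subsingleton.countable fun a ha b hb => ?_
      simp only [hU, mem_compl_iff, mem_ofPred_eq, not_not] at ha hb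
      exact OnePoint.coe_injective (hinj (ha.trans hb.symm))
    have := hfin.isPathConnected_compl_of_one_lt_rank (E := ℂ)
      (by rw [Complex.rank_real_complex]; norm_num)
    rw [compl_compl] at this
    exact this.isConnected.isPreconnected
  have hdisj : ∀ z ∈ U, AnalyticAt ℂ f z → AnalyticAt ℂ (fun w => conj (f w)) z → False := by
    intro z hz h1 h2
    -- `f` is then locally constant
    have hre : AnalyticAt ℂ (fun w => f w + conj (f w)) z := h1.add h2
    have him : AnalyticAt ℂ (fun w => Complex.I * (f w - conj (f w))) z :=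
      analyticAt_const.mul (h1.sub h2)
    have hreal : ∀ F : ℂ → ℂ, AnalyticAt ℂ F z → (∀ w, (F w).im = 0) →
        ∀ᶠ w in 𝓝 z, F w = F z := by
      intro F hF hFi
      rcases hF.eventually_constant_or_nhds_le_map_nhds with h | h
      · exact h
      · exfalso
        have h3 : {y : ℂ | y.im = 0} ∈ 𝓝 (F z) :=
          h (mem_map.2 (Eventually.of_forall fun w => hFi w))
        have h4 : Tendsto (fun t : ℝ => F z + t * Complex.I) (𝓝[≠] 0) (𝓝 (F z)) := by
          refine tendsto_nhdsWithin_of_tendsto_nhds ?_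
          have : Continuous fun t : ℝ => F z + t * Complex.I := by fun_prop
          simpa using this.tendsto 0
        obtain ⟨t, ht, ht0⟩ := ((h4.eventually h3).and self_mem_nhdsWithin).exists
        simp [hFi z] at ht
        exact ht0 ht
    have e1 := hreal _ hre fun w => by simp
    have e2 := hreal _ him fun w => by simp
    have e3 : ∀ᶠ w in 𝓝[≠] z, w = z := by
      filter_upwards [nhdsWithin_le_nhds e1, nhdsWithin_le_nhds e2,
        nhdsWithin_le_nhds (hUo.mem_nhds hz)] with w hw1 hw2 hw3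
      have h5 : f w - conj (f w) = f z - conj (f z) := mul_left_cancel₀ Complex.I_ne_zero hw2
      have h6 : f w = f z := by linear_combination (hw1 + h5) / 2
      have : φ w = φ z := by rw [hf w hw3, hf z hz, h6]
      exact OnePoint.coe_injective (hinj this)
    obtain ⟨w, hw, hw'⟩ := (e3.and self_mem_nhdsWithin).exists
    exact hw' hw
  have hcases : U ⊆ {z | AnalyticAt ℂ f z} ∨ U ⊆ {z | AnalyticAt ℂ (fun w => conj (f w)) z} := by
    refine (isPreconnected_iff_subset_of_disjoint.1 hUc) _ _ (isOpen_analyticAt ℂ f)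
      (isOpen_analyticAt ℂ _) (fun z hz => hd z hz) ?_
    refine eq_empty_of_forall_notMem fun z hz => hdisj z hz.1 hz.2.1 hz.2.2
  rcases hcases with h | h
  · exact lor_of_hol φ hc hinj f hf fun z hz => (h hz).differentiableAt
  · set ψ : OnePoint ℂ → OnePoint ℂ := (OnePoint.map fun z => conj z) ∘ φ with hψ
    have hback : φ = (OnePoint.map fun z => conj z) ∘ ψ := by
      funext ξ
      simp only [hψ, Function.comp]
      induction φ ξ using OnePoint.rec with
      | infty => simp
      | coe z => simp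
    have hne : ∀ z : ℂ, ψ z ≠ ∞ → φ z ≠ ∞ := fun z hz h => hz (by simp [hψ, h])
    have hL : Lor ψ := by
      refine lor_of_hol ψ ((continuous_map_of_homeo Complex.conjCLE.toHomeomorph).comp hc)
        (fun a b hab => hinj (by rw [hback]; simp only [Function.comp, hab]))
        (fun w => conj (f w)) (fun z hz => ?_) fun z hz => (h (hne z hz)).differentiableAt
      simp [hψ, hf z (hne z hz)]
    rw [hback]
    exact lor_conj.comp hL

end Crest.Agent.R193.H
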