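import Mathlib
import Crest.Prelude.Def_HyperbolicThreeSpace
import Crest.Agent.R193.H1

/-!
Row 193, block [H], part 2: the hyperboloid model, centres of ideal triangles and the
Poincaré extension.
-/

set_option autoImplicit false

open Filter Topology Set OnePoint
open Crest.HyperbolicSpace

namespace Crest.Agent.R193.H

theorem lf_comm (X Y : V) : lf X Y = lf Y X := by simp only [lf]; ring

theorem lf_add_left (X Y W : V) : lf (X + Y) W = lf X W + lf Y W := by
  simp only [lf, Prod.fst_add, Prod.snd_add, Complex.add_re, Complex.add_im]; ring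

theorem lf_add_right (X Y W : V) : lf W (X + Y) = lf W X + lf W Y := by
  rw [lf_comm, lf_add_left, lf_comm X, lf_comm Y]

theorem lf_smul_left (t : ℝ) (X W : V) : lf (t • X) W = t * lf X W := by
  simp only [lf, Prod.smul_fst, Prod.smul_snd, Complex.smul_re, Complex.smul_im, smul_eq_mul]; ring

theorem lf_smul_right (t : ℝ) (X W : V) : lf W (t • X) = t * lf W X := by
  rw [lf_comm, lf_smul_left, lf_comm]

theorem continuous_lf : Continuous fun p : V × V => lf p.1 p.2 := by
  unfold lf; fun_prop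

/-- The hyperboloid point of a point of upper half-space. -/
noncomputable def io (p : UpperHalfSpace3) : V :=
  ((p.1 0 ^ 2 + p.1 1 ^ 2 + p.1 2 ^ 2) / p.1 2, 1 / p.1 2, ⟨p.1 0 / p.1 2, p.1 1 / p.1 2⟩)

theorem cosh_eq (p q : UpperHalfSpace3) : coshDist3 p q = lf (io p) (io q) := by
  have hp := p.2.ne'
  have hq := q.2.ne'
  simp only [coshDist3, lf, io, EuclideanSpace.real_norm_sq_eq, Fin.sum_univ_three,
    PiLp.sub_apply]
  field_simp
  ring

theorem lf_io_self (p : UpperHalfSpace3) : lf (io p) (io p) = 1 := by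
  rw [← cosh_eq]; simp [coshDist3]

theorem io_injective : Function.Injective io := by
  intro p q h
  have h1 : coshDist3 p q = 1 := by rw [cosh_eq, h, lf_io_self]
  have hp := p.2
  have hq := q.2
  have h2 : ‖p.1 - q.1‖ ^ 2 / (2 * p.1 2 * q.1 2) = 0 := by
    unfold coshDist3 at h1; linarith
  have h3 : ‖p.1 - q.1‖ ^ 2 = 0 := by
    rcases div_eq_zero_iff.1 h2 with h | h
    · exact h
    · exact absurd h (by positivity)
  exact Subtype.ext (sub_eq_zero.1 (norm_eq_zero.1 (pow_eq_zero_iff two_ne_zero |>.1 h3)))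

/-- The base point `(0, 0, 1)`. -/
noncomputable def o3 : UpperHalfSpace3 := ⟨!₂[0, 0, 1], by simp⟩

/-- The hyperboloid point of the base point. -/
def e0 : V := (1, 1, 0)

theorem io_o3 : io o3 = e0 := by
  refine Prod.ext ?_ (Prod.ext ?_ (Complex.ext ?_ ?_)) <;> simp [io, o3, e0]

theorem lf_e0 (X : V) : lf X e0 = (X.1 + X.2.1) / 2 := by simp [lf, e0]

theorem exists_io (X : V) (h1 : lf X X = 1) (h2 : 0 < lf X e0) : ∃ p, io p = X := by
  obtain ⟨a, d, b⟩ := X
  rw [lf_e0] at h2
  simp only [lf] at h1 h2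
  have had : a * d = 1 + (b.re ^ 2 + b.im ^ 2) := by linarith
  have hd : 0 < d := by
    by_contra h
    push Not at h
    have ha : 0 < a := by linarith
    nlinarith [sq_nonneg b.re, sq_nonneg b.im, mul_nonneg ha.le (neg_nonneg.2 h)]
  refine ⟨⟨!₂[b.re / d, b.im / d, 1 / d], by simpa using hd⟩, ?_⟩
  refine Prod.ext ?_ (Prod.ext ?_ (Complex.ext ?_ ?_)) <;> simp [io] <;> field_simp
  linarith

/-- The pairing of two light-like vectors (half the squared distance). -/
noncomputable def D (a b : OnePoint ℂ) : ℝ := lf (lc a) (lc b)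

theorem D_comm (a b : OnePoint ℂ) : D a b = D b a := lf_comm _ _

theorem D_self (a : OnePoint ℂ) : D a a = 0 := by
  induction a using OnePoint.rec with
  | infty => simp [D, lf]
  | coe z => simp [D, lf]; ring

theorem D_pos {a b : OnePoint ℂ} (h : a ≠ b) : 0 < D a b := by
  induction a using OnePoint.rec with
  | infty =>
    induction b using OnePoint.rec with
    | infty => exact absurd rfl h
    | coe w => simp [D, lf]
  | coe z =>
    induction b using OnePoint.rec with
    | infty => simp [D, lf]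
    | coe w =>
      have hzw : z - w ≠ 0 := sub_ne_zero.2 fun h' => h (by rw [h'])
      have := Complex.normSq_pos.2 hzw
      simp only [Complex.normSq_apply, Complex.sub_re, Complex.sub_im] at this
      simp only [D, lf, lc_coe]
      nlinarith

/-- The time coordinate of the light-like vector of a boundary point. -/
noncomputable def nn (a : OnePoint ℂ) : ℝ := lf (lc a) e0

theorem nn_pos (a : OnePoint ℂ) : 0 < nn a := by
  induction a using OnePoint.rec with
  | infty => simp [nn, lf_e0]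
  | coe z => simp only [nn, lf_e0, lc_coe]; positivity

/-- The unnormalised centre of an ideal triangle. -/
noncomputable def cen (a b c : OnePoint ℂ) : V := D b c • lc a + D a c • lc b + D a b • lc c

theorem lf_cen_self (a b c : OnePoint ℂ) :
    lf (cen a b c) (cen a b c) = 6 * (D a b * D b c * D a c) := by
  simp only [cen, lf_add_left, lf_add_right, lf_smul_left, lf_smul_right]
  change D b c * (D b c * D a a + D a c * D b a + D a b * D c a) +
    D a c * (D b c * D a b + D a c * D b b + D a b * D c b) +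
    D a b * (D b c * D a c + D a c * D b c + D a b * D c c) = _
  rw [D_self, D_self, D_self, D_comm b a, D_comm c a, D_comm c b]
  ring

theorem lf_cen_e0 (a b c : OnePoint ℂ) :
    lf (cen a b c) e0 = D b c * nn a + D a c * nn b + D a b * nn c := by
  simp only [cen, lf_add_left, lf_smul_left, nn]

/-- `p` is the centre of the ideal triangle `a, b, c`. -/
def IsCen (p : UpperHalfSpace3) (a b c : OnePoint ℂ) : Prop :=
  a ≠ b ∧ b ≠ c ∧ a ≠ c ∧ ∃ μ : ℝ, 0 < μ ∧ io p = μ • cen a b c

theorem exists_isCen (p : UpperHalfSpace3) : ∃ a b c, IsCen p a b c := by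
  have hp := p.2
  set r : ℝ := p.1 2 / √3 with hr
  have hr0 : 0 < r := by positivity
  have hr2 : p.1 2 ^ 2 = 3 * r ^ 2 := by
    rw [hr, div_pow, Real.sq_sqrt (by norm_num)]; ring
  refine ⟨((⟨p.1 0 - r, p.1 1⟩ : ℂ) : OnePoint ℂ), ((⟨p.1 0 + r, p.1 1⟩ : ℂ) : OnePoint ℂ), ∞,
    ?_, by simp, by simp, 1 / p.1 2, by positivity, ?_⟩
  · intro h
    have := congrArg Complex.re (OnePoint.coe_injective h)
    simp only at this
    linarith
  · refine Prod.ext ?_ (Prod.ext ?_ (Complex.ext ?_ ?_)) <;> simp [io, cen, D, lf] <;>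
      field_simp
    · linear_combination 2 * hr2
    all_goals ring

theorem IsCen.unique {p q : UpperHalfSpace3} {a b c : OnePoint ℂ} (hp : IsCen p a b c)
    (hq : IsCen q a b c) : p = q := by
  obtain ⟨-, -, -, μ, hμ, h1⟩ := hp
  obtain ⟨-, -, -, ν, hν, h2⟩ := hq
  have e1 := lf_io_self p
  have e2 := lf_io_self q
  rw [h1, lf_smul_left, lf_smul_right] at e1
  rw [h2, lf_smul_left, lf_smul_right] at e2
  have hL : lf (cen a b c) (cen a b c) ≠ 0 := fun h => by simp [h] at e1
  have : μ ^ 2 = ν ^ 2 := mul_right_cancel₀ hL (by linear_combination e1 - e2)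
  have hμν : μ = ν := by nlinarith
  apply io_injective
  rw [h1, h2, hμν]

/-- The Poincaré extension of a Lorentz-induced map. -/
theorem Lor.exists_ext {φ : OnePoint ℂ → OnePoint ℂ} (h : Lor φ) :
    ∃ f : UpperHalfSpace3 → UpperHalfSpace3, (∀ p q, coshDist3 (f p) (f q) = coshDist3 p q) ∧
      ∀ p a b c, IsCen p a b c → IsCen (f p) (φ a) (φ b) (φ c) := by
  obtain ⟨A, hA, hA'⟩ := h
  choose m hm hAm using hA'
  have hD : ∀ a b, D a b = m a * m b * D (φ a) (φ b) := by
    intro a b
    rw [D, ← hA, hAm, hAm, lf_smul_left, lf_smul_right, D]; ring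
  have hne : ∀ a b, a ≠ b → φ a ≠ φ b := by
    intro a b hab h
    have := D_pos hab
    rw [hD, h, D_self] at this
    simp at this
  have hcen : ∀ a b c, A (cen a b c) = (m a * m b * m c) • cen (φ a) (φ b) (φ c) := by
    intro a b c
    simp only [cen, map_add, _root_.map_smul, hAm, smul_add, smul_smul]
    rw [hD b c, hD a c, hD a b]
    congr 1
    · congr 1 <;> congr 1 <;> ring
    · congr 1; ring
  have hex : ∀ p, ∃ q, io q = A (io p) := by
    intro p
    refine exists_io _ (by rw [hA, lf_io_self]) ?_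
    obtain ⟨a, b, c, hab, hbc, hac, μ, hμ, h1⟩ := exists_isCen p
    rw [h1, _root_.map_smul, hcen, lf_smul_left, lf_smul_left, lf_cen_e0]
    have := D_pos (hne _ _ hab)
    have := D_pos (hne _ _ hbc)
    have := D_pos (hne _ _ hac)
    have := hm a
    have := hm b
    have := hm c
    have := nn_pos (φ a)
    have := nn_pos (φ b)
    have := nn_pos (φ c)
    positivity
  choose f hf using hex
  refine ⟨f, fun p q => by rw [cosh_eq, cosh_eq, hf, hf, hA], ?_⟩
  rintro p a b c ⟨hab, hbc, hac, μ, hμ, h1⟩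
  refine ⟨hne _ _ hab, hne _ _ hbc, hne _ _ hac, μ * (m a * m b * m c), ?_, ?_⟩
  · have := hm a
    have := hm b
    have := hm c
    positivity
  · rw [hf, h1, _root_.map_smul, hcen, smul_smul]

/-- The squared chordal distance (up to a factor). -/
noncomputable def ch (a b : OnePoint ℂ) : ℝ := D a b / (nn a * nn b)

theorem ch_pos {a b : OnePoint ℂ} (h : a ≠ b) : 0 < ch a b :=
  div_pos (D_pos h) (mul_pos (nn_pos a) (nn_pos b))

theorem ch_self (a : OnePoint ℂ) : ch a a = 0 := by simp [ch, D_self]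

theorem continuous_nlc : Continuous fun a : OnePoint ℂ => (nn a)⁻¹ • lc a := by
  rw [OnePoint.continuous_iff]
  have hN : ∀ z : ℂ, z.re ^ 2 + z.im ^ 2 = ‖z‖ ^ 2 := fun z => by
    rw [Complex.sq_norm, Complex.normSq_apply]; ring
  constructor
  · rw [coclosedCompact_eq_cocompact, ← Metric.cobounded_eq_cocompact]
    have h0 : Tendsto (fun z : ℂ => ‖z‖⁻¹) (Bornology.cobounded ℂ) (𝓝 0) :=
      tendsto_inv_atTop_zero.comp tendsto_norm_cobounded_atTop
    have h0' : Tendsto (fun z : ℂ => z⁻¹) (Bornology.cobounded ℂ) (𝓝 0) := tendsto_inv₀_cobounded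
    have hc : Continuous fun u : ℂ =>
        ((2 / (1 + ‖u‖ ^ 2), 2 * ‖u‖ ^ 2 / (1 + ‖u‖ ^ 2),
          (2 / (1 + ‖u‖ ^ 2) : ℝ) • (starRingEnd ℂ) u) : V) := by
      have h1 : Continuous fun u : ℂ => 2 / (1 + ‖u‖ ^ 2) :=
        continuous_const.div (by fun_prop) fun u => by positivity
      have h2 : Continuous fun u : ℂ => 2 * ‖u‖ ^ 2 / (1 + ‖u‖ ^ 2) :=
        Continuous.div (by fun_prop) (by fun_prop) fun u => by positivity
      exact h1.prodMk (h2.prodMk (h1.smul Complex.continuous_conj))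
    have h3 := (hc.tendsto 0).comp h0'
    have h4 : ((2 / (1 + ‖(0 : ℂ)‖ ^ 2), 2 * ‖(0 : ℂ)‖ ^ 2 / (1 + ‖(0 : ℂ)‖ ^ 2),
          (2 / (1 + ‖(0 : ℂ)‖ ^ 2) : ℝ) • (starRingEnd ℂ) 0) : V) = (nn ∞)⁻¹ • lc ∞ := by
      simp [nn, lf_e0]
    rw [h4] at h3
    refine h3.congr' ?_
    filter_upwards [(Bornology.isBounded_singleton (x := (0 : ℂ))).compl] with z hz
    have hz0 : z ≠ 0 := hz
    have hn : ‖z‖ ≠ 0 := norm_ne_zero_iff.2 hz0
    simp only [Function.comp, nn, lf_e0, lc_coe, hN, norm_inv, Prod.smul_mk, smul_eq_mul]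
    refine Prod.ext ?_ (Prod.ext ?_ ?_)
    · simp only; field_simp
    · simp only; field_simp
    · simp only [map_inv₀, Complex.real_smul]
      have hc0 : (starRingEnd ℂ) z ≠ 0 := by simpa using hz0
      have hzz : ((‖z‖ : ℝ) : ℂ) ^ 2 = (starRingEnd ℂ) z * z := by
        rw [Complex.conj_mul', ]
      have h5 : ((‖z‖ : ℝ) : ℂ) ≠ 0 := by exact_mod_cast hn
      have h6 : ((‖z‖ : ℝ) : ℂ) ^ 2 + 1 ≠ 0 := by
        have : (‖z‖ ^ 2 + 1 : ℝ) ≠ 0 := by positivity
        exact_mod_cast this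
      push_cast
      field_simp
      exact hzz
  · simp only [nn, lf_e0, lc_coe]
    have h1 : Continuous fun z : ℂ => ((z.re ^ 2 + z.im ^ 2 + 1) / 2)⁻¹ :=
      Continuous.inv₀ (by fun_prop) fun z => by positivity
    have h2 : Continuous fun z : ℂ => ((z.re ^ 2 + z.im ^ 2, 1, z) : V) := by fun_prop
    exact h1.smul h2

theorem continuous_ch : Continuous fun p : OnePoint ℂ × OnePoint ℂ => ch p.1 p.2 := by
  have := continuous_lf.comp
    ((continuous_nlc.comp continuous_fst).prodMk (continuous_nlc.comp continuous_snd))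
  refine this.congr fun p => ?_
  simp only [Function.comp, lf_smul_left, lf_smul_right, ch, D]
  have := (nn_pos p.1).ne'
  have := (nn_pos p.2).ne'
  field_simp

theorem IsCen.formula {p : UpperHalfSpace3} {a b c : OnePoint ℂ} (hp : IsCen p a b c) :
    ∃ ν : ℝ, 0 < ν ∧ coshDist3 p o3 = ν * (ch a b + ch b c + ch a c) ∧
      6 * ν ^ 2 * (ch a b * ch b c * ch a c) = 1 := by
  obtain ⟨-, -, -, μ, hμ, h1⟩ := hp
  have ha := nn_pos a
  have hb := nn_pos b
  have hc := nn_pos c
  refine ⟨μ * (nn a * nn b * nn c), by positivity, ?_, ?_⟩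
  · rw [cosh_eq, io_o3, h1, lf_smul_left, lf_cen_e0]
    simp only [ch]
    field_simp
    ring
  · have e1 := lf_io_self p
    rw [h1, lf_smul_left, lf_smul_right, lf_cen_self] at e1
    rw [← e1]
    simp only [ch]
    field_simp

/-- Centres in a bounded region have separated vertices. -/
theorem IsCen.sep {p : UpperHalfSpace3} {a b c : OnePoint ℂ} (hp : IsCen p a b c) {M : ℝ}
    (hM : coshDist3 p o3 ≤ M) :
    1 / (6 * M ^ 2) ≤ ch a b ∧ 1 / (6 * M ^ 2) ≤ ch b c ∧ 1 / (6 * M ^ 2) ≤ ch a c := by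
  obtain ⟨ν, hν, h1, h2⟩ := hp.formula
  have hx := ch_pos hp.1
  have hy := ch_pos hp.2.1
  have hz := ch_pos hp.2.2.1
  have key : ∀ x y z : ℝ, 0 < x → 0 < y → 0 < z → ν * (x + y + z) ≤ M →
      6 * ν ^ 2 * (x * y * z) = 1 → 1 / (6 * M ^ 2) ≤ x := by
    intro x y z hx hy hz h1 h2
    have h0 : 0 < ν * (x + y + z) := by positivity
    have hM0 : 0 < M := h0.trans_le h1
    rw [div_le_iff₀ (by positivity)]
    have h3 : (ν * (x + y + z)) ^ 2 ≤ M ^ 2 := pow_le_pow_left₀ h0.le h1 2
    have h4 : ν ^ 2 * (y * z) ≤ (ν * (x + y + z)) ^ 2 := by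
      rw [mul_pow]
      refine mul_le_mul_of_nonneg_left ?_ (sq_nonneg _)
      nlinarith [mul_pos hx hy, mul_pos hx hz, mul_pos hy hz, sq_nonneg x, sq_nonneg y,
        sq_nonneg z]
    nlinarith [mul_le_mul_of_nonneg_left (h4.trans h3) hx.le]
  rw [h1] at hM
  exact ⟨key _ _ _ hx hy hz hM h2, key _ _ _ hy hx hz (by linarith) (by linarith),
    key _ _ _ hz hx hy (by linarith) (by linarith)⟩

/-- Separated vertices have centres in a bounded region. -/
theorem IsCen.bdd {p : UpperHalfSpace3} {a b c : OnePoint ℂ} (hp : IsCen p a b c) {e B : ℝ}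
    (he : 0 < e) (h1 : e ≤ ch a b) (h2 : e ≤ ch b c) (h3 : e ≤ ch a c)
    (hB : ∀ x y, ch x y ≤ B) : coshDist3 p o3 ≤ (1 + 1 / e ^ 3) * (3 * B) := by
  obtain ⟨ν, hν, h4, h5⟩ := hp.formula
  rw [h4]
  have hx := ch_pos hp.1
  have hy := ch_pos hp.2.1
  have hz := ch_pos hp.2.2.1
  have h6 : e ^ 3 ≤ ch a b * ch b c * ch a c := by
    calc e ^ 3 = e * e * e := by ring
      _ ≤ _ := by gcongr
  have he3 : 0 < e ^ 3 := by positivity
  have h7 : ν ^ 2 ≤ 1 / e ^ 3 := by
    rw [le_div_iff₀ he3]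
    nlinarith [mul_le_mul_of_nonneg_left h6 (sq_nonneg ν), mul_pos (pow_pos hν 2) he3]
  have h8 : ν ≤ 1 + 1 / e ^ 3 := by nlinarith [sq_nonneg (ν - 1)]
  have h9 : ch a b + ch b c + ch a c ≤ 3 * B := by linarith [hB a b, hB b c, hB a c]
  exact mul_le_mul h8 h9 (by positivity) (by positivity)

theorem continuous_cosh : Continuous fun p : UpperHalfSpace3 => coshDist3 p o3 := by
  unfold coshDist3
  refine continuous_const.add (Continuous.div (by fun_prop) (by fun_prop) fun p => ?_)
  have := p.2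
  have := o3.2
  positivity

theorem isCompact_ball (M : ℝ) : IsCompact {p : UpperHalfSpace3 | coshDist3 p o3 ≤ M} := by
  by_cases hM : M < 1
  · convert isCompact_empty
    refine eq_empty_of_forall_notMem fun p hp => ?_
    have hp' : coshDist3 p o3 ≤ M := hp
    have := p.2
    have := o3.2
    have : 0 ≤ ‖p.1 - o3.1‖ ^ 2 / (2 * p.1 2 * o3.1 2) := by positivity
    unfold coshDist3 at hp'
    linarith
  push Not at hM
  set C : Set (EuclideanSpace ℝ (Fin 3)) :=
    Metric.closedBall 0 (2 * M) ∩ {x | 1 / (2 * M) ≤ x 2} with hC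
  have hCc : IsCompact C :=
    (isCompact_closedBall _ _).inter_right (isClosed_le continuous_const (by fun_prop))
  have hK : IsCompact ((Subtype.val : UpperHalfSpace3 → _) ⁻¹' C) := by
    refine Topology.IsInducing.subtypeVal.isCompact_preimage' hCc fun x hx => ?_
    have : 0 < x 2 := lt_of_lt_of_le (by positivity) hx.2
    exact ⟨⟨x, this⟩, rfl⟩
  refine hK.of_isClosed_subset (isClosed_le continuous_cosh continuous_const) fun p hp => ?_
  have hp' : coshDist3 p o3 ≤ M := hp
  have ht := p.2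
  rw [cosh_eq, io_o3, lf_e0] at hp'
  simp only [io] at hp'
  have h1 : p.1 0 ^ 2 + p.1 1 ^ 2 + p.1 2 ^ 2 + 1 ≤ 2 * M * p.1 2 := by
    rw [← add_div, div_div, div_le_iff₀ (by positivity)] at hp'
    linarith
  refine ⟨?_, ?_⟩
  · rw [mem_closedBall_zero_iff]
    have h2 : ‖p.1‖ ^ 2 = p.1 0 ^ 2 + p.1 1 ^ 2 + p.1 2 ^ 2 := by
      rw [EuclideanSpace.real_norm_sq_eq, Fin.sum_univ_three]
    have h3 : p.1 2 ≤ 2 * M := by nlinarith [sq_nonneg (p.1 0), sq_nonneg (p.1 1)]
    refine (abs_le_of_sq_le_sq' ?_ (by positivity)).2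
    nlinarith
  · change 1 / (2 * M) ≤ p.1 2
    rw [div_le_iff₀ (by positivity)]
    nlinarith [sq_nonneg (p.1 0), sq_nonneg (p.1 1), sq_nonneg (p.1 2)]

end Crest.Agent.R193.H
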