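import Mathlib
import Crest.Prelude.Def_HyperbolicThreeSpace
import Crest.Agent.R193.H2
import Crest.Agent.R193.Defs

/-!
Row 193, block [H]: an action on a compact metric space which is proper and cocompact on triples
and conformal in a global chart extends to a geometric action on hyperbolic three-space.
-/

set_option autoImplicit false

open Filter Topology Set OnePoint
open Crest.HyperbolicSpace

namespace Crest.Agent.R193

namespace H

/-- Version of `hblock` for a homeomorphism with the Riemann sphere. -/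
theorem hblock_sphere {G Z : Type} [Group G] [MetricSpace Z] [CompactSpace Z] [MulAction G Z]
    (hprop : ∀ e : ℝ, 0 < e → {g : G | ∃ a b c : Z,
      (e ≤ dist a b ∧ e ≤ dist b c ∧ e ≤ dist a c) ∧
      (e ≤ dist (g • a) (g • b) ∧ e ≤ dist (g • b) (g • c) ∧ e ≤ dist (g • a) (g • c))}.Finite)
    (hcoc : ∃ e : ℝ, 0 < e ∧ ∀ a b c : Z, a ≠ b → b ≠ c → a ≠ c → ∃ g : G,
      e ≤ dist (g • a) (g • b) ∧ e ≤ dist (g • b) (g • c) ∧ e ≤ dist (g • a) (g • c))
    (Φ : OnePoint ℂ ≃ₜ Z) (hL : ∀ g : G, Lor fun ξ => Φ.symm (g • Φ ξ)) :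
    ∃ ρ : G →* isometryGroup3,
      (∀ K : Set UpperHalfSpace3, IsCompact K →
        Set.Finite {g : G | ∃ x ∈ K, (ρ g : Equiv.Perm UpperHalfSpace3) x ∈ K}) ∧
      (∃ K : Set UpperHalfSpace3, IsCompact K ∧
        ∀ x : UpperHalfSpace3, ∃ g : G, (ρ g : Equiv.Perm UpperHalfSpace3) x ∈ K) ∧
      Finite ρ.ker := by
  choose F hFi hFc using fun g => (hL g).exists_ext
  have hone : ∀ p, F 1 p = p := by
    intro p
    obtain ⟨a, b, c, h⟩ := exists_isCen p
    have := hFc 1 p a b c h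
    simp only [one_smul, Homeomorph.symm_apply_apply] at this
    exact this.unique h
  have hmul : ∀ g h p, F (g * h) p = F g (F h p) := by
    intro g h p
    obtain ⟨a, b, c, hc⟩ := exists_isCen p
    have h1 := hFc (g * h) p a b c hc
    have h2 := hFc g _ _ _ _ (hFc h p a b c hc)
    simp only [Homeomorph.apply_symm_apply, ← mul_smul] at h2
    exact h1.unique h2
  let ρ0 : G →* Equiv.Perm UpperHalfSpace3 :=
    { toFun := fun g =>
        { toFun := F g
          invFun := F g⁻¹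
          left_inv := fun p => by rw [← hmul, inv_mul_cancel, hone]
          right_inv := fun p => by rw [← hmul, mul_inv_cancel, hone] }
      map_one' := Equiv.ext hone
      map_mul' := fun g h => Equiv.ext (hmul g h) }
  let ρ : G →* isometryGroup3 := ρ0.codRestrict isometryGroup3 fun g => hFi g
  have hρ : ∀ g x, (ρ g : Equiv.Perm UpperHalfSpace3) x = F g x := fun g x => rfl
  -- chordal versus given metric
  set δ : Z × Z → ℝ := fun q => ch (Φ.symm q.1) (Φ.symm q.2) with hδ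
  have hδc : Continuous δ :=
    continuous_ch.comp ((Φ.symm.continuous.comp continuous_fst).prodMk
      (Φ.symm.continuous.comp continuous_snd))
  have hcmp : ∀ (u v : Z × Z → ℝ), Continuous u → Continuous v → ∀ e : ℝ,
      (∀ q, e ≤ u q → 0 < v q) → ∃ e' : ℝ, 0 < e' ∧ ∀ q, e ≤ u q → e' ≤ v q := by
    intro u v hu hv e h
    have hK : IsCompact {q | e ≤ u q} := (isClosed_le continuous_const hu).isCompact
    obtain ⟨e', he', h'⟩ := hK.exists_forall_le' hv.continuousOn (a := 0) fun q hq => h q hq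
    exact ⟨e', he', fun q hq => h' q hq⟩
  have hdc : Continuous fun q : Z × Z => dist q.1 q.2 := continuous_dist
  have hprop' : ∀ K : Set UpperHalfSpace3, IsCompact K →
      Set.Finite {g : G | ∃ x ∈ K, (ρ g : Equiv.Perm UpperHalfSpace3) x ∈ K} := by
    intro K hK
    obtain ⟨M0, hM0⟩ := hK.bddAbove_image continuous_cosh.continuousOn
    set M := max M0 1 with hM
    have hMK : ∀ x ∈ K, coshDist3 x o3 ≤ M := fun x hx =>
      (hM0 (mem_image_of_mem _ hx)).trans (le_max_left _ _)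
    have hM1 : 0 < M := lt_of_lt_of_le one_pos (le_max_right _ _)
    have he0 : 0 < 1 / (6 * M ^ 2) := by positivity
    obtain ⟨e, he, hee⟩ := hcmp δ _ hδc hdc (1 / (6 * M ^ 2)) fun q hq => by
      refine dist_pos.2 fun h => ?_
      simp only [hδ, h, ch_self] at hq
      linarith
    refine (hprop e he).subset ?_
    rintro g ⟨x, hx, hgx⟩
    obtain ⟨a, b, c, hc⟩ := exists_isCen x
    obtain ⟨s1, s2, s3⟩ := hc.sep (hMK x hx)
    obtain ⟨t1, t2, t3⟩ := (hFc g x a b c hc).sep (hMK _ hgx)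
    refine ⟨Φ a, Φ b, Φ c, ⟨hee (Φ a, Φ b) ?_, hee (Φ b, Φ c) ?_, hee (Φ a, Φ c) ?_⟩,
      hee (g • Φ a, g • Φ b) t1, hee (g • Φ b, g • Φ c) t2, hee (g • Φ a, g • Φ c) t3⟩
    · simpa [hδ] using s1
    · simpa [hδ] using s2
    · simpa [hδ] using s3
  refine ⟨ρ, hprop', ?_, ?_⟩
  · obtain ⟨e, he, hcoc⟩ := hcoc
    obtain ⟨e', he', hee⟩ := hcmp _ δ hdc hδc e fun q hq =>
      ch_pos fun h => (dist_pos.1 (he.trans_le hq)) (Φ.symm.injective h)
    obtain ⟨B, hB⟩ := (isCompact_univ (X := OnePoint ℂ × OnePoint ℂ)).bddAbove_image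
      continuous_ch.continuousOn
    have hB' : ∀ x y, ch x y ≤ B := fun x y => hB ⟨(x, y), mem_univ _, rfl⟩
    refine ⟨_, isCompact_ball ((1 + 1 / e' ^ 3) * (3 * B)), fun x => ?_⟩
    obtain ⟨a, b, c, hc⟩ := exists_isCen x
    obtain ⟨g, h1, h2, h3⟩ := hcoc (Φ a) (Φ b) (Φ c) (Φ.injective.ne hc.1)
      (Φ.injective.ne hc.2.1) (Φ.injective.ne hc.2.2.1)
    exact ⟨g, (hFc g x a b c hc).bdd he' (hee (g • Φ a, g • Φ b) h1) (hee (g • Φ b, g • Φ c) h2)
      (hee (g • Φ a, g • Φ c) h3) hB'⟩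
  · have h := hprop' {o3} isCompact_singleton
    refine Set.Finite.to_subtype (s := (ρ.ker : Set G)) (h.subset fun g hg => ⟨o3, rfl, ?_⟩)
    have : ρ g = 1 := hg
    rw [this]
    rfl

end H

/-- Block [H], unbundled. -/
theorem hblock_aux {G Z : Type} [Group G] [MetricSpace Z] [CompactSpace Z] [MulAction G Z]
    (hcont : ∀ g : G, Continuous fun z : Z => g • z)
    (hprop : ∀ e : ℝ, 0 < e → {g : G | ∃ a b c : Z,
      (e ≤ dist a b ∧ e ≤ dist b c ∧ e ≤ dist a c) ∧
      (e ≤ dist (g • a) (g • b) ∧ e ≤ dist (g • b) (g • c) ∧ e ≤ dist (g • a) (g • c))}.Finite)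
    (hcoc : ∃ e : ℝ, 0 < e ∧ ∀ a b c : Z, a ≠ b → b ≠ c → a ≠ c → ∃ g : G,
      e ≤ dist (g • a) (g • b) ∧ e ≤ dist (g • b) (g • c) ∧ e ≤ dist (g • a) (g • c))
    (η : Z) (k : ℂ → Z) (hk : Topology.IsEmbedding k) (hr : Set.range k = {η}ᶜ)
    (hconf : ∀ g : G, ∃ f : ℂ → ℂ, (∀ z, g • k z ≠ η → k (f z) = g • k z) ∧
      ∀ z, g • k z ≠ η → AnalyticAt ℂ f z ∨ AnalyticAt ℂ (fun w => (starRingEnd ℂ) (f w)) z) :
    ∃ ρ : G →* isometryGroup3,
      (∀ K : Set UpperHalfSpace3, IsCompact K →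
        Set.Finite {g : G | ∃ x ∈ K, (ρ g : Equiv.Perm UpperHalfSpace3) x ∈ K}) ∧
      (∃ K : Set UpperHalfSpace3, IsCompact K ∧
        ∀ x : UpperHalfSpace3, ∃ g : G, (ρ g : Equiv.Perm UpperHalfSpace3) x ∈ K) ∧
      Finite ρ.ker := by
  set Φ : OnePoint ℂ ≃ₜ Z := OnePoint.equivOfIsEmbeddingOfRangeEq η k hk hr with hΦ
  have h1 : ∀ z : ℂ, Φ z = k z := fun z => rfl
  have h2 : Φ ∞ = η := rfl
  refine H.hblock_sphere hprop hcoc Φ fun g => ?_
  obtain ⟨f, hf, hd⟩ := hconf g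
  have hne : ∀ z : ℂ, Φ.symm (g • Φ z) ≠ ∞ → g • k z ≠ η := by
    intro z hz h
    exact hz (by rw [h1, h, ← h2, Homeomorph.symm_apply_apply])
  refine H.lor_of_conf _ (Φ.symm.continuous.comp ((hcont g).comp Φ.continuous))
    (Φ.symm.injective.comp ((MulAction.injective g).comp Φ.injective)) f (fun z hz => ?_)
    fun z hz => hd z (hne z hz)
  rw [h1, ← hf z (hne z hz), ← h1, Homeomorph.symm_apply_apply]

/-- **Block [H].** -/
theorem hblock : HStmt := fun _ _ _ _ _ _ hc hp hco η k hk hr hconf =>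
  hblock_aux hc hp hco η k hk hr hconf

end Crest.Agent.R193
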