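import Crest.Agent.R193.VisEx2
import Crest.Agent.R193.VisProp

/-! Row 193, block [Z1]: the topology of the visual metric and `ZExStmt`. -/

set_option autoImplicit false

namespace Crest.Agent.R193

open Crest.GroupTheory Filter Topology

namespace HypD

variable {G : Type} [Group G] (D : HypD G)

theorem product_big (N : ℕ) : ∃ ε : ℝ, 0 < ε ∧ ∀ ξ η : D.Bd, dist η ξ < ε →
    ((N : ℝ) : EReal) < CayleyBoundary.product (S := (D.S : Set G)) ξ η := by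
  have hp := Real.rpow_pos_of_pos D.a_pos (-((N : ℝ) + 1))
  refine ⟨D.a ^ (-((N : ℝ) + 1)) / 2, by positivity, fun ξ η h => ?_⟩
  have h1 : D.lim (D.r ξ) (D.r η) < D.a ^ (-((N : ℝ) + 1)) := by
    have := D.lim_le_dist ξ η
    rw [dist_comm] at h; linarith
  have h2 := ((D.good_r ξ).tendsto (D.good_r η)).eventually (gt_mem_nhds h1)
  have h3 : (((N : ℝ) + 1 : ℝ) : EReal) ≤ CayleyRay.productLiminf (D.rayOf ξ) (D.rayOf η) := by
    refine le_liminf_of_le (by isBoundedDefault) ?_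
    filter_upwards [h2] with n hn
    exact EReal.coe_le_coe_iff.2 (D.lt_of_e_lt hn).le
  refine lt_of_lt_of_le (lt_of_lt_of_le (EReal.coe_lt_coe_iff.2 (lt_add_one _)) h3) ?_
  exact le_iSup₂_of_le (f := fun (γ : {γ : CayleyRay (D.S : Set G) // Quot.mk _ γ = ξ})
    (γ' : {γ' : CayleyRay (D.S : Set G) // Quot.mk _ γ' = η}) => CayleyRay.productLiminf γ.1 γ'.1)
    ⟨D.rayOf ξ, D.mk_rayOf ξ⟩ ⟨D.rayOf η, D.mk_rayOf η⟩ le_rfl

theorem dist_small {ε : ℝ} (hε : 0 < ε) : ∃ N : ℕ, ∀ ξ η : D.Bd,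
    ((N : ℝ) : EReal) < CayleyBoundary.product (S := (D.S : Set G)) ξ η → dist η ξ < ε := by
  obtain ⟨N, hN⟩ := pow_unbounded_of_one_lt (2 / ε) D.one_lt_a
  refine ⟨N, fun ξ η h => ?_⟩
  obtain ⟨γ, h⟩ := lt_iSup_iff.1 h
  obtain ⟨γ', h⟩ := lt_iSup_iff.1 h
  have h1 := eventually_lt_of_lt_liminf h
  have h2 : D.lim γ.1.toFun γ'.1.toFun ≤ D.a ^ (-(N : ℝ)) := by
    obtain ⟨n, hn⟩ := h1.exists
    exact (D.lim_le _ _ n).trans (D.e_le_of_le (EReal.coe_lt_coe_iff.1 hn).le)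
  have h3 := D.cmp (Or.inr (D.far_r γ.2)) (Or.inr (D.far_r γ'.2))
    ((D.good_ray γ.1).tendsto (D.good_ray γ'.1)) ((D.good_r ξ).tendsto (D.good_r η))
  have h4 := D.dist_le_lim ξ η
  rw [Real.rpow_neg D.a_pos.le, Real.rpow_natCast] at h2
  have hp := pow_pos D.a_pos N
  have h5 : 2 * (D.a ^ N)⁻¹ < ε := by
    rw [div_lt_iff₀ hε] at hN
    rw [← div_eq_mul_inv, div_lt_iff₀ hp]; linarith
  rw [dist_comm]; linarith

/-- the visual metric induces the topology of the statement -/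
def homeo : D.Bd ≃ₜ CayleyBoundary (D.S : Set G) where
  toEquiv := Equiv.refl _
  continuous_toFun := ⟨fun U hU => Metric.isOpen_iff.2 fun ξ hξ => by
    obtain ⟨N, hN⟩ := hU ξ hξ
    obtain ⟨ε, hε, h⟩ := D.product_big N
    exact ⟨ε, hε, fun η hη => hN η (h ξ η hη)⟩⟩
  continuous_invFun := ⟨fun U hU ξ hξ => by
    obtain ⟨ε, hε, h⟩ := Metric.isOpen_iff.1 hU ξ hξ
    obtain ⟨N, hN⟩ := D.dist_small hε
    exact ⟨N, fun η hη => h (hN ξ η hη)⟩⟩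

/-- `a^{-(g|ξ)}` -/
noncomputable def e1 (g : G) (ξ : D.Bd) : ℝ := D.lim (fun _ => g) (D.r ξ)

noncomputable def e2 (ξ η : D.Bd) : ℝ := D.lim (D.r ξ) (D.r η)

theorem P1 (g : G) (ξ η : D.Bd) :
    D.e2 (g⁻¹ • ξ) (g⁻¹ • η) * (D.e1 g ξ * D.e1 g η) ≤ 2 * (D.e g g * D.e2 ξ η) ∧
    D.e g g * D.e2 ξ η ≤ 2 * (D.e2 (g⁻¹ • ξ) (g⁻¹ • η) * (D.e1 g ξ * D.e1 g η)) :=
  D.lim_change g (D.good_r _) (D.good_r _) (D.good_r _) (D.good_r _) (Or.inr (D.far_smul _ _))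
    (Or.inr (D.far_smul _ _))

theorem P2 (g h : G) (ξ : D.Bd) :
    D.e1 (g⁻¹ * h) (g⁻¹ • ξ) * (D.e g h * D.e1 g ξ) ≤ 2 * (D.e g g * D.e1 h ξ) ∧
    D.e g g * D.e1 h ξ ≤ 2 * (D.e1 (g⁻¹ * h) (g⁻¹ • ξ) * (D.e g h * D.e1 g ξ)) := by
  have := D.lim_change g (D.good_const h) (D.good_r ξ) (D.good_const _) (D.good_r _) (Or.inl rfl)
    (Or.inr (D.far_smul _ _))
  rwa [D.lim_const] at this

theorem e_le_e1 (g : G) (ξ : D.Bd) : D.e g g ≤ D.e1 g ξ := D.e_self_le_lim _ _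

theorem e1_pos (g : G) (ξ : D.Bd) : 0 < D.e1 g ξ := (D.e_pos g g).trans_le (D.e_le_e1 g ξ)

theorem ultra2 {x y z : ℕ → G} (hx : D.Good x) (hy : D.Good y) (hz : D.Good z) {t : ℝ}
    (h1 : D.lim x y ≤ t) (h2 : D.lim y z ≤ t) : D.lim x z ≤ 2 * t := by
  have h3 := D.lim_ultra hx hy hz
  have h4 := max_le h1 h2
  have h5 : 0 ≤ max (D.lim x y) (D.lim y z) := (D.lim_nonneg _ _).trans (le_max_left _ _)
  nlinarith [D.K_le, D.one_le_K]

theorem U1 (g : G) (ξ η : D.Bd) {t : ℝ} (h1 : D.e1 g ξ ≤ t) (h2 : D.e1 g η ≤ t) :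
    D.e2 ξ η ≤ 2 * t :=
  D.ultra2 (D.good_r ξ) (D.good_const g) (D.good_r η) (by rwa [D.lim_comm]) h2

theorem U2 (g : G) (ξ η : D.Bd) {t : ℝ} (h1 : D.e1 g η ≤ t) (h2 : D.e2 η ξ ≤ t) :
    D.e1 g ξ ≤ 2 * t :=
  D.ultra2 (D.good_const g) (D.good_r η) (D.good_r ξ) h1 h2

theorem U3 (g h : G) (ξ : D.Bd) {t : ℝ} (h1 : D.e g h ≤ t) (h2 : D.e1 h ξ ≤ t) :
    D.e1 g ξ ≤ 2 * t :=
  D.ultra2 (D.good_const g) (D.good_const h) (D.good_r ξ) (by rwa [D.lim_const]) h2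

theorem U4 (g h : G) (ξ : D.Bd) {t : ℝ} (h1 : D.e1 g ξ ≤ t) (h2 : D.e1 h ξ ≤ t) :
    D.e g h ≤ 2 * t := by
  rw [← D.lim_const]
  exact D.ultra2 (D.good_const g) (D.good_r ξ) (D.good_const h) h1 (by rwa [D.lim_comm])

theorem exists_ctr [Nontrivial D.Bd] :
    ∃ C0 : ℝ, 1 ≤ C0 ∧ ∀ g : G, ∃ ξ : D.Bd, D.e1 g ξ ≤ C0 * D.e g g := by
  obtain ⟨p, q, hpq⟩ := exists_pair_ne D.Bd
  have h0 : 0 < D.e2 p q := (dist_pos.2 hpq).trans_le (D.dist_le_lim p q)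
  have h1 : D.e2 p q ≤ 1 := D.lim_le_one _ _
  refine ⟨4 / D.e2 p q, by rw [le_div_iff₀ h0]; linarith, fun g => ?_⟩
  have h2 := (D.P1 g (g • p) (g • q)).1
  rw [inv_smul_smul, inv_smul_smul] at h2
  have hp := D.e1_pos g (g • p)
  have hq := D.e1_pos g (g • q)
  have hg := D.e_pos g g
  rcases le_total (D.e1 g (g • p)) (D.e1 g (g • q)) with h | h
  · refine ⟨g • p, ?_⟩
    have h3 := mul_le_mul_of_nonneg_left (D.U1 g _ _ h le_rfl) hg.le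
    rw [div_mul_eq_mul_div, le_div_iff₀ h0]
    refine le_of_mul_le_mul_right ?_ hq
    nlinarith
  · refine ⟨g • q, ?_⟩
    have h3 := mul_le_mul_of_nonneg_left (D.U1 g _ _ le_rfl h) hg.le
    rw [div_mul_eq_mul_div, le_div_iff₀ h0]
    refine le_of_mul_le_mul_right ?_ hp
    nlinarith

theorem aux_u {B x y z w x' y' z' w' s : ℝ} (hB : 0 ≤ B) (hy : 0 ≤ y) (hz : 0 ≤ z)
    (hx' : 0 ≤ x') (hy' : 0 ≤ y') (hs : 0 ≤ s)
    (h1 : x ≤ B * x') (h2 : y ≤ B * y') (h3 : z ≤ B * z') (h4 : w' ≤ B * w)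
    (h : x' * (y' * z') ≤ 2 * (s * w')) : x * (y * z) ≤ 2 * B ^ 4 * (s * w) := by
  calc x * (y * z) ≤ (B * x') * ((B * y') * (B * z')) := by gcongr
    _ = B ^ 3 * (x' * (y' * z')) := by ring
    _ ≤ B ^ 3 * (2 * (s * (B * w))) :=
      mul_le_mul_of_nonneg_left (h.trans (by gcongr)) (by positivity)
    _ = _ := by ring

theorem aux_l {B x y z w x' y' z' w' s : ℝ} (hB : 0 ≤ B) (hy : 0 ≤ y') (hz : 0 ≤ z')
    (hx' : 0 ≤ x) (hy' : 0 ≤ y) (hs : 0 ≤ s)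
    (h1 : x' ≤ B * x) (h2 : y' ≤ B * y) (h3 : z' ≤ B * z) (h4 : w ≤ B * w')
    (h : s * w' ≤ 2 * (x' * (y' * z'))) : s * w ≤ 2 * B ^ 4 * (x * (y * z)) := by
  calc s * w ≤ s * (B * w') := by gcongr
    _ = B * (s * w') := by ring
    _ ≤ B * (2 * ((B * x) * ((B * y) * (B * z)))) :=
      mul_le_mul_of_nonneg_left (h.trans (by gcongr)) hB
    _ = _ := by ring

theorem exists_visual [Nontrivial D.Bd] : Nonempty (Visual G D.Bd) := by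
  obtain ⟨C0, hC0, hc⟩ := D.exists_ctr
  choose ctr hctr using hc
  set B := 8 * C0 with hB
  have hB1 : 1 ≤ B := by linarith
  have hB0 : 0 ≤ B := by linarith
  let W : VData G D.Bd := ⟨D.S, D.a, 2 * B ^ 4, ctr, D.r⟩
  have hsz : ∀ g, W.sz g = D.e g g := fun g => (D.e_self g).symm
  have d1 : ∀ ξ η : D.Bd, dist ξ η ≤ B * D.e2 ξ η := fun ξ η =>
    (D.dist_le_lim ξ η).trans (le_mul_of_one_le_left (D.lim_nonneg _ _) hB1)
  have d2 : ∀ ξ η : D.Bd, D.e2 ξ η ≤ B * dist ξ η := fun ξ η =>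
    (D.lim_le_dist ξ η).trans (mul_le_mul_of_nonneg_right (by linarith) dist_nonneg)
  have r0 : ∀ g ξ, 0 < W.rho g ξ := fun g ξ =>
    (D.e_pos g g).trans_le (hsz g ▸ le_max_left _ _)
  have r1 : ∀ g ξ, W.rho g ξ ≤ B * D.e1 g ξ := by
    intro g ξ
    have h1 := D.e_le_e1 g ξ
    have h2 := D.e1_pos g ξ
    refine max_le (by rw [hsz]; nlinarith) ((D.dist_le_lim _ _).trans ?_)
    have h3 := D.U1 g ξ (ctr g) (t := C0 * D.e1 g ξ) (by nlinarith) ((hctr g).trans (by gcongr))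
    change D.e2 ξ (ctr g) ≤ _
    nlinarith
  have r2' : ∀ g ξ, D.e1 g ξ ≤ 4 * C0 * W.rho g ξ := by
    intro g ξ
    have h1 : D.e g g ≤ W.rho g ξ := hsz g ▸ le_max_left _ _
    have h2 : dist ξ (ctr g) ≤ W.rho g ξ := le_max_right _ _
    have h3 := D.lim_le_dist (ctr g) ξ
    have h4 := r0 g ξ
    rw [dist_comm] at h3
    have := D.U2 g ξ (ctr g) (t := 2 * C0 * W.rho g ξ) ((hctr g).trans (by nlinarith))
      (h3.trans (by nlinarith))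
    linarith
  have r2 : ∀ g ξ, D.e1 g ξ ≤ B * W.rho g ξ := fun g ξ =>
    (r2' g ξ).trans (by nlinarith [r0 g ξ])
  have s0 : ∀ g h, 0 < W.rho2 g h := fun g h =>
    (D.e_pos g g).trans_le (hsz g ▸ (le_max_left _ _).trans (le_max_left _ _))
  have s1 : ∀ g h, W.rho2 g h ≤ B * D.e g h := by
    intro g h
    have h1 := D.e_self_le g h
    have h2 := D.e_self_le h g
    have h3 := D.e_pos g h
    rw [D.e_comm h g] at h2
    refine max_le (max_le (by rw [hsz]; nlinarith) (by rw [hsz]; nlinarith))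
      ((D.dist_le_lim _ _).trans ?_)
    have h4 := D.U3 g h (ctr h) (t := C0 * D.e g h) (by nlinarith) ((hctr h).trans (by gcongr))
    have h5 := D.U1 g (ctr g) (ctr h) (t := 2 * (C0 * D.e g h)) ((hctr g).trans (by nlinarith)) h4
    change D.e2 (ctr g) (ctr h) ≤ _
    nlinarith
  have s2 : ∀ g h, D.e g h ≤ B * W.rho2 g h := by
    intro g h
    have h1 : D.e g g ≤ W.rho2 g h := hsz g ▸ (le_max_left _ _).trans (le_max_left _ _)
    have h2 : W.rho h (ctr g) ≤ W.rho2 g h :=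
      max_le ((le_max_right _ _).trans (le_max_left _ _)) (le_max_right _ _)
    have h3 := s0 g h
    have := D.U4 g h (ctr g) (t := 4 * C0 * W.rho2 g h) ((hctr g).trans (by nlinarith))
      ((r2' h _).trans (by gcongr))
    linarith
  have hB4 : 1 ≤ B ^ 4 := one_le_pow₀ hB1
  refine ⟨⟨W, D.hS, D.one_lt_a, by change 1 ≤ 2 * B ^ 4; linarith,
    fun ξ η => (D.dist_le_lim _ _).trans (D.lim_le_one _ _), fun g ξ η => ?_, fun g ξ η => ?_,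
    fun g h ξ => ?_, fun g h ξ => ?_, fun g h => ?_, fun g h => ?_,
    fun ξ => (D.rayOf ξ).map_zero, fun ξ m n h => D.ray_len (D.rayOf ξ) h, fun ξ n => ?_⟩⟩
  · rw [hsz]
    exact aux_u hB0 (r0 _ _).le (r0 _ _).le (D.lim_nonneg _ _) (D.e1_pos _ _).le (D.e_pos _ _).le
      (d1 _ _) (r1 _ _) (r1 _ _) (d2 _ _) (D.P1 g ξ η).1
  · rw [hsz]
    exact aux_l hB0 (D.e1_pos _ _).le (D.e1_pos _ _).le dist_nonneg (r0 _ _).le (D.e_pos _ _).le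
      (d2 _ _) (r2 _ _) (r2 _ _) (d1 _ _) (D.P1 g ξ η).2
  · rw [hsz]
    exact aux_u hB0 (s0 _ _).le (r0 _ _).le (D.e1_pos _ _).le (D.e_pos _ _).le (D.e_pos _ _).le
      (r1 _ _) (s1 _ _) (r1 _ _) (r2 _ _) (D.P2 g h ξ).1
  · rw [hsz]
    exact aux_l hB0 (D.e_pos _ _).le (D.e1_pos _ _).le (r0 _ _).le (s0 _ _).le (D.e_pos _ _).le
      (r2 _ _) (s2 _ _) (r2 _ _) (r1 _ _) (D.P2 g h ξ).2
  · rw [hsz, hsz, hsz, sq]
    have := D.e_change g h h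
    have h1 := D.e_pos (g⁻¹ * h) (g⁻¹ * h)
    have h2 := D.e_pos h h
    exact aux_u hB0 (s0 _ _).le (s0 _ _).le h1.le (D.e_pos _ _).le (D.e_pos _ _).le
      (le_mul_of_one_le_left h1.le hB1) (s1 _ _) (s1 _ _) (le_mul_of_one_le_left h2.le hB1)
      (by nlinarith [mul_pos (D.e_pos g g) h2])
  · rw [hsz, hsz, hsz, sq]
    have := D.e_change g h h
    have h1 := D.e_pos (g⁻¹ * h) (g⁻¹ * h)
    have h2 := D.e_pos h h
    exact aux_l hB0 (D.e_pos _ _).le (D.e_pos _ _).le h1.le (s0 _ _).le (D.e_pos _ _).le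
      (le_mul_of_one_le_left h1.le hB1) (s2 _ _) (s2 _ _) (le_mul_of_one_le_left h2.le hB1)
      (by nlinarith [mul_pos (D.e_pos g g) h2])
  · have h1 : D.e1 (D.r ξ n) ξ ≤ (D.a ^ n)⁻¹ := by
      refine (D.lim_le _ _ n).trans ?_
      rw [D.e_self, show D.len (D.r ξ n) = n from D.len_ray _ n]
    have h2 : dist ξ (ctr (D.r ξ n)) ≤ W.rho (D.r ξ n) ξ := le_max_right _ _
    have h3 := r1 (D.r ξ n) ξ
    have h4 : 0 < (D.a ^ n)⁻¹ := inv_pos.2 (pow_pos D.a_pos n)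
    have h5 : B ≤ B ^ 4 := le_self_pow₀ hB1 (by norm_num)
    change dist ξ (ctr (D.r ξ n)) ≤ 2 * B ^ 4 * (D.a ^ n)⁻¹
    have h6 := mul_le_mul_of_nonneg_left h1 hB0
    nlinarith

end HypD

theorem zEx : ZExStmt := by
  rintro G _ S hS ⟨δ, hδ0, hδ⟩ ⟨Φ⟩
  let D : HypD G := ⟨S, hS, δ, hδ0, hδ⟩
  have hZ : Nonempty (D.Bd ≃ₜ S2) := ⟨D.homeo.trans Φ⟩
  haveI := nontrivial_of_S2 hZ
  exact ⟨D.Bd, inferInstance, inferInstance, D.exists_visual, hZ⟩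

end Crest.Agent.R193
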