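import Crest.Agent.R193.EA3
import Crest.Agent.R193.EHol
import Crest.Agent.R193.EGlob
import Crest.Agent.R193.EGeo
import Crest.Agent.R193.VisEx
import Crest.Agent.R193.VisProp
import Crest.Agent.R193.Bridge
import Crest.Agent.R193.H

/-! Row 193, endgame [E]: assembly. -/

set_option autoImplicit false

namespace Crest.Agent.R193.E

open Crest.GroupTheory Crest.HyperbolicSpace

/-- **Block [E]** (replaces `[U]` and `[T]`). -/
theorem eblock {G Z : Type} [Group G] [MetricSpace Z] [MulAction G Z] (V : Visual G Z)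
    (hM : MGeo Z) : Out G Z := by
  have : CompactSpace Z := hM.sph.some.symm.compactSpace
  letI : MeasurableSpace Z := borel Z
  have : BorelSpace Z := ⟨rfl⟩
  obtain ⟨D⟩ := exists_data V hM.sph
  obtain ⟨X⟩ := D.exists_dform hM
  have hG := geo_of_visual V hM.sph
  obtain ⟨U, F, hA⟩ := X.exists_atlas hG
  exact out_of_atlas hG hA

/-- Assembly from the core alone. -/
theorem final_of_core (hC : CStmt)
    (G : Type) [Group G] (S : Finset G) (hS : Subgroup.closure (S : Set G) = ⊤)
    (hδ : ∃ δ : ℝ, 0 ≤ δ ∧ ∀ w x y z : G,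
      min (gromovProduct (S : Set G) w x y) (gromovProduct (S : Set G) w y z) - δ ≤
        gromovProduct (S : Set G) w x z)
    (hB' : Nonempty (CayleyBoundary (S : Set G) ≃ₜ S2)) : Concl G := by
  obtain ⟨Z, iM, iA, ⟨V⟩, hZ⟩ := zEx G S hS hδ hB'
  obtain ⟨hc, hp, hco, -, hd, h1, h2⟩ := zProp G Z V hZ
  have : CompactSpace Z := hZ.some.symm.compactSpace
  obtain ⟨η, k, hk, hr, hconf⟩ :=
    eblock V ⟨hZ, hd, h1, h2, bblock G Z V hZ hd h1 (hC G Z V hZ)⟩
  exact hblock G Z hc hp hco η k hk hr hconf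

end Crest.Agent.R193.E
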