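import Crest.Agent.R193.EBasic

/-! Row 193 [E]: the energy measures. -/

set_option autoImplicit false

open Set Filter Topology MeasureTheory Metric

namespace Crest.Agent.R193.E

section general

variable {Z : Type} [MetricSpace Z] [CompactSpace Z] [MeasurableSpace Z] [BorelSpace Z]

omit [CompactSpace Z] in
theorem helper85_open (μ ν : Measure Z) [IsFiniteMeasure ν]
    {U : Set Z} (hU : IsOpen U) (H : ∀ V : Set Z, IsOpen V → V ⊆ U → μ V ≤ ν V) :
    μ.restrict U ≤ ν.restrict U := by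
  refine Measure.le_iff.2 fun A hA => ?_
  rw [Measure.restrict_apply hA, Measure.restrict_apply hA, (A ∩ U).measure_eq_iInf_isOpen ν]
  refine le_iInf₂ fun V hAV => le_iInf fun hV => ?_
  exact ((measure_mono (subset_inter hAV inter_subset_right)).trans
    (H _ (hV.inter hU) inter_subset_right)).trans (measure_mono inter_subset_left)

/-- comparison of finite measures through continuous test functions supported in an open set:
for `V ⊆ U` open and `K ⊆ V` compact take `h = 1` on `K`, `tsupport h ⊆ V`, `0 ≤ h ≤ 1`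
(Urysohn), so `μ K ≤ ν V`; inner regularity of `μ` on open sets, outer regularity of
`ν.restrict U`. -/
theorem restrict_le_of_integral (μ ν : Measure Z) [IsFiniteMeasure μ] [IsFiniteMeasure ν]
    {U : Set Z} (hU : IsOpen U)
    (H : ∀ h : Z → ℝ, Continuous h → (∀ z, 0 ≤ h z) → tsupport h ⊆ U →
      ∫ z, h z ∂μ ≤ ∫ z, h z ∂ν) : μ.restrict U ≤ ν.restrict U := by
  refine helper85_open μ ν hU fun V hV hVU => ?_
  rw [hV.measure_eq_iSup_isClosed μ]
  refine iSup₂_le fun K hKV => iSup_le fun hK => ?_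
  obtain ⟨f, h1, -, h3, h4⟩ :=
    exists_continuousMap_one_of_isCompact_subset_isOpen hK.isCompact hV hKV
  have hi : ∀ (ρ : Measure Z) [IsFiniteMeasure ρ], Integrable f ρ := fun ρ _ =>
    f.continuous.integrable_of_hasCompactSupport (HasCompactSupport.of_compactSpace _)
  have a1 : μ.real K ≤ ∫ z, f z ∂μ := by
    rw [← integral_indicator_one hK.measurableSet]
    refine integral_mono ((integrable_const 1).indicator hK.measurableSet) (hi μ) fun z => ?_
    by_cases hz : z ∈ K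
    · simp [hz, h1 hz]
    · simp [hz, (h4 z).1]
  have a2 : ∫ z, f z ∂ν ≤ ν.real V := by
    rw [← integral_indicator_one hV.measurableSet]
    refine integral_mono (hi ν) ((integrable_const 1).indicator hV.measurableSet) fun z => ?_
    by_cases hz : z ∈ V
    · simp [hz, (h4 z).2]
    · simp [hz, image_eq_zero_of_notMem_tsupport fun h => hz (h3 h)]
  exact (ENNReal.toReal_le_toReal (measure_ne_top _ _) (measure_ne_top _ _)).1
    (a1.trans ((H f f.continuous (fun z => (h4 z).1) (h3.trans hVU)).trans a2))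

theorem le_of_integral (μ ν : Measure Z) [IsFiniteMeasure μ] [IsFiniteMeasure ν]
    (H : ∀ h : Z → ℝ, Continuous h → (∀ z, 0 ≤ h z) → ∫ z, h z ∂μ ≤ ∫ z, h z ∂ν) : μ ≤ ν := by
  simpa using restrict_le_of_integral μ ν isOpen_univ fun h h1 h2 _ => H h h1 h2

/-- comparison on an open set through open subsets (outer regularity of `ν.restrict U`). -/
theorem restrict_le_of_isOpen (μ ν : Measure Z) [IsFiniteMeasure μ] [IsFiniteMeasure ν]
    {U : Set Z} (hU : IsOpen U) (H : ∀ V : Set Z, IsOpen V → V ⊆ U → μ V ≤ ν V) :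
    μ.restrict U ≤ ν.restrict U := by
  exact helper85_open μ ν hU H

/-- a good open set between a compact and an open set: `thickening δ K` with
`exists_null_frontier_thickening`. -/
theorem exists_good (μ : Measure Z) [IsFiniteMeasure μ] {K V : Set Z} (hK : IsCompact K)
    (hV : IsOpen V) (hKV : K ⊆ V) :
    ∃ O : Set Z, IsOpen O ∧ K ⊆ O ∧ closure O ⊆ V ∧ μ (frontier O) = 0 := by
  obtain ⟨δ, hδ, h⟩ := hK.exists_cthickening_subset_open hV hKV
  obtain ⟨r, hr, h0⟩ := exists_null_frontier_thickening μ K hδ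
  exact ⟨thickening r K, isOpen_thickening, self_subset_thickening hr.1 K,
    ((closure_thickening_subset_cthickening r K).trans (cthickening_mono hr.2.le K)).trans h, h0⟩

/-- bounded overlap: integrate `∑ p, indicator (A p) 1 ≤ N * indicator V 1`. -/
theorem sum_real_le_of_overlap {ι : Type} (μ : Measure Z) [IsFiniteMeasure μ] (P : Finset ι)
    (A : ι → Set Z) (hA : ∀ p ∈ P, MeasurableSet (A p)) {V : Set Z} (hV : MeasurableSet V)
    (hAV : ∀ p ∈ P, A p ⊆ V) (N : ℕ) (hN : ∀ z, {p | p ∈ P ∧ z ∈ A p}.ncard ≤ N) :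
    ∑ p ∈ P, μ.real (A p) ≤ N * μ.real V := by
  classical
  have hi : ∀ p ∈ P, Integrable ((A p).indicator (1 : Z → ℝ)) μ := fun p hp =>
    (integrable_const 1).indicator (hA p hp)
  rw [← integral_indicator_one hV, ← integral_const_mul,
    Finset.sum_congr rfl fun p hp => (integral_indicator_one (hA p hp)).symm,
    ← integral_finsetSum _ hi]
  refine integral_mono (integrable_finsetSum _ hi)
    (((integrable_const 1).indicator hV).const_mul _) fun z => ?_
  by_cases hz : z ∈ V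
  · have := hN z
    rw [show {p | p ∈ P ∧ z ∈ A p} = ↑(P.filter fun p => z ∈ A p) by simp, ncard_coe_finset] at this
    simp only [indicator_apply, Pi.one_apply, Finset.sum_boole, hz, if_true, mul_one]
    exact_mod_cast this
  · simp only [indicator_of_notMem hz, mul_zero]
    exact (Finset.sum_eq_zero fun p hp => indicator_of_notMem (fun h => hz (hAV p hp h)) _).le

end general

namespace DForm

variable {G Z : Type} [Group G] [MetricSpace Z] [CompactSpace Z] [MeasurableSpace Z] [BorelSpace Z]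
  [MulAction G Z] (X : DForm G Z)

private theorem h68_int (μ : Measure Z) [IsFiniteMeasure μ] {h : Z → ℝ} (hh : Continuous h) :
    Integrable h μ :=
  hh.integrable_of_hasCompactSupport (HasCompactSupport.of_compactSpace h)

private theorem h68_ext (μ ν : Measure Z) [IsFiniteMeasure μ] [IsFiniteMeasure ν]
    (H : ∀ h : Z → ℝ, Continuous h → ∫ z, h z ∂μ = ∫ z, h z ∂ν) : μ = ν :=
  le_antisymm (le_of_integral μ ν fun h hh _ => (H h hh).le)
    (le_of_integral ν μ fun h hh _ => (H h hh).ge)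

private theorem h68_BB {h f k : Z → ℝ} (hh : Continuous h) (hf : f ∈ X.Fc) (hk : k ∈ X.Fc)
    (s t : ℝ) : X.B h (s • f + t • k) (s • f + t • k) =
      s ^ 2 * X.B h f f + 2 * s * t * X.B h f k + t ^ 2 * X.B h k k := by
  have h1 := X.Fc.smul_mem s hf
  have h2 := X.Fc.smul_mem t hk
  have h3 := X.Fc.add_mem h1 h2
  rw [X.B_add₂ _ _ _ _ hh h1 h2 h3, X.B_smul₂ _ _ _ _ hh hf h3, X.B_smul₂ _ _ _ _ hh hk h3,
    X.B_add₃ hh hf h1 h2, X.B_add₃ hh hk h1 h2, X.B_smul₃ _ hh hf hf, X.B_smul₃ _ hh hf hk,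
    X.B_smul₃ _ hh hk hf, X.B_smul₃ _ hh hk hk, X.B_symm h k f hh hk hf]
  ring

/-- `B h f f = B h k k` when `tsupport h ⊆ V` (`f - k` is constant on `V`; `local_basic`,
`B h f f - B h k k = B h (f - k) (f + k)`), then `restrict_le_of_integral` twice. -/
theorem Γ_congr {f k : Z → ℝ} (hf : f ∈ X.Fc) (hk : k ∈ X.Fc) {V : Set Z} (hV : IsOpen V) {c : ℝ}
    (H : ∀ z ∈ V, f z = k z + c) : (X.Γ f).restrict V = (X.Γ k).restrict V := by
  have key : ∀ h : Z → ℝ, Continuous h → tsupport h ⊆ V →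
      ∫ z, h z ∂(X.Γ f) = ∫ z, h z ∂(X.Γ k) := by
    intro h hh hs
    have h1 := X.Fc.sub_mem hf hk
    have h2 := X.Fc.add_mem hf hk
    have h0 : X.B h (f - k) (f + k) = 0 :=
      X.local_basic hh h1 h2 hV hs (c := c) fun z hz => by simp [H z hz]
    rw [X.B_sub₂ hh hf hk h2, X.B_add₃ hh hf hf hk, X.B_add₃ hh hk hf hk,
      X.B_symm h k f hh hk hf] at h0
    rw [X.int_Γ f hf h hh, X.int_Γ k hk h hh]
    linarith
  exact le_antisymm (restrict_le_of_integral _ _ hV fun h hh _ hs => (key h hh hs).le)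
    (restrict_le_of_integral _ _ hV fun h hh _ hs => (key h hh hs).ge)

theorem Γ_congr_apply {f k : Z → ℝ} (hf : f ∈ X.Fc) (hk : k ∈ X.Fc) {V : Set Z} (hV : IsOpen V)
    {c : ℝ} (H : ∀ z ∈ V, f z = k z + c) {A : Set Z} (hA : A ⊆ V) : X.Γ f A = X.Γ k A := by
  rw [← Measure.restrict_eq_self (X.Γ f) hA, ← Measure.restrict_eq_self (X.Γ k) hA,
    X.Γ_congr hf hk hV H]

theorem Γ_const (c : ℝ) : X.Γ (fun _ : Z => c) = 0 := by
  refine h68_ext _ _ fun h hh => ?_
  rw [X.int_Γ _ (X.const_mem c) h hh, X.B_const hh (X.const_mem c) c]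
  simp

theorem Γ_eq_zero_of_const {f : Z → ℝ} (hf : f ∈ X.Fc) {V : Set Z} (hV : IsOpen V) {c : ℝ}
    (H : ∀ z ∈ V, f z = c) : X.Γ f V = 0 := by
  rw [X.Γ_congr_apply hf (X.const_mem 0) hV (c := c) (fun z hz => by simp [H z hz]) subset_rfl,
    X.Γ_const]
  rfl

theorem Γ_smul (c : ℝ) {f : Z → ℝ} (hf : f ∈ X.Fc) :
    X.Γ (c • f) = ENNReal.ofReal (c ^ 2) • X.Γ f := by
  have : IsFiniteMeasure (ENNReal.ofReal (c ^ 2) • X.Γ f) :=
    Measure.smul_finite _ ENNReal.ofReal_ne_top
  refine h68_ext _ _ fun h hh => ?_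
  have h1 := X.Fc.smul_mem c hf
  rw [integral_smul_measure, X.int_Γ _ h1 h hh, X.int_Γ _ hf h hh, X.B_smul₂ _ _ _ _ hh hf h1,
    X.B_smul₃ _ hh hf hf, ENNReal.toReal_ofReal (sq_nonneg c), smul_eq_mul]
  ring

theorem Γ_smul_real (c : ℝ) {f : Z → ℝ} (hf : f ∈ X.Fc) (A : Set Z) :
    (X.Γ (c • f)).real A = c ^ 2 * (X.Γ f).real A := by
  rw [X.Γ_smul c hf, measureReal_def, measureReal_def, Measure.smul_apply, smul_eq_mul,
    ENNReal.toReal_mul, ENNReal.toReal_ofReal (sq_nonneg c)]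

/-- parallelogram law -/
theorem Γ_par {f k : Z → ℝ} (hf : f ∈ X.Fc) (hk : k ∈ X.Fc) :
    X.Γ (f + k) + X.Γ (f - k) = (2 : ENNReal) • X.Γ f + (2 : ENNReal) • X.Γ k := by
  have i1 : IsFiniteMeasure ((2 : ENNReal) • X.Γ f) := Measure.smul_finite _ (by simp)
  have i2 : IsFiniteMeasure ((2 : ENNReal) • X.Γ k) := Measure.smul_finite _ (by simp)
  refine h68_ext _ _ fun h hh => ?_
  have e1 := h68_BB X hh hf hk 1 1
  have e2 := h68_BB X hh hf hk 1 (-1)
  rw [one_smul, one_smul] at e1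
  rw [one_smul, neg_one_smul, ← sub_eq_add_neg] at e2
  rw [integral_add_measure (h68_int _ hh) (h68_int _ hh),
    integral_add_measure (h68_int _ hh) (h68_int _ hh), integral_smul_measure,
    integral_smul_measure, X.int_Γ _ (X.Fc.add_mem hf hk) h hh, X.int_Γ _ (X.Fc.sub_mem hf hk) h hh,
    X.int_Γ _ hf h hh, X.int_Γ _ hk h hh, e1, e2]
  simp only [ENNReal.toReal_ofNat, smul_eq_mul]
  ring

/-- `B h (f+k) (f+k) ≤ (1+t) B h f f + (1+1/t) B h k k` for `h ≥ 0`
(from `0 ≤ B h (t f - k) (t f - k)`). -/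
theorem Γ_add_le {f k : Z → ℝ} (hf : f ∈ X.Fc) (hk : k ∈ X.Fc) {t : ℝ} (ht : 0 < t) (A : Set Z) :
    (X.Γ (f + k)).real A ≤ (1 + t) * (X.Γ f).real A + (1 + t⁻¹) * (X.Γ k).real A := by
  have ht' : 0 < t⁻¹ := inv_pos.2 ht
  have i1 : IsFiniteMeasure (ENNReal.ofReal (1 + t) • X.Γ f) :=
    Measure.smul_finite _ ENNReal.ofReal_ne_top
  have i2 : IsFiniteMeasure (ENNReal.ofReal (1 + t⁻¹) • X.Γ k) :=
    Measure.smul_finite _ ENNReal.ofReal_ne_top
  have hle : X.Γ (f + k) ≤ ENNReal.ofReal (1 + t) • X.Γ f + ENNReal.ofReal (1 + t⁻¹) • X.Γ k := by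
    refine le_of_integral _ _ fun h hh h0 => ?_
    have e1 := h68_BB X hh hf hk 1 1
    have e2 := h68_BB X hh hf hk t (-1)
    rw [one_smul, one_smul] at e1
    have e3 := X.B_nonneg hh h0
      (X.Fc.add_mem (X.Fc.smul_mem t hf) (X.Fc.smul_mem (-1 : ℝ) hk))
    rw [e2] at e3
    rw [integral_add_measure (h68_int _ hh) (h68_int _ hh), integral_smul_measure,
      integral_smul_measure, X.int_Γ _ (X.Fc.add_mem hf hk) h hh,
      X.int_Γ _ hf h hh, X.int_Γ _ hk h hh, e1, ENNReal.toReal_ofReal (by linarith),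
      ENNReal.toReal_ofReal (by linarith), smul_eq_mul, smul_eq_mul]
    have e4 := mul_nonneg ht'.le e3
    have e5 : t⁻¹ * (t ^ 2 * X.B h f f + 2 * t * -1 * X.B h f k + (-1) ^ 2 * X.B h k k) =
        t * X.B h f f - 2 * X.B h f k + t⁻¹ * X.B h k k := by
      field_simp
      ring
    rw [e5] at e4
    linarith
  have h1 := ENNReal.toReal_mono (measure_ne_top _ A) (Measure.le_iff'.1 hle A)
  rw [Measure.add_apply, ENNReal.toReal_add (measure_ne_top _ A) (measure_ne_top _ A),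
    Measure.smul_apply, Measure.smul_apply, smul_eq_mul, smul_eq_mul, ENNReal.toReal_mul,
    ENNReal.toReal_mul, ENNReal.toReal_ofReal (by linarith),
    ENNReal.toReal_ofReal (by linarith)] at h1
  exact h1

/-- convergence in energy gives convergence of the energy measure of every set (`Γ_add_le` in both
directions, `(Γ (w n - f)).real A ≤ En (w n - f)`). -/
theorem Γ_tendsto {w : ℕ → Z → ℝ} {f : Z → ℝ} (hw : ∀ n, w n ∈ X.Fc) (hf : f ∈ X.Fc)
    (H : Tendsto (fun n => X.En (w n - f)) atTop (𝓝 0)) (A : Set Z) :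
    Tendsto (fun n => (X.Γ (w n)).real A) atTop (𝓝 ((X.Γ f).real A)) := by
  set a := (X.Γ f).real A with ha
  have ha0 : 0 ≤ a := measureReal_nonneg
  have key : ∀ t : ℝ, 0 < t → ∀ n, |(X.Γ (w n)).real A - a| ≤ t * a + (1 + t⁻¹) * X.En (w n - f) := by
    intro t ht n
    have ht' : 0 < 1 + t⁻¹ := by positivity
    have hd := X.Fc.sub_mem (hw n) hf
    have e0 : (X.Γ (w n - f)).real A ≤ X.En (w n - f) := by
      rw [X.En_eq hd]
      exact measureReal_mono (subset_univ _)
    have e1 := X.Γ_add_le hf hd ht A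
    rw [add_sub_cancel] at e1
    have e2 := X.Γ_add_le (hw n) (X.Fc.smul_mem (-1 : ℝ) hd) ht A
    rw [X.Γ_smul_real (-1) hd, neg_one_smul, neg_sub, add_sub_cancel] at e2
    have e3 := mul_le_mul_of_nonneg_left e0 ht'.le
    have e4 : 0 ≤ (1 + t⁻¹) * (X.Γ (w n - f)).real A := mul_nonneg ht'.le measureReal_nonneg
    have e5 : 0 ≤ t * a := mul_nonneg ht.le ha0
    rw [← ha] at e1 e2
    rw [abs_le]
    refine ⟨?_, by linarith⟩
    rcases le_total a ((X.Γ (w n)).real A) with h | h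
    · linarith
    · have := mul_le_mul_of_nonneg_left h ht.le
      linarith
  rw [Metric.tendsto_atTop]
  intro ε hε
  have ht : 0 < ε / (2 * (a + 1)) := by positivity
  have h1 : ε / (2 * (a + 1)) * a < ε / 2 := by
    rw [div_mul_eq_mul_div, div_lt_div_iff₀ (by positivity) (by positivity)]
    nlinarith
  have h2 := H.const_mul (1 + (ε / (2 * (a + 1)))⁻¹)
  rw [mul_zero] at h2
  obtain ⟨N, hN⟩ := eventually_atTop.1 (h2.eventually (gt_mem_nhds (half_pos hε)))
  refine ⟨N, fun n hn => ?_⟩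
  have h3 := key _ ht n
  have h4 := hN n hn
  rw [Real.dist_eq]
  linarith

/-- `chain1` twice: `B h (φ u) (φ u) = B (h φ'(u)^2) u u`. -/
theorem Γ_comp_le {u : Z → ℝ} (hu : u ∈ X.Fc) {φ : ℝ → ℝ} (hφ : ContDiff ℝ 1 φ)
    (h1 : ∀ t, |deriv φ t| ≤ 1) : X.Γ (fun z => φ (u z)) ≤ X.Γ u := by
  refine le_of_integral _ _ fun h hh h0 => ?_
  have hm := X.comp_mem hu hφ
  have hd : Continuous fun z => deriv φ (u z) := (hφ.continuous_deriv le_rfl).comp (X.cont u hu)
  have hh1 : Continuous fun z => h z * deriv φ (u z) := hh.mul hd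
  have hh2 : Continuous fun z => h z * deriv φ (u z) * deriv φ (u z) := hh1.mul hd
  rw [X.int_Γ _ hm h hh, X.chain1 hu hφ hh hm, X.B_symm _ _ _ hh1 hu hm, X.chain1 hu hφ hh1 hu,
    ← X.int_Γ u hu _ hh2]
  refine integral_mono (h68_int _ hh2) (h68_int _ hh) fun z => ?_
  have e1 : deriv φ (u z) * deriv φ (u z) ≤ 1 := by
    have := abs_le.1 (h1 (u z))
    nlinarith
  have e2 := mul_le_mul_of_nonneg_left e1 (h0 z)
  show h z * deriv φ (u z) * deriv φ (u z) ≤ h z
  linarith

/-- invariance: `(Γ (f ∘ g)).map (g • ·) = Γ f` by `inv` and `le_of_integral`. -/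
theorem Γ_inv (hc : ∀ g : G, Continuous fun z : Z => g • z) (g : G) {f : Z → ℝ} (hf : f ∈ X.Fc)
    {A : Set Z} (hA : MeasurableSet A) :
    X.Γ (fun z => f (g • z)) ((fun z => g • z) ⁻¹' A) = X.Γ f A := by
  have hm := X.inv_mem g f hf
  have hmeas : Measurable fun z : Z => g • z := (hc g).measurable
  have key : (X.Γ (fun z => f (g • z))).map (fun z : Z => g • z) = X.Γ f := by
    refine h68_ext _ _ fun h hh => ?_
    have hh' : Continuous fun z : Z => h (g • z) := hh.comp (hc g)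
    rw [integral_map hmeas.aemeasurable hh.aestronglyMeasurable, X.int_Γ _ hm _ hh',
      X.inv g h f f hh hf hf, X.int_Γ _ hf h hh]
  rw [← key, Measure.map_apply hmeas hA]

/-- zero energy on a connected open set: if `f z < f z'`, small closed discs (images of
`closedBall 0 s` under the charts of `Geo.disc`) around `z`, `z'` are non-trivial continua on which
`f ≤ a < b ≤ f`, and `loewner` gives positive energy. -/
theorem const_of_Γ_zero (hG : Geo G Z) {f : Z → ℝ} (hf : f ∈ X.Fc) {U : Set Z} (hU : IsOpen U)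
    (hc : IsPreconnected U) (h0 : X.Γ f U = 0) : ∀ z ∈ U, ∀ z' ∈ U, f z = f z' := by
  have disc : ∀ (z : Z) (W : Set Z), IsOpen W → z ∈ W →
      ∃ K : Set Z, IsCompact K ∧ IsPreconnected K ∧ K.Nontrivial ∧ K ⊆ W := by
    intro z W hW hz
    obtain ⟨e, he, he0, -⟩ := hG.disc z
    have h1 : e ⁻¹' W ∈ 𝓝 (0 : ℂ) := (hW.preimage he.continuous).mem_nhds (by simpa [he0] using hz)
    obtain ⟨s, hs, hs'⟩ := Metric.nhds_basis_closedBall.mem_iff.1 h1
    refine ⟨e '' closedBall 0 s, (isCompact_closedBall _ _).image he.continuous,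
      (convex_closedBall _ _).isPreconnected.image _ he.continuous.continuousOn,
      ⟨e 0, ⟨0, mem_closedBall_self hs.le, rfl⟩, e s, ⟨s, by simp [hs.le, abs_of_pos hs], rfl⟩,
        fun h => ?_⟩, image_subset_iff.2 hs'⟩
    have := he.injective h
    exact hs.ne (by exact_mod_cast this)
  have hfc := X.cont f hf
  have key : ∀ z ∈ U, ∀ z' ∈ U, ¬ f z < f z' := by
    intro z hz z' hz' hlt
    obtain ⟨a, ha1, ha2⟩ := exists_between hlt
    obtain ⟨b, hb1, hb2⟩ := exists_between ha2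
    obtain ⟨K, k1, k2, k3, k4⟩ := disc z (U ∩ {w | f w < a})
      (hU.inter (isOpen_lt hfc continuous_const)) ⟨hz, ha1⟩
    obtain ⟨K', l1, l2, l3, l4⟩ := disc z' (U ∩ {w | b < f w})
      (hU.inter (isOpen_lt continuous_const hfc)) ⟨hz', hb2⟩
    obtain ⟨c, hc0, U', -, hU', h⟩ := X.loewner U K K' hU hc k1 k2 k3 l1 l2 l3
      (fun w hw => (k4 hw).1) (fun w hw => (l4 hw).1)
    have h1 := h f hf a b hb1.le (fun w hw => le_of_lt (k4 hw).2) (fun w hw => le_of_lt (l4 hw).2)
    have h2 : (X.Γ f).real U' = 0 := by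
      rw [measureReal_def, measure_mono_null hU' h0, ENNReal.toReal_zero]
    have h3 : 0 < c * (b - a) ^ 2 := mul_pos hc0 (pow_pos (sub_pos.2 hb1) 2)
    linarith
  intro z hz z' hz'
  exact le_antisymm (not_lt.1 (key z' hz' z hz)) (not_lt.1 (key z hz z' hz'))

end DForm

end Crest.Agent.R193.E
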