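import Mathlib

/-! Row 193 (S0294): the Hex lemma (existence and exclusivity of a winner) on the board
`Fin (m + 1) × Fin (n + 1)`; the first coordinate runs from left to right, the second from bottom
to top. -/

set_option autoImplicit false

open Set Finset

namespace Crest.Agent.R193

/-- `(a, b)` and `(c, d)` are adjacent on the Hex board. -/
def HexStep (a b c d : ℕ) : Prop :=
  (a + 1 = c ∧ b = d) ∨ (a = c + 1 ∧ b = d) ∨ (a = c ∧ b + 1 = d) ∨ (a = c ∧ b = d + 1) ∨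
    (a + 1 = c ∧ b + 1 = d) ∨ (a = c + 1 ∧ b = d + 1)

variable {m n : ℕ}

/-- adjacency on the Hex board: `(i ± 1, j)`, `(i, j ± 1)`, `(i + 1, j + 1)`, `(i - 1, j - 1)`. -/
def HexAdj (p q : Fin (m + 1) × Fin (n + 1)) : Prop := HexStep p.1 p.2 q.1 q.2

/-- `p` and `q` are joined by a chain of adjacent vertices of `S`. -/
def HexJoin (S : Set (Fin (m + 1) × Fin (n + 1))) (p q : Fin (m + 1) × Fin (n + 1)) : Prop :=
  p ∈ S ∧ Relation.ReflTransGen (fun a b => a ∈ S ∧ b ∈ S ∧ HexAdj a b) p q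

/-- `S` contains a chain from the bottom row to the top row. -/
def HexBT (S : Set (Fin (m + 1) × Fin (n + 1))) : Prop :=
  ∃ p q, p.2 = 0 ∧ q.2 = Fin.last n ∧ HexJoin S p q

/-- `S` contains a chain from the left column to the right column. -/
def HexLR (S : Set (Fin (m + 1) × Fin (n + 1))) : Prop :=
  ∃ p q, p.1 = 0 ∧ q.1 = Fin.last m ∧ HexJoin S p q

theorem HexAdj.symm {p q : Fin (m + 1) × Fin (n + 1)} (h : HexAdj p q) : HexAdj q p := by
  unfold HexAdj HexStep at *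
  omega

section join
variable {S T : Set (Fin (m + 1) × Fin (n + 1))} {p q r : Fin (m + 1) × Fin (n + 1)}

theorem HexJoin.refl (h : p ∈ S) : HexJoin S p p := ⟨h, .refl⟩

theorem HexJoin.left_mem (h : HexJoin S p q) : p ∈ S := h.1

theorem HexJoin.right_mem (h : HexJoin S p q) : q ∈ S := by
  obtain ⟨h1, h2⟩ := h
  induction h2 with
  | refl => exact h1
  | tail _ h _ => exact h.2.1

theorem HexJoin.tail (h : HexJoin S p q) (hr : r ∈ S) (hqr : HexAdj q r) : HexJoin S p r :=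
  ⟨h.1, h.2.tail ⟨h.right_mem, hr, hqr⟩⟩

theorem HexJoin.trans (h : HexJoin S p q) (h' : HexJoin S q r) : HexJoin S p r :=
  ⟨h.1, h.2.trans h'.2⟩

theorem HexJoin.symm (h : HexJoin S p q) : HexJoin S q p := by
  obtain ⟨h1, h2⟩ := h
  induction h2 with
  | refl => exact .refl h1
  | tail _ h ih => exact ((HexJoin.refl h.2.1).tail h.1 h.2.2.symm).trans ih

theorem HexJoin.mono (h : HexJoin S p q) (hST : S ⊆ T) : HexJoin T p q := by
  obtain ⟨h1, h2⟩ := h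
  induction h2 with
  | refl => exact .refl (hST h1)
  | tail _ h ih => exact ih.tail (hST h.2.1) h.2.2

theorem HexBT.mono (h : HexBT S) (hST : S ⊆ T) : HexBT T :=
  let ⟨p, q, h1, h2, h3⟩ := h; ⟨p, q, h1, h2, h3.mono hST⟩

theorem HexLR.mono (h : HexLR S) (hST : S ⊆ T) : HexLR T :=
  let ⟨p, q, h1, h2, h3⟩ := h; ⟨p, q, h1, h2, h3.mono hST⟩

/-- a chain as a finite sequence. -/
theorem hexJoin_iff_seq : HexJoin S p q ↔ ∃ (k : ℕ) (c : ℕ → Fin (m + 1) × Fin (n + 1)),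
    c 0 = p ∧ c k = q ∧ (∀ i ≤ k, c i ∈ S) ∧ ∀ i < k, HexAdj (c i) (c (i + 1)) := by
  constructor
  · rintro ⟨h1, h2⟩
    induction h2 with
    | refl => exact ⟨0, fun _ => p, rfl, rfl, fun _ _ => h1, fun _ h => absurd h (by omega)⟩
    | @tail b d _ h ih =>
      obtain ⟨k, c, c0, ck, cS, cA⟩ := ih
      refine ⟨k + 1, fun i => if i ≤ k then c i else d, by simpa using c0, by simp,
        fun i _ => ?_, fun i hi => ?_⟩
      · by_cases h' : i ≤ k
        · simpa [h'] using cS i h'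
        · simpa [h'] using h.2.1
      · by_cases h' : i < k
        · simpa [h'.le, Nat.succ_le_of_lt h'] using cA i h'
        · obtain rfl : i = k := by omega
          simpa [ck] using h.2.2
  · rintro ⟨k, c, rfl, rfl, cS, cA⟩
    induction k with
    | zero => exact .refl (cS 0 le_rfl)
    | succ k ih =>
      exact (ih (fun i hi => cS i (by omega)) fun i hi => cA i (by omega)).tail
        (cS _ le_rfl) (cA k (by omega))

end join

/-- discrete Stokes formula on a grid. -/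
theorem Hex_stokes (h v : ℕ → ℕ → ℤ) (a b : ℕ)
    (hc : ∀ i < a, ∀ j < b, h i j + v (i + 1) j = v i j + h i (j + 1)) :
    ∑ i ∈ range a, h i 0 + ∑ j ∈ range b, v a j =
      ∑ j ∈ range b, v 0 j + ∑ i ∈ range a, h i b := by
  have e : ∑ i ∈ range a, ∑ j ∈ range b, (v (i + 1) j - v i j) =
      ∑ i ∈ range a, ∑ j ∈ range b, (h i (j + 1) - h i j) :=
    sum_congr rfl fun i hi => sum_congr rfl fun j hj => by
      have := hc i (mem_range.1 hi) j (mem_range.1 hj)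
      omega
  rw [sum_comm, sum_congr rfl fun j _ => sum_range_sub (fun i => v i j) a,
    sum_congr rfl fun i _ => sum_range_sub (fun j => h i j) b, sum_sub_distrib,
    sum_sub_distrib] at e
  omega

/-- Sperner's lemma on the triangulated grid. -/
theorem Hex_sperner (l : ℕ → ℕ → Fin 3) (a b : ℕ) (hb : 0 < b) (h0 : ∀ i, l i 0 = 1)
    (h1 : ∀ j, l 0 (j + 1) = 0) (h2 : ∀ j, l a j ≠ 0) (h3 : ∀ i, l i b ≠ 1) :
    ∃ i < a, ∃ j < b,
      (l i j ≠ l (i + 1) (j + 1) ∧ l i j ≠ l (i + 1) j ∧ l (i + 1) j ≠ l (i + 1) (j + 1)) ∨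
      (l i j ≠ l (i + 1) (j + 1) ∧ l i j ≠ l i (j + 1) ∧ l i (j + 1) ≠ l (i + 1) (j + 1)) := by
  by_contra hn
  let w : Fin 3 → Fin 3 → ℤ := fun x y =>
    if x = 1 ∧ y = 0 then 1 else if x = 0 ∧ y = 1 then -1 else 0
  have hw : ∀ x y z t : Fin 3, ¬ ((x ≠ t ∧ x ≠ y ∧ y ≠ t) ∨ (x ≠ t ∧ x ≠ z ∧ z ≠ t)) →
      w x y + w y t = w x z + w z t := by decide
  have e := Hex_stokes (fun i j => w (l i j) (l (i + 1) j)) (fun i j => w (l i j) (l i (j + 1)))
    a b fun i hi j hj => hw _ _ _ _ fun h => hn ⟨i, hi, j, hj, h⟩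
  have w0 : ∀ x y : Fin 3, x ≠ 0 → y ≠ 0 → w x y = 0 := by decide
  have w1 : ∀ x y : Fin 3, x ≠ 1 → y ≠ 1 → w x y = 0 := by decide
  obtain ⟨b, rfl⟩ : ∃ b', b = b' + 1 := ⟨b - 1, by omega⟩
  rw [sum_eq_zero fun i _ => w0 _ _ (by rw [h0]; decide) (by rw [h0]; decide),
    sum_eq_zero fun j _ => w0 _ _ (h2 _) (h2 _), sum_eq_zero fun i _ => w1 _ _ (h3 _) (h3 _),
    sum_range_succ', sum_eq_zero fun j _ => w1 _ _ (by rw [h1]; decide) (by rw [h1]; decide),
    h0, h1] at e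
  exact absurd e (by decide)

/-- **Hex, existence**: a black chain from bottom to top or a white chain from left to right. -/
theorem hex_exists (S : Set (Fin (m + 1) × Fin (n + 1))) : HexBT S ∨ HexLR Sᶜ := by
  classical
  by_contra hcon
  rw [not_or] at hcon
  let RB : ℕ → ℕ → Prop := fun i j => ∃ p q : Fin (m + 1) × Fin (n + 1),
    p.2 = 0 ∧ q.1.val + 1 = i ∧ q.2.val + 1 = j ∧ HexJoin S p q
  let RW : ℕ → ℕ → Prop := fun i j => ∃ p q : Fin (m + 1) × Fin (n + 1),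
    p.1 = 0 ∧ q.1.val + 1 = i ∧ q.2.val + 1 = j ∧ HexJoin Sᶜ p q
  let l : ℕ → ℕ → Fin 3 := fun i j =>
    if j = 0 ∨ RB i j then 1 else if i = 0 ∨ RW i j then 0 else 2
  have l1 : ∀ i j, l i j = 1 ↔ j = 0 ∨ RB i j := fun i j => by
    simp only [l]; split_ifs with h h' <;> simp [h]
  have l0 : ∀ i j, l i j = 0 → i = 0 ∨ RW i j := fun i j => by
    simp only [l]; split_ifs with h h' <;> simp [*]
  have l2 : ∀ i j, l i j = 2 → ¬ (j = 0 ∨ RB i j) ∧ ¬ (i = 0 ∨ RW i j) := fun i j => by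
    simp only [l]; split_ifs with h h' <;> simp [*]
  -- a vertex labelled `2` is not adjacent to both other labels
  have key : ∀ i j i₀ j₀ i₁ j₁, i ≤ m + 1 → j ≤ n + 1 → l i j = 2 → l i₀ j₀ = 0 → l i₁ j₁ = 1 →
      HexStep i₀ j₀ i j → HexStep i₁ j₁ i j → False := by
    intro i j i₀ j₀ i₁ j₁ hi hj e2 e0 e1 s0 s1
    obtain ⟨n1, n0⟩ := l2 i j e2
    rw [not_or] at n1 n0
    let q : Fin (m + 1) × Fin (n + 1) := (⟨i - 1, by omega⟩, ⟨j - 1, by omega⟩)
    have q1 : q.1.val + 1 = i := by simp only [q]; omega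
    have q2 : q.2.val + 1 = j := by simp only [q]; omega
    by_cases hq : q ∈ S
    · rcases (l1 _ _).1 e1 with h | ⟨p, r, hp, r1, r2, hj⟩
      · refine n1.2 ⟨q, q, Fin.ext ?_, q1, q2, .refl hq⟩
        unfold HexStep at s1
        simp only [Fin.val_zero]
        omega
      · refine n1.2 ⟨p, q, hp, q1, q2, hj.tail hq ?_⟩
        unfold HexAdj
        unfold HexStep at s1 ⊢
        omega
    · rcases l0 _ _ e0 with h | ⟨p, r, hp, r1, r2, hj⟩
      · refine n0.2 ⟨q, q, Fin.ext ?_, q1, q2, .refl hq⟩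
        unfold HexStep at s0
        simp only [Fin.val_zero]
        omega
      · refine n0.2 ⟨p, q, hp, q1, q2, hj.tail hq ?_⟩
        unfold HexAdj
        unfold HexStep at s0 ⊢
        omega
  have tri : ∀ i₁ j₁ i₂ j₂ i₃ j₃, i₁ ≤ m + 1 → j₁ ≤ n + 1 → i₂ ≤ m + 1 → j₂ ≤ n + 1 →
      i₃ ≤ m + 1 → j₃ ≤ n + 1 → HexStep i₁ j₁ i₂ j₂ → HexStep i₁ j₁ i₃ j₃ →
      HexStep i₂ j₂ i₃ j₃ → l i₁ j₁ ≠ l i₃ j₃ → l i₁ j₁ ≠ l i₂ j₂ → l i₂ j₂ ≠ l i₃ j₃ → False := by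
    intro i₁ j₁ i₂ j₂ i₃ j₃ a1 b1 a2 b2 a3 b3 s12 s13 s23 d13 d12 d23
    have sy : ∀ {a b c d}, HexStep a b c d → HexStep c d a b := fun h => by
      unfold HexStep at *; omega
    have hc : ∀ x y z : Fin 3, x ≠ z → x ≠ y → y ≠ z →
        (x = 2 ∧ y = 0 ∧ z = 1) ∨ (x = 2 ∧ z = 0 ∧ y = 1) ∨ (y = 2 ∧ x = 0 ∧ z = 1) ∨
        (y = 2 ∧ z = 0 ∧ x = 1) ∨ (z = 2 ∧ x = 0 ∧ y = 1) ∨ (z = 2 ∧ y = 0 ∧ x = 1) := by decide
    rcases hc _ _ _ d13 d12 d23 with h | h | h | h | h | h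
    · exact key _ _ _ _ _ _ a1 b1 h.1 h.2.1 h.2.2 (sy s12) (sy s13)
    · exact key _ _ _ _ _ _ a1 b1 h.1 h.2.1 h.2.2 (sy s13) (sy s12)
    · exact key _ _ _ _ _ _ a2 b2 h.1 h.2.1 h.2.2 s12 (sy s23)
    · exact key _ _ _ _ _ _ a2 b2 h.1 h.2.1 h.2.2 (sy s23) s12
    · exact key _ _ _ _ _ _ a3 b3 h.1 h.2.1 h.2.2 s13 s23
    · exact key _ _ _ _ _ _ a3 b3 h.1 h.2.1 h.2.2 s23 s13
  obtain ⟨i, hi, j, hj, h | h⟩ := Hex_sperner l (m + 1) (n + 1) (by omega)
    (fun i => (l1 i 0).2 (Or.inl rfl))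
    (fun j => by
      have : ¬ RB 0 (j + 1) := fun ⟨_, _, _, h, _⟩ => by omega
      simp [l, this])
    (fun j h => by
      rcases l0 _ _ h with h | ⟨p, q, hp, q1, -, hj⟩
      · omega
      · exact hcon.2 ⟨p, q, hp, Fin.ext (by simp only [Fin.val_last]; omega), hj⟩)
    (fun i h => by
      rcases (l1 _ _).1 h with h | ⟨p, q, hp, -, q2, hj⟩
      · omega
      · exact hcon.1 ⟨p, q, hp, Fin.ext (by simp only [Fin.val_last]; omega), hj⟩)
  · exact tri i j (i + 1) j (i + 1) (j + 1) (by omega) (by omega) (by omega) (by omega)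
      (by omega) (by omega) (by simp [HexStep]) (by simp [HexStep]) (by simp [HexStep])
      h.1 h.2.1 h.2.2
  · exact tri i j i (j + 1) (i + 1) (j + 1) (by omega) (by omega) (by omega) (by omega)
      (by omega) (by omega) (by simp [HexStep]) (by simp [HexStep]) (by simp [HexStep])
      h.1 h.2.1 h.2.2

/-- signed crossing of the cut below the positive real axis. -/
def hexW (x y x' y' : ℤ) : ℤ :=
  if 0 < x ∧ y = 0 ∧ y' = -1 then 1 else if 0 < x' ∧ y' = 0 ∧ y = -1 then -1 else 0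

/-- indicator of the upper half of the punctured lattice. -/
def hexU (x y : ℤ) : ℤ := if 0 < y ∨ (y = 0 ∧ 0 < x) then 1 else 0

/-- a step of the Hex lattice. -/
def HexD (a b : ℤ) : Prop :=
  (a = 1 ∧ b = 0) ∨ (a = -1 ∧ b = 0) ∨ (a = 0 ∧ b = 1) ∨ (a = 0 ∧ b = -1) ∨
    (a = 1 ∧ b = 1) ∨ (a = -1 ∧ b = -1)

theorem hexW_cocycle {x y a b c d : ℤ} (h1 : HexD a b) (h2 : HexD c d)
    (n0 : x ≠ 0 ∨ y ≠ 0) (n1 : x + a ≠ 0 ∨ y + b ≠ 0) (n2 : x + c ≠ 0 ∨ y + d ≠ 0)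
    (n3 : x + a + c ≠ 0 ∨ y + b + d ≠ 0) :
    hexW x y (x + a) (y + b) + hexW (x + a) (y + b) (x + a + c) (y + b + d) =
      hexW x y (x + c) (y + d) + hexW (x + c) (y + d) (x + a + c) (y + b + d) := by
  unfold hexW
  rcases h1 with ⟨rfl, rfl⟩ | ⟨rfl, rfl⟩ | ⟨rfl, rfl⟩ | ⟨rfl, rfl⟩ | ⟨rfl, rfl⟩ | ⟨rfl, rfl⟩ <;>
  rcases h2 with ⟨rfl, rfl⟩ | ⟨rfl, rfl⟩ | ⟨rfl, rfl⟩ | ⟨rfl, rfl⟩ | ⟨rfl, rfl⟩ | ⟨rfl, rfl⟩ <;>
  split_ifs <;> omega

theorem hexW_eq {x y x' y' : ℤ} (h : HexD (x' - x) (y' - y)) (n0 : x ≠ 0 ∨ y ≠ 0)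
    (n1 : x' ≠ 0 ∨ y' ≠ 0) (hs : (0 ≤ x ∧ 0 ≤ x') ∨ (y ≤ 0 ∧ y' ≤ 0)) :
    hexW x y x' y' = hexU x y - hexU x' y' := by
  unfold hexW hexU
  unfold HexD at h
  split_ifs <;> omega

/-- **Hex, exclusivity**: a bottom-top chain and a left-right chain share a vertex. -/
theorem hex_excl {S T : Set (Fin (m + 1) × Fin (n + 1))} (hS : HexBT S) (hT : HexLR T) :
    (S ∩ T).Nonempty := by
  by_contra hn
  obtain ⟨_, _, p0, p1, hp⟩ := hS
  obtain ⟨_, _, q0, q1, hq⟩ := hT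
  obtain ⟨k, p, rfl, rfl, pS, pA⟩ := hexJoin_iff_seq.1 hp
  obtain ⟨l, q, rfl, rfl, qT, qA⟩ := hexJoin_iff_seq.1 hq
  let X : ℕ → ℕ → ℤ := fun s t => ((q t).1.val : ℤ) - (p s).1.val
  let Y : ℕ → ℕ → ℤ := fun s t => ((q t).2.val : ℤ) - (p s).2.val
  have ne : ∀ s ≤ k, ∀ t ≤ l, X s t ≠ 0 ∨ Y s t ≠ 0 := fun s hs t ht => by
    by_contra h
    have e : p s = q t := Prod.ext (Fin.ext (by simp only [X, Y] at h; omega))
      (Fin.ext (by simp only [X, Y] at h; omega))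
    exact hn ⟨p s, pS s hs, e ▸ qT t ht⟩
  have ds : ∀ s < k, ∀ t, HexD (X (s + 1) t - X s t) (Y (s + 1) t - Y s t) := fun s hs t => by
    have := pA s hs
    simp only [HexAdj, HexStep] at this
    simp only [X, Y, HexD]
    omega
  have dt : ∀ s, ∀ t < l, HexD (X s (t + 1) - X s t) (Y s (t + 1) - Y s t) := fun s t ht => by
    have := qA t ht
    simp only [HexAdj, HexStep] at this
    simp only [X, Y, HexD]
    omega
  have e := Hex_stokes (fun s t => hexW (X s t) (Y s t) (X (s + 1) t) (Y (s + 1) t))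
    (fun s t => hexW (X s t) (Y s t) (X s (t + 1)) (Y s (t + 1))) k l fun s hs t ht => by
      have e1 : X s t + (X (s + 1) t - X s t) = X (s + 1) t := by ring
      have e2 : Y s t + (Y (s + 1) t - Y s t) = Y (s + 1) t := by ring
      have e3 : X s t + (X s (t + 1) - X s t) = X s (t + 1) := by ring
      have e4 : Y s t + (Y s (t + 1) - Y s t) = Y s (t + 1) := by ring
      have e5 : X (s + 1) t + (X s (t + 1) - X s t) = X (s + 1) (t + 1) := by
        simp only [X]; ring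
      have e6 : Y (s + 1) t + (Y s (t + 1) - Y s t) = Y (s + 1) (t + 1) := by
        simp only [Y]; ring
      have := hexW_cocycle (x := X s t) (y := Y s t) (ds s hs t) (dt s t ht)
      rw [e1, e2, e3, e4, e5, e6] at this
      exact this (ne s hs.le t ht.le) (ne _ hs t ht.le) (ne s hs.le _ ht) (ne _ hs _ ht)
  have hp0 : (p 0).2.val = 0 := by rw [p0]; rfl
  have hp1 : (p k).2.val = n := by rw [p1]; rfl
  have hq0 : (q 0).1.val = 0 := by rw [q0]; rfl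
  have hq1 : (q l).1.val = m := by rw [q1]; rfl
  have x0 : ∀ s, X s 0 ≤ 0 := fun s => by simp only [X]; omega
  have x1 : ∀ s, 0 ≤ X s l := fun s => by have := (p s).1.isLt; simp only [X]; omega
  have y0 : ∀ t, 0 ≤ Y 0 t := fun t => by simp only [Y]; omega
  have y1 : ∀ t, Y k t ≤ 0 := fun t => by have := (q t).2.isLt; simp only [Y]; omega
  have s1 : ∑ s ∈ range k, hexW (X s 0) (Y s 0) (X (s + 1) 0) (Y (s + 1) 0) = 0 :=
    sum_eq_zero fun s _ => by
      have := x0 s; have := x0 (s + 1)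
      unfold hexW; split_ifs <;> omega
  have s2 : ∑ t ∈ range l, hexW (X 0 t) (Y 0 t) (X 0 (t + 1)) (Y 0 (t + 1)) = 0 :=
    sum_eq_zero fun t _ => by
      have := y0 t; have := y0 (t + 1)
      unfold hexW; split_ifs <;> omega
  have s3 : ∑ t ∈ range l, hexW (X k t) (Y k t) (X k (t + 1)) (Y k (t + 1)) =
      hexU (X k 0) (Y k 0) - hexU (X k l) (Y k l) := by
    rw [← sum_range_sub' (fun t => hexU (X k t) (Y k t))]
    exact sum_congr rfl fun t ht => hexW_eq (dt k t (mem_range.1 ht))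
      (ne k le_rfl t (mem_range.1 ht).le) (ne k le_rfl _ (mem_range.1 ht))
      (Or.inr ⟨y1 _, y1 _⟩)
  have s4 : ∑ s ∈ range k, hexW (X s l) (Y s l) (X (s + 1) l) (Y (s + 1) l) =
      hexU (X 0 l) (Y 0 l) - hexU (X k l) (Y k l) := by
    rw [← sum_range_sub' (fun s => hexU (X s l) (Y s l))]
    exact sum_congr rfl fun s hs => hexW_eq (ds s (mem_range.1 hs) l)
      (ne s (mem_range.1 hs).le l le_rfl) (ne _ (mem_range.1 hs) l le_rfl)
      (Or.inl ⟨x1 _, x1 _⟩)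
  rw [s1, s2, s3, s4] at e
  have u1 : hexU (X k 0) (Y k 0) = 0 := by
    have := x0 k; have := y1 0
    unfold hexU; split_ifs <;> omega
  have u2 : hexU (X 0 l) (Y 0 l) = 1 := by
    have := x1 0; have := y0 l; have := ne 0 (by omega) l le_rfl
    unfold hexU; split_ifs <;> omega
  omega

end Crest.Agent.R193
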