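import Mathlib
import Crest.Agent.R193.Defs

/-! Row 193, block [U] by square tilings: definitions.

`Quad` = finite combinatorial quadrilateral with the Hex property; `SqT` = Schramm square tiling of
a rectangle indexed by the tiles; `Frame`, `GT` = geometric realisation of a `Quad` in `Z` at scale
`δ`; `HasSig` = cut-off weights on the tiles (all that is used from `UB`);
`AppChart` = approximate charts (input of the limit). -/

set_option autoImplicit false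

namespace Crest.Agent.R193.Sq

open Metric

/-- `x` is joined to `y` by an `adj`-chain all of whose members lie in `A`. -/
def Conn {T : Type} (adj : T → T → Prop) (A : Set T) (x y : T) : Prop :=
  x ∈ A ∧ Relation.ReflTransGen (fun a b => adj a b ∧ b ∈ A) x y

namespace Conn

variable {T : Type} {adj : T → T → Prop} {A A' : Set T} {x y z : T}

theorem refl (hx : x ∈ A) : Conn adj A x x := ⟨hx, Relation.ReflTransGen.refl⟩

theorem left_mem (h : Conn adj A x y) : x ∈ A := h.1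

theorem right_mem (h : Conn adj A x y) : y ∈ A := by
  obtain ⟨hx, h⟩ := h
  induction h with
  | refl => exact hx
  | tail _ hb _ => exact hb.2

theorem tail (h : Conn adj A x y) (ha : adj y z) (hz : z ∈ A) : Conn adj A x z :=
  ⟨h.1, h.2.tail ⟨ha, hz⟩⟩

theorem trans (h : Conn adj A x y) (h' : Conn adj A y z) : Conn adj A x z :=
  ⟨h.1, h.2.trans h'.2⟩

theorem mono (hA : A ⊆ A') (h : Conn adj A x y) : Conn adj A' x y := by
  obtain ⟨hx, h⟩ := h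
  refine ⟨hA hx, ?_⟩
  induction h with
  | refl => exact Relation.ReflTransGen.refl
  | tail _ hb ih => exact ih.tail ⟨hb.1, hA hb.2⟩

/-- induction along a chain -/
theorem ind (h : Conn adj A x y) (P : T → Prop) (h0 : P x)
    (hs : ∀ a b, Conn adj A x a → P a → adj a b → b ∈ A → P b) : P y := by
  obtain ⟨hx, h⟩ := h
  induction h with
  | refl => exact h0
  | tail hab hb ih => exact hs _ _ ⟨hx, hab⟩ ih hb.1 hb.2

theorem symm (hs : ∀ a b, adj a b → adj b a) (h : Conn adj A x y) : Conn adj A y x :=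
  h.ind (fun y => Conn adj A y x) (refl h.1) fun _ _ hxa ha hab hb =>
    ((refl hb).tail (hs _ _ hab) hxa.right_mem).trans ha

end Conn

/-- A combinatorial quadrilateral: `B, Tp, L, R` = tiles adjacent to the bottom, top, left, right
side, with both halves of the Hex lemma. -/
structure Quad (T : Type) where
  adj : T → T → Prop
  B : T → Prop
  Tp : T → Prop
  L : T → Prop
  R : T → Prop
  symm : ∀ x y, adj x y → adj y x
  ex : ∀ A : Set T, (∃ x y, B x ∧ Tp y ∧ Conn adj A x y) ∨ (∃ x y, L x ∧ R y ∧ Conn adj Aᶜ x y)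
  excl : ∀ A A' : Set T, (∃ x y, B x ∧ Tp y ∧ Conn adj A x y) →
    (∃ x y, L x ∧ R y ∧ Conn adj A' x y) → (A ∩ A').Nonempty

/-- exchange the two directions -/
def Quad.swap {T : Type} (Q : Quad T) : Quad T where
  adj := Q.adj
  B := Q.L
  Tp := Q.R
  L := Q.B
  R := Q.Tp
  symm := Q.symm
  ex := fun A => by
    rcases Q.ex Aᶜ with h | h
    · exact Or.inr h
    · rw [compl_compl] at h; exact Or.inl h
  excl := fun A A' h h' => by rw [Set.inter_comm]; exact Q.excl A' A h' h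

/-- a tile adjacent to one of the four sides -/
def Quad.Bd {T : Type} (Q : Quad T) (x : T) : Prop := Q.B x ∨ Q.Tp x ∨ Q.L x ∨ Q.R x

/-- Square tiling of the rectangle `[0,m] × [0,h]`: the tile `x` gets the square
`[b x, b x + ρ x] × [a x, a x + ρ x]` (`b` horizontal, `a` vertical). -/
structure SqT {T : Type} [Fintype T] (Q : Quad T) where
  ρ : T → ℝ
  a : T → ℝ
  b : T → ℝ
  h : ℝ
  m : ℝ
  h_pos : 0 < h
  m_pos : 0 < m
  ρ_nonneg : ∀ x, 0 ≤ ρ x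
  sum_sq : ∑ x, ρ x ^ 2 = m * h
  a_nonneg : ∀ x, 0 ≤ a x
  a_le : ∀ x, a x + ρ x ≤ h
  b_nonneg : ∀ x, 0 ≤ b x
  b_le : ∀ x, b x + ρ x ≤ m
  adj_a : ∀ x y, Q.adj x y → a y ≤ a x + ρ x
  adj_b : ∀ x y, Q.adj x y → b y ≤ b x + ρ x
  B_a : ∀ x, Q.B x → a x = 0
  T_a : ∀ x, Q.Tp x → a x + ρ x = h
  L_b : ∀ x, Q.L x → b x = 0
  R_b : ∀ x, Q.R x → b x + ρ x = m

namespace SqT

variable {T : Type} [Fintype T] {Q : Quad T} (S : SqT Q)

/-- the transposed tiling -/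
def swap : SqT Q.swap where
  ρ := S.ρ
  a := S.b
  b := S.a
  h := S.m
  m := S.h
  h_pos := S.m_pos
  m_pos := S.h_pos
  ρ_nonneg := S.ρ_nonneg
  sum_sq := by rw [S.sum_sq, mul_comm]
  a_nonneg := S.b_nonneg
  a_le := S.b_le
  b_nonneg := S.a_nonneg
  b_le := S.a_le
  adj_a := S.adj_b
  adj_b := S.adj_a
  B_a := S.L_b
  T_a := S.R_b
  L_b := S.B_a
  R_b := S.T_a

/-- the closed square of a tile (sup metric on `ℝ × ℝ`) -/
def sq (x : T) : Set (ℝ × ℝ) := Set.Icc (S.b x) (S.b x + S.ρ x) ×ˢ Set.Icc (S.a x) (S.a x + S.ρ x)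

/-- lower left corner -/
def pt (x : T) : ℝ × ℝ := (S.b x, S.a x)

/-- tiles meeting the horizontal line at height `s` -/
def lev (s : ℝ) : Set T := {x | S.a x ≤ s ∧ s ≤ S.a x + S.ρ x}

/-- generic heights -/
def Gen (s : ℝ) : Prop := ∀ x, s ≠ S.a x ∧ s ≠ S.a x + S.ρ x

/-- tiles meeting the horizontal segment `[t1,t2] × {s}` -/
def seg (s t1 t2 : ℝ) : Set T := {x | x ∈ S.lev s ∧ S.b x ≤ t2 ∧ t1 ≤ S.b x + S.ρ x}

/-- tiles meeting the boundary of the square of half-side `t` centred at `y` -/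
def loop (y : ℝ × ℝ) (t : ℝ) : Set T := {x | ∃ w ∈ S.sq x, dist w y = t}

/-- the closed square of half-side `t` about `y` lies in the rectangle -/
def Box (y : ℝ × ℝ) (t : ℝ) : Prop := t ≤ y.1 ∧ y.1 + t ≤ S.m ∧ t ≤ y.2 ∧ y.2 + t ≤ S.h

end SqT

/-- A topological quadrilateral in `Z`: open inner part `I` and four side sets. -/
structure Frame (Z : Type) [MetricSpace Z] where
  I : Set Z
  Bs : Set Z
  Ts : Set Z
  Ls : Set Z
  Rs : Set Z
  d0 : ℝ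
  d0_pos : 0 < d0
  BT : ∀ z ∈ Bs, ∀ w ∈ Ts, d0 ≤ dist z w
  LR : ∀ z ∈ Ls, ∀ w ∈ Rs, d0 ≤ dist z w
  Bne : Bs.Nonempty
  Tne : Ts.Nonempty
  Lne : Ls.Nonempty
  Rne : Rs.Nonempty
  isOpen_I : IsOpen I
  notI : ∀ z ∈ Bs ∪ Ts ∪ Ls ∪ Rs, z ∉ I
  cl : closure I ⊆ I ∪ (Bs ∪ Ts ∪ Ls ∪ Rs)

/-- the union of the four sides -/
def Frame.fr {Z : Type} [MetricSpace Z] (F : Frame Z) : Set Z := F.Bs ∪ F.Ts ∪ F.Ls ∪ F.Rs

/-- exchange the two directions -/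
def Frame.swap {Z : Type} [MetricSpace Z] (F : Frame Z) : Frame Z where
  I := F.I
  Bs := F.Ls
  Ts := F.Rs
  Ls := F.Bs
  Rs := F.Ts
  d0 := F.d0
  d0_pos := F.d0_pos
  BT := F.LR
  LR := F.BT
  Bne := F.Lne
  Tne := F.Rne
  Lne := F.Bne
  Rne := F.Tne
  isOpen_I := F.isOpen_I
  notI := fun z hz => F.notI z (by
    simp only [Set.mem_union] at hz ⊢; tauto)
  cl := fun z hz => by
    have := F.cl hz
    simp only [Set.mem_union] at this ⊢; tauto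

/-- tiles whose centre is `e`-close to the path `γ` -/
def near {Z T : Type} [MetricSpace Z] (c : T → Z) (e : ℝ) {p q : Z} (γ : Path p q) : Set T :=
  {t | ∃ τ, dist (c t) (γ τ) < e}

/-- Geometric tiles at scale `δ`: a `Quad` with centres `c`. -/
structure GT {Z : Type} [MetricSpace Z] (F : Frame Z) (K δ : ℝ) (T : Type) where
  Q : Quad T
  c : T → Z
  mem : ∀ x, c x ∈ F.I
  sep : ∀ x y, x ≠ y → δ ≤ dist (c x) (c y)
  adj_dist : ∀ x y, Q.adj x y → dist (c x) (c y) < K * δ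
  B_near : ∀ x, Q.B x → ∃ z ∈ F.Bs, dist (c x) z < K * δ
  T_near : ∀ x, Q.Tp x → ∃ z ∈ F.Ts, dist (c x) z < K * δ
  L_near : ∀ x, Q.L x → ∃ z ∈ F.Ls, dist (c x) z < K * δ
  R_near : ∀ x, Q.R x → ∃ z ∈ F.Rs, dist (c x) z < K * δ
  dense : ∀ z ∈ F.I, (∃ x, dist (c x) z < K * δ) ∨ ∃ w ∈ F.fr, dist z w < K * δ
  lift1 : ∀ (x y : T) (γ : Path (c x) (c y)), Conn Q.adj (near c (K * δ) γ) x y ∨
    ∃ y', Conn Q.adj (near c (K * δ) γ) x y' ∧ Q.Bd y'
  lift2 : ∀ (x : T) (q : Z) (γ : Path (c x) q), q ∉ F.I →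
    ∃ y', Conn Q.adj (near c (K * δ) γ) x y' ∧ Q.Bd y'

/-- exchange the two directions -/
def GT.swap {Z : Type} [MetricSpace Z] {F : Frame Z} {K δ : ℝ} {T : Type} (g : GT F K δ T) :
    GT F.swap K δ T where
  Q := g.Q.swap
  c := g.c
  mem := g.mem
  sep := g.sep
  adj_dist := g.adj_dist
  B_near := g.L_near
  T_near := g.R_near
  L_near := g.B_near
  R_near := g.T_near
  dense := fun z hz => (g.dense z hz).imp id fun ⟨w, hw, h⟩ => ⟨w, by
    simp only [Frame.fr, Frame.swap, Set.mem_union] at hw ⊢; tauto, h⟩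
  lift1 := fun x y γ => (g.lift1 x y γ).imp id fun ⟨y', h, hb⟩ => ⟨y', h, by
    simp only [Quad.Bd, Quad.swap] at hb ⊢; tauto⟩
  lift2 := fun x q γ hq => by
    obtain ⟨y', h, hb⟩ := g.lift2 x q γ hq
    exact ⟨y', h, by simp only [Quad.Bd, Quad.swap] at hb ⊢; tauto⟩

/-- existence of geometric tiles at all small scales -/
def TileStmt : Prop :=
  ∀ (Z : Type) [MetricSpace Z], Nonempty (Z ≃ₜ S2) → Doubling Z → LLC1 Z →
    ∃ (F : Frame Z) (K δ0 : ℝ), 1 ≤ K ∧ 0 < δ0 ∧ ∀ δ : ℝ, 0 < δ → δ < δ0 →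
      ∃ (T : Type) (_ : Fintype T), Nonempty (GT F K δ T)

/-- Schramm's square tiling -/
def SchrammStmt : Prop :=
  ∀ (T : Type) [Fintype T] (Q : Quad T), ∃ S : SqT Q, S.h = 1

open Classical in
/-- cut-off weights on the tiles for all rings of radius `r ∈ [K δ, r0]` -/
def HasSig {Z : Type} [MetricSpace Z] {F : Frame Z} {K δ : ℝ} {T : Type} [Fintype T]
    (g : GT F K δ T) (C r0 : ℝ) : Prop :=
  ∀ (ξ : Z) (r : ℝ), K * δ ≤ r → r ≤ r0 → ∃ σ : T → ℝ, (∀ x, 0 ≤ σ x) ∧ ∑ x, σ x ^ 2 ≤ C ∧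
    (∀ x, σ x ≠ 0 → r - K * δ ≤ dist (g.c x) ξ ∧ dist (g.c x) ξ ≤ 2 * r + K * δ) ∧
    ∀ (A : Set T) (x y : T), Conn g.Q.adj A x y → dist (g.c x) ξ < r → 2 * r ≤ dist (g.c y) ξ →
      1 ≤ ∑ z ∈ Finset.univ.filter (fun z => z ∈ A), σ z

/-- Approximate quasisymmetric charts on the balls `ball (z n) r`. -/
structure AppChart {Z : Type} [MetricSpace Z] (z : ℕ → Z) (r : ℝ) (F : ℕ → Z → ℝ × ℝ) : Prop where
  r_pos : 0 < r
  bound : ∃ M : ℝ, ∀ n w, ‖F n w‖ ≤ M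
  equi : ∀ ε : ℝ, 0 < ε → ∃ ρ : ℝ, 0 < ρ ∧ ∀ᶠ n in Filter.atTop, ∀ a ∈ ball (z n) r,
    ∀ b ∈ ball (z n) r, dist a b ≤ ρ → dist (F n a) (F n b) ≤ ε
  inj : ∀ η : ℝ, 0 < η → ∃ κ : ℝ, 0 < κ ∧ ∀ᶠ n in Filter.atTop, ∀ a ∈ ball (z n) r,
    ∀ c ∈ ball (z n) r, η ≤ dist a c → κ ≤ dist (F n a) (F n c)
  bdd : ∀ H : ℝ, ∃ M : ℝ, ∀ η : ℝ, 0 < η → ∀ᶠ n in Filter.atTop, ∀ a ∈ ball (z n) r,
    ∀ b ∈ ball (z n) r, ∀ c ∈ ball (z n) r, η ≤ dist a c → dist a b ≤ H * dist a c →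
      dist (F n a) (F n b) ≤ M * dist (F n a) (F n c) + η
  small : ∀ ε : ℝ, 0 < ε → ∃ τ : ℝ, 0 < τ ∧ ∀ η : ℝ, 0 < η → ∀ᶠ n in Filter.atTop,
    ∀ a ∈ ball (z n) r, ∀ b ∈ ball (z n) r, ∀ c ∈ ball (z n) r, η ≤ dist a c →
      dist a b ≤ τ * dist a c → dist (F n a) (F n b) ≤ ε * dist (F n a) (F n c) + η
  opn : ∀ s : ℝ, 0 < s → ∃ κ : ℝ, 0 < κ ∧ ∀ η : ℝ, 0 < η → ∀ᶠ n in Filter.atTop,
    ∀ a ∈ ball (z n) (r / 2), ∀ y : ℝ × ℝ, dist y (F n a) ≤ κ →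
      ∃ a' ∈ ball (z n) r, dist a' a ≤ s ∧ dist (F n a') y ≤ η

end Crest.Agent.R193.Sq
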