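import Mathlib
import Crest.Agent.R193.SqDefs

/-! Row 193 [U]: geometry of a square tiling. -/

set_option autoImplicit false

namespace Crest.Agent.R193.Sq

open Metric

namespace SqT

variable {T : Type} [Fintype T] {Q : Quad T} (S : SqT Q)

theorem pt_mem (x : T) : S.pt x ∈ S.sq x := by
  have := S.ρ_nonneg x
  exact ⟨⟨le_rfl, le_add_of_nonneg_right this⟩, ⟨le_rfl, le_add_of_nonneg_right this⟩⟩

/-- two points of one square are `ρ`-close (sup metric) -/
theorem dist_le_of_mem {x : T} {w w' : ℝ × ℝ} (hw : w ∈ S.sq x) (hw' : w' ∈ S.sq x) :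
    dist w w' ≤ S.ρ x := by
  obtain ⟨⟨a1, a2⟩, a3, a4⟩ := hw
  obtain ⟨⟨b1, b2⟩, b3, b4⟩ := hw'
  rw [Prod.dist_eq, Real.dist_eq, Real.dist_eq]
  exact max_le (abs_le.2 ⟨by linarith, by linarith⟩) (abs_le.2 ⟨by linarith, by linarith⟩)

/-- adjacent squares intersect (both coordinate intervals intersect, use `Q.symm`) -/
theorem adj_inter {x y : T} (h : Q.adj x y) : (S.sq x ∩ S.sq y).Nonempty := by
  have h' := Q.symm _ _ h
  have hx := S.ρ_nonneg x
  have hy := S.ρ_nonneg y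
  refine ⟨(max (S.b x) (S.b y), max (S.a x) (S.a y)),
    ⟨⟨le_max_left _ _, max_le (by linarith) (S.adj_b _ _ h)⟩,
      ⟨le_max_left _ _, max_le (by linarith) (S.adj_a _ _ h)⟩⟩,
    ⟨⟨le_max_right _ _, max_le (S.adj_b _ _ h') (by linarith)⟩,
      ⟨le_max_right _ _, max_le (S.adj_a _ _ h') (by linarith)⟩⟩⟩

/-- Discrete intermediate value theorem in the vertical direction.  Proof: `Conn.ind`; if no tile
reached so far contains `s` they all stay on the side of `x`. -/
theorem ivt_a {A : Set T} {x y : T} (h : Conn Q.adj A x y) {s1 s2 s : ℝ} (h1 : x ∈ S.lev s1)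
    (h2 : y ∈ S.lev s2) (hs : s ∈ Set.uIcc s1 s2) : ∃ z, Conn Q.adj A x z ∧ z ∈ S.lev s := by
  have hx0 : Conn Q.adj A x x := Conn.refl h.left_mem
  rcases Set.mem_uIcc.1 hs with ⟨a1, a2⟩ | ⟨a1, a2⟩
  · have key := h.ind (fun z => (∃ u, Conn Q.adj A x u ∧ u ∈ S.lev s) ∨ S.a z + S.ρ z < s)
      (by
        by_cases hc : s ≤ S.a x + S.ρ x
        · exact Or.inl ⟨x, hx0, h1.1.trans a1, hc⟩
        · exact Or.inr (not_le.1 hc))
      (by
        rintro a b hxa (ha | ha) hab hb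
        · exact Or.inl ha
        · by_cases hc : s ≤ S.a b + S.ρ b
          · exact Or.inl ⟨b, hxa.tail hab hb, (S.adj_a _ _ hab).trans ha.le, hc⟩
          · exact Or.inr (not_le.1 hc))
    rcases key with k | k
    · exact k
    · exact absurd (a2.trans h2.2) (not_le.2 k)
  · have key := h.ind (fun z => (∃ u, Conn Q.adj A x u ∧ u ∈ S.lev s) ∨ s < S.a z)
      (by
        by_cases hc : S.a x ≤ s
        · exact Or.inl ⟨x, hx0, hc, a2.trans h1.2⟩
        · exact Or.inr (not_le.1 hc))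
      (by
        rintro a b hxa (ha | ha) hab hb
        · exact Or.inl ha
        · by_cases hc : S.a b ≤ s
          · exact Or.inl ⟨b, hxa.tail hab hb, hc, ha.le.trans (S.adj_a _ _ (Q.symm _ _ hab))⟩
          · exact Or.inr (not_le.1 hc))
    rcases key with k | k
    · exact k
    · exact absurd (h2.1.trans a1) (not_le.2 k)

/-- Every level is crossed horizontally.  Proof: `Q.ex (lev s)ᶜ`; a vertical chain in the complement
contradicts `ivt_a` with `s1 = 0`, `s2 = h`. -/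
theorem hcross {s : ℝ} (h0 : 0 ≤ s) (h1 : s ≤ S.h) :
    ∃ x y, Q.L x ∧ Q.R y ∧ Conn Q.adj (S.lev s) x y := by
  rcases Q.ex (S.lev s)ᶜ with ⟨x, y, hx, hy, h⟩ | h
  · have a1 := S.B_a x hx
    have a2 := S.T_a y hy
    have a3 := S.ρ_nonneg x
    have a4 := S.ρ_nonneg y
    obtain ⟨z, hz, hz'⟩ := S.ivt_a h (s1 := 0) (s2 := S.h) (s := s)
      ⟨a1.le, by linarith⟩ ⟨by linarith, a2.ge⟩ (Set.mem_uIcc.2 (Or.inl ⟨h0, h1⟩))
    exact absurd hz' hz.right_mem
  · rwa [compl_compl] at h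

/-- The squares cover the rectangle; more precisely the tiles of any horizontal crossing do along
their level: `ivt_a` for `S.swap`. -/
theorem cover_chain {A : Set T} {x y : T} (hx : Q.L x) (hy : Q.R y) (h : Conn Q.adj A x y) {t : ℝ}
    (h0 : 0 ≤ t) (h1 : t ≤ S.m) : ∃ z, Conn Q.adj A x z ∧ S.b z ≤ t ∧ t ≤ S.b z + S.ρ z := by
  have a1 := S.L_b x hx
  have a2 := S.R_b y hy
  have a3 := S.ρ_nonneg x
  have a4 := S.ρ_nonneg y
  exact S.swap.ivt_a (A := A) (x := x) (y := y) h (s1 := 0) (s2 := S.m) (s := t)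
    ⟨a1.le, show (0 : ℝ) ≤ S.b x + S.ρ x by linarith⟩ ⟨show S.b y ≤ S.m by linarith, a2.ge⟩
    (Set.mem_uIcc.2 (Or.inl ⟨h0, h1⟩))

theorem cover {w : ℝ × ℝ} (h0 : 0 ≤ w.1) (h1 : w.1 ≤ S.m) (h2 : 0 ≤ w.2) (h3 : w.2 ≤ S.h) :
    ∃ x, w ∈ S.sq x := by
  obtain ⟨x, y, hx, hy, h⟩ := S.hcross h2 h3
  obtain ⟨z, hz, hz'⟩ := S.cover_chain hx hy h h0 h1
  exact ⟨z, hz', hz.right_mem⟩

theorem h45_vol_sq (x : T) :
    MeasureTheory.volume (S.sq x) = ENNReal.ofReal (S.ρ x ^ 2) := by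
  unfold SqT.sq
  rw [MeasureTheory.Measure.volume_eq_prod, MeasureTheory.Measure.prod_prod, Real.volume_Icc,
    Real.volume_Icc, ← ENNReal.ofReal_mul (by linarith [S.ρ_nonneg x])]
  congr 1; ring

theorem h45_vol_Ioo (p q r s : ℝ) (h : p ≤ q) :
    MeasureTheory.volume (Set.Ioo p q ×ˢ Set.Ioo r s) = ENNReal.ofReal ((q - p) * (s - r)) := by
  rw [MeasureTheory.Measure.volume_eq_prod, MeasureTheory.Measure.prod_prod, Real.volume_Ioo,
    Real.volume_Ioo, ← ENNReal.ofReal_mul (by linarith)]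

/-- Distinct open squares are disjoint.  Proof: the squares cover the rectangle of area
`m h = ∑ ρ²`; if two open squares meet, their intersection `W` is a nonempty open set of positive
volume, and `vol (rect) ≤ vol (sq x \ W) + ∑_{z ≠ x} vol (sq z) = ∑ ρ² - vol W`. -/
theorem disj {x y : T} {w : ℝ × ℝ} (hx1 : S.b x < w.1) (hx2 : w.1 < S.b x + S.ρ x)
    (hx3 : S.a x < w.2) (hx4 : w.2 < S.a x + S.ρ x) (hy1 : S.b y < w.1) (hy2 : w.1 < S.b y + S.ρ y)
    (hy3 : S.a y < w.2) (hy4 : w.2 < S.a y + S.ρ y) : x = y := by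
  classical
  by_contra hxy
  set p := max (S.b x) (S.b y) with hp
  set q := min (S.b x + S.ρ x) (S.b y + S.ρ y) with hq
  set r := max (S.a x) (S.a y) with hr
  set s := min (S.a x + S.ρ x) (S.a y + S.ρ y) with hs
  have hpq : p < q := lt_trans (max_lt hx1 hy1) (lt_min hx2 hy2)
  have hrs : r < s := lt_trans (max_lt hx3 hy3) (lt_min hx4 hy4)
  set W : Set (ℝ × ℝ) := Set.Ioo p q ×ˢ Set.Ioo r s with hW
  have hWm : MeasurableSet W := measurableSet_Ioo.prod measurableSet_Ioo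
  have hWx : W ⊆ S.sq x := by
    rintro u ⟨⟨h1, h2⟩, h3, h4⟩
    exact ⟨⟨((le_max_left _ _).trans_lt h1).le, (h2.trans_le (min_le_left _ _)).le⟩,
      ((le_max_left _ _).trans_lt h3).le, (h4.trans_le (min_le_left _ _)).le⟩
  have hWy : W ⊆ S.sq y := by
    rintro u ⟨⟨h1, h2⟩, h3, h4⟩
    exact ⟨⟨((le_max_right _ _).trans_lt h1).le, (h2.trans_le (min_le_right _ _)).le⟩,
      ((le_max_right _ _).trans_lt h3).le, (h4.trans_le (min_le_right _ _)).le⟩
  have hWv : MeasureTheory.volume W = ENNReal.ofReal ((q - p) * (s - r)) :=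
    h45_vol_Ioo p q r s hpq.le
  have hpos : 0 < (q - p) * (s - r) := mul_pos (by linarith) (by linarith)
  have hle : (q - p) * (s - r) ≤ S.ρ x ^ 2 := by
    have := MeasureTheory.measure_mono (μ := MeasureTheory.volume) hWx
    rw [hWv, S.h45_vol_sq, ENNReal.ofReal_le_ofReal_iff (sq_nonneg _)] at this
    exact this
  -- the cover
  have hcov : Set.Ioo 0 S.m ×ˢ Set.Ioo 0 S.h ⊆
      (S.sq x \ W) ∪ ⋃ z ∈ Finset.univ.erase x, S.sq z := by
    rintro u ⟨⟨h1, h2⟩, h3, h4⟩
    obtain ⟨z, hz⟩ := S.cover (w := u) h1.le h2.le h3.le h4.le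
    by_cases huW : u ∈ W
    · right
      exact Set.mem_biUnion (x := y) (by simp [Ne.symm hxy]) (hWy huW)
    · by_cases hzx : z = x
      · left; exact ⟨hzx ▸ hz, huW⟩
      · right; exact Set.mem_biUnion (x := z) (by simp [hzx]) hz
  have h1 := MeasureTheory.measure_mono (μ := MeasureTheory.volume) hcov
  rw [h45_vol_Ioo _ _ _ _ S.m_pos.le] at h1
  have h2 := h1.trans ((MeasureTheory.measure_union_le _ _).trans
    (add_le_add le_rfl (MeasureTheory.measure_biUnion_finset_le _ _)))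
  rw [MeasureTheory.measure_sdiff hWx hWm.nullMeasurableSet (by rw [hWv]; exact ENNReal.ofReal_ne_top),
    hWv, S.h45_vol_sq, ← ENNReal.ofReal_sub _ hpos.le] at h2
  simp only [S.h45_vol_sq] at h2
  rw [← ENNReal.ofReal_sum_of_nonneg (fun _ _ => sq_nonneg _),
    ← ENNReal.ofReal_add (by linarith) (Finset.sum_nonneg fun _ _ => sq_nonneg _),
    ENNReal.ofReal_le_ofReal_iff (add_nonneg (by linarith)
      (Finset.sum_nonneg fun _ _ => sq_nonneg _))] at h2
  have h3 := Finset.add_sum_erase Finset.univ (fun z => S.ρ z ^ 2) (Finset.mem_univ x)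
  have h4 := S.sum_sq
  simp only [sub_zero] at h2
  linarith

/-- Area bound: squares contained in `closedBall y t` (a square of side `2t`) have total area at
most `4 t²`.  Proof: the open squares are pairwise disjoint (`disj`), `measure_biUnion_finset`. -/
theorem area (F : Finset T) (y : ℝ × ℝ) (t : ℝ) (ht : 0 ≤ t)
    (hF : ∀ x ∈ F, S.sq x ⊆ closedBall y t) : ∑ x ∈ F, S.ρ x ^ 2 ≤ 4 * t ^ 2 := by
  classical
  let O : T → Set (ℝ × ℝ) := fun x =>
    Set.Ioo (S.b x) (S.b x + S.ρ x) ×ˢ Set.Ioo (S.a x) (S.a x + S.ρ x)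
  have hOm : ∀ x ∈ F, MeasurableSet (O x) := fun x _ => measurableSet_Ioo.prod measurableSet_Ioo
  have hd : Set.PairwiseDisjoint (F : Set T) O := by
    intro x _ z _ hxz
    rw [Function.onFun, Set.disjoint_left]
    rintro u ⟨⟨h1, h2⟩, h3, h4⟩ ⟨⟨h5, h6⟩, h7, h8⟩
    exact hxz (S.disj h1 h2 h3 h4 h5 h6 h7 h8)
  have hv : ∀ x, MeasureTheory.volume (O x) = ENNReal.ofReal (S.ρ x ^ 2) := by
    intro x
    rw [h45_vol_Ioo _ _ _ _ (by linarith [S.ρ_nonneg x])]
    congr 1; ring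
  have hsub : (⋃ x ∈ F, O x) ⊆ closedBall y t := by
    intro u hu
    simp only [Set.mem_iUnion] at hu
    obtain ⟨x, hx, ⟨h1, h2⟩, h3, h4⟩ := hu
    exact hF x hx ⟨⟨h1.le, h2.le⟩, h3.le, h4.le⟩
  have h1 := MeasureTheory.measure_mono (μ := MeasureTheory.volume) hsub
  rw [MeasureTheory.measure_biUnion_finset hd hOm] at h1
  have h2 : MeasureTheory.volume (closedBall y t) = ENNReal.ofReal (4 * t ^ 2) := by
    rw [← Prod.mk.eta (p := y), ← closedBall_prod_same, MeasureTheory.Measure.volume_eq_prod,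
      MeasureTheory.Measure.prod_prod, Real.volume_closedBall, Real.volume_closedBall,
      ← ENNReal.ofReal_mul (by linarith)]
    congr 1; ring
  simp only [hv] at h1
  rw [h2, ← ENNReal.ofReal_sum_of_nonneg (fun _ _ => sq_nonneg _),
    ENNReal.ofReal_le_ofReal_iff (by positivity)] at h1
  exact h1

/-- only finitely many heights are not generic -/
theorem finite_not_gen : {s : ℝ | ¬ S.Gen s}.Finite := by
  refine ((Set.finite_range S.a).union (Set.finite_range fun x => S.a x + S.ρ x)).subset ?_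
  intro s hs
  by_contra hn
  refine hs fun x => ⟨fun h => hn (Or.inl ⟨x, h.symm⟩), fun h => hn (Or.inr ⟨x, h.symm⟩)⟩

theorem hl_strict {s : ℝ} (hg : S.Gen s) {x : T} (hx : x ∈ S.lev s) :
    S.a x < s ∧ s < S.a x + S.ρ x :=
  ⟨lt_of_le_of_ne hx.1 (hg x).1.symm, lt_of_le_of_ne hx.2 (hg x).2⟩

theorem hl_pos {s : ℝ} (hg : S.Gen s) {x : T} (hx : x ∈ S.lev s) : 0 < S.ρ x := by
  have := S.hl_strict hg hx
  linarith [this.1, this.2]

theorem hl_overlap {s : ℝ} (hg : S.Gen s) {u v : T} (hu : u ∈ S.lev s) (hv : v ∈ S.lev s)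
    (h1 : S.b u < S.b v + S.ρ v) (h2 : S.b v < S.b u + S.ρ u) : u = v := by
  have pu := S.hl_pos hg hu
  have pv := S.hl_pos hg hv
  have su := S.hl_strict hg hu
  have sv := S.hl_strict hg hv
  have hlt : max (S.b u) (S.b v) < min (S.b u + S.ρ u) (S.b v + S.ρ v) := by
    rw [max_lt_iff, lt_min_iff, lt_min_iff]
    exact ⟨⟨by linarith, h1⟩, h2, by linarith⟩
  obtain ⟨t, ht1, ht2⟩ := exists_between hlt
  rw [max_lt_iff] at ht1
  rw [lt_min_iff] at ht2
  exact S.disj (w := (t, s)) ht1.1 ht2.1 su.1 su.2 ht1.2 ht2.2 sv.1 sv.2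

/-- At a generic height every tile of the level is on the horizontal crossing.  Proof: take the
crossing `l → r` of `hcross`; `ρ x > 0` and `a x < s < a x + ρ x` by genericity; pick
`t ∈ (b x, b x + ρ x)` different from all `b z`, `b z + ρ z` (finite set); `cover_chain` gives `z`
with `Conn l z`, `(t,s)` is in both open squares, so `z = x` by `disj`. -/
theorem hlevel {s : ℝ} (hg : S.Gen s) {x : T} (hx : x ∈ S.lev s) :
    ∃ l r, Q.L l ∧ Q.R r ∧ Conn Q.adj (S.lev s) x l ∧ Conn Q.adj (S.lev s) x r := by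
  have px := S.hl_pos hg hx
  obtain ⟨l, r, hl, hr, hc⟩ := S.hcross ((S.a_nonneg x).trans hx.1) (hx.2.trans (S.a_le x))
  have hfin : (Set.range S.b ∪ Set.range fun z => S.b z + S.ρ z).Finite :=
    (Set.finite_range _).union (Set.finite_range _)
  obtain ⟨t, ht, htn⟩ := ((Set.Ioo_infinite (show S.b x < S.b x + S.ρ x by linarith)).diff
    hfin).nonempty
  obtain ⟨z, hz, hz1, hz2⟩ := S.cover_chain hl hr hc ((S.b_nonneg x).trans ht.1.le)
    (ht.2.le.trans (S.b_le x))
  have h1 : S.b z < t := lt_of_le_of_ne hz1 fun h => htn (Or.inl ⟨z, h⟩)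
  have h2 : t < S.b z + S.ρ z := lt_of_le_of_ne hz2 fun h => htn (Or.inr ⟨z, h.symm⟩)
  have hzx : z = x := S.hl_overlap hg hz.right_mem hx (h1.trans ht.2) (ht.1.trans h2)
  subst hzx
  exact ⟨l, r, hl, hr, hz.symm Q.symm, (hz.symm Q.symm).trans hc⟩

/-- At a generic height consecutive squares belong to adjacent tiles.  Proof: `t0 = b z`.  By `disj`
every tile `u` of the level has `b u + ρ u ≤ t0` or `t0 ≤ b u` (otherwise it overlaps `x` or `z`
without being equal to it), not both since `ρ u > 0`.  Follow the crossing `l → r` (`l` is of the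
first kind as `b l = 0 < t0`, `r` of the second kind): some step `u → v` goes from the first kind to
the second; `adj_b` gives `t0 ≤ b v ≤ b u + ρ u ≤ t0`, and then `u = x`, `v = z` by `disj`. -/
theorem adj_of_consec {s : ℝ} (hg : S.Gen s) {x z : T} (hx : x ∈ S.lev s) (hz : z ∈ S.lev s)
    (h : S.b x + S.ρ x = S.b z) : Q.adj x z := by
  have px := S.hl_pos hg hx
  have pz := S.hl_pos hg hz
  have kind : ∀ u ∈ S.lev s, S.b u + S.ρ u ≤ S.b z ∨ S.b z ≤ S.b u := by
    intro u hu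
    by_contra hne
    rw [not_or, not_le, not_le] at hne
    have := S.hl_overlap hg hu hz (by linarith [hne.2]) hne.1
    subst this
    exact lt_irrefl _ hne.2
  obtain ⟨l, r, hl, hr, hc⟩ := S.hcross ((S.a_nonneg x).trans hx.1) (hx.2.trans (S.a_le x))
  have key : S.b r + S.ρ r ≤ S.b z ∨ Q.adj x z := by
    refine hc.ind (fun u => S.b u + S.ρ u ≤ S.b z ∨ Q.adj x z) ?_ ?_
    · left
      rcases kind l hc.left_mem with h1 | h1
      · exact h1
      · rw [S.L_b l hl] at h1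
        linarith [S.b_nonneg x]
    · intro u v hu ih huv hv
      rcases ih with ih | ih
      · rcases kind v hv with h1 | h1
        · exact Or.inl h1
        · right
          have h2 := S.adj_b u v huv
          have pu := S.hl_pos hg hu.right_mem
          have pv := S.hl_pos hg hv
          have e1 : u = x := S.hl_overlap hg hu.right_mem hx (by linarith) (by linarith)
          have e2 : v = z := S.hl_overlap hg hv hz (by linarith) (by linarith)
          rw [← e1, ← e2]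
          exact huv
      · exact Or.inr ih
  rcases key with h1 | h1
  · rw [S.R_b r hr] at h1
    linarith [S.b_le z]
  · exact h1

theorem sc_strict {s : ℝ} (hg : S.Gen s) {x : T} (hx : x ∈ S.lev s) :
    S.a x < s ∧ s < S.a x + S.ρ x :=
  ⟨lt_of_le_of_ne hx.1 (hg x).1.symm, lt_of_le_of_ne hx.2 (hg x).2⟩

theorem sc_sep {s : ℝ} (hg : S.Gen s) {x z : T} (hx : x ∈ S.lev s) (hz : z ∈ S.lev s)
    (hne : x ≠ z) : S.b x + S.ρ x ≤ S.b z ∨ S.b z + S.ρ z ≤ S.b x := by
  by_contra hc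
  rw [not_or, not_le, not_le] at hc
  obtain ⟨h1, h2⟩ := hc
  obtain ⟨ax, ax'⟩ := S.sc_strict hg hx
  obtain ⟨az, az'⟩ := S.sc_strict hg hz
  have px : 0 < S.ρ x := by linarith
  have pz : 0 < S.ρ z := by linarith
  have hlt : max (S.b x) (S.b z) < min (S.b x + S.ρ x) (S.b z + S.ρ z) := by
    rw [max_lt_iff, lt_min_iff, lt_min_iff]
    exact ⟨⟨by linarith, h2⟩, ⟨h1, by linarith⟩⟩
  obtain ⟨t, ht1, ht2⟩ := exists_between hlt
  rw [max_lt_iff] at ht1
  rw [lt_min_iff] at ht2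
  exact hne (S.disj (w := (t, s)) ht1.1 ht2.1 ax ax' ht1.2 ht2.2 az az')

theorem sc_next {s : ℝ} (hg : S.Gen s) {x : T} (hx : x ∈ S.lev s) (hm : S.b x + S.ρ x < S.m) :
    ∃ u ∈ S.lev s, S.b u = S.b x + S.ρ x := by
  classical
  have s0 : 0 ≤ s := (S.a_nonneg x).trans hx.1
  have s1 : s ≤ S.h := hx.2.trans (S.a_le x)
  have t0 : 0 ≤ S.b x + S.ρ x := add_nonneg (S.b_nonneg x) (S.ρ_nonneg x)
  have hne : (Finset.univ.filter
      (fun u => u ∈ S.lev s ∧ S.b x + S.ρ x < S.b u + S.ρ u)).Nonempty := by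
    obtain ⟨v, hv⟩ := S.cover (w := (S.m, s)) S.m_pos.le le_rfl s0 s1
    exact ⟨v, Finset.mem_filter.2 ⟨Finset.mem_univ _, ⟨hv.2.1, hv.2.2⟩, hm.trans_le hv.1.2⟩⟩
  obtain ⟨u, hu, hmin⟩ := Finset.exists_min_image _ S.b hne
  obtain ⟨hu1, hu2⟩ := (Finset.mem_filter.1 hu).2
  refine ⟨u, hu1, ?_⟩
  have hux : x ≠ u := by
    rintro rfl
    exact lt_irrefl _ hu2
  have hge : S.b x + S.ρ x ≤ S.b u := by
    rcases S.sc_sep hg hx hu1 hux with h | h
    · exact h
    · have := S.ρ_nonneg x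
      linarith
  by_contra hc
  have hlt : S.b x + S.ρ x < S.b u := lt_of_le_of_ne hge (Ne.symm hc)
  obtain ⟨t, ht1, ht2⟩ := exists_between hlt
  have tm : t ≤ S.m := by
    have := S.b_le u
    have := S.ρ_nonneg u
    linarith
  obtain ⟨v, hv⟩ := S.cover (w := (t, s)) (by show 0 ≤ t; linarith) tm s0 s1
  have hv1 : S.b v ≤ t := hv.1.1
  have hv2 : t ≤ S.b v + S.ρ v := hv.1.2
  have := hmin v (Finset.mem_filter.2 ⟨Finset.mem_univ _, ⟨hv.2.1, hv.2.2⟩, ht1.trans_le hv2⟩)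
  linarith

open Classical in
theorem sc_aux {s t1 t2 : ℝ} (hg : S.Gen s) {z : T} (hz : z ∈ S.seg s t1 t2) (n : ℕ) :
    ∀ x : T, x ∈ S.seg s t1 t2 → S.b x ≤ S.b z →
      (Finset.univ.filter (fun u => S.b x < S.b u)).card = n →
      Conn Q.adj (S.seg s t1 t2) x z := by
  induction n using Nat.strong_induction_on with
  | _ n ih =>
    intro x hx hxz hn
    by_cases hne : x = z
    · subst hne
      exact Conn.refl hx
    obtain ⟨ax, ax'⟩ := S.sc_strict hg hx.1
    obtain ⟨az, az'⟩ := S.sc_strict hg hz.1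
    have px : 0 < S.ρ x := by linarith
    have pz : 0 < S.ρ z := by linarith
    have hle : S.b x + S.ρ x ≤ S.b z := by
      rcases S.sc_sep hg hx.1 hz.1 hne with h | h
      · exact h
      · linarith
    have hm : S.b x + S.ρ x < S.m := by
      have := S.b_le z
      linarith
    obtain ⟨u, hu, hbu⟩ := S.sc_next hg hx.1 hm
    have huseg : u ∈ S.seg s t1 t2 := by
      refine ⟨hu, ?_, ?_⟩
      · have := hz.2.1
        linarith
      · have := hx.2.2
        have := S.ρ_nonneg u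
        linarith
    have hadj : Q.adj x u := S.adj_of_consec hg hx.1 hu hbu.symm
    have hlt : (Finset.univ.filter (fun v => S.b u < S.b v)).card < n := by
      rw [← hn]
      apply Finset.card_lt_card
      rw [Finset.ssubset_iff_of_subset]
      · refine ⟨u, Finset.mem_filter.2 ⟨Finset.mem_univ _, by linarith⟩, ?_⟩
        intro h
        exact lt_irrefl _ (Finset.mem_filter.1 h).2
      · intro v hv
        refine Finset.mem_filter.2 ⟨Finset.mem_univ _, ?_⟩
        have := (Finset.mem_filter.1 hv).2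
        linarith
    exact ((Conn.refl hx).tail hadj huseg).trans (ih _ hlt u huseg (by linarith) rfl)

/-- Tiles meeting a horizontal segment at a generic height are connected.  Proof: wlog
`b x ≤ b z` (`Conn.symm`); induct on the number of tiles `u` of the level with `b x < b u ≤ b z`:
if `x ≠ z` then `b x + ρ x ≤ b z` (`disj`), the tile `u` covering points just right of
`b x + ρ x` (pick by `cover` at a point `t` slightly larger than `b x + ρ x`, smaller than every
larger endpoint) has `b u = b x + ρ x`, lies in the segment set and is adjacent to `x`. -/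
theorem seg_conn {s t1 t2 : ℝ} (hg : S.Gen s) (ht : t1 ≤ t2) {x z : T} (hx : x ∈ S.seg s t1 t2)
    (hz : z ∈ S.seg s t1 t2) : Conn Q.adj (S.seg s t1 t2) x z := by
  have _ := ht
  rcases le_total (S.b x) (S.b z) with h | h
  · exact S.sc_aux hg hz _ x hx h rfl
  · exact (S.sc_aux hg hx _ z hz h rfl).symm Q.symm

theorem lc_seg_sub {y : ℝ × ℝ} {t s : ℝ} (ht : 0 < t) (hs : s = y.2 - t ∨ s = y.2 + t) :
    S.seg s (y.1 - t) (y.1 + t) ⊆ S.loop y t := by
  rintro x ⟨⟨ha1, ha2⟩, hb1, hb2⟩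
  have hρ := S.ρ_nonneg x
  refine ⟨(max (S.b x) (y.1 - t), s), ⟨⟨le_max_left _ _, max_le (by linarith) hb2⟩, ha1, ha2⟩, ?_⟩
  rw [Prod.dist_eq, Real.dist_eq, Real.dist_eq]
  have h2 : |s - y.2| = t := by
    rcases hs with rfl | rfl
    · rw [show y.2 - t - y.2 = -t by ring, abs_neg, abs_of_pos ht]
    · rw [show y.2 + t - y.2 = t by ring, abs_of_pos ht]
  have h1 : |max (S.b x) (y.1 - t) - y.1| ≤ t := by
    have := le_max_right (S.b x) (y.1 - t)
    have := max_le hb1 (show y.1 - t ≤ y.1 + t by linarith)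
    rw [abs_le]; constructor <;> linarith
  simp only [h2]
  exact max_eq_right h1

theorem lc_seg_sub' {y : ℝ × ℝ} {t s : ℝ} (ht : 0 < t) (hs : s = y.1 - t ∨ s = y.1 + t) :
    S.swap.seg s (y.2 - t) (y.2 + t) ⊆ S.loop y t := by
  intro x hx
  obtain ⟨w, hw, hd⟩ := S.swap.lc_seg_sub (y := y.swap) ht hs hx
  refine ⟨w.swap, ⟨hw.2, hw.1⟩, ?_⟩
  rw [Prod.dist_eq] at hd ⊢
  rw [max_comm]; exact hd

theorem lc_cases {y : ℝ × ℝ} {t : ℝ} {x : T} (hx : x ∈ S.loop y t) :
    x ∈ S.seg (y.2 - t) (y.1 - t) (y.1 + t) ∨ x ∈ S.seg (y.2 + t) (y.1 - t) (y.1 + t) ∨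
      x ∈ S.swap.seg (y.1 - t) (y.2 - t) (y.2 + t) ∨
        x ∈ S.swap.seg (y.1 + t) (y.2 - t) (y.2 + t) := by
  obtain ⟨w, ⟨⟨hb1, hb2⟩, ha1, ha2⟩, hd⟩ := hx
  rw [Prod.dist_eq, Real.dist_eq, Real.dist_eq] at hd
  have h1 : |w.1 - y.1| ≤ t := hd ▸ le_max_left _ _
  have h2 : |w.2 - y.2| ≤ t := hd ▸ le_max_right _ _
  have h1' := abs_le.1 h1
  have h2' := abs_le.1 h2
  have h3 : |w.1 - y.1| = t ∨ |w.2 - y.2| = t := by
    rcases max_choice |w.1 - y.1| |w.2 - y.2| with h | h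
    · exact Or.inl (h ▸ hd)
    · exact Or.inr (h ▸ hd)
  have ht : 0 ≤ t := (abs_nonneg _).trans h1
  simp only [seg, lev, swap, Set.mem_setOf_eq]
  rcases h3 with h | h
  · rcases (abs_eq ht).1 h with h | h
    · refine Or.inr (Or.inr (Or.inr ⟨⟨?_, ?_⟩, ?_, ?_⟩)) <;> linarith [h2'.1, h2'.2]
    · refine Or.inr (Or.inr (Or.inl ⟨⟨?_, ?_⟩, ?_, ?_⟩)) <;> linarith [h2'.1, h2'.2]
  · rcases (abs_eq ht).1 h with h | h
    · refine Or.inr (Or.inl ⟨⟨?_, ?_⟩, ?_, ?_⟩) <;> linarith [h1'.1, h1'.2]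
    · refine Or.inl ⟨⟨?_, ?_⟩, ?_, ?_⟩ <;> linarith [h1'.1, h1'.2]

/-- Tiles meeting a generic square loop inside the rectangle are connected.  Proof: the loop set is
the union of four segment sets (two for `S`, two for `S.swap`), each connected by `seg_conn`;
consecutive ones share the tile covering the common corner (`cover`). -/
theorem loop_conn {y : ℝ × ℝ} {t : ℝ} (ht : 0 < t) (hb : S.Box y t) (g1 : S.Gen (y.2 - t))
    (g2 : S.Gen (y.2 + t)) (g3 : S.swap.Gen (y.1 - t)) (g4 : S.swap.Gen (y.1 + t)) {x z : T}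
    (hx : x ∈ S.loop y t) (hz : z ∈ S.loop y t) : Conn Q.adj (S.loop y t) x z := by
  obtain ⟨hb1, hb2, hb3, hb4⟩ := hb
  obtain ⟨p, ⟨hp1, hp2⟩, hp3, hp4⟩ := S.cover (w := (y.1 - t, y.2 - t)) (by simp only; linarith)
    (by simp only; linarith) (by simp only; linarith) (by simp only; linarith)
  obtain ⟨q, ⟨hq1, hq2⟩, hq3, hq4⟩ := S.cover (w := (y.1 + t, y.2 - t)) (by simp only; linarith)
    (by simp only; linarith) (by simp only; linarith) (by simp only; linarith)
  obtain ⟨r, ⟨hr1, hr2⟩, hr3, hr4⟩ := S.cover (w := (y.1 - t, y.2 + t)) (by simp only; linarith)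
    (by simp only; linarith) (by simp only; linarith) (by simp only; linarith)
  simp only at hp1 hp2 hp3 hp4 hq1 hq2 hq3 hq4 hr1 hr2 hr3 hr4
  have pB : p ∈ S.seg (y.2 - t) (y.1 - t) (y.1 + t) := ⟨⟨hp3, hp4⟩, by linarith, hp2⟩
  have qB : q ∈ S.seg (y.2 - t) (y.1 - t) (y.1 + t) := ⟨⟨hq3, hq4⟩, hq1, by linarith⟩
  have rT : r ∈ S.seg (y.2 + t) (y.1 - t) (y.1 + t) := ⟨⟨hr3, hr4⟩, by linarith, hr2⟩
  have pL : p ∈ S.swap.seg (y.1 - t) (y.2 - t) (y.2 + t) :=
    ⟨⟨hp1, hp2⟩, show S.a p ≤ _ by linarith, hp4⟩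
  have rL : r ∈ S.swap.seg (y.1 - t) (y.2 - t) (y.2 + t) :=
    ⟨⟨hr1, hr2⟩, hr3, show _ ≤ S.a r + S.ρ r by linarith⟩
  have qR : q ∈ S.swap.seg (y.1 + t) (y.2 - t) (y.2 + t) :=
    ⟨⟨hq1, hq2⟩, show S.a q ≤ _ by linarith, hq4⟩
  have h1 : y.1 - t ≤ y.1 + t := by linarith
  have h2 : y.2 - t ≤ y.2 + t := by linarith
  have cB : ∀ u v, u ∈ S.seg (y.2 - t) (y.1 - t) (y.1 + t) →
      v ∈ S.seg (y.2 - t) (y.1 - t) (y.1 + t) → Conn Q.adj (S.loop y t) u v := fun u v hu hv =>
    (S.seg_conn g1 h1 hu hv).mono (S.lc_seg_sub ht (Or.inl rfl))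
  have cT : ∀ u v, u ∈ S.seg (y.2 + t) (y.1 - t) (y.1 + t) →
      v ∈ S.seg (y.2 + t) (y.1 - t) (y.1 + t) → Conn Q.adj (S.loop y t) u v := fun u v hu hv =>
    (S.seg_conn g2 h1 hu hv).mono (S.lc_seg_sub ht (Or.inr rfl))
  have cL : ∀ u v, u ∈ S.swap.seg (y.1 - t) (y.2 - t) (y.2 + t) →
      v ∈ S.swap.seg (y.1 - t) (y.2 - t) (y.2 + t) → Conn Q.adj (S.loop y t) u v :=
    fun u v hu hv => (S.swap.seg_conn g3 h2 hu hv).mono (S.lc_seg_sub' ht (Or.inl rfl))
  have cR : ∀ u v, u ∈ S.swap.seg (y.1 + t) (y.2 - t) (y.2 + t) →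
      v ∈ S.swap.seg (y.1 + t) (y.2 - t) (y.2 + t) → Conn Q.adj (S.loop y t) u v :=
    fun u v hu hv => (S.swap.seg_conn g4 h2 hu hv).mono (S.lc_seg_sub' ht (Or.inr rfl))
  have key : ∀ u, u ∈ S.loop y t → Conn Q.adj (S.loop y t) u p := by
    intro u hu
    rcases S.lc_cases hu with h | h | h | h
    · exact cB _ _ h pB
    · exact (cT _ _ h rT).trans (cL _ _ rL pL)
    · exact cL _ _ h pL
    · exact (cR _ _ h qR).trans (cB _ _ qB pB)
  exact (key x hx).trans ((key z hz).symm Q.symm)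

theorem lc_inside {u : T} {y w0 : ℝ × ℝ} {t : ℝ} (hu : u ∉ S.loop y t) (h0 : w0 ∈ S.sq u)
    (h0' : dist w0 y ≤ t) : ∀ w ∈ S.sq u, dist w y < t := by
  intro w hw
  by_contra hlt
  push Not at hlt
  have hc : IsPreconnected (S.sq u) := isPreconnected_Icc.prod isPreconnected_Icc
  have hf : ContinuousOn (fun w : ℝ × ℝ => dist w y) (S.sq u) := by fun_prop
  obtain ⟨w', hw', he⟩ := hc.intermediate_value h0 hw hf ⟨h0', hlt⟩
  exact hu ⟨w', hw', he⟩

/-- A chain from inside to outside of a loop meets the loop.  Proof: `Conn.ind`; squares are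
convex (IVT for `w ↦ dist w y` on a segment) and adjacent squares intersect. -/
theorem ivt_loop {A : Set T} {x z : T} (h : Conn Q.adj A x z) {y w1 w2 : ℝ × ℝ} {t : ℝ}
    (h1 : w1 ∈ S.sq x) (h1' : dist w1 y ≤ t) (h2 : w2 ∈ S.sq z) (h2' : t ≤ dist w2 y) :
    ∃ u, Conn Q.adj A x u ∧ u ∈ S.loop y t := by
  by_contra hne
  push Not at hne
  have key : ∀ w ∈ S.sq z, dist w y < t := by
    refine h.ind (fun u => ∀ w ∈ S.sq u, dist w y < t)
      (S.lc_inside (hne x (Conn.refl h.left_mem)) h1 h1') ?_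
    intro a b hxa ha hab hb
    obtain ⟨w, hwa, hwb⟩ := S.adj_inter hab
    exact S.lc_inside (hne b (hxa.tail hab hb)) hwb (ha w hwa).le
  exact absurd (key w2 h2) (not_lt.2 h2')

/-- a boundary tile reaches outside every box -/
theorem bd_far {x : T} (hx : Q.Bd x) {y : ℝ × ℝ} {t : ℝ} (hb : S.Box y t) :
    ∃ w ∈ S.sq x, t ≤ dist w y := by
  obtain ⟨b1, b2, b3, b4⟩ := hb
  have hρ := S.ρ_nonneg x
  have e1 : S.b x ≤ S.b x + S.ρ x := le_add_of_nonneg_right hρ
  have e2 : S.a x ≤ S.a x + S.ρ x := le_add_of_nonneg_right hρ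
  rcases hx with hx | hx | hx | hx
  · refine ⟨(S.b x, S.a x), ⟨⟨le_rfl, e1⟩, ⟨le_rfl, e2⟩⟩, ?_⟩
    rw [Prod.dist_eq]
    refine le_max_of_le_right ?_
    rw [Real.dist_eq, S.B_a x hx]
    exact le_abs.2 (Or.inr (by simpa using b3))
  · refine ⟨(S.b x, S.a x + S.ρ x), ⟨⟨le_rfl, e1⟩, ⟨e2, le_rfl⟩⟩, ?_⟩
    rw [Prod.dist_eq]
    refine le_max_of_le_right ?_
    rw [Real.dist_eq, S.T_a x hx]
    exact le_abs.2 (Or.inl (by simp only; linarith))
  · refine ⟨(S.b x, S.a x), ⟨⟨le_rfl, e1⟩, ⟨le_rfl, e2⟩⟩, ?_⟩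
    rw [Prod.dist_eq]
    refine le_max_of_le_left ?_
    rw [Real.dist_eq, S.L_b x hx]
    exact le_abs.2 (Or.inr (by simpa using b1))
  · refine ⟨(S.b x + S.ρ x, S.a x), ⟨⟨e1, le_rfl⟩, ⟨le_rfl, e2⟩⟩, ?_⟩
    rw [Prod.dist_eq]
    refine le_max_of_le_left ?_
    rw [Real.dist_eq, S.R_b x hx]
    exact le_abs.2 (Or.inl (by simp only; linarith))

end SqT

open Classical in
/-- Integration over levels.  If for all but finitely many `s ∈ (α, β)` the tiles whose interval
`[lo x, lo x + ρ x]` contains `s` have `σ`-mass `≥ 1`, then `β - α ≤ ∑ σ ρ`.  Proof: integrate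
`∑ x, σ x * indicator (Icc (lo x) (lo x + ρ x)) 1` over `Ioo α β` (a finite set is null). -/
theorem integ {T : Type} (F : Finset T) (σ ρ lo : T → ℝ) (hσ : ∀ x, 0 ≤ σ x) (hρ : ∀ x, 0 ≤ ρ x)
    {α β : ℝ} (N : Set ℝ) (hN : N.Finite)
    (h : ∀ s, α < s → s < β → s ∉ N →
      1 ≤ ∑ x ∈ F.filter (fun x => lo x ≤ s ∧ s ≤ lo x + ρ x), σ x) :
    β - α ≤ ∑ x ∈ F, σ x * ρ x := by
  rcases le_or_gt β α with hab | hab
  · exact (sub_nonpos.2 hab).trans (Finset.sum_nonneg fun x _ => mul_nonneg (hσ x) (hρ x))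
  let g : T → ℝ → ℝ := fun x => (Set.Icc (lo x) (lo x + ρ x)).indicator fun _ => σ x
  have hgi : ∀ x, MeasureTheory.Integrable (g x) MeasureTheory.volume := by
    intro x
    refine (MeasureTheory.integrable_indicator_iff measurableSet_Icc).2 ?_
    exact MeasureTheory.integrableOn_const (by simp)
  have hgint : ∀ x, ∫ s, g x s = σ x * ρ x := by
    intro x
    simp only [g]
    rw [MeasureTheory.integral_indicator measurableSet_Icc, MeasureTheory.setIntegral_const,
      Real.volume_real_Icc_of_le (by linarith [hρ x]), smul_eq_mul]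
    ring
  have h1i : MeasureTheory.Integrable ((Set.Ioo α β).indicator fun _ => (1 : ℝ))
      MeasureTheory.volume := by
    refine (MeasureTheory.integrable_indicator_iff measurableSet_Ioo).2 ?_
    exact MeasureTheory.integrableOn_const (by simp)
  have h1 : ∫ s, (Set.Ioo α β).indicator (fun _ => (1 : ℝ)) s = β - α := by
    rw [MeasureTheory.integral_indicator measurableSet_Ioo, MeasureTheory.setIntegral_const,
      Real.volume_real_Ioo_of_le hab.le, smul_eq_mul, mul_one]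
  have hsum : ∀ s, ∑ x ∈ F, g x s =
      ∑ x ∈ F.filter (fun x => lo x ≤ s ∧ s ≤ lo x + ρ x), σ x := by
    intro s
    rw [Finset.sum_filter]
    refine Finset.sum_congr rfl fun x _ => ?_
    simp only [g, Set.indicator_apply, Set.mem_Icc]
  rw [← h1, ← Finset.sum_congr rfl fun x _ => hgint x,
    ← MeasureTheory.integral_finsetSum F fun x _ => hgi x]
  refine MeasureTheory.integral_mono_ae h1i (MeasureTheory.integrable_finsetSum F fun x _ => hgi x) ?_
  have hnull : ∀ᵐ s ∂(MeasureTheory.volume : MeasureTheory.Measure ℝ), s ∉ N :=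
    hN.countable.ae_notMem _
  filter_upwards [hnull] with s hs
  rw [hsum]
  by_cases hs' : s ∈ Set.Ioo α β
  · rw [Set.indicator_of_mem hs']
    exact h s hs'.1 hs'.2 hs
  · rw [Set.indicator_of_notMem hs']
    exact Finset.sum_nonneg fun x _ => hσ x

open Classical in
/-- Greedy colouring of a finite symmetric relation of bounded degree. -/
theorem exists_colouring {T : Type} (F : Finset T) (r : T → T → Prop) (hr : ∀ x y, r x y → r y x)
    (d : ℕ) (hd : ∀ x ∈ F, (F.filter (fun y => r x y)).card ≤ d) :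
    ∃ col : T → Fin (d + 1), ∀ x ∈ F, ∀ y ∈ F, x ≠ y → r x y → col x ≠ col y := by
  induction F using Finset.induction_on with
  | empty => exact ⟨fun _ => 0, by simp⟩
  | insert a s ha ih =>
    obtain ⟨col, hcol⟩ := ih fun x hx =>
      (Finset.card_le_card (Finset.filter_subset_filter _ (Finset.subset_insert a s))).trans
        (hd x (Finset.mem_insert_of_mem hx))
    have hcard : ((s.filter fun y => r a y).image col).card < (Finset.univ : Finset (Fin (d + 1))).card := by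
      rw [Finset.card_univ, Fintype.card_fin]
      refine Nat.lt_succ_of_le (Finset.card_image_le.trans ?_)
      exact (Finset.card_le_card (Finset.filter_subset_filter _ (Finset.subset_insert a s))).trans
        (hd a (Finset.mem_insert_self a s))
    obtain ⟨c, -, hc⟩ := Finset.exists_mem_notMem_of_card_lt_card hcard
    have hc' : ∀ y ∈ s, r a y → col y ≠ c := fun y hy hry he =>
      hc (Finset.mem_image.2 ⟨y, Finset.mem_filter.2 ⟨hy, hry⟩, he⟩)
    refine ⟨Function.update col a c, fun x hx y hy hxy hrxy => ?_⟩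
    rcases Finset.mem_insert.1 hx with rfl | hx'
    · rcases Finset.mem_insert.1 hy with rfl | hy'
      · exact (hxy rfl).elim
      · rw [Function.update_self, Function.update_of_ne hxy.symm]
        exact (hc' y hy' hrxy).symm
    · have hxa : x ≠ a := fun h => ha (h ▸ hx')
      rcases Finset.mem_insert.1 hy with rfl | hy'
      · rw [Function.update_self, Function.update_of_ne hxa]
        exact hc' x hx' (hr _ _ hrxy)
      · have hya : y ≠ a := fun h => ha (h ▸ hy')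
        rw [Function.update_of_ne hxa, Function.update_of_ne hya]
        exact hcol x hx' y hy' hxy hrxy

end Crest.Agent.R193.Sq
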