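import Mathlib
import Crest.Agent.R193.SqSch2

/-! Row 193 [U]: parameters, cut-off weights, chains along paths. -/

set_option autoImplicit false

namespace Crest.Agent.R193.Sq

open Metric

/-- All the scale-independent data. -/
structure Par (Z : Type) [MetricSpace Z] where
  F : Frame Z
  K : ℝ
  L : ℝ
  C : ℝ
  r0 : ℝ
  D : ℝ
  hK : 1 ≤ K
  hL : 1 ≤ L
  hC : 0 < C
  hr0 : 0 < r0
  hD : ∀ a b : Z, dist a b ≤ D
  llc1 : ∀ a b : Z, ∃ γ : Path a b, ∀ t, dist (γ t) a ≤ L * dist a b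
  llc2 : ∀ (ξ a b : Z) (r : ℝ), 0 < r → L * r ≤ dist a ξ → L * r ≤ dist b ξ →
    ∃ γ : Path a b, ∀ t, r ≤ dist (γ t) ξ
  dbl : Doubling Z

/-- exchange the two directions -/
def Par.swap {Z : Type} [MetricSpace Z] (P : Par Z) : Par Z :=
  { P with F := P.F.swap }

theorem HasSig.swap {Z : Type} [MetricSpace Z] {F : Frame Z} {K δ : ℝ} {T : Type} [Fintype T]
    {g : GT F K δ T} {C r0 : ℝ} (h : HasSig g C r0) : HasSig g.swap C r0 := h

/-- Nets of bounded cardinality.  Proof: `m` from `Doubling Z A`; among the `r`-separated finite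
subsets of `{z | dist z ξ ≤ A r}` (all of cardinality `≤ m`) take one, `N`, of maximal cardinality
(`Nat.findGreatest` / `Set.Finite.exists_maximalFor` / strong induction on `m - card`); a point `z` of
the ball with `r ≤ dist z η` for all `η ∈ N` is not in `N` (`0 < r`) and `insert z N` is larger. -/
theorem exists_net {Z : Type} [MetricSpace Z] (hD : Doubling Z) (A : ℝ) :
    ∃ n : ℕ, ∀ (ξ : Z) (r : ℝ), 0 < r → ∃ N : Finset Z, N.card ≤ n ∧
      ∀ z, dist z ξ ≤ A * r → ∃ η ∈ N, dist z η < r := by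
  classical
  obtain ⟨m, hm⟩ := hD A
  refine ⟨m, fun ξ r hr => ?_⟩
  have hfin : (Finset.card '' {S : Finset Z | Sepd r S ∧ ∀ z ∈ S, dist z ξ ≤ A * r}).Finite := by
    refine (Set.finite_Iic m).subset ?_
    rintro _ ⟨S, hS, rfl⟩
    exact hm ξ r S hr hS.1 hS.2
  obtain ⟨_, ⟨S, hS, rfl⟩, hmax⟩ := Set.exists_max_image _ id hfin
    ⟨0, ∅, ⟨fun _ h => absurd h (Finset.notMem_empty _),
      fun _ h => absurd h (Finset.notMem_empty _)⟩, rfl⟩
  refine ⟨S, hm ξ r S hr hS.1 hS.2, fun x hx => ?_⟩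
  by_contra hn
  push Not at hn
  have hxS : x ∉ S := fun h => by simpa [hr.not_ge] using hn x h
  have := hmax _ ⟨insert x S, ⟨fun a ha b hb hab => by
    rcases Finset.mem_insert.1 ha with rfl | ha' <;> rcases Finset.mem_insert.1 hb with rfl | hb'
    · exact absurd rfl hab
    · exact hn b hb'
    · rw [dist_comm]; exact hn a ha'
    · exact hS.1 a ha' b hb' hab, fun z hz => by
    rcases Finset.mem_insert.1 hz with rfl | hz'
    · exact hx
    · exact hS.2 z hz'⟩, rfl⟩
  simp [Finset.card_insert_of_notMem hxS] at this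

/-- (S) Cut-off weights.  Proof: `M, r0` from `UB`, `d` from `Doubling Z K`, `C = (d+1) * |M| + 1`.
Given `ξ, r` take the `UB` function `f` at scale `K δ` (`0 < K δ ≤ r ≤ r0`) and
`σ x = diam (f '' ball (c x) (K δ))` (the image lies in `[0,1]`, so it is bounded).
Sum of squares: `exists_colouring univ (fun x y => dist (c x) (c y) < K δ)` with degree `≤ d`
(the centres are `δ`-separated and `c` is injective by `g.sep`; apply `Doubling` to the image finset
with `ξ = c x`, radius `δ`); each colour class has a `K δ`-separated image, so `En` bounds its sum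
by `M` (`Finset.sum_image`, `Finset.sum_fiberwise`).  Support: if `dist (c x) ξ < r - Kδ` the ball is
inside `ball ξ r` where `f = 1`; if `> 2r + Kδ` it misses `ball ξ (2r)` where `f = 0`; the image is
a subsingleton.  Chains: use `integ` with `σ := fun _ => 1`, `ρ := σ`, `lo z := f (c z) - σ z`,
`F := univ.filter (· ∈ A)`, `N = ∅`, `α = 0`, `β = 1`: for `s ∈ (0,1)`, `Conn.ind` with the invariant
`(∃ z ∈ A, f (c z) - σ z ≤ s ∧ s ≤ f (c z)) ∨ s < f (c u)` (`f (c x) = 1`, `f (c y) = 0`, and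
`|f (c a) - f (c b)| ≤ σ a` for adjacent tiles by `adj_dist`, `dist_le_diam_of_mem`). -/
theorem exists_sig {Z : Type} [MetricSpace Z] (hD : Doubling Z) (hU : UB Z) {K : ℝ} (hK : 1 ≤ K) :
    ∃ C r0 : ℝ, 0 < C ∧ 0 < r0 ∧ ∀ (F : Frame Z) (δ : ℝ) (T : Type) [Fintype T]
      (g : GT F K δ T), 0 < δ → HasSig g C r0 := by
  classical
  obtain ⟨M, r0, hr0, hM⟩ := hU
  obtain ⟨d, hd⟩ := hD K
  refine ⟨(d + 1) * |M| + 1, r0, by positivity, hr0, fun F δ T _ g hδ ξ r hr1 hr2 => ?_⟩
  have hKδ : 0 < K * δ := by positivity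
  obtain ⟨f, hf01, hf1, hf0, hE⟩ := hM ξ r (K * δ) hKδ hr1 hr2
  have hbd : ∀ A : Set Z, Bornology.IsBounded (f '' A) := fun A =>
    (Metric.isBounded_Icc (0 : ℝ) 1).subset (by rintro _ ⟨z, -, rfl⟩; exact hf01 z)
  have hinj : Function.Injective g.c := by
    intro x y h
    by_contra hne
    have := g.sep x y hne
    rw [h, dist_self] at this
    linarith
  refine ⟨fun x => diam (f '' ball (g.c x) (K * δ)), fun x => diam_nonneg, ?_, ?_, ?_⟩
  · obtain ⟨col, hcol⟩ := exists_colouring (Finset.univ : Finset T)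
      (fun x y => dist (g.c x) (g.c y) < K * δ) (fun x y h => by rwa [dist_comm]) d (by
        intro x _
        rw [← Finset.card_image_of_injective _ hinj]
        refine hd (g.c x) δ _ hδ ?_ ?_
        · intro a ha b hb hab
          obtain ⟨a', -, rfl⟩ := Finset.mem_image.1 ha
          obtain ⟨b', -, rfl⟩ := Finset.mem_image.1 hb
          exact g.sep a' b' fun h => hab (by rw [h])
        · intro a ha
          obtain ⟨a', ha', rfl⟩ := Finset.mem_image.1 ha
          rw [dist_comm]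
          exact (Finset.mem_filter.1 ha').2.le)
    rw [← Finset.sum_fiberwise Finset.univ col]
    have h1 : ∀ i ∈ (Finset.univ : Finset (Fin (d + 1))),
        ∑ x ∈ Finset.univ.filter (fun x => col x = i), diam (f '' ball (g.c x) (K * δ)) ^ 2 ≤
          |M| := by
      intro i _
      have h2 := hE ((Finset.univ.filter (fun x => col x = i)).image g.c) (by
        intro a ha b hb hab
        obtain ⟨a', ha', rfl⟩ := Finset.mem_image.1 ha
        obtain ⟨b', hb', rfl⟩ := Finset.mem_image.1 hb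
        by_contra hlt
        exact hcol a' (Finset.mem_univ _) b' (Finset.mem_univ _) (fun h => hab (by rw [h]))
          (not_le.1 hlt) (by rw [(Finset.mem_filter.1 ha').2, (Finset.mem_filter.1 hb').2]))
      rw [Finset.sum_image fun a _ b _ h => hinj h] at h2
      exact h2.trans (le_abs_self M)
    have h3 := Finset.sum_le_card_nsmul _ _ _ h1
    rw [Finset.card_univ, Fintype.card_fin, nsmul_eq_mul] at h3
    push_cast at h3
    linarith
  · intro x hx
    by_contra hcon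
    apply hx
    apply diam_subsingleton
    rcases not_and_or.1 hcon with h | h
    · have : ∀ z ∈ ball (g.c x) (K * δ), f z = 1 := by
        intro z hz
        apply hf1
        rw [mem_ball] at hz ⊢
        have := dist_triangle z (g.c x) ξ
        linarith [not_le.1 h]
      rintro _ ⟨a, ha, rfl⟩ _ ⟨b, hb, rfl⟩
      rw [this a ha, this b hb]
    · have : ∀ z ∈ ball (g.c x) (K * δ), f z = 0 := by
        intro z hz
        apply hf0
        rw [mem_ball] at hz ⊢
        have := dist_triangle_left (g.c x) ξ z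
        linarith [not_le.1 h]
      rintro _ ⟨a, ha, rfl⟩ _ ⟨b, hb, rfl⟩
      rw [this a ha, this b hb]
  · intro A x y hxy hx hy
    have hfx : f (g.c x) = 1 := hf1 _ hx
    have hfy : f (g.c y) = 0 := hf0 _ (by rw [mem_ball]; exact not_lt.2 hy)
    have h1 := integ (Finset.univ.filter (fun z => z ∈ A)) (fun _ => (1 : ℝ))
      (fun x => diam (f '' ball (g.c x) (K * δ)))
      (fun z => f (g.c z) - diam (f '' ball (g.c z) (K * δ))) (fun _ => zero_le_one)
      (fun _ => diam_nonneg) (α := 0) (β := 1) ∅ Set.finite_empty (by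
        intro s hs0 hs1 _
        have key := hxy.ind (fun u => (∃ z ∈ A,
          f (g.c z) - diam (f '' ball (g.c z) (K * δ)) ≤ s ∧ s ≤ f (g.c z)) ∨ s < f (g.c u))
          (Or.inr (by rw [hfx]; exact hs1)) (by
            intro a b ha ih hab _
            rcases ih with ih | ih
            · exact Or.inl ih
            by_cases hb : s < f (g.c b)
            · exact Or.inr hb
            refine Or.inl ⟨a, ha.right_mem, ?_, ih.le⟩
            have h2 : dist (f (g.c a)) (f (g.c b)) ≤ diam (f '' ball (g.c a) (K * δ)) :=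
              dist_le_diam_of_mem (hbd _) ⟨_, mem_ball_self hKδ, rfl⟩
                ⟨_, mem_ball'.2 (g.adj_dist a b hab), rfl⟩
            rw [Real.dist_eq] at h2
            linarith [le_abs_self (f (g.c a) - f (g.c b)), not_lt.1 hb])
        rcases key with ⟨z, hz, h3, h4⟩ | key
        · refine Finset.single_le_sum (f := fun _ => (1 : ℝ)) (a := z)
            (fun _ _ => zero_le_one) ?_
          simp only [Finset.mem_filter, Finset.mem_univ, true_and]
          exact ⟨hz, h3, by linarith⟩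
        · rw [hfy] at key
          linarith)
    simpa using h1

open Classical in
/-- One weight for all chains that start in `closedBall ξ (A r)` and travel `3 r`.  Proof: `n` and
`N` from `exists_net`, `σ = ∑ η ∈ N, σ_η` (`HasSig` at `(η, r)`), `∑ σ² ≤ n² C`
(`sq_sum_le_card_mul_sum_sq`), `C' = n² C + 1`; the chain starts within `r` of some `η ∈ N` and ends
at distance `≥ 2 r` from it. -/
theorem net_sig {Z : Type} [MetricSpace Z] (P : Par Z) (A : ℝ) :
    ∃ C' : ℝ, 0 < C' ∧ ∀ (δ : ℝ) (T : Type) [Fintype T] (g : GT P.F P.K δ T),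
      HasSig g P.C P.r0 → 0 < δ → ∀ (ξ : Z) (r : ℝ), P.K * δ ≤ r → r ≤ P.r0 →
      ∃ σ : T → ℝ, (∀ x, 0 ≤ σ x) ∧ ∑ x, σ x ^ 2 ≤ C' ∧
        ∀ (B : Set T) (x y : T), Conn g.Q.adj B x y → dist (g.c x) ξ ≤ A * r →
          3 * r ≤ dist (g.c x) (g.c y) → 1 ≤ ∑ z ∈ Finset.univ.filter (fun z => z ∈ B), σ z := by
  obtain ⟨n, hn⟩ := exists_net P.dbl A
  have hC := P.hC
  refine ⟨(n : ℝ) ^ 2 * P.C + 1, by positivity, fun δ T _ g hg hδ ξ r h1 h2 => ?_⟩
  have hr : 0 < r := lt_of_lt_of_le (mul_pos (by linarith [P.hK]) hδ) h1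
  obtain ⟨N, hN, hc⟩ := hn ξ r hr
  choose σ σ0 σ2 _ σc using fun η : Z => hg η r h1 h2
  refine ⟨fun x => ∑ η ∈ N, σ η x, fun x => Finset.sum_nonneg fun η _ => σ0 η x, ?_,
    fun B x y hB hx hxy => ?_⟩
  · have hN' : (N.card : ℝ) ≤ n := by exact_mod_cast hN
    calc ∑ x, (∑ η ∈ N, σ η x) ^ 2 ≤ ∑ x, (N.card : ℝ) * ∑ η ∈ N, σ η x ^ 2 :=
          Finset.sum_le_sum fun x _ => sq_sum_le_card_mul_sum_sq
      _ = (N.card : ℝ) * ∑ η ∈ N, ∑ x, σ η x ^ 2 := by rw [← Finset.mul_sum, Finset.sum_comm]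
      _ ≤ (N.card : ℝ) * (N.card * P.C) := by
          refine mul_le_mul_of_nonneg_left ?_ (Nat.cast_nonneg _)
          simpa using Finset.sum_le_card_nsmul N _ P.C fun η _ => σ2 η
      _ ≤ (n : ℝ) * (n * P.C) := by gcongr
      _ ≤ (n : ℝ) ^ 2 * P.C + 1 := by linarith
  · obtain ⟨η, hη, hd⟩ := hc _ hx
    refine (σc η B x y hB hd (by linarith [dist_triangle_right (g.c x) (g.c y) η])).trans
      (Finset.sum_le_sum fun z _ => ?_)
    exact Finset.single_le_sum (f := fun η => σ η z) (fun η _ => σ0 η z) hη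

variable {Z : Type} [MetricSpace Z] {P : Par Z} {δ : ℝ} {T : Type}

/-- tiles with centre in a ball -/
def tb (g : GT P.F P.K δ T) (ξ : Z) (r : ℝ) : Set T := {z | dist (g.c z) ξ < r}

/-- Chain along a short path (`llc1`, `lift1`, `Conn.mono`, triangle inequality). -/
theorem conn_near (g : GT P.F P.K δ T) (x y : T) :
    Conn g.Q.adj (tb g (g.c x) (P.L * dist (g.c x) (g.c y) + P.K * δ)) x y ∨
      ∃ y', Conn g.Q.adj (tb g (g.c x) (P.L * dist (g.c x) (g.c y) + P.K * δ)) x y' ∧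
        g.Q.Bd y' := by
  obtain ⟨γ, hγ⟩ := P.llc1 (g.c x) (g.c y)
  have hsub : near g.c (P.K * δ) γ ⊆ tb g (g.c x) (P.L * dist (g.c x) (g.c y) + P.K * δ) := by
    rintro t ⟨τ, hτ⟩
    have h1 := hγ τ
    have h2 := dist_triangle (g.c t) (γ τ) (g.c x)
    show dist (g.c t) (g.c x) < _
    linarith
  rcases g.lift1 x y γ with h | ⟨y', h, hb⟩
  · exact Or.inl (h.mono hsub)
  · exact Or.inr ⟨y', h.mono hsub, hb⟩

/-- Chain along a short path leaving `I` (`llc1`, `lift2`). -/
theorem conn_out (g : GT P.F P.K δ T) (x : T) {q : Z} (hq : q ∉ P.F.I) :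
    ∃ y', Conn g.Q.adj (tb g (g.c x) (P.L * dist (g.c x) q + P.K * δ)) x y' ∧ g.Q.Bd y' := by
  obtain ⟨γ, hγ⟩ := P.llc1 (g.c x) q
  have hsub : near g.c (P.K * δ) γ ⊆ tb g (g.c x) (P.L * dist (g.c x) q + P.K * δ) := by
    rintro t ⟨τ, hτ⟩
    have h1 := hγ τ
    have h2 := dist_triangle (g.c t) (γ τ) (g.c x)
    show dist (g.c t) (g.c x) < _
    linarith
  obtain ⟨y', h, hb⟩ := g.lift2 x q γ hq
  exact ⟨y', h.mono hsub, hb⟩

/-- Chain to the boundary avoiding a ball.  Proof: pick `p ∈ Bs`, `q ∈ Ts` (`Bne`, `Tne`); they are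
`d0` apart, so one of them, `w`, has `d0 / 2 ≤ dist w ξ`; `w ∉ I` (`notI`); `llc2` gives a path
from `c x` to `w` staying `r` away from `ξ`; `lift2`. -/
theorem conn_avoid (g : GT P.F P.K δ T) (x : T) {ξ : Z} {r : ℝ} (hr : 0 < r)
    (h1 : P.L * r ≤ dist (g.c x) ξ) (h2 : P.L * r ≤ P.F.d0 / 2) :
    ∃ y', Conn g.Q.adj {z | r - P.K * δ < dist (g.c z) ξ} x y' ∧ g.Q.Bd y' := by
  obtain ⟨p, hp⟩ := P.F.Bne
  obtain ⟨q, hq⟩ := P.F.Tne
  have hpq := P.F.BT p hp q hq
  obtain ⟨w, hwI, hw⟩ : ∃ w, w ∉ P.F.I ∧ P.F.d0 / 2 ≤ dist w ξ := by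
    by_cases h : P.F.d0 / 2 ≤ dist p ξ
    · exact ⟨p, P.F.notI p (Or.inl (Or.inl (Or.inl hp))), h⟩
    · refine ⟨q, P.F.notI q (Or.inl (Or.inl (Or.inr hq))), ?_⟩
      have := dist_triangle_right p q ξ
      linarith [not_le.1 h]
  obtain ⟨γ, hγ⟩ := P.llc2 ξ (g.c x) w r hr h1 (h2.trans hw)
  obtain ⟨y', h, hb⟩ := g.lift2 x w γ hwI
  refine ⟨y', h.mono ?_, hb⟩
  rintro t ⟨τ, hτ⟩
  have h3 := hγ τ
  have h4 := dist_triangle_left (γ τ) ξ (g.c t)
  show r - P.K * δ < dist (g.c t) ξ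
  linarith

/-- there is a boundary tile (`Q.ex univ`: a chain in `univᶜ = ∅` is impossible) -/
theorem Quad.exists_bd (Q : Quad T) : ∃ x, Q.Bd x := by
  rcases Q.ex Set.univ with ⟨x, -, hx, -⟩ | ⟨x, -, hx, -⟩
  · exact ⟨x, Or.inl hx⟩
  · exact ⟨x, Or.inr (Or.inr (Or.inl hx))⟩

end Crest.Agent.R193.Sq
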