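import Mathlib
import Crest.Agent.R193.SqEst0

/-! Row 193 [U]: width of the rectangle and the ring (equicontinuity) estimate. -/

set_option autoImplicit false

namespace Crest.Agent.R193.Sq

open Metric

variable {Z : Type} [MetricSpace Z]

/-- (E1) Proof: `r = min r0 d0 / 8`, `ξ` a point of `Bs`, `A = D / r`, `C1 = C'` of `net_sig`.  For
every `t ∈ (0, m)`, `S.swap.hcross` gives a chain in `S.swap.lev t` from a `B` tile to a `Tp` tile;
their centres are `≥ d0 - 2 K δ ≥ 3 r` apart (`B_near`, `T_near`, `BT`), so the `σ`-mass of the level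
is `≥ 1`.  `integ univ σ ρ b` (`N = ∅`) and Cauchy-Schwarz (`Finset.sum_mul_sq_le_sq_mul_sq`,
`sum_sq`): `m² ≤ C1 * (m * h)`. -/
theorem m_le (P : Par Z) : ∃ C1 : ℝ, 0 < C1 ∧ ∀ (δ : ℝ) (T : Type) [Fintype T]
    (g : GT P.F P.K δ T) (S : SqT g.Q), HasSig g P.C P.r0 → 0 < δ →
    8 * P.K * δ ≤ min P.r0 P.F.d0 → S.m ≤ C1 * S.h := by
  classical
  have hd0 := P.F.d0_pos
  have hr0 := P.hr0
  obtain ⟨r, hr⟩ : ∃ r : ℝ, r = min P.r0 P.F.d0 / 8 := ⟨_, rfl⟩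
  have hmin : 0 < min P.r0 P.F.d0 := lt_min hr0 hd0
  have hm1 : min P.r0 P.F.d0 ≤ P.r0 := min_le_left _ _
  have hm2 : min P.r0 P.F.d0 ≤ P.F.d0 := min_le_right _ _
  have hrpos : 0 < r := by rw [hr]; positivity
  obtain ⟨C', hC', hσ⟩ := net_sig P (P.D / r)
  refine ⟨C', hC', ?_⟩
  intro δ T _ g S hs hδ h8
  obtain ⟨ξ, -⟩ := P.F.Bne
  obtain ⟨σ, hσ0, hσ2, hσc⟩ := hσ δ T g hs hδ ξ r (by rw [hr]; linarith) (by rw [hr]; linarith)
  have hint : S.m - 0 ≤ ∑ x ∈ Finset.univ, σ x * S.ρ x := by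
    refine integ Finset.univ σ S.ρ S.b hσ0 S.ρ_nonneg ∅ Set.finite_empty ?_
    intro t ht0 ht1 _
    obtain ⟨x, y, hx, hy, hc⟩ := S.swap.hcross (s := t) ht0.le ht1.le
    obtain ⟨z, hz, hxz⟩ := g.B_near x hx
    obtain ⟨w, hw, hyw⟩ := g.T_near y hy
    have hzw := P.F.BT z hz w hw
    have htri : dist z w ≤ dist (g.c x) z + dist (g.c x) (g.c y) + dist (g.c y) w := by
      have h1 := dist_triangle z (g.c x) w
      have h2 := dist_triangle (g.c x) (g.c y) w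
      rw [dist_comm z (g.c x)] at h1
      linarith
    have hA : dist (g.c x) ξ ≤ P.D / r * r := by
      rw [div_mul_cancel₀ _ hrpos.ne']
      exact P.hD _ _
    have h3 : 3 * r ≤ dist (g.c x) (g.c y) := by
      rw [hr]; linarith
    have key := hσc (S.swap.lev t) x y hc hA h3
    refine key.trans (le_of_eq ?_)
    refine Finset.sum_congr ?_ fun _ _ => rfl
    ext u
    simp only [Finset.mem_filter, Finset.mem_univ, true_and]
    exact Iff.rfl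
  have hcs := Finset.sum_mul_sq_le_sq_mul_sq Finset.univ σ S.ρ
  rw [S.sum_sq] at hcs
  have hm := S.m_pos
  have hh := S.h_pos
  have h1 : S.m ^ 2 ≤ (∑ x ∈ Finset.univ, σ x * S.ρ x) ^ 2 :=
    pow_le_pow_left₀ hm.le (by linarith) 2
  have h2 : (∑ x, σ x ^ 2) * (S.m * S.h) ≤ C' * (S.m * S.h) :=
    mul_le_mul_of_nonneg_right hσ2 (mul_pos hm hh).le
  have h3 : S.m * S.m ≤ S.m * (C' * S.h) := by nlinarith
  exact le_of_mul_le_mul_left h3 hm

/-- both bounds: `m_le P` and `m_le P.swap` applied to `g.swap`, `S.swap`, `HasSig.swap`;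
`C1` = the maximum -/
theorem m_bounds (P : Par Z) : ∃ C1 : ℝ, 0 < C1 ∧ ∀ (δ : ℝ) (T : Type) [Fintype T]
    (g : GT P.F P.K δ T) (S : SqT g.Q), HasSig g P.C P.r0 → 0 < δ →
    8 * P.K * δ ≤ min P.r0 P.F.d0 → S.h = 1 → S.m ≤ C1 ∧ 1 ≤ C1 * S.m := by
  obtain ⟨C1, hC1, h1⟩ := m_le P
  obtain ⟨C2, hC2, h2⟩ := m_le P.swap
  refine ⟨max C1 C2, lt_max_of_lt_left hC1, ?_⟩
  intro δ T _ g S hs hδ h8 hh
  have a1 := h1 δ T g S hs hδ h8
  have a2 : S.h ≤ C2 * S.m := h2 δ T g.swap S.swap hs.swap hδ h8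
  rw [hh] at a1 a2
  have hm := S.m_pos
  refine ⟨by linarith [le_max_left C1 C2], a2.trans ?_⟩
  exact mul_le_mul_of_nonneg_right (le_max_right _ _) hm.le

variable {P : Par Z} {δ : ℝ} {T : Type} [Fintype T]

open Classical in
/-- The averaged ring weight.  Proof: `σ_j` from `HasSig` at `(ξ, 4^j r)`, `j < k`;
`σ = (∑ j ∈ range k, σ_j) / k`.  The support of `σ_j` lies in
`3/4 * 4^j r ≤ dist ≤ 9/4 * 4^j r`, so for each `x` at most one `σ_j x` is nonzero and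
`(∑ j, σ_j x)² = ∑ j, (σ_j x)²`; the support of `σ` is in `dist ≤ 4^k r`.  A chain from `dist < r` to
`dist ≥ 4^k r` has `σ_j`-mass `≥ 1` for each `j < k` (`r ≤ 4^j r`, `2 * 4^j r ≤ 4^k r`). -/
theorem ring_sig (g : GT P.F P.K δ T) (hs : HasSig g P.C P.r0) (hδ : 0 < δ) {k : ℕ} (hk : 0 < k)
    (ξ : Z) {r : ℝ} (h4 : 4 * P.K * δ ≤ r) (hr : 4 ^ k * r ≤ P.r0) :
    ∃ σ : T → ℝ, (∀ x, 0 ≤ σ x) ∧ (k : ℝ) * ∑ x, σ x ^ 2 ≤ P.C ∧
      (∀ x, σ x ≠ 0 → dist (g.c x) ξ ≤ 4 ^ k * r) ∧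
      ∀ (B : Set T) (x y : T), Conn g.Q.adj B x y → dist (g.c x) ξ < r →
        4 ^ k * r ≤ dist (g.c y) ξ → 1 ≤ ∑ z ∈ Finset.univ.filter (fun z => z ∈ B), σ z := by
  have hK : 0 < P.K * δ := mul_pos (lt_of_lt_of_le one_pos P.hK) hδ
  have hr0 : 0 < r := by nlinarith
  have hKr : P.K * δ ≤ r / 4 := by linarith
  have hp : ∀ j : ℕ, (1 : ℝ) ≤ 4 ^ j := fun j => one_le_pow₀ (by norm_num)
  have hle : ∀ j : ℕ, r ≤ 4 ^ j * r := fun j => by nlinarith [hp j]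
  have hlt : ∀ i j : ℕ, i < j → 4 * ((4 : ℝ) ^ i * r) ≤ 4 ^ j * r := by
    intro i j hij
    have h1 : (4 : ℝ) ^ (i + 1) ≤ 4 ^ j := pow_le_pow_right₀ (by norm_num) hij
    rw [pow_succ] at h1
    nlinarith
  have hex : ∀ j : ℕ, ∃ σ : T → ℝ, j < k → ((∀ x, 0 ≤ σ x) ∧ ∑ x, σ x ^ 2 ≤ P.C ∧
      (∀ x, σ x ≠ 0 → 4 ^ j * r - P.K * δ ≤ dist (g.c x) ξ ∧
        dist (g.c x) ξ ≤ 2 * (4 ^ j * r) + P.K * δ) ∧
      ∀ (A : Set T) (x y : T), Conn g.Q.adj A x y → dist (g.c x) ξ < 4 ^ j * r →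
        2 * (4 ^ j * r) ≤ dist (g.c y) ξ →
        1 ≤ ∑ z ∈ Finset.univ.filter (fun z => z ∈ A), σ z) := by
    intro j
    by_cases hj : j < k
    · obtain ⟨σ, hσ⟩ := hs ξ (4 ^ j * r) (by linarith [hle j])
        (by have := hlt j k hj; have := hle j; linarith)
      exact ⟨σ, fun _ => hσ⟩
    · exact ⟨fun _ => 0, fun h => absurd h hj⟩
  choose s hsj using hex
  have hkpos : (0 : ℝ) < k := by exact_mod_cast hk
  have hsq : ∀ x, (∑ j ∈ Finset.range k, s j x) ^ 2 = ∑ j ∈ Finset.range k, s j x ^ 2 := by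
    intro x
    rw [sq, Finset.sum_mul_sum]
    refine Finset.sum_congr rfl fun i hi => ?_
    rw [Finset.sum_eq_single i, sq]
    · intro j hj hji
      by_contra hne
      obtain ⟨h1, h2⟩ := mul_ne_zero_iff.1 hne
      obtain ⟨a1, a2⟩ := (hsj i (Finset.mem_range.1 hi)).2.2.1 x h1
      obtain ⟨b1, b2⟩ := (hsj j (Finset.mem_range.1 hj)).2.2.1 x h2
      rcases lt_or_gt_of_ne hji with h | h
      · have := hlt j i h
        have := hle j
        linarith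
      · have := hlt i j h
        have := hle i
        linarith
    · intro h; exact absurd hi h
  refine ⟨fun x => (∑ j ∈ Finset.range k, s j x) / k, fun x => ?_, ?_, fun x hx => ?_,
    fun B x y hc hx hy => ?_⟩
  · exact div_nonneg (Finset.sum_nonneg fun j hj => (hsj j (Finset.mem_range.1 hj)).1 x) hkpos.le
  · have e : (k : ℝ) * ∑ x, ((∑ j ∈ Finset.range k, s j x) / k) ^ 2 =
        (∑ j ∈ Finset.range k, ∑ x, s j x ^ 2) / k := by
      rw [Finset.sum_comm]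
      simp only [div_pow, hsq]
      rw [← Finset.sum_div]
      field_simp
    rw [e, div_le_iff₀ hkpos]
    calc ∑ j ∈ Finset.range k, ∑ x, s j x ^ 2 ≤ ∑ _j ∈ Finset.range k, P.C :=
          Finset.sum_le_sum fun j hj => (hsj j (Finset.mem_range.1 hj)).2.1
      _ = P.C * k := by rw [Finset.sum_const, Finset.card_range, nsmul_eq_mul, mul_comm]
  · have hx' : ∑ j ∈ Finset.range k, s j x ≠ 0 := fun h => hx (by simp only [h, zero_div])
    obtain ⟨j, hj, hne⟩ := Finset.exists_ne_zero_of_sum_ne_zero hx'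
    have hj' := Finset.mem_range.1 hj
    have a := ((hsj j hj').2.2.1 x hne).2
    have := hlt j k hj'
    have := hle j
    linarith
  · rw [← Finset.sum_div, le_div_iff₀ hkpos, Finset.sum_comm]
    calc (1 : ℝ) * k = ∑ _j ∈ Finset.range k, (1 : ℝ) := by simp
      _ ≤ _ := Finset.sum_le_sum fun j hj => by
        have hj' := Finset.mem_range.1 hj
        refine (hsj j hj').2.2.2 B x y hc (hx.trans_le (hle j)) ?_
        have := hlt j k hj'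
        have := hle j
        linarith

open Classical in
/-- (E2) ring estimate, vertical direction.  Proof: `k = 0` is trivial.  Otherwise take `σ` from
`ring_sig`.  For generic `s` strictly between `s1` and `s2` (`finite_not_gen`), `ivt_a` gives
`z ∈ A ∩ lev s` (`Conn.right_mem`), `hlevel` gives chains in `lev s` from `z` to an `L` tile and to an
`R` tile; by `L_near`, `R_near`, `LR` one of the two centres is at distance
`≥ d0/2 - K δ ≥ 4^k r` from `ξ` (`K δ ≤ r/4 ≤ d0/32`).  So the `σ`-mass of `lev s` is `≥ 1`; `integ univ σ ρ a`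
gives `|s1 - s2| ≤ ∑ σ ρ = ∑_{dist ≤ 4^k r} σ ρ`; Cauchy-Schwarz. -/
theorem ring_a (g : GT P.F P.K δ T) (S : SqT g.Q) (hs : HasSig g P.C P.r0) (hδ : 0 < δ) (k : ℕ)
    {ξ : Z} {r : ℝ} (h4 : 4 * P.K * δ ≤ r) (hr : 4 ^ k * r ≤ min P.r0 (P.F.d0 / 8))
    {x y : T} (hc : Conn g.Q.adj (tb g ξ r) x y) {s1 s2 : ℝ} (hx : x ∈ S.lev s1)
    (hy : y ∈ S.lev s2) :
    (k : ℝ) * (s1 - s2) ^ 2 ≤
      P.C * ∑ z ∈ Finset.univ.filter (fun z => dist (g.c z) ξ ≤ 4 ^ k * r), S.ρ z ^ 2 := by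
  have hρ0 : 0 ≤ ∑ z ∈ Finset.univ.filter (fun z => dist (g.c z) ξ ≤ 4 ^ k * r), S.ρ z ^ 2 :=
    Finset.sum_nonneg fun _ _ => sq_nonneg _
  rcases Nat.eq_zero_or_pos k with hk | hk
  · rw [show (k : ℝ) = 0 by exact_mod_cast hk, zero_mul]
    exact mul_nonneg P.hC.le hρ0
  obtain ⟨σ, hσ0, hσ1, hσ2, hσ3⟩ := ring_sig g hs hδ hk ξ h4 (hr.trans (min_le_left _ _))
  have hKδ : 0 < P.K * δ := mul_pos (lt_of_lt_of_le one_pos P.hK) hδ
  have hr0 : 0 ≤ r := by linarith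
  have hr1 : r ≤ 4 ^ k * r := le_mul_of_one_le_left hr0 (one_le_pow₀ (by norm_num))
  have hr2 : 4 ^ k * r ≤ P.F.d0 / 8 := hr.trans (min_le_right _ _)
  have key : ∀ s ∈ Set.uIcc s1 s2, S.Gen s →
      1 ≤ ∑ z ∈ Finset.univ.filter (fun z => z ∈ S.lev s), σ z := by
    intro s hs1 hs2
    obtain ⟨z, hz1, hz2⟩ := S.ivt_a hc hx hy hs1
    have hz : dist (g.c z) ξ < r := hz1.right_mem
    obtain ⟨l, l', hl, hl', h1, h2⟩ := S.hlevel hs2 hz2
    by_cases h3 : 4 ^ k * r ≤ dist (g.c l) ξ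
    · exact hσ3 _ z l h1 hz h3
    by_cases h3' : 4 ^ k * r ≤ dist (g.c l') ξ
    · exact hσ3 _ z l' h2 hz h3'
    exfalso
    obtain ⟨p, hp, hp'⟩ := g.L_near l hl
    obtain ⟨q, hq, hq'⟩ := g.R_near l' hl'
    have h5 := P.F.LR p hp q hq
    have h6 := dist_triangle_right p q ξ
    have h7 := dist_triangle_left p ξ (g.c l)
    have h8 := dist_triangle_left q ξ (g.c l')
    have h9 := P.F.d0_pos
    linarith
  have h1 := integ Finset.univ σ S.ρ S.a hσ0 S.ρ_nonneg (α := min s1 s2) (β := max s1 s2) _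
    S.finite_not_gen fun s h1 h2 h3 => by
      refine (key s ⟨h1.le, h2.le⟩ (not_not.1 h3)).trans (le_of_eq ?_)
      exact Finset.sum_congr (Finset.filter_congr fun _ _ => Iff.rfl) fun _ _ => rfl
  rw [max_sub_min_eq_abs', ← Finset.sum_filter_of_ne
    (p := fun z => dist (g.c z) ξ ≤ 4 ^ k * r)
    fun z _ hz => hσ2 z (left_ne_zero_of_mul hz)] at h1
  have h2 := (pow_le_pow_left₀ (abs_nonneg _) h1 2).trans
    (Finset.sum_mul_sq_le_sq_mul_sq _ σ S.ρ)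
  rw [sq_abs] at h2
  have h3 : ∑ z ∈ Finset.univ.filter (fun z => dist (g.c z) ξ ≤ 4 ^ k * r), σ z ^ 2 ≤
      ∑ z, σ z ^ 2 :=
    Finset.sum_le_sum_of_subset_of_nonneg (Finset.filter_subset _ _) fun _ _ _ => sq_nonneg _
  have h5 := mul_le_mul_of_nonneg_left (h2.trans (mul_le_mul_of_nonneg_right h3 hρ0))
    (Nat.cast_nonneg (α := ℝ) k)
  rw [← mul_assoc] at h5
  exact h5.trans (mul_le_mul_of_nonneg_right hσ1 hρ0)

open Classical in
/-- (E2) both directions: `dist w w' = max |w.1 - w'.1| |w.2 - w'.2|` (`Prod.dist_eq`); `ring_a` for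
`S` and for `(P := P.swap) g.swap S.swap`. -/
theorem ring (g : GT P.F P.K δ T) (S : SqT g.Q) (hs : HasSig g P.C P.r0) (hδ : 0 < δ) (k : ℕ)
    {ξ : Z} {r : ℝ} (h4 : 4 * P.K * δ ≤ r) (hr : 4 ^ k * r ≤ min P.r0 (P.F.d0 / 8))
    {x y : T} (hc : Conn g.Q.adj (tb g ξ r) x y) {w w' : ℝ × ℝ} (hw : w ∈ S.sq x)
    (hw' : w' ∈ S.sq y) :
    (k : ℝ) * dist w w' ^ 2 ≤
      P.C * ∑ z ∈ Finset.univ.filter (fun z => dist (g.c z) ξ ≤ 4 ^ k * r), S.ρ z ^ 2 := by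
  rw [Prod.dist_eq]
  rcases le_total (dist w.1 w'.1) (dist w.2 w'.2) with h | h
  · rw [max_eq_right h, Real.dist_eq, sq_abs]
    exact ring_a g S hs hδ k h4 hr hc hw.2 hw'.2
  · rw [max_eq_left h, Real.dist_eq, sq_abs]
    exact ring_a (P := P.swap) g.swap S.swap hs.swap hδ k h4 hr hc hw.1 hw'.1

/-- Equicontinuity.  Proof: `C1` from `m_bounds`; `k` with `C * C1 ≤ k ε²`;
`ρ0 = min r0 (d0/8) / 4^k`, `δ0 = ρ0 / (8 K)` (so `8 K δ ≤ min r0 d0`); `ring` with `r = ρ0`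
and `∑ ρ² ≤ m h ≤ C1`. -/
theorem osc_small (P : Par Z) {ε : ℝ} (hε : 0 < ε) : ∃ ρ0 δ0 : ℝ, 0 < ρ0 ∧ 0 < δ0 ∧
    ∀ (δ : ℝ) (T : Type) [Fintype T] (g : GT P.F P.K δ T) (S : SqT g.Q), HasSig g P.C P.r0 →
    0 < δ → δ < δ0 → S.h = 1 → ∀ (ξ : Z) (x y : T), Conn g.Q.adj (tb g ξ ρ0) x y →
    ∀ w ∈ S.sq x, ∀ w' ∈ S.sq y, dist w w' ≤ ε := by
  classical
  obtain ⟨C1, hC1, hm⟩ := m_bounds P
  obtain ⟨k, hk⟩ := exists_nat_gt (P.C * C1 / ε ^ 2)
  have hC := P.hC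
  have hK := P.hK
  have hd0 := P.F.d0_pos
  have hk0 : (0 : ℝ) < k := lt_trans (by positivity) hk
  rw [div_lt_iff₀ (by positivity)] at hk
  have hμ : 0 < min P.r0 (P.F.d0 / 8) := lt_min P.hr0 (by positivity)
  have h4 : (1 : ℝ) ≤ 4 ^ k := one_le_pow₀ (by norm_num)
  have hρ : 0 < min P.r0 (P.F.d0 / 8) / 4 ^ k := by positivity
  have hρ' : min P.r0 (P.F.d0 / 8) / 4 ^ k ≤ min P.r0 P.F.d0 :=
    (div_le_self hμ.le h4).trans (min_le_min le_rfl (by linarith))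
  have he : (4 : ℝ) ^ k * (min P.r0 (P.F.d0 / 8) / 4 ^ k) = min P.r0 (P.F.d0 / 8) := by field_simp
  refine ⟨min P.r0 (P.F.d0 / 8) / 4 ^ k, min P.r0 (P.F.d0 / 8) / 4 ^ k / (8 * P.K), hρ, by positivity,
    fun δ T _ g S hs hδ hδ0 hh ξ x y hc w hw w' hw' => ?_⟩
  rw [lt_div_iff₀ (by positivity)] at hδ0
  have hKδ : 0 < P.K * δ := by positivity
  have h1 := (hm δ T g S hs hδ (by linarith) hh).1
  have h2 := ring g S hs hδ k (by linarith) he.le hc hw hw'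
  have h3 : ∑ z ∈ Finset.univ.filter (fun z => dist (g.c z) ξ ≤
      4 ^ k * (min P.r0 (P.F.d0 / 8) / 4 ^ k)), S.ρ z ^ 2 ≤ C1 := by
    refine (Finset.sum_le_sum_of_subset_of_nonneg (Finset.filter_subset _ _)
      fun _ _ _ => sq_nonneg _).trans ?_
    rw [S.sum_sq, hh, mul_one]
    exact h1
  have h5 : (k : ℝ) * dist w w' ^ 2 ≤ k * ε ^ 2 :=
    (h2.trans (mul_le_mul_of_nonneg_left h3 hC.le)).trans hk.le
  exact (pow_le_pow_iff_left₀ dist_nonneg hε.le two_ne_zero).1 (le_of_mul_le_mul_left h5 hk0)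

/-- The squares are small: `osc_small` with `ξ = c x`, `Conn.refl`, `w = (b x, a x)`,
`w' = (b x + ρ x, a x + ρ x)`. -/
theorem rho_small (P : Par Z) {ε : ℝ} (hε : 0 < ε) : ∃ δ0 : ℝ, 0 < δ0 ∧
    ∀ (δ : ℝ) (T : Type) [Fintype T] (g : GT P.F P.K δ T) (S : SqT g.Q), HasSig g P.C P.r0 →
    0 < δ → δ < δ0 → S.h = 1 → ∀ x, S.ρ x ≤ ε := by
  obtain ⟨ρ0, δ0, hρ0, hδ0, h⟩ := osc_small P hε
  refine ⟨δ0, hδ0, fun δ T _ g S hs hδ hδ' hh x => ?_⟩
  have h0 := S.ρ_nonneg x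
  have h1 := h δ T g S hs hδ hδ' hh (g.c x) x x (Conn.refl (by simpa [tb] using hρ0))
    (S.b x + S.ρ x, S.a x) ⟨⟨by linarith, le_rfl⟩, le_rfl, by linarith⟩
    (S.b x, S.a x) ⟨⟨le_rfl, by linarith⟩, le_rfl, by linarith⟩
  rw [Prod.dist_eq, max_le_iff, Real.dist_eq, add_sub_cancel_left] at h1
  exact (le_abs_self _).trans h1.1

end Crest.Agent.R193.Sq
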