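import Mathlib
import Crest.Agent.R193.SqEst0

/-! Row 193 [U]: the logarithmic test. -/

set_option autoImplicit false

namespace Crest.Agent.R193.Sq

open Metric

variable {Z : Type} [MetricSpace Z] {P : Par Z} {δ : ℝ} {T : Type} [Fintype T]

/-- A loop separating `x, x'` from `x3` is large and passes near `x`.  Proof: `conn_near g x x3`;
in both cases the end tile has a point at distance `≥ t` from `y` (`bd_far`), so `ivt_loop` gives
`u ∈ loop y t` with `dist (c u) (c x) < L * (H r) + K δ ≤ (L * H + 1) r`.  One of `x, x'`, say `e`,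
has `r / 2 ≤ dist (c e) (c u)`.  `conn_avoid g e (ξ := c u) (r := r / (2 L))` (`r / 2 ≤ d0 / 2`),
`bd_far`, `ivt_loop` give `v ∈ loop y t` with
`dist (c v) (c u) > r / (2L) - K δ ≥ 3 * (r / (20 L))`. -/
theorem loop_big (g : GT P.F P.K δ T) (S : SqT g.Q) (hδ : 0 < δ) {H r t : ℝ} {y : ℝ × ℝ}
    {x x' x3 : T} (hr1 : 100 * P.L * P.K * δ ≤ r) (hr2 : r ≤ P.F.d0) (hb : S.Box y t)
    (hx : ∃ w ∈ S.sq x, dist w y ≤ t) (hx' : ∃ w ∈ S.sq x', dist w y ≤ t)
    (hxx : r ≤ dist (g.c x) (g.c x')) (hx3 : ∃ w ∈ S.sq x3, t ≤ dist w y)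
    (hH : dist (g.c x) (g.c x3) ≤ H * r) :
    ∃ u ∈ S.loop y t, ∃ v ∈ S.loop y t, dist (g.c u) (g.c x) ≤ (P.L * H + 1) * r ∧
      3 * (r / (20 * P.L)) ≤ dist (g.c u) (g.c v) := by
  have hL := P.hL
  have hK := P.hK
  have hL0 : 0 < P.L := by linarith
  have hKδ : 0 < P.K * δ := mul_pos (by linarith) hδ
  have hr1' : 100 * P.L * (P.K * δ) ≤ r := by linarith [mul_assoc (100 * P.L) P.K δ]
  have hLK : P.K * δ ≤ P.L * (P.K * δ) := le_mul_of_one_le_left hKδ.le hL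
  have hr0 : 0 < r := by nlinarith
  obtain ⟨w1, hw1, hw1'⟩ := hx
  obtain ⟨w1', hw2, hw2'⟩ := hx'
  have key : ∀ {A : Set T} {e z : T} {w : ℝ × ℝ}, w ∈ S.sq e → dist w y ≤ t →
      Conn g.Q.adj A e z → (∃ w' ∈ S.sq z, t ≤ dist w' y) → ∃ u ∈ S.loop y t, u ∈ A := by
    rintro A e z w hw hw' hc ⟨w', h1, h2⟩
    obtain ⟨u, hu, hu'⟩ := S.ivt_loop hc hw hw' h1 h2
    exact ⟨u, hu', hu.right_mem⟩
  obtain ⟨u, hu, huA⟩ : ∃ u ∈ S.loop y t,
      u ∈ tb g (g.c x) (P.L * dist (g.c x) (g.c x3) + P.K * δ) := by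
    rcases conn_near g x x3 with h | ⟨y', h, hb'⟩
    · exact key hw1 hw1' h hx3
    · exact key hw1 hw1' h (S.bd_far hb' hb)
  have hu1 : dist (g.c u) (g.c x) ≤ (P.L * H + 1) * r := by
    have h1 : dist (g.c u) (g.c x) < P.L * dist (g.c x) (g.c x3) + P.K * δ := huA
    have h2 : P.L * dist (g.c x) (g.c x3) ≤ P.L * (H * r) := mul_le_mul_of_nonneg_left hH hL0.le
    nlinarith
  have hr' : 0 < r / (2 * P.L) := by positivity
  have hLr : P.L * (r / (2 * P.L)) = r / 2 := by field_simp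
  have fin : ∀ {e : T} {w : ℝ × ℝ}, w ∈ S.sq e → dist w y ≤ t → r / 2 ≤ dist (g.c e) (g.c u) →
      ∃ v ∈ S.loop y t, 3 * (r / (20 * P.L)) ≤ dist (g.c u) (g.c v) := by
    intro e w hw hw' he
    obtain ⟨y', hc, hb'⟩ := conn_avoid g e (ξ := g.c u) hr' (by rw [hLr]; exact he)
      (by rw [hLr]; linarith)
    obtain ⟨v, hv, hvA⟩ := key hw hw' hc (S.bd_far hb' hb)
    refine ⟨v, hv, ?_⟩
    have h1 : r / (2 * P.L) - P.K * δ < dist (g.c v) (g.c u) := hvA
    rw [dist_comm]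
    have h2 : P.K * δ ≤ r / (100 * P.L) := by
      rw [le_div_iff₀ (by positivity)]; linarith
    have h3 : r / (2 * P.L) - r / (100 * P.L) - 3 * (r / (20 * P.L)) = 17 * r / (50 * P.L) := by
      field_simp; ring
    have h4 : 0 ≤ 17 * r / (50 * P.L) := by positivity
    linarith
  have htri := dist_triangle_right (g.c x) (g.c x') (g.c u)
  rcases le_total (r / 2) (dist (g.c x) (g.c u)) with h | h
  · obtain ⟨v, hv, hv'⟩ := fin hw1 hw1' h
    exact ⟨u, hu, v, hv, hu1, hv'⟩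
  · obtain ⟨v, hv, hv'⟩ := fin hw2 hw2' (by linarith)
    exact ⟨u, hu, v, hv, hu1, hv'⟩

/-- tiles meeting the shell `s ≤ dist · y ≤ 2 s` -/
def shell {Q : Quad T} (S : SqT Q) (y : ℝ × ℝ) (s : ℝ) : Set T :=
  {z | ∃ w ∈ S.sq z, s ≤ dist w y ∧ dist w y ≤ 2 * s}

open Classical in
/-- One shell.  Proof: `F = univ.filter (· ∈ shell S y s)`, `lo z = infDist y (sq z)`; for
`t ∈ (s, 2s)` every `z ∈ loop y t` is in `F` and `lo z ≤ t ≤ lo z + ρ z` (`infDist_le_dist_of_mem`;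
`t - ρ z ≤ dist y w'` for all `w' ∈ sq z` by `dist_le_of_mem`, then `le_infDist` with `pt_mem`), so
`integ F σ ρ lo` gives `s ≤ ∑_F σ ρ`; the squares of `F` lie in `closedBall y (3 s)`, `area` gives
`∑_F ρ² ≤ 36 s²`; Cauchy-Schwarz. -/
theorem shell_est {Q : Quad T} (S : SqT Q) (σ : T → ℝ) (hσ : ∀ x, 0 ≤ σ x) {y : ℝ × ℝ} {s : ℝ}
    (hs : 0 < s) (hρ : ∀ z, S.ρ z ≤ s) (N : Set ℝ) (hN : N.Finite)
    (h : ∀ t, s < t → t < 2 * s → t ∉ N →
      1 ≤ ∑ z ∈ Finset.univ.filter (fun z => z ∈ S.loop y t), σ z) :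
    1 / 36 ≤ ∑ z ∈ Finset.univ.filter (fun z => z ∈ shell S y s), σ z ^ 2 := by
  set F := Finset.univ.filter (fun z => z ∈ shell S y s) with hF
  have h1 : 2 * s - s ≤ ∑ z ∈ F, σ z * S.ρ z := by
    refine integ F σ S.ρ (fun z => infDist y (S.sq z)) hσ S.ρ_nonneg N hN fun t ht1 ht2 htN => ?_
    refine (h t ht1 ht2 htN).trans (Finset.sum_le_sum_of_subset_of_nonneg ?_ fun x _ _ => hσ x)
    intro z hz
    obtain ⟨w, hw, hd⟩ := (Finset.mem_filter.1 hz).2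
    refine Finset.mem_filter.2 ⟨Finset.mem_filter.2 ⟨Finset.mem_univ _, w, hw, ?_, ?_⟩, ?_, ?_⟩
    · linarith
    · linarith
    · rw [← hd, dist_comm]
      exact infDist_le_dist_of_mem hw
    · have : t - S.ρ z ≤ infDist y (S.sq z) := by
        refine (le_infDist ⟨_, S.pt_mem z⟩).2 fun w' hw' => ?_
        have h2 := S.dist_le_of_mem hw hw'
        have h3 := dist_triangle_right w y w'
        have h4 := dist_triangle w w' y
        rw [dist_comm y w']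
        linarith
      linarith
  have h2 : ∑ z ∈ F, S.ρ z ^ 2 ≤ 4 * (3 * s) ^ 2 := by
    refine S.area F y (3 * s) (by positivity) fun z hz w' hw' => ?_
    obtain ⟨w, hw, -, hd⟩ := (Finset.mem_filter.1 hz).2
    have h2 := S.dist_le_of_mem hw' hw
    have h4 := dist_triangle w' w y
    have h5 := hρ z
    rw [mem_closedBall]
    linarith
  have h3 := Finset.sum_mul_sq_le_sq_mul_sq F σ S.ρ
  have h4 : 0 ≤ ∑ z ∈ F, σ z ^ 2 := Finset.sum_nonneg fun z _ => sq_nonneg _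
  have h5 : s ^ 2 ≤ (∑ z ∈ F, σ z * S.ρ z) ^ 2 := pow_le_pow_left₀ hs.le (by linarith) 2
  have h6 : s ^ 2 ≤ (∑ z ∈ F, σ z ^ 2) * (4 * (3 * s) ^ 2) :=
    h5.trans (h3.trans (mul_le_mul_of_nonneg_left h2 h4))
  have h7 : 0 < s ^ 2 := by positivity
  by_contra hc
  push Not at hc
  nlinarith

open Classical in
/-- The shells `4^j s` are disjoint: a tile in two of them has two points at distance
`≥ 4^j' s - 2 * 4^j s ≥ 2 s > ρ` (`dist_le_of_mem`); so the sum over `j` of the shell sums is at most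
the total sum (swap the sums, `Finset.sum_filter`; for each `z` at most one `j` contributes). -/
theorem shell_sum {Q : Quad T} (S : SqT Q) (τ : T → ℝ) (hτ : ∀ x, 0 ≤ τ x) {y : ℝ × ℝ} {s : ℝ}
    (hs : 0 < s) (hρ : ∀ z, S.ρ z ≤ s) (k : ℕ) :
    ∑ j ∈ Finset.range k, ∑ z ∈ Finset.univ.filter (fun z => z ∈ shell S y (4 ^ j * s)), τ z ≤
      ∑ z, τ z := by
  have key : ∀ (z : T) (j j' : ℕ), j < j' → z ∈ shell S y (4 ^ j * s) →
      z ∈ shell S y (4 ^ j' * s) → False := by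
    rintro z j j' hj ⟨w, hw, -, h1⟩ ⟨w', hw', h2, -⟩
    have h3 := S.dist_le_of_mem hw' hw
    have h4 := dist_triangle w' w y
    have h5 := hρ z
    have h6 : (4 : ℝ) ^ (j + 1) ≤ 4 ^ j' := pow_le_pow_right₀ (by norm_num) hj
    have h7 : (1 : ℝ) ≤ 4 ^ j := one_le_pow₀ (by norm_num)
    rw [pow_succ] at h6
    have h8 := mul_le_mul_of_nonneg_right h6 hs.le
    have h9 := mul_le_mul_of_nonneg_right h7 hs.le
    linarith
  simp_rw [Finset.sum_filter]
  rw [Finset.sum_comm]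
  refine Finset.sum_le_sum fun z _ => ?_
  rw [← Finset.sum_filter, Finset.sum_const, nsmul_eq_mul]
  have hc : ((Finset.range k).filter (fun j => z ∈ shell S y (4 ^ j * s))).card ≤ 1 := by
    refine Finset.card_le_one.2 fun j hj j' hj' => ?_
    have a1 := (Finset.mem_filter.1 hj).2
    have a2 := (Finset.mem_filter.1 hj').2
    rcases lt_trichotomy j j' with h | h | h
    · exact (key z j j' h a1 a2).elim
    · exact h
    · exact (key z j' j h a2 a1).elim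
  have hc' : (((Finset.range k).filter (fun j => z ∈ shell S y (4 ^ j * s))).card : ℝ) ≤ 1 := by
    exact_mod_cast hc
  have := mul_le_mul_of_nonneg_right hc' (hτ z)
  rwa [one_mul] at this

/-- (E3) Logarithmic test.  Proof: `C'` from `net_sig P (20 * L * (L * H + 1))`, `Ψ = ⌈36 C'⌉₊`.
`σ` from `net_sig` at `ξ = c x`, radius `r' = r / (20 L)` (`K δ ≤ r' ≤ r0`).  Exceptional set
`N = {t | ¬ (Gen (y.2 - t) ∧ Gen (y.2 + t) ∧ swap.Gen (y.1 - t) ∧ swap.Gen (y.1 + t))}`, finite by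
`finite_not_gen` (preimages under injective maps).  For `j < k` and `t ∈ (4^j s, 2 * 4^j s) \ N`:
`s ≤ t ≤ 4^k s`, `Box y t`, `loop_big` and `loop_conn` give a chain in `loop y t`, so the `σ`-mass of
the loop is `≥ 1`; `shell_est` (with `ρ ≤ s ≤ 4^j s`) and `shell_sum` give `k / 36 ≤ C'`. -/
theorem logtest (P : Par Z) (H : ℝ) : ∃ Ψ : ℕ, ∀ (δ : ℝ) (T : Type) [Fintype T]
    (g : GT P.F P.K δ T) (S : SqT g.Q), HasSig g P.C P.r0 → 0 < δ →
    ∀ (r s : ℝ) (k : ℕ) (y : ℝ × ℝ) (x x' x3 : T), 100 * P.L * P.K * δ ≤ r →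
    r ≤ min P.r0 P.F.d0 → 0 < s → (∀ z, S.ρ z ≤ s) → S.Box y (4 ^ k * s) →
    (∃ w ∈ S.sq x, dist w y ≤ s) → (∃ w ∈ S.sq x', dist w y ≤ s) →
    r ≤ dist (g.c x) (g.c x') → (∃ w ∈ S.sq x3, 4 ^ k * s ≤ dist w y) →
    dist (g.c x) (g.c x3) ≤ H * r → k ≤ Ψ := by
  classical
  obtain ⟨C', hC', hsig⟩ := net_sig P (20 * P.L * (P.L * H + 1))
  refine ⟨⌈36 * C'⌉₊, ?_⟩
  intro δ T _ g S hS hδ r s k y x x' x3 hr1 hr2 hs hρ hb hx hx' hxx hx3 hH
  have hL := P.hL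
  have hK := P.hK
  have hL0 : 0 < P.L := by linarith
  have hKδ : 0 < P.K * δ := mul_pos (by linarith) hδ
  have hLKδ : P.K * δ ≤ P.L * (P.K * δ) := le_mul_of_one_le_left hKδ.le hL
  have hr1' : 100 * (P.L * (P.K * δ)) ≤ r := by
    have e : 100 * P.L * P.K * δ = 100 * (P.L * (P.K * δ)) := by ring
    linarith
  have hr0 : 0 < r := by linarith
  have h1 : P.K * δ ≤ r / (20 * P.L) := by
    rw [le_div_iff₀ (by linarith)]
    linarith [show P.K * δ * (20 * P.L) = 20 * (P.L * (P.K * δ)) by ring]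
  have h2 : r / (20 * P.L) ≤ P.r0 :=
    (div_le_self hr0.le (by linarith)).trans (hr2.trans (min_le_left _ _))
  obtain ⟨σ, hσ0, hσ2, hσ⟩ := hsig δ T g hS hδ (g.c x) (r / (20 * P.L)) h1 h2
  have hA : 20 * P.L * (P.L * H + 1) * (r / (20 * P.L)) = (P.L * H + 1) * r := by
    field_simp
  obtain ⟨N, hN, hNgen⟩ : ∃ N : Set ℝ, N.Finite ∧ ∀ t, t ∉ N → S.Gen (y.2 - t) ∧
      S.Gen (y.2 + t) ∧ S.swap.Gen (y.1 - t) ∧ S.swap.Gen (y.1 + t) := by
    refine ⟨((fun t => y.2 - t) ⁻¹' {s | ¬ S.Gen s} ∪ (fun t => y.2 + t) ⁻¹' {s | ¬ S.Gen s}) ∪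
      ((fun t => y.1 - t) ⁻¹' {s | ¬ S.swap.Gen s} ∪
        (fun t => y.1 + t) ⁻¹' {s | ¬ S.swap.Gen s}), ?_, ?_⟩
    · refine Set.Finite.union (Set.Finite.union ?_ ?_) (Set.Finite.union ?_ ?_)
      · exact S.finite_not_gen.preimage (sub_right_injective (b := y.2)).injOn
      · exact S.finite_not_gen.preimage (add_right_injective y.2).injOn
      · exact S.swap.finite_not_gen.preimage (sub_right_injective (b := y.1)).injOn
      · exact S.swap.finite_not_gen.preimage (add_right_injective y.1).injOn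
    · intro t ht
      simp only [Set.mem_union, Set.mem_preimage, Set.mem_ofPred_eq, not_or, not_not] at ht
      exact ⟨ht.1.1, ht.1.2, ht.2.1, ht.2.2⟩
  have hshell : ∀ j ∈ Finset.range k, (1 / 36 : ℝ) ≤
      ∑ z ∈ Finset.univ.filter (fun z => z ∈ shell S y (4 ^ j * s)), σ z ^ 2 := by
    intro j hj
    rw [Finset.mem_range] at hj
    have hj1 : (1 : ℝ) ≤ 4 ^ j := one_le_pow₀ (by norm_num)
    have hjs : s ≤ 4 ^ j * s := le_mul_of_one_le_left hs.le hj1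
    have hjk : (4 : ℝ) ^ (j + 1) ≤ 4 ^ k := pow_le_pow_right₀ (by norm_num) hj
    have hjk' : 4 ^ (j + 1) * s ≤ 4 ^ k * s := mul_le_mul_of_nonneg_right hjk hs.le
    have hjk'' : (4 : ℝ) ^ (j + 1) * s = 4 * (4 ^ j * s) := by ring
    refine shell_est S σ hσ0 (by linarith) (fun z => (hρ z).trans hjs) N hN ?_
    intro t ht1 ht2 htN
    obtain ⟨g1, g2, g3, g4⟩ := hNgen t htN
    have ht0 : 0 < t := by linarith
    have htk : t ≤ 4 ^ k * s := by linarith
    have hbt : S.Box y t := by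
      obtain ⟨b1, b2, b3, b4⟩ := hb
      exact ⟨by linarith, by linarith, by linarith, by linarith⟩
    obtain ⟨u, hu, v, hv, huv1, huv2⟩ := loop_big g S hδ (H := H) (x := x) (x' := x') (x3 := x3)
      hr1 (hr2.trans (min_le_right _ _)) hbt
      (hx.imp fun w hw => ⟨hw.1, by linarith [hw.2]⟩)
      (hx'.imp fun w hw => ⟨hw.1, by linarith [hw.2]⟩) hxx
      (hx3.imp fun w hw => ⟨hw.1, htk.trans hw.2⟩) hH
    have hc := S.loop_conn ht0 hbt g1 g2 g3 g4 hu hv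
    have h := hσ (S.loop y t) u v hc (by rw [hA]; exact huv1) huv2
    convert h
  have hsum := Finset.card_nsmul_le_sum _ _ _ hshell
  rw [Finset.card_range, nsmul_eq_mul] at hsum
  have hsum2 := shell_sum S (fun z => σ z ^ 2) (fun z => sq_nonneg _) (y := y) hs hρ k
  have hk : (k : ℝ) ≤ 36 * C' := by linarith
  exact_mod_cast hk.trans (Nat.le_ceil _)

end Crest.Agent.R193.Sq
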