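import Mathlib
import Crest.Agent.R193.SqEst1
import Crest.Agent.R193.SqEst2

/-! Row 193 [U]: the estimates near the central tile. -/

set_option autoImplicit false

namespace Crest.Agent.R193.Sq

open Metric

variable {Z : Type} [MetricSpace Z]

/-- A normalised square tiling at the scale `δ`. -/
structure Cfg (P : Par Z) where
  δ : ℝ
  T : Type
  fin : Fintype T
  g : GT P.F P.K δ T
  S : @SqT T fin g.Q
  hs : @HasSig Z _ P.F P.K δ T fin g P.C P.r0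
  hδ : 0 < δ
  h1 : @SqT.h T fin g.Q S = 1

instance Cfg.instFintype {P : Par Z} (c : Cfg P) : Fintype c.T := c.fin

/-- What is known near the central tile `x0`. -/
structure Ctr {P : Par Z} (c : Cfg P) (κ r2 : ℝ) (x0 : c.T) : Prop where
  m_le : c.S.m ≤ κ⁻¹
  box : ∀ x, dist (c.g.c x) (c.g.c x0) ≤ r2 → c.S.Box (c.S.pt x) κ
  conn : ∀ x, dist (c.g.c x) (c.g.c x0) ≤ r2 → ∀ x', dist (c.g.c x) (c.g.c x') ≤ 2 * r2 →
    Conn c.g.Q.adj (tb c.g (c.g.c x) (P.L * dist (c.g.c x) (c.g.c x') + P.K * c.δ)) x x'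
  close : ∀ x, dist (c.g.c x) (c.g.c x0) ≤ r2 → ∀ x', dist (c.g.c x) (c.g.c x') ≤ 2 * r2 →
    ∀ w ∈ c.S.sq x', dist (c.S.pt x) w ≤ κ
  dense : ∀ q, dist q (c.g.c x0) ≤ r2 → ∃ x, dist (c.g.c x) q < P.K * c.δ

/-- a smaller box -/
theorem SqT.Box.mono {T : Type} [Fintype T] {Q : Quad T} {S : SqT Q} {y : ℝ × ℝ} {t t' : ℝ}
    (h : S.Box y t) (ht : t' ≤ t) : S.Box y t' := by
  obtain ⟨h1, h2, h3, h4⟩ := h
  exact ⟨by linarith, by linarith, by linarith, by linarith⟩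

/-- The central tile.  Proof: `C1` from `m_bounds`, `κ = min (1 / C1) 1 / 8`, `ρ0, δ1` from
`osc_small P κ`, `r2 = min (ρ0 / (4 L)) (min r0 (d0 / 8) / 2)`, `δ0` so small that `δ < δ1`,
`8 K δ ≤ min r0 d0`, `K δ ≤ r2` (hence `L * (2 r2) + K δ ≤ ρ0`).  `y0 = (m / 2, 1 / 2)` has
`Box y0 (4 κ)`; `x0` from `cover`.
(a) if `w ∈ sq x` has `Box w (3 κ)` then no tile `y'` with `Conn (tb g (c x) ρ0) x y'` is `Bd`
(`bd_far` against `osc_small`), so (`conn_near`, `Conn.mono`) every `x'` with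
`dist (c x) (c x') ≤ 2 r2` is joined to `x` in `tb g (c x) (L * dist + K δ) ⊆ tb g (c x) ρ0` and
`sq x' ⊆ closedBall w κ`.  (b) Apply (a) to `x0, y0`: `dist y0 (pt x) ≤ κ`, hence `Box (pt x) (3 κ)`
for `x` in the `r2`-ball; apply (a) to `x, pt x`.  (c) a point `q` with `dist q (c x0) ≤ 2 r2` is in
`I` (`conn_out` and (a)); for `dist q (c x0) ≤ r2` the second alternative of `g.dense` gives
`w ∈ fr`, `w ∉ I` (`notI`), within `2 r2` of `c x0`: impossible. -/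
theorem exists_ctr (P : Par Z) : ∃ κ r2 δ0 : ℝ, 0 < κ ∧ 0 < r2 ∧ 0 < δ0 ∧
    2 * r2 ≤ min P.r0 (P.F.d0 / 8) ∧ ∀ c : Cfg P, c.δ < δ0 → ∃ x0, Ctr c κ r2 x0 := by
  sorry

/-- Uniform injectivity.  Proof: `r = min η (min r0 d0)`, `H = D / r`, `Ψ` from `logtest P H`,
`k = Ψ + 1`, `κ' = s = κ / 4^k`; `δ0` from `rho_small P s` and `100 L K δ ≤ r`.  If
`dist (pt x) w < s`, apply `logtest` with `y = pt x`, `x3` a boundary tile (`Quad.exists_bd`,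
`bd_far` with `box`, `dist (c x) (c x3) ≤ D = H r`): `Ψ + 1 ≤ Ψ`. -/
theorem tile_inj (P : Par Z) {κ η : ℝ} (hκ : 0 < κ) (hη : 0 < η) : ∃ κ' δ0 : ℝ, 0 < κ' ∧ 0 < δ0 ∧
    ∀ (c : Cfg P) (r2 : ℝ) (x0 : c.T), c.δ < δ0 → Ctr c κ r2 x0 → ∀ x x' : c.T,
      dist (c.g.c x) (c.g.c x0) ≤ r2 → η ≤ dist (c.g.c x) (c.g.c x') →
      ∀ w ∈ c.S.sq x', κ' ≤ dist (c.S.pt x) w := by
  have hL : 0 < P.L := by linarith [P.hL]
  have hK : 0 < P.K := by linarith [P.hK]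
  set r := min η (min P.r0 P.F.d0) with hr
  have hr0 : 0 < r := lt_min hη (lt_min P.hr0 P.F.d0_pos)
  obtain ⟨Ψ, hΨ⟩ := logtest P (P.D / r)
  set s := κ / 4 ^ (Ψ + 1) with hs
  have hs0 : 0 < s := by positivity
  have e : 4 ^ (Ψ + 1) * s = κ := by rw [hs]; field_simp
  obtain ⟨δ1, hδ1, hρ⟩ := rho_small P hs0
  refine ⟨s, min δ1 (r / (100 * P.L * P.K)), hs0, lt_min hδ1 (by positivity),
    fun c r2 x0 hδ hc x x' hx hxx w hw => ?_⟩
  by_contra hn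
  obtain ⟨x3, hx3⟩ := Quad.exists_bd c.g.Q
  have h1 : 100 * P.L * P.K * c.δ ≤ r := by
    have := (lt_div_iff₀ (by positivity)).1 (hδ.trans_le (min_le_right _ _))
    linarith
  have := hΨ c.δ c.T c.g c.S c.hs c.hδ r s (Ψ + 1) (c.S.pt x) x x' x3 h1 (min_le_right _ _) hs0
    (hρ c.δ c.T c.g c.S c.hs c.hδ (hδ.trans_le (min_le_left _ _)) c.h1)
    (by rw [e]; exact hc.box x hx) ⟨_, c.S.pt_mem x, by simpa using hs0.le⟩
    ⟨w, hw, by rw [dist_comm]; exact (not_le.1 hn).le⟩ ((min_le_left _ _).trans hxx)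
    (by rw [e]; exact c.S.bd_far hx3 (hc.box x hx))
    (by rw [div_mul_cancel₀ _ hr0.ne']; exact P.hD _ _)
  omega

/-- Bounded distortion.  Proof: `Ψ` from `logtest P H`, `k = Ψ + 1`, `M = 4^k`, `μ = η / M`; `δ0` from
`rho_small P μ` and `100 L K δ ≤ η`.  Put `y = pt x`, `s = dist y (pt x'') + μ`,
`r = dist (c x) (c x'')`.  If `κ ≤ M s` use `close`.  Otherwise `Box y (M s)` (`Box.mono`) and
`M s ≤ dist w y` would give `Ψ + 1 ≤ Ψ` by `logtest` for `x, x'', x3 := x'`. -/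
theorem tile_bdd (P : Par Z) (H : ℝ) : ∃ M : ℝ, 0 < M ∧ ∀ η : ℝ, 0 < η → ∃ δ0 : ℝ, 0 < δ0 ∧
    ∀ (c : Cfg P) (κ r2 : ℝ) (x0 : c.T), c.δ < δ0 → Ctr c κ r2 x0 →
      2 * r2 ≤ min P.r0 (P.F.d0 / 8) → ∀ x x' x'' : c.T,
      dist (c.g.c x) (c.g.c x0) ≤ r2 → dist (c.g.c x) (c.g.c x') ≤ 2 * r2 →
      dist (c.g.c x) (c.g.c x'') ≤ 2 * r2 → η ≤ dist (c.g.c x) (c.g.c x'') →
      dist (c.g.c x) (c.g.c x') ≤ H * dist (c.g.c x) (c.g.c x'') →
      ∀ w ∈ c.S.sq x', dist (c.S.pt x) w ≤ M * dist (c.S.pt x) (c.S.pt x'') + η := by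
  have hL : 0 < P.L := by linarith [P.hL]
  have hK : 0 < P.K := by linarith [P.hK]
  obtain ⟨Ψ, hΨ⟩ := logtest P H
  refine ⟨4 ^ (Ψ + 1), by positivity, fun η hη => ?_⟩
  set μ := η / 4 ^ (Ψ + 1) with hμ
  have hμ0 : 0 < μ := by positivity
  have e : 4 ^ (Ψ + 1) * μ = η := by rw [hμ]; field_simp
  obtain ⟨δ1, hδ1, hρ⟩ := rho_small P hμ0
  refine ⟨min δ1 (η / (100 * P.L * P.K)), lt_min hδ1 (by positivity),
    fun c κ r2 x0 hδ hc hr2 x x' x'' hx h1 h2 h3 h4 w hw => ?_⟩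
  set s := dist (c.S.pt x) (c.S.pt x'') + μ with hs
  have hd := dist_nonneg (x := c.S.pt x) (y := c.S.pt x'')
  have e' : 4 ^ (Ψ + 1) * dist (c.S.pt x) (c.S.pt x'') + η = 4 ^ (Ψ + 1) * s := by
    rw [hs, mul_add, e]
  rw [e']
  rcases le_total κ (4 ^ (Ψ + 1) * s) with h | h
  · exact (hc.close x hx x' h1 w hw).trans h
  by_contra hn
  have h5 : 100 * P.L * P.K * c.δ ≤ η := by
    have := (lt_div_iff₀ (by positivity)).1 (hδ.trans_le (min_le_right _ _))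
    linarith
  have hd0 := P.F.d0_pos
  have := hΨ c.δ c.T c.g c.S c.hs c.hδ (dist (c.g.c x) (c.g.c x'')) s (Ψ + 1) (c.S.pt x) x x'' x'
    (h5.trans h3) ((h2.trans hr2).trans (min_le_min_left _ (by linarith))) (by linarith)
    (fun z => (hρ c.δ c.T c.g c.S c.hs c.hδ (hδ.trans_le (min_le_left _ _)) c.h1 z).trans
      (by linarith))
    ((hc.box x hx).mono h) ⟨_, c.S.pt_mem x, by rw [dist_self]; linarith⟩
    ⟨_, c.S.pt_mem x'', by rw [dist_comm]; linarith⟩ le_rfl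
    ⟨w, hw, by rw [dist_comm]; exact (not_le.1 hn).le⟩ h4
  omega

/-- Small distortion.  Proof: `M` from `tile_bdd P 1`, `k ≥ 1` with `4 C M² ≤ k ε²`,
`τ = 1 / (2 L 4^k)`, `η' = min η (η M / ε)`, `δ0` from `tile_bdd` at `η'` and `4 K δ ≤ η / 4^k`.
Put `d = dist (c x) (c x'')`, `r = d / 4^k`, `e = dist (pt x) (pt x'')`, `t = M e + η'`.  `conn` joins
`x` to `x'` in `tb g (c x) r` (`L τ d + K δ ≤ r / 2 + r / 4`; `τ d ≤ d ≤ 2 r2`); the squares of the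
tiles `z` with `dist (c z) (c x) ≤ 4^k r = d` lie in `closedBall (pt x) t` (`tile_bdd`), so `ring`
and `area` give `k * dist (pt x) (pt x')² ≤ C * (4 t²)`, i.e. `dist ≤ (ε / M) t ≤ ε e + η`. -/
theorem tile_small (P : Par Z) {ε : ℝ} (hε : 0 < ε) : ∃ τ : ℝ, 0 < τ ∧ ∀ η : ℝ, 0 < η →
    ∃ δ0 : ℝ, 0 < δ0 ∧ ∀ (c : Cfg P) (κ r2 : ℝ) (x0 : c.T), c.δ < δ0 → Ctr c κ r2 x0 →
      2 * r2 ≤ min P.r0 (P.F.d0 / 8) → ∀ x x' x'' : c.T,
      dist (c.g.c x) (c.g.c x0) ≤ r2 → dist (c.g.c x) (c.g.c x'') ≤ 2 * r2 →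
      η ≤ dist (c.g.c x) (c.g.c x'') →
      dist (c.g.c x) (c.g.c x') ≤ τ * dist (c.g.c x) (c.g.c x'') →
      dist (c.S.pt x) (c.S.pt x') ≤ ε * dist (c.S.pt x) (c.S.pt x'') + η := by
  obtain ⟨M, hM, hb⟩ := tile_bdd P 1
  obtain ⟨k, hk⟩ := exists_nat_gt (4 * P.C * M ^ 2 / ε ^ 2)
  have hC := P.hC
  have hL : 0 < P.L := lt_of_lt_of_le one_pos P.hL
  have hK : 0 < P.K := lt_of_lt_of_le one_pos P.hK
  have hk0 : (0 : ℝ) < k := lt_of_le_of_lt (by positivity) hk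
  have hk1 : 4 * P.C * M ^ 2 ≤ k * ε ^ 2 := ((div_lt_iff₀ (by positivity)).1 hk).le
  have h4 : (1 : ℝ) ≤ 4 ^ k := one_le_pow₀ (by norm_num)
  have h40 : (0 : ℝ) < 4 ^ k := by positivity
  refine ⟨1 / (2 * P.L * 4 ^ k), by positivity, fun η hη => ?_⟩
  obtain ⟨δ1, hδ1, hb⟩ := hb (min η (η * M / ε)) (lt_min hη (by positivity))
  refine ⟨min δ1 (η / 4 ^ k / (4 * P.K)), lt_min hδ1 (by positivity), ?_⟩
  intro c κ r2 x0 hδ hc hr2 x x' x'' hx hx'' hηd hx'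
  have hδa : c.δ < δ1 := hδ.trans_le (min_le_left _ _)
  have hδb : c.δ < η / 4 ^ k / (4 * P.K) := hδ.trans_le (min_le_right _ _)
  have hb' := hb c κ r2 x0 hδa hc hr2 x
  obtain ⟨d, hd⟩ : ∃ d, d = dist (c.g.c x) (c.g.c x'') := ⟨_, rfl⟩
  obtain ⟨e, he⟩ : ∃ e, e = dist (c.S.pt x) (c.S.pt x'') := ⟨_, rfl⟩
  have hd0 : 0 < d := by rw [hd]; exact hη.trans_le hηd
  have he0 : 0 ≤ e := by rw [he]; exact dist_nonneg
  have hrd : 4 ^ k * (d / 4 ^ k) = d := by field_simp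
  have hKδ : 4 * P.K * c.δ ≤ d / 4 ^ k := by
    have h1 := (lt_div_iff₀ (by positivity : (0 : ℝ) < 4 * P.K)).1 hδb
    have h2 : η / 4 ^ k ≤ d / 4 ^ k := div_le_div_of_nonneg_right (hd ▸ hηd) h40.le
    linarith
  have hLx : P.L * dist (c.g.c x) (c.g.c x') ≤ d / 4 ^ k / 2 := by
    calc _ ≤ P.L * (1 / (2 * P.L * 4 ^ k) * d) := by
          rw [hd]; exact mul_le_mul_of_nonneg_left hx' hL.le
      _ = _ := by field_simp
  have hr0 : 0 < d / 4 ^ k := by positivity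
  have hrle : d / 4 ^ k ≤ d := div_le_self hd0.le h4
  have hxx' : dist (c.g.c x) (c.g.c x') ≤ 2 * r2 := by
    have h1 : dist (c.g.c x) (c.g.c x') ≤ P.L * dist (c.g.c x) (c.g.c x') :=
      le_mul_of_one_le_left dist_nonneg P.hL
    rw [← hd] at hx''
    linarith
  have hconn : Conn c.g.Q.adj (tb c.g (c.g.c x) (d / 4 ^ k)) x x' := by
    refine (hc.conn x hx x' hxx').mono fun z hz => ?_
    have h1 : dist (c.g.c z) (c.g.c x) < P.L * dist (c.g.c x) (c.g.c x') + P.K * c.δ := hz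
    show dist (c.g.c z) (c.g.c x) < d / 4 ^ k
    linarith
  have hη' : 0 < min η (η * M / ε) := lt_min hη (by positivity)
  have ht : 0 ≤ M * e + min η (η * M / ε) := by positivity
  have h1 := ring c.g c.S c.hs c.hδ k hKδ (by rw [hrd, hd]; exact hx''.trans hr2) hconn
    (c.S.pt_mem x) (c.S.pt_mem x')
  have h2 := h1.trans (mul_le_mul_of_nonneg_left
    (c.S.area _ (c.S.pt x) (M * e + min η (η * M / ε)) ht fun z hz w hw => by
      have h3 := ((@Finset.mem_filter _ _ (_) _ _).1 hz).2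
      rw [hrd, dist_comm, hd] at h3
      rw [mem_closedBall, dist_comm, he]
      exact hb' z x'' hx (h3.trans hx'') hx'' ((min_le_left _ _).trans hηd)
        (by rw [one_mul]; exact h3) w hw) hC.le)
  rw [← he]
  generalize dist (c.S.pt x) (c.S.pt x') = D at h2 ⊢
  have h5 : min η (η * M / ε) ≤ η * M / ε := min_le_right _ _
  generalize min η (η * M / ε) = η' at h2 h5 ht hη'
  have h6 : (D * M) ^ 2 ≤ (ε * (M * e + η')) ^ 2 := by
    refine le_of_mul_le_mul_left ?_ hk0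
    calc (k : ℝ) * (D * M) ^ 2 = k * D ^ 2 * M ^ 2 := by ring
      _ ≤ P.C * (4 * (M * e + η') ^ 2) * M ^ 2 := mul_le_mul_of_nonneg_right h2 (by positivity)
      _ = 4 * P.C * M ^ 2 * (M * e + η') ^ 2 := by ring
      _ ≤ k * ε ^ 2 * (M * e + η') ^ 2 := mul_le_mul_of_nonneg_right hk1 (by positivity)
      _ = _ := by ring
  have h7 : D * M ≤ ε * (M * e + η') := (abs_le_of_sq_le_sq' h6 (by positivity)).2
  have h8 : η' * ε ≤ η * M := (le_div_iff₀ hε).1 h5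
  refine le_of_mul_le_mul_right ?_ hM
  linarith

end Crest.Agent.R193.Sq
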