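import Mathlib
import Crest.Agent.R193.SqEst3

/-! Row 193 [U]: the approximate charts. -/

set_option autoImplicit false

namespace Crest.Agent.R193.Sq

open Metric Filter Topology

variable {Z : Type} [MetricSpace Z]

/-- A sequence of tilings with scale tending to `0`, central tiles and nearest-tile maps. -/
structure Seq (P : Par Z) where
  κ : ℝ
  r2 : ℝ
  hκ : 0 < κ
  hr2 : 0 < r2
  hr2' : 2 * r2 ≤ min P.r0 (P.F.d0 / 8)
  c : ℕ → Cfg P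
  lim : Tendsto (fun n => (c n).δ) atTop (𝓝 0)
  x0 : ∀ n, (c n).T
  ctr : ∀ n, Ctr (c n) κ r2 (x0 n)
  t : ∀ n, Z → (c n).T
  ht : ∀ n a, dist a ((c n).g.c (x0 n)) ≤ r2 → dist ((c n).g.c (t n a)) a < P.K * (c n).δ

/-- Proof: `κ, r2, δ0'` from `exists_ctr`; `δ n = min δ0 δ0' / (n + 2)`; `choose` the
configurations and the central tiles; `t n a` = a tile given by `Ctr.dense` when
`dist a (c x0) ≤ r2`, and `x0 n` otherwise. -/
theorem exists_seq (P : Par Z) {δ0 : ℝ} (h0 : 0 < δ0)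
    (h : ∀ δ : ℝ, 0 < δ → δ < δ0 → ∃ c : Cfg P, c.δ = δ) : Nonempty (Seq P) := by
  classical
  obtain ⟨κ, r2, δ1, hκ, hr2, hδ1, hr, H⟩ := exists_ctr P
  have hm : 0 < min δ0 δ1 := lt_min h0 hδ1
  have hpos : ∀ n : ℕ, 0 < min δ0 δ1 / ((n : ℝ) + 2) := fun n => by positivity
  have hlt : ∀ n : ℕ, min δ0 δ1 / ((n : ℝ) + 2) < min δ0 δ1 := fun n =>
    div_lt_self hm (by have : (0 : ℝ) ≤ n := Nat.cast_nonneg n; linarith)
  choose c hc using fun n : ℕ => h _ (hpos n) ((hlt n).trans_le (min_le_left _ _))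
  choose x0 hx0 using fun n : ℕ => H (c n) (by rw [hc]; exact (hlt n).trans_le (min_le_right _ _))
  have ht : ∀ (n : ℕ) (a : Z), ∃ x : (c n).T, dist a ((c n).g.c (x0 n)) ≤ r2 →
      dist ((c n).g.c x) a < P.K * (c n).δ := by
    intro n a
    by_cases ha : dist a ((c n).g.c (x0 n)) ≤ r2
    · obtain ⟨x, hx⟩ := (hx0 n).dense a ha
      exact ⟨x, fun _ => hx⟩
    · exact ⟨x0 n, fun h => absurd h ha⟩
  choose t ht using ht
  refine ⟨⟨κ, r2, hκ, hr2, hr, c, ?_, x0, hx0, t, ht⟩⟩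
  simp only [hc]
  exact tendsto_const_nhds.div_atTop
    (tendsto_atTop_add_const_right _ _ tendsto_natCast_atTop_atTop)

namespace Seq

variable {P : Par Z} (s : Seq P)

/-- centres of the charts -/
def z (n : ℕ) : Z := (s.c n).g.c (s.x0 n)

/-- the approximate charts -/
def F (n : ℕ) (a : Z) : ℝ × ℝ := (s.c n).S.pt (s.t n a)

/-- centre of the tile of a point -/
def ct (n : ℕ) (a : Z) : Z := (s.c n).g.c (s.t n a)

theorem ev {e : ℝ} (he : 0 < e) : ∀ᶠ n in atTop, (s.c n).δ < e :=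
  s.lim.eventually (gt_mem_nhds he)

theorem evK {e : ℝ} (he : 0 < e) : ∀ᶠ n in atTop, P.K * (s.c n).δ < e := by
  have hK : 0 < P.K := by linarith [P.hK]
  filter_upwards [s.ev (div_pos he hK)] with n hn
  rwa [lt_div_iff₀' hK] at hn

theorem ct_near {n : ℕ} {a : Z} (ha : a ∈ ball (s.z n) (s.r2 / 2)) :
    dist (s.ct n a) a < P.K * (s.c n).δ :=
  s.ht n a (by have := mem_ball.1 ha; have := s.hr2; unfold z at *; linarith)

theorem ct_ball {n : ℕ} (hn : P.K * (s.c n).δ < s.r2 / 2) {a : Z}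
    (ha : a ∈ ball (s.z n) (s.r2 / 2)) : dist (s.ct n a) (s.z n) ≤ s.r2 := by
  have h1 := s.ct_near ha
  have h2 := mem_ball.1 ha
  have h3 := dist_triangle (s.ct n a) a (s.z n)
  linarith

theorem ct_two {n : ℕ} (hn : P.K * (s.c n).δ < s.r2 / 2) {a b : Z}
    (ha : a ∈ ball (s.z n) (s.r2 / 2)) (hb : b ∈ ball (s.z n) (s.r2 / 2)) :
    dist (s.ct n a) (s.ct n b) ≤ 2 * s.r2 := by
  have h1 := s.ct_ball hn ha
  have h2 := s.ct_ball hn hb
  have h3 := dist_triangle_right (s.ct n a) (s.ct n b) (s.z n)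
  linarith

theorem ct_dist {n : ℕ} {a b : Z} (ha : a ∈ ball (s.z n) (s.r2 / 2))
    (hb : b ∈ ball (s.z n) (s.r2 / 2)) :
    dist (s.ct n a) (s.ct n b) ≤ dist a b + 2 * (P.K * (s.c n).δ) ∧
      dist a b ≤ dist (s.ct n a) (s.ct n b) + 2 * (P.K * (s.c n).δ) := by
  have h1 := s.ct_near ha
  have h2 := s.ct_near hb
  have h5 := dist_triangle4 (s.ct n a) a b (s.ct n b)
  have h6 := dist_triangle4 a (s.ct n a) (s.ct n b) b
  rw [dist_comm b] at h5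
  rw [dist_comm a (s.ct n a)] at h6
  constructor <;> linarith

/-- `M = max κ⁻¹ 1`: `0 ≤ b ≤ m ≤ κ⁻¹`, `0 ≤ a ≤ h = 1` (`Prod.norm_def`). -/
theorem bound : ∃ M : ℝ, ∀ n w, ‖s.F n w‖ ≤ M := by
  refine ⟨max s.κ⁻¹ 1, fun n w => ?_⟩
  have h1 := (s.c n).S.b_nonneg (s.t n w)
  have h2 := (s.c n).S.b_le (s.t n w)
  have h3 := (s.c n).S.a_nonneg (s.t n w)
  have h4 := (s.c n).S.a_le (s.t n w)
  have h5 := (s.c n).S.ρ_nonneg (s.t n w)
  have h6 := (s.ctr n).m_le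
  have h7 := (s.c n).h1
  unfold F SqT.pt
  rw [Prod.norm_def, Real.norm_of_nonneg h1, Real.norm_of_nonneg h3]
  exact max_le_max (by linarith) (by linarith)

/-- `ρ0, δ0` from `osc_small P ε`, `ρ = ρ0 / (2 L)`; eventually `δ < δ0`, `K δ < r2 / 2`,
`K δ < ρ0 / (6 L)`; `Ctr.conn` and `Conn.mono` join the tiles in `tb g (ct a) ρ0`; `pt_mem`. -/
theorem equi : ∀ ε : ℝ, 0 < ε → ∃ ρ : ℝ, 0 < ρ ∧ ∀ᶠ n in atTop,
    ∀ a ∈ ball (s.z n) (s.r2 / 2), ∀ b ∈ ball (s.z n) (s.r2 / 2), dist a b ≤ ρ →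
      dist (s.F n a) (s.F n b) ≤ ε := by
  intro ε hε
  obtain ⟨ρ0, δ0, hρ0, hδ0, H⟩ := osc_small P hε
  have hL : 0 < P.L := by linarith [P.hL]
  refine ⟨ρ0 / (2 * P.L), by positivity, ?_⟩
  filter_upwards [s.ev hδ0, s.evK (half_pos s.hr2),
    s.evK (show 0 < ρ0 / (6 * P.L) by positivity)] with n h1 h2 h3 a ha b hb hab
  have hc := (s.ctr n).conn (s.t n a) (s.ct_ball h2 ha) (s.t n b) (s.ct_two h2 ha hb)
  have hd := (s.ct_dist ha hb).1
  have hK0 : 0 ≤ P.K * (s.c n).δ := mul_nonneg (by linarith [P.hK]) (s.c n).hδ.le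
  have e1 : P.L * (ρ0 / (2 * P.L)) = ρ0 / 2 := by field_simp
  have e2 : P.L * (P.K * (s.c n).δ) < ρ0 / 6 := by
    have : P.L * (ρ0 / (6 * P.L)) = ρ0 / 6 := by field_simp
    rw [← this]; exact mul_lt_mul_of_pos_left h3 hL
  have e3 : P.K * (s.c n).δ ≤ P.L * (P.K * (s.c n).δ) := le_mul_of_one_le_left hK0 P.hL
  have e4 : P.L * dist (s.ct n a) (s.ct n b) ≤
      P.L * (ρ0 / (2 * P.L) + 2 * (P.K * (s.c n).δ)) :=
    mul_le_mul_of_nonneg_left (by linarith) hL.le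
  have hle : P.L * dist (s.ct n a) (s.ct n b) + P.K * (s.c n).δ ≤ ρ0 := by nlinarith
  refine H (s.c n).δ (s.c n).T (s.c n).g (s.c n).S (s.c n).hs (s.c n).hδ h1 (s.c n).h1
    (s.ct n a) (s.t n a) (s.t n b) (hc.mono fun z hz => ?_) _ ((s.c n).S.pt_mem _) _
    ((s.c n).S.pt_mem _)
  exact lt_of_lt_of_le hz hle

/-- `tile_inj` at `η / 2`; eventually `K δ < η / 4`. -/
theorem inj : ∀ η : ℝ, 0 < η → ∃ κ : ℝ, 0 < κ ∧ ∀ᶠ n in atTop,
    ∀ a ∈ ball (s.z n) (s.r2 / 2), ∀ c ∈ ball (s.z n) (s.r2 / 2), η ≤ dist a c →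
      κ ≤ dist (s.F n a) (s.F n c) := by
  intro η hη
  obtain ⟨κ', δ0, hκ', hδ0, H⟩ := tile_inj P s.hκ (half_pos hη)
  refine ⟨κ', hκ', ?_⟩
  filter_upwards [s.ev hδ0, s.evK (half_pos s.hr2), s.evK (show 0 < η / 4 by positivity)]
    with n h1 h2 h3 a ha b hb hab
  have hd := (s.ct_dist ha hb).2
  exact H (s.c n) s.r2 (s.x0 n) h1 (s.ctr n) (s.t n a) (s.t n b) (s.ct_ball h2 ha)
    (show η / 2 ≤ dist (s.ct n a) (s.ct n b) by linarith) _ ((s.c n).S.pt_mem _)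

/-- `tile_bdd` with `2 * |H| + 1` at `η / 2`; eventually `K δ < η / 4`, so that
`dist a c ≤ 2 * dist (ct a) (ct c)`. -/
theorem bdd : ∀ H : ℝ, ∃ M : ℝ, ∀ η : ℝ, 0 < η → ∀ᶠ n in atTop,
    ∀ a ∈ ball (s.z n) (s.r2 / 2), ∀ b ∈ ball (s.z n) (s.r2 / 2),
    ∀ c ∈ ball (s.z n) (s.r2 / 2), η ≤ dist a c → dist a b ≤ H * dist a c →
      dist (s.F n a) (s.F n b) ≤ M * dist (s.F n a) (s.F n c) + η := by
  intro H
  obtain ⟨M, hM, h⟩ := tile_bdd P (2 * |H| + 1)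
  refine ⟨M, fun η hη => ?_⟩
  obtain ⟨δ0, hδ0, h⟩ := h (η / 2) (half_pos hη)
  filter_upwards [s.ev hδ0, s.evK (half_pos s.hr2), s.evK (e := η / 4) (by positivity)]
    with n h1 h2 h3 a ha b hb c hc hac hab
  have h4 := (s.ct_dist ha hb).1
  have h5 := (s.ct_dist ha hc).2
  have h6 : η / 2 ≤ dist (s.ct n a) (s.ct n c) := by linarith
  have h7 : dist a c ≤ 2 * dist (s.ct n a) (s.ct n c) := by linarith
  have h8 : H * dist a c ≤ |H| * (2 * dist (s.ct n a) (s.ct n c)) :=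
    (mul_le_mul_of_nonneg_right (le_abs_self H) dist_nonneg).trans
      (mul_le_mul_of_nonneg_left h7 (abs_nonneg H))
  have h9 := h (s.c n) s.κ s.r2 (s.x0 n) h1 (s.ctr n) s.hr2' (s.t n a) (s.t n b) (s.t n c)
    (s.ct_ball h2 ha) (s.ct_two h2 ha hb) (s.ct_two h2 ha hc) h6
    (show dist (s.ct n a) (s.ct n b) ≤ (2 * |H| + 1) * dist (s.ct n a) (s.ct n c) by linarith)
    _ ((s.c n).S.pt_mem (s.t n b))
  unfold F
  linarith

/-- `τ'` from `tile_small`, `τ = τ' / 4`, at `η / 2`; eventually `K δ < η / 4` and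
`K δ < τ' η / 8`. -/
theorem small : ∀ ε : ℝ, 0 < ε → ∃ τ : ℝ, 0 < τ ∧ ∀ η : ℝ, 0 < η → ∀ᶠ n in atTop,
    ∀ a ∈ ball (s.z n) (s.r2 / 2), ∀ b ∈ ball (s.z n) (s.r2 / 2),
    ∀ c ∈ ball (s.z n) (s.r2 / 2), η ≤ dist a c → dist a b ≤ τ * dist a c →
      dist (s.F n a) (s.F n b) ≤ ε * dist (s.F n a) (s.F n c) + η := by
  intro ε hε
  obtain ⟨τ, hτ, h⟩ := tile_small P hε
  refine ⟨τ / 4, by positivity, fun η hη => ?_⟩
  obtain ⟨δ0, hδ0, h⟩ := h (η / 2) (half_pos hη)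
  filter_upwards [s.ev hδ0, s.evK (half_pos s.hr2), s.evK (e := η / 4) (by positivity),
    s.evK (e := τ * η / 8) (by positivity)] with n h1 h2 h3 h3' a ha b hb c hc hac hab
  have h4 := (s.ct_dist ha hb).1
  have h5 := (s.ct_dist ha hc).2
  have h6 : η / 2 ≤ dist (s.ct n a) (s.ct n c) := by linarith
  have h7 : dist a c ≤ 2 * dist (s.ct n a) (s.ct n c) := by linarith
  have h8 := mul_le_mul_of_nonneg_left h7 hτ.le
  have h8' := mul_le_mul_of_nonneg_left h6 hτ.le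
  have h9 := h (s.c n) s.κ s.r2 (s.x0 n) h1 (s.ctr n) s.hr2' (s.t n a) (s.t n b) (s.t n c)
    (s.ct_ball h2 ha) (s.ct_two h2 ha hc) h6
    (show dist (s.ct n a) (s.ct n b) ≤ τ * dist (s.ct n a) (s.ct n c) by linarith)
  unfold F
  linarith

/-- `u' = min u (r2 / 4)`, `κ''` from `tile_inj` at `u' / 2`, `κ = min s.κ (κ'' / 2)`.  With
`x = t a`: `Ctr.box` puts `y` in the rectangle, `cover` gives `x'` with `y ∈ sq x'`, and
`dist (c x) (c x') < u' / 2` by `tile_inj`.  `a' = c x'` has `dist a' a < u'` (`K δ < u' / 2`).  The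
tile `x'' = t a'` has `dist (c x'') (c x') < K δ`, `Ctr.conn` joins `x''` to `x'` in
`tb g (c x'') ρ0` (`ρ0` from `osc_small P η`, `K δ < ρ0 / (2 L)`), so `dist (pt x'') y ≤ η`. -/
theorem opn : ∀ u : ℝ, 0 < u → ∃ κ : ℝ, 0 < κ ∧ ∀ η : ℝ, 0 < η → ∀ᶠ n in atTop,
    ∀ a ∈ ball (s.z n) (s.r2 / 2 / 2), ∀ y : ℝ × ℝ, dist y (s.F n a) ≤ κ →
      ∃ a' ∈ ball (s.z n) (s.r2 / 2), dist a' a ≤ u ∧ dist (s.F n a') y ≤ η := by
  intro u hu
  have hr2 := s.hr2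
  obtain ⟨u', hu'⟩ : ∃ u', u' = min u (s.r2 / 4) := ⟨_, rfl⟩
  have hu0 : 0 < u' := by rw [hu']; exact lt_min hu (by positivity)
  have hu1 : u' ≤ u := by rw [hu']; exact min_le_left _ _
  have hu2 : u' ≤ s.r2 / 4 := by rw [hu']; exact min_le_right _ _
  obtain ⟨κ', δ0, hκ', hδ0, H⟩ := tile_inj P s.hκ (half_pos hu0)
  refine ⟨min s.κ (κ' / 2), lt_min s.hκ (half_pos hκ'), fun η hη => ?_⟩
  obtain ⟨ρ0, δ1, hρ0, hδ1, H'⟩ := osc_small P hη
  have hL : 0 < P.L := by linarith [P.hL]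
  filter_upwards [s.ev hδ0, s.ev hδ1, s.evK (half_pos hr2), s.evK (half_pos hu0),
    s.evK (show 0 < ρ0 / (2 * P.L) by positivity)] with n h0 h1 h2 h3 h4 a ha y hy
  have ha0 : dist a (s.z n) < s.r2 / 2 / 2 := mem_ball.1 ha
  have ha' : a ∈ ball (s.z n) (s.r2 / 2) := mem_ball.2 (by linarith)
  have hx := s.ct_ball h2 ha'
  obtain ⟨b1, b2, b3, b4⟩ := (s.ctr n).box (s.t n a) hx
  have hy1 : dist y (s.F n a) ≤ s.κ := hy.trans (min_le_left _ _)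
  have hy2 : dist y (s.F n a) ≤ κ' / 2 := hy.trans (min_le_right _ _)
  have hc1 : |y.1 - ((s.c n).S.pt (s.t n a)).1| ≤ s.κ := by
    rw [← Real.dist_eq]; exact (le_max_left _ _).trans hy1
  have hc2 : |y.2 - ((s.c n).S.pt (s.t n a)).2| ≤ s.κ := by
    rw [← Real.dist_eq]; exact (le_max_right _ _).trans hy1
  obtain ⟨c1, c2⟩ := abs_le.1 hc1
  obtain ⟨c3, c4⟩ := abs_le.1 hc2
  obtain ⟨x', hx'⟩ := (s.c n).S.cover (w := y) (by linarith) (by linarith) (by linarith)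
    (by linarith)
  have hd : dist (s.ct n a) ((s.c n).g.c x') < u' / 2 := by
    by_contra hn
    have := H (s.c n) s.r2 (s.x0 n) h0 (s.ctr n) (s.t n a) x' hx (not_lt.1 hn) y hx'
    rw [dist_comm] at hy2
    have h5 : dist ((s.c n).S.pt (s.t n a)) y ≤ κ' / 2 := hy2
    linarith
  have hn1 := s.ct_near ha'
  have hd' : dist ((s.c n).g.c x') a < u' := by
    have := dist_triangle_left ((s.c n).g.c x') a (s.ct n a)
    linarith
  have hb : (s.c n).g.c x' ∈ ball (s.z n) (s.r2 / 2) := by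
    have := dist_triangle ((s.c n).g.c x') a (s.z n)
    exact mem_ball.2 (by linarith)
  refine ⟨(s.c n).g.c x', hb, by linarith, ?_⟩
  have hn2 := s.ct_near hb
  have hc := (s.ctr n).conn (s.t n ((s.c n).g.c x')) (s.ct_ball h2 hb) x'
    (show dist (s.ct n ((s.c n).g.c x')) ((s.c n).g.c x') ≤ 2 * s.r2 by linarith)
  have hK0 : 0 ≤ P.K * (s.c n).δ := mul_nonneg (by linarith [P.hK]) (s.c n).hδ.le
  have e2 : P.L * (P.K * (s.c n).δ) < ρ0 / 2 := by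
    have : P.L * (ρ0 / (2 * P.L)) = ρ0 / 2 := by field_simp
    rw [← this]; exact mul_lt_mul_of_pos_left h4 hL
  have e3 : P.K * (s.c n).δ ≤ P.L * (P.K * (s.c n).δ) := le_mul_of_one_le_left hK0 P.hL
  have e4 : P.L * dist (s.ct n ((s.c n).g.c x')) ((s.c n).g.c x') ≤ P.L * (P.K * (s.c n).δ) :=
    mul_le_mul_of_nonneg_left hn2.le hL.le
  have hle : P.L * dist (s.ct n ((s.c n).g.c x')) ((s.c n).g.c x') + P.K * (s.c n).δ ≤ ρ0 := by
    linarith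
  refine H' (s.c n).δ (s.c n).T (s.c n).g (s.c n).S (s.c n).hs (s.c n).hδ h1 (s.c n).h1
    (s.ct n ((s.c n).g.c x')) (s.t n ((s.c n).g.c x')) x' (hc.mono fun z hz => ?_) _
    ((s.c n).S.pt_mem _) _ hx'
  exact lt_of_lt_of_le hz hle

theorem appChart : AppChart s.z (s.r2 / 2) s.F :=
  ⟨half_pos s.hr2, s.bound, s.equi, s.inj, s.bdd, s.small, s.opn⟩

end Seq

end Crest.Agent.R193.Sq
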