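import Mathlib
import Crest.Agent.R193.SqDefs

/-! Row 193 [U]: the limit of approximate charts is a quasisymmetric chart. -/

set_option autoImplicit false

namespace Crest.Agent.R193.Sq

open Metric Filter Topology Set

theorem limA_exists {X : Type} [TopologicalSpace X] (U : Ultrafilter ℕ) {K : Set X}
    (hK : IsCompact K) {x : ℕ → X} (hx : ∀ n, x n ∈ K) : ∃ x0 ∈ K, Tendsto x U (𝓝 x0) := by
  obtain ⟨x0, h0, h⟩ := hK.ultrafilter_le_nhds (U.map x)
    (by rw [Ultrafilter.coe_map, le_principal_iff]; exact mem_map.2 (Eventually.of_forall hx))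
  exact ⟨x0, h0, h⟩

/-- the identification of the plane with `ℂ` -/
noncomputable def limA_e : ℝ × ℝ ≃ₜ ℂ := Complex.equivRealProdCLM.symm.toHomeomorph

theorem limA_e_le (p q : ℝ × ℝ) : dist (limA_e p) (limA_e q) ≤ 2 * dist p q := by
  have h1 : |p.1 - q.1| ≤ dist p q := by rw [Prod.dist_eq, Real.dist_eq]; exact le_max_left _ _
  have h2 : |p.2 - q.2| ≤ dist p q := by
    rw [Prod.dist_eq, Real.dist_eq p.2]; exact le_max_right _ _
  have := Complex.norm_le_abs_re_add_abs_im (limA_e p - limA_e q)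
  rw [dist_eq_norm]
  have e1 : (limA_e p - limA_e q).re = p.1 - q.1 := by
    simp [limA_e, Complex.equivRealProdCLM_symm_apply]
  have e2 : (limA_e p - limA_e q).im = p.2 - q.2 := by
    simp [limA_e, Complex.equivRealProdCLM_symm_apply]
  rw [e1, e2] at this
  linarith

theorem limA_le_e (p q : ℝ × ℝ) : dist p q ≤ dist (limA_e p) (limA_e q) := by
  have e1 : (limA_e p - limA_e q).re = p.1 - q.1 := by
    simp [limA_e, Complex.equivRealProdCLM_symm_apply]
  have e2 : (limA_e p - limA_e q).im = p.2 - q.2 := by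
    simp [limA_e, Complex.equivRealProdCLM_symm_apply]
  rw [dist_eq_norm (limA_e p), Prod.dist_eq, Real.dist_eq, Real.dist_eq, ← e1, ← e2]
  exact max_le (Complex.abs_re_le_norm _) (Complex.abs_im_le_norm _)

theorem qsChart_of_app {Z : Type} [MetricSpace Z] [CompactSpace Z] {z : ℕ → Z} {r : ℝ}
    {F : ℕ → Z → ℝ × ℝ} (h : AppChart z r F) :
    ∃ F0 : OpenPartialHomeomorph Z ℂ, QSChart F0 := by
  classical
  let U : Ultrafilter ℕ := hyperfilter ℕ
  have hU : (U : Filter ℕ) ≤ atTop := by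
    rw [← Nat.cofinite_eq_atTop]; exact hyperfilter_le_cofinite
  have hr := h.r_pos
  obtain ⟨z0, -, hz0⟩ := limA_exists U isCompact_univ (x := z) (fun _ => mem_univ _)
  obtain ⟨M, hM⟩ := h.bound
  have hG : ∀ w, ∃ y, Tendsto (fun n => F n w) U (𝓝 y) := fun w => by
    obtain ⟨y, -, hy⟩ := limA_exists U (isCompact_closedBall (0 : ℝ × ℝ) M)
      (x := fun n => F n w) (fun n => by simpa using hM n w)
    exact ⟨y, hy⟩
  choose G hG using hG
  have hd : ∀ a b, Tendsto (fun n => dist (F n a) (F n b)) U (𝓝 (dist (G a) (G b))) :=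
    fun a b => (hG a).dist (hG b)
  set W : Set Z := ball z0 (r / 4) with hW
  have hin : ∀ᶠ n in (U : Filter ℕ), ∀ a ∈ W, a ∈ ball (z n) (r / 2) := by
    have : ∀ᶠ n in (U : Filter ℕ), z n ∈ ball z0 (r / 4) := hz0 (ball_mem_nhds _ (by positivity))
    filter_upwards [this] with n hn a ha
    rw [mem_ball] at hn ha ⊢
    have := dist_triangle_right a (z n) z0
    linarith
  have hin' : ∀ᶠ n in (U : Filter ℕ), ∀ a ∈ W, a ∈ ball (z n) r := by
    filter_upwards [hin] with n hn a ha
    exact ball_subset_ball (by linarith) (hn a ha)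
  -- uniform continuity
  have hcont : ∀ ε : ℝ, 0 < ε → ∃ ρ : ℝ, 0 < ρ ∧ ∀ a ∈ W, ∀ b ∈ W, dist a b ≤ ρ →
      dist (G a) (G b) ≤ ε := fun ε hε => by
    obtain ⟨ρ, hρ, H⟩ := h.equi ε hε
    refine ⟨ρ, hρ, fun a ha b hb hab => le_of_tendsto (hd a b) ?_⟩
    filter_upwards [hU H, hin'] with n hn hn'
    exact hn a (hn' a ha) b (hn' b hb) hab
  have hc : ContinuousOn G W := by
    rw [Metric.continuousOn_iff]
    intro b hb ε hε
    obtain ⟨ρ, hρ, H⟩ := hcont (ε / 2) (by positivity)
    exact ⟨ρ, hρ, fun a ha hab => (H a ha b hb hab.le).trans_lt (by linarith)⟩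
  have hinj : InjOn G W := fun a ha c hc' hac => by
    by_contra hne
    obtain ⟨κ, hκ, H⟩ := h.inj (dist a c) (dist_pos.2 hne)
    have : κ ≤ dist (G a) (G c) := by
      refine ge_of_tendsto (hd a c) ?_
      filter_upwards [hU H, hin'] with n hn hn'
      exact hn a (hn' a ha) c (hn' c hc') le_rfl
    rw [hac, dist_self] at this
    linarith
  -- local surjectivity
  have hopen : ∀ a ∈ W, ∀ s : ℝ, 0 < s → closedBall a s ⊆ W →
      ∃ κ : ℝ, 0 < κ ∧ ball (G a) κ ⊆ G '' closedBall a s := fun a ha s hs hsW => by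
    obtain ⟨κ, hκ, H⟩ := h.opn s hs
    refine ⟨κ, hκ, fun y hy => ?_⟩
    have hcl : IsClosed (G '' closedBall a s) :=
      ((isClosed_closedBall.isCompact).image_of_continuousOn (hc.mono hsW)).isClosed
    rw [← hcl.closure_eq, Metric.mem_closure_iff]
    intro ε hε
    have hy' : ∀ᶠ n in (U : Filter ℕ), dist y (F n a) ≤ κ := by
      have : Tendsto (fun n => dist y (F n a)) U (𝓝 (dist y (G a))) := tendsto_const_nhds.dist (hG a)
      exact (this.eventually (gt_mem_nhds (mem_ball.1 hy))).mono fun n hn => hn.le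
    have hex : ∀ᶠ n in (U : Filter ℕ), ∃ a' ∈ ball (z n) r, dist a' a ≤ s ∧
        dist (F n a') y ≤ ε / 4 := by
      filter_upwards [hU (H (ε / 4) (by positivity)), hin, hy'] with n hn hn' hn''
      exact hn a (hn' a ha) y hn''
    let a' : ℕ → Z := fun n =>
      if hn : ∃ a' ∈ ball (z n) r, dist a' a ≤ s ∧ dist (F n a') y ≤ ε / 4 then hn.choose else a
    have ha'1 : ∀ n, a' n ∈ closedBall a s := fun n => by
      simp only [a']
      split_ifs with hn
      · exact hn.choose_spec.2.1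
      · exact mem_closedBall_self hs.le
    have ha'2 : ∀ᶠ n in (U : Filter ℕ), a' n ∈ ball (z n) r ∧ dist (F n (a' n)) y ≤ ε / 4 := by
      filter_upwards [hex] with n hn
      simp only [a', dif_pos hn]
      exact ⟨hn.choose_spec.1, hn.choose_spec.2.2⟩
    obtain ⟨a0, ha0, hl⟩ := limA_exists U (isClosed_closedBall.isCompact) ha'1
    obtain ⟨ρ, hρ, H2⟩ := h.equi (ε / 4) (by positivity)
    have hnear : ∀ᶠ n in (U : Filter ℕ), a' n ∈ ball a0 ρ := hl (ball_mem_nhds _ hρ)
    refine ⟨G a0, mem_image_of_mem _ ha0, ?_⟩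
    have : dist y (G a0) ≤ ε / 2 := by
      refine le_of_tendsto (tendsto_const_nhds.dist (hG a0) :
        Tendsto (fun n => dist y (F n a0)) U (𝓝 (dist y (G a0)))) ?_
      filter_upwards [ha'2, hnear, hU H2, hin'] with n h1 h2 h3 h4
      have h5 := h3 (a' n) h1.1 a0 (h4 a0 (hsW ha0)) (mem_ball.1 h2).le
      have h6 := dist_triangle_left y (F n a0) (F n (a' n))
      linarith [h1.2]
    linarith
  have hne : Nonempty Z := ⟨z0⟩
  let e : PartialEquiv Z (ℝ × ℝ) := hinj.toPartialEquiv G W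
  have hsrc : e.source = W := rfl
  have hom : IsOpenMap (e.source.domRestrict e) := by
    intro O hO
    rw [isOpen_iff_mem_nhds]
    rintro _ ⟨⟨a, ha⟩, haO, rfl⟩
    obtain ⟨O', hO', rfl⟩ := isOpen_induced_iff.1 hO
    have hmem : O' ∩ W ∈ 𝓝 a := (hO'.inter isOpen_ball).mem_nhds ⟨haO, ha⟩
    obtain ⟨s, hs, hsub⟩ := nhds_basis_closedBall.mem_iff.1 hmem
    obtain ⟨κ, hκ, H⟩ := hopen a ha s hs fun w hw => (hsub hw).2
    refine mem_of_superset (ball_mem_nhds (G a) hκ) fun y hy => ?_
    obtain ⟨w, hw, rfl⟩ := H hy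
    exact ⟨⟨w, (hsub hw).2⟩, (hsub hw).1, rfl⟩
  let E : OpenPartialHomeomorph Z (ℝ × ℝ) :=
    OpenPartialHomeomorph.ofContinuousOpenRestrict e hc hom isOpen_ball
  have hE : ∀ a, E.transHomeomorph limA_e a = limA_e (G a) := fun _ => rfl
  have hEs : (E.transHomeomorph limA_e).source = W := rfl
  -- passing the three-point estimates to the limit
  have key : ∀ (T M : ℝ), (∀ η : ℝ, 0 < η → ∀ᶠ n in atTop, ∀ a ∈ ball (z n) r,
      ∀ b ∈ ball (z n) r, ∀ c ∈ ball (z n) r, η ≤ dist a c → dist a b ≤ T * dist a c →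
        dist (F n a) (F n b) ≤ M * dist (F n a) (F n c) + η) → ∀ a ∈ W, ∀ b ∈ W, ∀ c ∈ W,
      dist a b ≤ T * dist a c →
        dist (limA_e (G a)) (limA_e (G b)) ≤ (2 * max M 0) * dist (limA_e (G a)) (limA_e (G c)) := by
    intro T M H a ha b hb c hc' hab
    have h1 : dist (G a) (G b) ≤ M * dist (G a) (G c) := by
      by_cases hac : a = c
      · subst hac
        have : a = b := by
          rw [dist_self, mul_zero] at hab
          exact dist_le_zero.1 hab
        subst this
        simp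
      · refine le_of_forall_pos_le_add fun η hη => ?_
        have hp : 0 < min η (dist a c) := lt_min hη (dist_pos.2 hac)
        refine le_trans (le_of_tendsto_of_tendsto (hd a b)
          (((hd a c).const_mul M).add_const (min η (dist a c))) ?_) (by
            gcongr; exact min_le_left _ _)
        filter_upwards [hU (H _ hp), hin'] with n hn hn'
        exact hn a (hn' a ha) b (hn' b hb) c (hn' c hc') (min_le_right _ _) hab
    have h2 : M * dist (G a) (G c) ≤ max M 0 * dist (limA_e (G a)) (limA_e (G c)) :=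
      (mul_le_mul_of_nonneg_right (le_max_left _ _) dist_nonneg).trans
        (mul_le_mul_of_nonneg_left (limA_le_e _ _) (le_max_right _ _))
    have h3 := limA_e_le (G a) (G b)
    linarith
  refine ⟨E.transHomeomorph limA_e, ⟨z0, mem_ball_self (by positivity)⟩, fun T => ?_,
    fun ε hε => ?_⟩
  · obtain ⟨M, H⟩ := h.bdd T
    exact ⟨2 * max M 0, key T M H⟩
  · obtain ⟨τ, hτ, H⟩ := h.small (ε / 2) (by positivity)
    refine ⟨τ, hτ, fun a ha b hb c hc' hab => ?_⟩
    have := key τ (ε / 2) H a ha b hb c hc' hab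
    rw [max_eq_left (by positivity), show 2 * (ε / 2) = ε by ring] at this
    exact this

end Crest.Agent.R193.Sq
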