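import Mathlib
import Crest.Agent.R193.SqDefs

/-! Row 193 [U]: existence of the Schramm square tiling. -/

set_option autoImplicit false

namespace Crest.Agent.R193.Sq

/-- vertical crossing sets -/
def VCross {T : Type} (Q : Quad T) (A : Finset T) : Prop :=
  ∃ x y, Q.B x ∧ Q.Tp y ∧ Conn Q.adj (A : Set T) x y

open Classical in
theorem mn93_W {T : Type} (𝒞 : Finset (Finset T)) (P : Finset T → ℝ) (B : Finset T) (hB : B ∈ 𝒞)
    (ε : ℝ) (t : T) :
    ∑ A ∈ 𝒞.filter (fun A => t ∈ A), ((1 - ε) * P A + ε * (if A = B then 1 else 0)) =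
      (1 - ε) * (∑ A ∈ 𝒞.filter (fun A => t ∈ A), P A) + ε * (if t ∈ B then 1 else 0) := by
  rw [Finset.sum_add_distrib, ← Finset.mul_sum, ← Finset.mul_sum]
  congr 2
  rw [Finset.sum_ite_eq' (𝒞.filter (fun A => t ∈ A)) B (fun _ => (1 : ℝ))]
  simp [Finset.mem_filter, hB]

theorem mn93_lim {a N : ℝ} (h : ∀ ε : ℝ, 0 < ε → ε ≤ 1 → 0 ≤ 2 * ε * a + ε ^ 2 * N) : 0 ≤ a := by
  by_contra hneg
  push Not at hneg
  set ε : ℝ := min 1 (-a / (|N| + 1)) with hε
  have hN : 0 < |N| + 1 := by positivity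
  have h1 : 0 < -a / (|N| + 1) := div_pos (by linarith) hN
  have hε0 : 0 < ε := lt_min one_pos h1
  have hε1 : ε ≤ 1 := min_le_left _ _
  have hε2 : ε ≤ -a / (|N| + 1) := min_le_right _ _
  have h2 : ε * (|N| + 1) ≤ -a := by rwa [le_div_iff₀ hN] at hε2
  have h3 := h ε hε0 hε1
  have h4 : N ≤ |N| := le_abs_self N
  have h5 : 0 ≤ 2 * a + ε * N := by
    have : 0 ≤ ε * (2 * a + ε * N) := by nlinarith
    exact nonneg_of_mul_nonneg_right this hε0 |>.trans (le_refl _) |> fun h => h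
  nlinarith

open Classical in
theorem mn93_swap {T : Type} [Fintype T] (𝒞 : Finset (Finset T)) (P : Finset T → ℝ) (φ : T → ℝ) :
    ∑ t, (∑ A ∈ 𝒞.filter (fun A => t ∈ A), P A) * φ t = ∑ A ∈ 𝒞, P A * ∑ t ∈ A, φ t := by
  have h1 : ∀ t, (∑ A ∈ 𝒞.filter (fun A => t ∈ A), P A) * φ t =
      ∑ A ∈ 𝒞, if t ∈ A then P A * φ t else 0 := by
    intro t
    rw [Finset.sum_mul, Finset.sum_filter]
  simp_rw [h1]
  rw [Finset.sum_comm]
  refine Finset.sum_congr rfl fun A _ => ?_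
  rw [Finset.mul_sum, ← Finset.sum_filter]
  congr 1
  ext t; simp

open Classical in
/-- Min-norm point of the convex hull of the indicators of a nonempty family `𝒞` of nonempty finite
sets.  Proof: minimise the continuous function `P ↦ ∑ t, (w P t)^2`, `w P t = ∑_{A ∈ 𝒞, t ∈ A} P A`,
over the compact simplex (`stdSimplex ℝ {A // A ∈ 𝒞}` or functions `Finset T → ℝ` in a closed bounded
set).  For `A ∈ 𝒞` compare with `(1-ε) P + ε δ_A`: `|w + ε(1_A - w)|² ≥ |w|²` for all small `ε > 0`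
gives `⟨w, 1_A⟩ ≥ |w|²`.  Averaging with weights `P A` gives `∑ P A ⟨w,1_A⟩ = |w|²`, hence equality
whenever `P A > 0`.  `E > 0` since `∑ t, w t = ∑ P A * card A ≥ 1`. -/
theorem exists_minnorm {T : Type} [Fintype T] (𝒞 : Finset (Finset T)) (hne : 𝒞.Nonempty)
    (hA : ∀ A ∈ 𝒞, A.Nonempty) :
    ∃ (P : Finset T → ℝ) (w : T → ℝ) (E : ℝ), (∀ A, 0 ≤ P A) ∧ ∑ A ∈ 𝒞, P A = 1 ∧
      (∀ t, w t = ∑ A ∈ 𝒞.filter (fun A => t ∈ A), P A) ∧ E = ∑ t, w t ^ 2 ∧ 0 < E ∧
      (∀ A ∈ 𝒞, E ≤ ∑ t ∈ A, w t) ∧ (∀ A ∈ 𝒞, 0 < P A → ∑ t ∈ A, w t = E) := by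
  set S : Set (Finset T → ℝ) := Set.Icc 0 1 ∩ {P | ∑ A ∈ 𝒞, P A = 1} with hS
  have hSc : IsCompact S := by
    refine isCompact_Icc.inter_right ?_
    exact isClosed_eq (continuous_finset_sum _ fun A _ => continuous_apply A) continuous_const
  obtain ⟨B0, hB0⟩ := hne
  have hSne : S.Nonempty := by
    refine ⟨fun A => if A = B0 then 1 else 0, ⟨?_, ?_⟩, ?_⟩
    · intro A; simp only [Pi.zero_apply]; split_ifs <;> norm_num
    · intro A; simp only [Pi.one_apply]; split_ifs <;> norm_num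
    · simp only [Set.mem_setOf_eq]
      rw [Finset.sum_ite_eq' 𝒞 B0 (fun _ => (1 : ℝ))]; simp [hB0]
  have hf : Continuous fun P : Finset T → ℝ =>
      ∑ t, (∑ A ∈ 𝒞.filter (fun A => t ∈ A), P A) ^ 2 :=
    continuous_finset_sum _ fun t _ =>
      (continuous_finset_sum _ fun A _ => continuous_apply A).pow 2
  obtain ⟨P, ⟨⟨hP0, hP1⟩, hPs⟩, hmin⟩ := hSc.exists_isMinOn hSne hf.continuousOn
  simp only [Set.mem_setOf_eq] at hPs
  have hP0' : ∀ A, 0 ≤ P A := fun A => hP0 A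
  have hP1' : ∀ A, P A ≤ 1 := fun A => hP1 A
  set w : T → ℝ := fun t => ∑ A ∈ 𝒞.filter (fun A => t ∈ A), P A with hw
  set E : ℝ := ∑ t, w t ^ 2 with hE
  have hge : ∀ B ∈ 𝒞, E ≤ ∑ t ∈ B, w t := by
    intro B hB
    have key : 0 ≤ ∑ t ∈ B, w t - E := by
      refine mn93_lim (N := ∑ t, ((if t ∈ B then (1 : ℝ) else 0) - w t) ^ 2) fun ε h0 h1 => ?_
      have hmem : (fun A => (1 - ε) * P A + ε * (if A = B then 1 else 0)) ∈ S := by
        refine ⟨⟨?_, ?_⟩, ?_⟩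
        · intro A
          have := hP0' A
          simp only [Pi.zero_apply]
          split_ifs <;> nlinarith
        · intro A
          have := hP1' A
          simp only [Pi.one_apply]
          split_ifs <;> nlinarith
        · simp only [Set.mem_setOf_eq]
          rw [Finset.sum_add_distrib, ← Finset.mul_sum, ← Finset.mul_sum, hPs,
            Finset.sum_ite_eq' 𝒞 B (fun _ => (1 : ℝ))]
          simp [hB]
      have h2 := hmin hmem
      simp only [Set.mem_setOf_eq] at h2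
      simp only [mn93_W 𝒞 P B hB ε] at h2
      have h3 : ∑ t ∈ B, w t = ∑ t, (if t ∈ B then (1 : ℝ) else 0) * w t := by
        simp only [ite_mul, one_mul, zero_mul]
        rw [← Finset.sum_filter]; congr 1; ext t; simp
      have h4 : ∑ t, ((1 - ε) * w t + ε * (if t ∈ B then (1 : ℝ) else 0)) ^ 2 =
          E + (2 * ε * (∑ t ∈ B, w t - E) +
            ε ^ 2 * ∑ t, ((if t ∈ B then (1 : ℝ) else 0) - w t) ^ 2) := by
        rw [h3, hE, ← Finset.sum_sub_distrib, Finset.mul_sum, Finset.mul_sum,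
          ← Finset.sum_add_distrib, ← Finset.sum_add_distrib]
        refine Finset.sum_congr rfl fun t _ => ?_
        ring
      have h5 : E ≤ ∑ t, ((1 - ε) * w t + ε * (if t ∈ B then (1 : ℝ) else 0)) ^ 2 := h2
      linarith
    linarith
  have havg : ∑ A ∈ 𝒞, P A * ∑ t ∈ A, w t = E := by
    rw [← mn93_swap 𝒞 P w, hE]
    refine Finset.sum_congr rfl fun t _ => ?_
    rw [sq]
  have hpos : 0 < E := by
    have h1 : (1 : ℝ) ≤ ∑ t, w t := by
      have := mn93_swap 𝒞 P (fun _ => (1 : ℝ))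
      simp only [mul_one] at this
      rw [show ∑ t, w t = ∑ A ∈ 𝒞, P A * ∑ _t ∈ A, (1 : ℝ) from this]
      refine hPs.symm.le.trans (Finset.sum_le_sum fun A hA' => ?_)
      have hc : (1 : ℝ) ≤ ∑ _t ∈ A, (1 : ℝ) := by
        rw [Finset.sum_const, nsmul_eq_mul, mul_one]
        exact_mod_cast (hA A hA').card_pos
      nlinarith [hP0' A]
    by_contra hle
    have hE0 : E = 0 := le_antisymm (not_lt.mp hle) (Finset.sum_nonneg fun t _ => sq_nonneg _)
    have hz : ∀ t, w t = 0 := by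
      intro t
      have := (Finset.sum_eq_zero_iff_of_nonneg (fun t _ => sq_nonneg (w t))).mp hE0 t
        (Finset.mem_univ t)
      exact pow_eq_zero_iff (two_ne_zero) |>.mp this
    simp only [hz, Finset.sum_const_zero] at h1
    linarith
  refine ⟨P, w, E, hP0', hPs, fun t => rfl, rfl, hpos, hge, ?_⟩
  intro A hA' hPA
  have hz : ∑ A ∈ 𝒞, P A * (∑ t ∈ A, w t - E) = 0 := by
    simp only [mul_sub]
    rw [Finset.sum_sub_distrib, havg, ← Finset.sum_mul, hPs]; ring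
  have h0 := (Finset.sum_eq_zero_iff_of_nonneg (fun B hB =>
    mul_nonneg (hP0' B) (sub_nonneg.mpr (hge B hB)))).mp hz A hA'
  rcases mul_eq_zero.mp h0 with h | h
  · exact absurd h hPA.ne'
  · linarith

/-- The vertical coordinate.  `ρ ≥ 0`, every vertical crossing set has `ρ`-mass `≥ 1`, every tile with
`ρ > 0` lies in a crossing set of mass exactly `1`.  Proof: let `d x` be the minimum of `∑_{A} ρ` over
the finite sets `A` with `∃ b, Q.B b ∧ Conn A b x`, capped at `1` (`d x = 1` if there is none), i.e.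
`d x = inf' (insert 1 ...)`, and `a x = d x - ρ x`.  `ρ x ≤ 1` (if `ρ x > 0`, `x ∈ A` with mass 1) and
`ρ x ≤ ∑_A ρ` for `x ∈ A` give `a ≥ 0`.  `adj x y`: `insert y A` joins `b` to `y`, so
`d y ≤ d x + ρ y` when `d x < 1`, and `d y ≤ 1` otherwise.  `B x`: `A = {x}` gives `d x ≤ ρ x`.
`Tp x`: every admissible `A` is a crossing set, so `d x = 1`. -/
theorem exists_vert {T : Type} [Fintype T] (Q : Quad T) (ρ : T → ℝ) (h0 : ∀ x, 0 ≤ ρ x)
    (h1 : ∀ A : Finset T, VCross Q A → 1 ≤ ∑ t ∈ A, ρ t) (h2 : ∀ x, ρ x ≤ 1) :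
    ∃ a : T → ℝ, (∀ x, 0 ≤ a x) ∧ (∀ x, a x + ρ x ≤ 1) ∧
      (∀ x y, Q.adj x y → a y ≤ a x + ρ x) ∧ (∀ x, Q.B x → a x = 0) ∧
      (∀ x, Q.Tp x → a x + ρ x = 1) := by
  classical
  have key : ∀ x : T, ∃ d : ℝ, d ≤ 1 ∧
      (∀ A : Finset T, (∃ b, Q.B b ∧ Conn Q.adj (A : Set T) b x) → d ≤ ∑ t ∈ A, ρ t) ∧
      (d = 1 ∨ ∃ A : Finset T, (∃ b, Q.B b ∧ Conn Q.adj (A : Set T) b x) ∧ d = ∑ t ∈ A, ρ t) := by
    intro x
    obtain ⟨d, hd, hmin⟩ := Finset.exists_min_image (insert (1 : ℝ) ((Finset.univ.filter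
      fun A : Finset T => ∃ b, Q.B b ∧ Conn Q.adj (A : Set T) b x).image fun A => ∑ t ∈ A, ρ t))
      id (Finset.insert_nonempty _ _)
    refine ⟨d, hmin 1 (Finset.mem_insert_self _ _), fun A hA => hmin _ (Finset.mem_insert_of_mem
      (Finset.mem_image_of_mem _ (Finset.mem_filter.2 ⟨Finset.mem_univ _, hA⟩))), ?_⟩
    rcases Finset.mem_insert.1 hd with h | h
    · exact Or.inl h
    · obtain ⟨A, hA, h'⟩ := Finset.mem_image.1 h
      exact Or.inr ⟨A, (Finset.mem_filter.1 hA).2, h'.symm⟩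
  choose d d1 d2 d3 using key
  have d4 : ∀ x, ρ x ≤ d x := fun x => by
    rcases d3 x with h | ⟨A, ⟨b, -, hb⟩, h⟩
    · rw [h]; exact h2 x
    · rw [h]; exact Finset.single_le_sum (fun t _ => h0 t) (Finset.mem_coe.1 hb.right_mem)
  refine ⟨fun x => d x - ρ x, fun x => sub_nonneg.2 (d4 x), fun x => by linarith [d1 x],
    fun x y hxy => ?_, fun x hx => ?_, fun x hx => ?_⟩
  · rcases d3 x with h | ⟨A, ⟨b, hb, hc⟩, h⟩
    · linarith [d1 y, h0 y]
    · have a1 := d2 y (insert y A) ⟨b, hb, (hc.mono (Finset.coe_subset.2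
        (Finset.subset_insert _ _))).tail hxy (Finset.mem_coe.2 (Finset.mem_insert_self _ _))⟩
      have a2 : ∑ t ∈ insert y A, ρ t ≤ ρ y + ∑ t ∈ A, ρ t := by
        by_cases hy : y ∈ A
        · rw [Finset.insert_eq_of_mem hy]; linarith [h0 y]
        · rw [Finset.sum_insert hy]
      linarith
  · have a1 := d2 x {x} ⟨x, hx, Conn.refl (by simp)⟩
    rw [Finset.sum_singleton] at a1
    linarith [d4 x]
  · rcases d3 x with h | ⟨A, ⟨b, hb, hc⟩, h⟩
    · linarith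
    · linarith [h1 A ⟨b, x, hb, hx, hc⟩, d1 x]

open Classical in
/-- The horizontal coordinate (unnormalised).  `Left A = {x | ∃ l, Q.L l ∧ Conn Aᶜ l x}`;
`β x = ∑ P A` over `A ∈ 𝒞` with `x ∉ A` and `x ∉ Left A`.  Since `x ∈ A → x ∉ Left A`,
`β x + w x = ∑ P A` over `A ∈ 𝒞` with `x ∉ Left A`.  `adj x y`, `y ∉ A`, `y ∉ Left A` give
`x ∉ Left A` (`Conn.tail`).  `L x`, `x ∉ A` give `x ∈ Left A`.  `R y` gives `y ∉ Left A` by
`Q.excl A Aᶜ`. -/
theorem exists_horiz {T : Type} [Fintype T] (Q : Quad T) (𝒞 : Finset (Finset T))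
    (h𝒞 : ∀ A ∈ 𝒞, VCross Q A) (P : Finset T → ℝ) (w : T → ℝ) (hP : ∀ A, 0 ≤ P A)
    (h1 : ∑ A ∈ 𝒞, P A = 1) (hw : ∀ t, w t = ∑ A ∈ 𝒞.filter (fun A => t ∈ A), P A) :
    ∃ β : T → ℝ, (∀ x, 0 ≤ β x) ∧ (∀ x, β x + w x ≤ 1) ∧
      (∀ x y, Q.adj x y → β y ≤ β x + w x) ∧ (∀ x, Q.L x → β x = 0) ∧
      (∀ x, Q.R x → β x + w x = 1) := by
  let Left : Finset T → T → Prop := fun A x => ∃ l, Q.L l ∧ Conn Q.adj ((A : Set T)ᶜ) l x
  have hLA : ∀ A x, Left A x → x ∉ A := fun A x ⟨l, _, hc⟩ hx => hc.right_mem (by simpa using hx)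
  have hsum : ∀ x, ∑ A ∈ 𝒞, (if x ∉ A ∧ ¬ Left A x then P A else 0) + w x =
      ∑ A ∈ 𝒞, (if ¬ Left A x then P A else 0) := by
    intro x
    rw [hw x, Finset.sum_filter, ← Finset.sum_add_distrib]
    refine Finset.sum_congr rfl fun A _ => ?_
    by_cases h1 : x ∈ A
    · have h2 : ¬ Left A x := fun h => hLA A x h h1
      rw [if_neg (fun h => h.1 h1), if_pos h1, if_pos h2, zero_add]
    · by_cases h2 : Left A x
      · rw [if_neg (fun h => h.2 h2), if_neg h1, if_neg (not_not.2 h2), add_zero]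
      · rw [if_pos ⟨h1, h2⟩, if_neg h1, if_pos h2, add_zero]
  refine ⟨fun x => ∑ A ∈ 𝒞, (if x ∉ A ∧ ¬ Left A x then P A else 0), fun x => ?_, fun x => ?_,
    fun x y hxy => ?_, fun x hx => ?_, fun x hx => ?_⟩
  · refine Finset.sum_nonneg fun A _ => ?_
    split_ifs
    · exact hP A
    · exact le_rfl
  · rw [hsum x, ← h1]
    refine Finset.sum_le_sum fun A _ => ?_
    split_ifs
    · exact hP A
    · exact le_rfl
  · rw [hsum x]
    refine Finset.sum_le_sum fun A _ => ?_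
    by_cases h : y ∉ A ∧ ¬ Left A y
    · have h2 : ¬ Left A x := fun ⟨l, hl, hc⟩ =>
        h.2 ⟨l, hl, hc.tail hxy (by simpa using h.1)⟩
      rw [if_pos h, if_pos h2]
    · rw [if_neg h]
      split_ifs
      · exact le_rfl
      · exact hP A
  · refine Finset.sum_eq_zero fun A _ => if_neg fun h => h.2 ⟨x, hx, Conn.refl (by simpa using h.1)⟩
  · rw [hsum x, ← h1]
    refine Finset.sum_congr rfl fun A hA => if_pos fun ⟨l, hl, hc⟩ => ?_
    have := Q.excl (A : Set T) (A : Set T)ᶜ (h𝒞 A hA) ⟨l, x, hl, hx, hc⟩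
    simp at this

/-- Assembly: `𝒞` = all vertical crossing sets (nonempty: `Q.ex univ`, the second alternative is
impossible since `Conn ∅` is empty; use `A = univ`), `ρ = w / E`, `b = β / E`, `h = 1`, `m = 1 / E`;
`ρ x ≤ 1` because `w x > 0` forces some `A ∋ x` with `P A > 0`, so `w x ≤ ∑_A w = E`. -/
theorem schramm : SchrammStmt := by
  classical
  intro T _ Q
  have hne : (Finset.univ.filter (fun A : Finset T => VCross Q A)).Nonempty := by
    refine ⟨Finset.univ, Finset.mem_filter.2 ⟨Finset.mem_univ _, ?_⟩⟩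
    rcases Q.ex Set.univ with h | ⟨x, y, -, -, h⟩
    · simpa [VCross] using h
    · exact absurd h.1 (by simp)
  have hA : ∀ A ∈ Finset.univ.filter (fun A : Finset T => VCross Q A), A.Nonempty := by
    intro A hA
    obtain ⟨x, y, -, -, h⟩ := (Finset.mem_filter.1 hA).2
    exact ⟨x, by simpa using h.1⟩
  obtain ⟨P, w, E, hP, h1, hw, hE, hEpos, hge, heq⟩ := exists_minnorm _ hne hA
  have hw0 : ∀ t, 0 ≤ w t := fun t => by
    rw [hw t]
    exact Finset.sum_nonneg fun A _ => hP A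
  have hwE : ∀ x, w x ≤ E := by
    intro x
    by_contra hx
    push Not at hx
    have hpos : 0 < w x := hEpos.trans hx
    rw [hw x] at hpos
    obtain ⟨A, hA', hPA⟩ := Finset.exists_lt_of_sum_lt (f := fun _ => (0 : ℝ)) (g := P)
      (by rw [Finset.sum_const_zero]; exact hpos)
    obtain ⟨hA1, hA2⟩ := (@Finset.mem_filter _ _ (_) _ _).1 hA'
    have h2 := heq A hA1 hPA
    have h3 : w x ≤ ∑ t ∈ A, w t := Finset.single_le_sum (fun t _ => hw0 t) hA2
    linarith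
  obtain ⟨a, ha0, ha1, ha2, ha3, ha4⟩ := exists_vert Q (fun x => w x / E)
    (fun x => div_nonneg (hw0 x) hEpos.le)
    (fun A hA => by
      rw [← Finset.sum_div, le_div_iff₀ hEpos, one_mul]
      exact hge A (Finset.mem_filter.2 ⟨Finset.mem_univ _, hA⟩))
    (fun x => (div_le_one hEpos).2 (hwE x))
  obtain ⟨β, hb0, hb1, hb2, hb3, hb4⟩ := exists_horiz Q _
    (fun A hA => (Finset.mem_filter.1 hA).2) P w hP h1 hw
  refine ⟨⟨fun x => w x / E, a, fun x => β x / E, 1, 1 / E, one_pos, by positivity,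
    fun x => div_nonneg (hw0 x) hEpos.le, ?_, ha0, ha1, fun x => div_nonneg (hb0 x) hEpos.le,
    fun x => ?_, ha2, fun x y h => ?_, ha3, ha4, fun x h => ?_, fun x h => ?_⟩, rfl⟩
  · simp only [div_pow]
    rw [← Finset.sum_div, ← hE]
    field_simp
  · rw [← add_div]
    exact div_le_div_of_nonneg_right (hb1 x) hEpos.le
  · rw [← add_div]
    exact div_le_div_of_nonneg_right (hb2 x y h) hEpos.le
  · rw [hb3 x h, zero_div]
  · rw [← add_div, hb4 x h]

end Crest.Agent.R193.Sq
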