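import Mathlib
import Crest.Agent.R193.SqDefs

/-! Row 193 [U]: merging connected sets of a graph into connected tiles of bounded size. -/

set_option autoImplicit false

namespace Crest.Agent.R193.Sq

/-- A partial labelling `l` of the vertices by roots (`inl z`) or sides (`inr s`) extending the
initial side labelling `l0`; every label class is connected to a root within distance `D`. -/
structure LState {V Z : Type} [MetricSpace Z] (adj : V → V → Prop) (pos : V → Z)
    (l0 : V → Option (Fin 4)) (Nt : Set V) (D : ℝ) (l : V → Option (V ⊕ Fin 4)) : Prop where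
  ext : ∀ w s, l0 w = some s → l w = some (.inr s)
  tile : ∀ w z, l w = some (.inl z) → l z = some (.inl z) ∧ z ∈ Nt ∧
    Conn adj {u | l u = some (.inl z)} z w ∧ dist (pos w) (pos z) ≤ D
  side : ∀ w s, l w = some (.inr s) → ∃ w0, l0 w0 = some s ∧
    Conn adj {u | l u = some (.inr s)} w0 w ∧ dist (pos w) (pos w0) ≤ D

/-- One colour class.  Proof: for an unlabelled `w ∈ K z` (`z ∈ S` is unique): if no vertex of `K z`
is labelled put `l' w = inl z`.  Otherwise let `Cw = {u | Conn adj (K z \ A) w u}`, `A` = labelled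
vertices; following a chain in `K z` from `w` to a labelled vertex (through `z`, `Conn.symm`) until it
first enters `A` gives `u ∈ Cw`, `a ∈ A ∩ K z`, `adj u a`.  Choose `a` as a function of the SET `Cw`
(`Classical.epsilon`; `Cw = Cu` for `u ∈ Cw`) and put `l' w = l a`.  Old labels are unchanged, so old
classes are contained in the new ones (`Conn.mono`); `dist (pos w) (pos a) ≤ 2 R`. -/
theorem LState.step {V Z : Type} [MetricSpace Z] {adj : V → V → Prop} {pos : V → Z}
    {l0 : V → Option (Fin 4)} {Nt : Set V} {D : ℝ} {l : V → Option (V ⊕ Fin 4)}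
    (hs : ∀ a b, adj a b → adj b a) (h : LState adj pos l0 Nt D l) (hD : 0 ≤ D) {R : ℝ}
    (hR : 0 ≤ R) (S : Set V) (hS : S ⊆ Nt) (K : V → Set V) (hK0 : ∀ z ∈ S, z ∈ K z)
    (hK : ∀ z ∈ S, ∀ w ∈ K z, Conn adj (K z) z w ∧ dist (pos w) (pos z) ≤ R)
    (hdisj : ∀ z ∈ S, ∀ z' ∈ S, z ≠ z' → Disjoint (K z) (K z')) :
    ∃ l' : V → Option (V ⊕ Fin 4), LState adj pos l0 Nt (D + 2 * R) l' ∧
      (∀ w, l w ≠ none → l' w = l w) ∧ ∀ z ∈ S, ∀ w ∈ K z, l' w ≠ none := by
  classical
  let U : V → Set V := fun z => {u | u ∈ K z ∧ l u = none}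
  let Cw : V → V → Set V := fun z w => {u | Conn adj (U z) w u}
  let Ok : V → Set V → V → Prop := fun z C a => a ∈ K z ∧ l a ≠ none ∧ ∃ u ∈ C, adj u a
  let lab : V → Set V → Option (V ⊕ Fin 4) := fun z C =>
    if hc : ∃ a, Ok z C a then l hc.choose else none
  let new : V → V → Option (V ⊕ Fin 4) := fun z w =>
    if ∀ u ∈ K z, l u = none then some (.inl z) else lab z (Cw z w)
  let l' : V → Option (V ⊕ Fin 4) := fun w =>
    if hc : ∃ z, z ∈ S ∧ w ∈ U z then new hc.choose w else l w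
  have h1 : ∀ w, l w ≠ none → l' w = l w := fun w hw =>
    dif_neg fun ⟨_, _, hz⟩ => hw hz.2
  have h2 : ∀ z ∈ S, ∀ w ∈ U z, l' w = new z w := fun z hz w hw => by
    have hc : ∃ z, z ∈ S ∧ w ∈ U z := ⟨z, hz, hw⟩
    have e : hc.choose = z := by
      by_contra hne
      exact Set.disjoint_left.1 (hdisj _ hc.choose_spec.1 z hz hne) hc.choose_spec.2.1 hw.1
    simp only [l', dif_pos hc, e]
  have h3 : ∀ z ∈ S, (∀ u ∈ K z, l u = none) → ∀ u ∈ K z, l' u = some (.inl z) :=
    fun z hz hE u hu => (h2 z hz u ⟨hu, hE u hu⟩).trans (if_pos hE)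
  have h4 : ∀ z ∈ S, ∀ w ∈ U z, ¬ (∀ u ∈ K z, l u = none) → ∃ a, l a ≠ none ∧ l' w = l a ∧
      Conn adj {u | l' u = l a} a w ∧ dist (pos w) (pos a) ≤ 2 * R := fun z hz w hw hE => by
    have hc : ∃ a, Ok z (Cw z w) a := by
      push Not at hE
      obtain ⟨a₀, ha₀, hl⟩ := hE
      have := (((hK z hz w hw.1).1.symm hs).trans (hK z hz a₀ ha₀).1).ind
        (fun y => Conn adj (U z) w y ∨ ∃ a, Ok z (Cw z w) a) (Or.inl (.refl hw))
        fun a b _ ha hab hb => by
          rcases ha with ha | ha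
          · by_cases hb' : l b = none
            · exact Or.inl (ha.tail hab ⟨hb, hb'⟩)
            · exact Or.inr ⟨b, hb, hb', a, ha, hab⟩
          · exact Or.inr ha
      exact this.resolve_left fun h' => hl h'.right_mem.2
    have hall : ∀ u, Conn adj (U z) w u → l' u = l hc.choose := fun u hu => by
      have e : Cw z u = Cw z w :=
        Set.ext fun y => ⟨fun hy => hu.trans hy, fun hy => (hu.symm hs).trans hy⟩
      rw [h2 z hz u hu.right_mem]
      simp only [new, if_neg hE, e, lab, dif_pos hc]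
    obtain ⟨ha, hl, u, hu, hua⟩ := hc.choose_spec
    refine ⟨hc.choose, hl, hall w (.refl hw), ?_, ?_⟩
    · have hwu : Conn adj {u | l' u = l hc.choose} w u :=
        Conn.ind hu (fun y => Conn adj {u | l' u = l hc.choose} w y) (.refl (hall w (.refl hw)))
          fun a b hwa ih hab hb => ih.tail hab (hall b (hwa.tail hab hb))
      exact (hwu.tail hua (h1 _ hl)).symm hs
    · have := dist_triangle_right (pos w) (pos hc.choose) (pos z)
      linarith [(hK z hz w hw.1).2, (hK z hz _ ha).2]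
  have key : ∀ w, l' w = l w ∨ (∃ z ∈ S, w ∈ K z ∧ ∀ u ∈ K z, l' u = some (.inl z)) ∨
      ∃ a, l' w = l a ∧ Conn adj {u | l' u = l a} a w ∧ dist (pos w) (pos a) ≤ 2 * R := fun w => by
    by_cases hc : ∃ z, z ∈ S ∧ w ∈ U z
    · obtain ⟨z, hz, hw⟩ := hc
      by_cases hE : ∀ u ∈ K z, l u = none
      · exact Or.inr (Or.inl ⟨z, hz, hw.1, h3 z hz hE⟩)
      · obtain ⟨a, -, ha⟩ := h4 z hz w hw hE
        exact Or.inr (Or.inr ⟨a, ha⟩)
    · exact Or.inl (dif_neg hc)
  have hsub : ∀ x : V ⊕ Fin 4, {u | l u = some x} ⊆ {u | l' u = some x} := fun x u hu =>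
    (h1 u (by rw [show l u = some x from hu]; simp)).trans hu
  refine ⟨l', ⟨fun w s hw => hsub _ (h.ext w s hw), fun w z hw => ?_, fun w s hw => ?_⟩, h1,
    fun z hz w hw => ?_⟩
  · rcases key w with e | ⟨z', hz', hw', hall⟩ | ⟨a, e, hc, hd⟩
    · obtain ⟨t1, t2, t3, t4⟩ := h.tile w z (e ▸ hw)
      exact ⟨hsub _ t1, t2, t3.mono (hsub _), by linarith⟩
    · obtain rfl : z' = z := by simpa [hall w hw'] using hw
      exact ⟨hall _ (hK0 _ hz'), hS hz', (hK _ hz' w hw').1.mono hall,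
        by linarith [(hK _ hz' w hw').2]⟩
    · have e' : l a = some (.inl z) := e ▸ hw
      obtain ⟨t1, t2, t3, t4⟩ := h.tile a z e'
      rw [e'] at hc
      exact ⟨hsub _ t1, t2, (t3.mono (hsub _)).trans hc,
        by linarith [dist_triangle (pos w) (pos a) (pos z)]⟩
  · rcases key w with e | ⟨z', hz', hw', hall⟩ | ⟨a, e, hc, hd⟩
    · obtain ⟨w0, t1, t3, t4⟩ := h.side w s (e ▸ hw)
      exact ⟨w0, t1, t3.mono (hsub _), by linarith⟩
    · simp [hall w hw'] at hw
    · have e' : l a = some (.inr s) := e ▸ hw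
      obtain ⟨w0, t1, t3, t4⟩ := h.side a s e'
      rw [e'] at hc
      exact ⟨w0, t1, (t3.mono (hsub _)).trans hc,
        by linarith [dist_triangle (pos w) (pos a) (pos w0)]⟩
  · by_cases hl : l w = none
    · by_cases hE : ∀ u ∈ K z, l u = none
      · simp [h3 z hz hE w hw]
      · obtain ⟨a, ha, e, -⟩ := h4 z hz w ⟨hw, hl⟩ hE
        exact e ▸ ha
    · exact (h1 w hl) ▸ hl

/-- All colour classes.  Proof: start from `l w = (l0 w).map inr` (an `LState` with `D = 0`) and
apply `LState.step` to the classes `{z ∈ Nt | col z = i}`, by induction on `i ≤ χ`. -/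
theorem exists_merge {V Z : Type} [MetricSpace Z] (adj : V → V → Prop) (pos : V → Z)
    (l0 : V → Option (Fin 4)) (Nt : Set V) (hs : ∀ a b, adj a b → adj b a) {R : ℝ} (hR : 0 ≤ R)
    (K : V → Set V) (hK0 : ∀ z ∈ Nt, z ∈ K z)
    (hK : ∀ z ∈ Nt, ∀ w ∈ K z, Conn adj (K z) z w ∧ dist (pos w) (pos z) ≤ R)
    (χ : ℕ) (col : V → Fin χ)
    (hcol : ∀ z ∈ Nt, ∀ z' ∈ Nt, z ≠ z' → col z = col z' → Disjoint (K z) (K z')) :
    ∃ l : V → Option (V ⊕ Fin 4), LState adj pos l0 Nt (2 * χ * R) l ∧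
      ∀ z ∈ Nt, ∀ w ∈ K z, l w ≠ none := by
  have key : ∀ i : ℕ, ∃ l : V → Option (V ⊕ Fin 4), LState adj pos l0 Nt (2 * i * R) l ∧
      ∀ z ∈ Nt, (col z : ℕ) < i → ∀ w ∈ K z, l w ≠ none := by
    intro i
    induction i with
    | zero =>
      refine ⟨fun w => (l0 w).map Sum.inr, ⟨fun w s h => by simp [h], fun w z h => ?_,
        fun w s h => ?_⟩, fun z _ h => absurd h (Nat.not_lt_zero _)⟩
      · cases h0 : l0 w <;> simp [h0] at h
      · refine ⟨w, ?_, Conn.refl h, by simp⟩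
        cases h0 : l0 w with
        | none => simp [h0] at h
        | some t => simpa [h0] using h
    | succ i ih =>
      obtain ⟨l, hl, hcov⟩ := ih
      obtain ⟨l', hl', hext, hnew⟩ := LState.step hs hl (by positivity) hR
        {z | z ∈ Nt ∧ (col z : ℕ) = i} (fun z hz => hz.1) K (fun z hz => hK0 z hz.1)
        (fun z hz => hK z hz.1) fun z hz z' hz' hne =>
          hcol z hz.1 z' hz'.1 hne (Fin.ext (hz.2.trans hz'.2.symm))
      refine ⟨l', ?_, fun z hz hlt w hw => ?_⟩
      · have : (2 * ((i + 1 : ℕ) : ℝ) * R) = 2 * i * R + 2 * R := by push_cast; ring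
        rw [this]
        exact hl'
      · rcases (Nat.lt_succ_iff.1 hlt).lt_or_eq with h | h
        · rw [hext w (hcov z hz h w hw)]
          exact hcov z hz h w hw
        · exact hnew z ⟨hz, h⟩ w hw
  obtain ⟨l, hl, hcov⟩ := key χ
  exact ⟨l, hl, fun z hz => hcov z hz (col z).2⟩

end Crest.Agent.R193.Sq
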