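import Mathlib
import Crest.Agent.R193.SqDefs
import Crest.Agent.R193.Hex

/-! Row 193 [U]: the fine Hex board on `[0,3]²` with mesh `1/N`. -/

set_option autoImplicit false

namespace Crest.Agent.R193.Sq

/-- vertices of the board -/
abbrev Bo (N : ℕ) : Type := Fin (3 * N + 1) × Fin (3 * N + 1)

/-- the big square -/
def big : Set (ℝ × ℝ) := Set.Icc 0 3 ×ˢ Set.Icc 0 3

/-- position of a vertex -/
noncomputable def gp {N : ℕ} (w : Bo N) : ℝ × ℝ := ((w.1.val : ℝ) / N, (w.2.val : ℝ) / N)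

/-- rounding of one coordinate -/
noncomputable def rd1 (N : ℕ) (x : ℝ) : Fin (3 * N + 1) :=
  ⟨min ⌊(N : ℝ) * x⌋₊ (3 * N), Nat.lt_succ_of_le (min_le_right _ _)⟩

/-- rounding of a point -/
noncomputable def rd (N : ℕ) (p : ℝ × ℝ) : Bo N := (rd1 N p.1, rd1 N p.2)

/-- the initial labels: `0` bottom, `1` top, `2` left, `3` right -/
def lab0 {N : ℕ} (w : Bo N) : Option (Fin 4) :=
  if w.2.val ≤ N then some 0 else if 2 * N ≤ w.2.val then some 1 else
    if w.1.val ≤ N then some 2 else if 2 * N ≤ w.1.val then some 3 else none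

variable {N : ℕ}

theorem t69_rd1_div (hN : 0 < N) (k : Fin (3 * N + 1)) : rd1 N ((k.val : ℝ) / N) = k := by
  have hN' : (N : ℝ) ≠ 0 := by positivity
  apply Fin.ext
  have hk := k.2
  simp only [rd1]
  rw [mul_div_cancel₀ _ hN', Nat.floor_natCast]
  omega

theorem t69_rd1_le (hN : 0 < N) {x : ℝ} (h0 : 0 ≤ x) : ((rd1 N x).val : ℝ) ≤ N * x := by
  have hN' : (0 : ℝ) < N := by positivity
  have h1 : (⌊(N : ℝ) * x⌋₊ : ℝ) ≤ N * x := Nat.floor_le (by positivity)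
  have h2 : (rd1 N x).val ≤ ⌊(N : ℝ) * x⌋₊ := min_le_left _ _
  exact le_trans (by exact_mod_cast h2) h1

theorem t69_le_rd1 (hN : 0 < N) {x : ℝ} (h3 : x ≤ 3) : N * x ≤ ((rd1 N x).val : ℝ) + 1 := by
  have hN' : (0 : ℝ) < N := by positivity
  have h1 : (N : ℝ) * x < (⌊(N : ℝ) * x⌋₊ : ℝ) + 1 := Nat.lt_floor_add_one _
  simp only [rd1]
  rcases le_total ⌊(N : ℝ) * x⌋₊ (3 * N) with h | h
  · rw [min_eq_left h]; exact h1.le
  · rw [min_eq_right h]; push_cast; nlinarith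

theorem t69_dist1 (hN : 0 < N) {x : ℝ} (h0 : 0 ≤ x) (h3 : x ≤ 3) :
    dist (((rd1 N x).val : ℝ) / N) x ≤ 1 / N := by
  have hN' : (0 : ℝ) < N := by positivity
  have h1 := t69_rd1_le hN h0
  have h2 := t69_le_rd1 hN h3
  have e : ((rd1 N x).val : ℝ) / N - x = (((rd1 N x).val : ℝ) - N * x) / N := by
    field_simp
  rw [Real.dist_eq, e, abs_div, abs_of_pos hN']
  gcongr
  rw [abs_le]
  constructor <;> linarith

theorem t69_dist_step (hN : 0 < N) {a b : ℕ} (h1 : a ≤ b + 1) (h2 : b ≤ a + 1) :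
    dist ((a : ℝ) / N) ((b : ℝ) / N) ≤ 1 / N := by
  have hN' : (0 : ℝ) < N := by positivity
  have h1' : (a : ℝ) ≤ b + 1 := by exact_mod_cast h1
  have h2' : (b : ℝ) ≤ a + 1 := by exact_mod_cast h2
  rw [Real.dist_eq, ← sub_div, abs_div, abs_of_pos hN']
  gcongr
  rw [abs_le]
  constructor <;> linarith

theorem t69_div_le (hN : 0 < N) {a c : ℕ} (h : a ≤ c * N) : (a : ℝ) / N ≤ c := by
  have hN' : (0 : ℝ) < N := by positivity
  rw [div_le_iff₀ hN']
  exact_mod_cast h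

theorem t69_le_div (hN : 0 < N) {a c : ℕ} (h : c * N ≤ a) : (c : ℝ) ≤ (a : ℝ) / N := by
  have hN' : (0 : ℝ) < N := by positivity
  rw [le_div_iff₀ hN']
  exact_mod_cast h

theorem t69_div_lt (hN : 0 < N) {a c : ℕ} (h : a < c * N) : (a : ℝ) / N < c := by
  have hN' : (0 : ℝ) < N := by positivity
  rw [div_lt_iff₀ hN']
  exact_mod_cast h

theorem t69_lt_div (hN : 0 < N) {a c : ℕ} (h : c * N < a) : (c : ℝ) < (a : ℝ) / N := by
  have hN' : (0 : ℝ) < N := by positivity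
  rw [lt_div_iff₀ hN']
  exact_mod_cast h

theorem t69_rd1_cases (hN : 0 < N) {x : ℝ} (h0 : 0 ≤ x) (h : x ∉ Set.Ioo (1 : ℝ) 2) :
    (rd1 N x).val ≤ N ∨ 2 * N ≤ (rd1 N x).val := by
  have hN' : (0 : ℝ) < N := by positivity
  rw [Set.mem_Ioo, not_and_or, not_lt, not_lt] at h
  rcases h with h | h
  · left
    have h1 := t69_rd1_le hN h0
    have h2 : ((rd1 N x).val : ℝ) ≤ N := by nlinarith
    exact_mod_cast h2
  · right
    have h1 : 2 * N ≤ ⌊(N : ℝ) * x⌋₊ := Nat.le_floor (by push_cast; nlinarith)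
    simp only [rd1]
    omega

theorem conn_iff_hexJoin {S : Set (Bo N)} {p q : Bo N} : Conn HexAdj S p q ↔ HexJoin S p q := by
  constructor
  · intro h
    exact h.ind (fun y => HexJoin S p y) (HexJoin.refl h.1) fun _ _ _ ha hab hb => ha.tail hb hab
  · rintro ⟨h1, h2⟩
    induction h2 with
    | refl => exact Conn.refl h1
    | tail _ h ih => exact ih.tail h.2.2 h.2.1

theorem gp_mem_big (hN : 0 < N) (w : Bo N) : gp w ∈ big := by
  have h1 := w.1.2
  have h2 := w.2.2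
  have a1 := t69_div_le hN (a := w.1.val) (c := 3) (by omega)
  have a2 := t69_div_le hN (a := w.2.val) (c := 3) (by omega)
  refine ⟨⟨by simp only [gp]; positivity, ?_⟩, ⟨by simp only [gp]; positivity, ?_⟩⟩
  · simpa [gp] using a1
  · simpa [gp] using a2

theorem gp_injective (hN : 0 < N) : Function.Injective (gp : Bo N → ℝ × ℝ) := by
  intro w w' h
  have h1 : rd1 N (gp w).1 = rd1 N (gp w').1 := by rw [h]
  have h2 : rd1 N (gp w).2 = rd1 N (gp w').2 := by rw [h]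
  simp only [gp, t69_rd1_div hN] at h1 h2
  exact Prod.ext h1 h2

theorem rd_gp (hN : 0 < N) (w : Bo N) : rd N (gp w) = w := by
  simp only [rd, gp, t69_rd1_div hN]

theorem dist_gp_rd (hN : 0 < N) {p : ℝ × ℝ} (hp : p ∈ big) : dist (gp (rd N p)) p ≤ 1 / N := by
  rw [Prod.dist_eq]
  exact max_le (t69_dist1 hN hp.1.1 hp.1.2) (t69_dist1 hN hp.2.1 hp.2.2)

theorem dist_gp_adj (hN : 0 < N) {w w' : Bo N} (h : HexAdj w w') : dist (gp w) (gp w') ≤ 1 / N := by
  unfold HexAdj HexStep at h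
  rw [Prod.dist_eq]
  exact max_le (t69_dist_step hN (by omega) (by omega)) (t69_dist_step hN (by omega) (by omega))

/-- the free vertices lie in the open inner square -/
theorem gp_free (hN : 0 < N) {w : Bo N} (h : lab0 w = none) :
    gp w ∈ Set.Ioo (1 : ℝ) 2 ×ˢ Set.Ioo (1 : ℝ) 2 := by
  unfold lab0 at h
  split_ifs at h with h1 h2 h3 h4
  have a1 := t69_lt_div hN (a := w.1.val) (c := 1) (by omega)
  have a2 := t69_div_lt hN (a := w.1.val) (c := 2) (by omega)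
  have a3 := t69_lt_div hN (a := w.2.val) (c := 1) (by omega)
  have a4 := t69_div_lt hN (a := w.2.val) (c := 2) (by omega)
  push_cast at a1 a2 a3 a4
  exact ⟨⟨a1, a2⟩, ⟨a3, a4⟩⟩

/-- points of the big square outside the open inner square round to labelled vertices -/
theorem lab0_rd (hN : 0 < N) {p : ℝ × ℝ} (hp : p ∈ big)
    (h : p ∉ Set.Ioo (1 : ℝ) 2 ×ˢ Set.Ioo (1 : ℝ) 2) : lab0 (rd N p) ≠ none := by
  intro h0
  unfold lab0 at h0
  split_ifs at h0 with h1 h2 h3 h4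
  simp only [rd] at h1 h2 h3 h4
  rw [Set.mem_prod, not_and_or] at h
  rcases h with h | h
  · have := t69_rd1_cases hN hp.1.1 h
    omega
  · have := t69_rd1_cases hN hp.2.1 h
    omega

theorem gp_lab0 (hN : 0 < N) {w : Bo N} :
    (lab0 w = some 0 → gp w ∈ Set.Icc (0 : ℝ) 3 ×ˢ Set.Icc (0 : ℝ) 1) ∧
    (lab0 w = some 1 → gp w ∈ Set.Icc (0 : ℝ) 3 ×ˢ Set.Icc (2 : ℝ) 3) ∧
    (lab0 w = some 2 → gp w ∈ Set.Icc (0 : ℝ) 1 ×ˢ Set.Icc (0 : ℝ) 3) ∧
    (lab0 w = some 3 → gp w ∈ Set.Icc (2 : ℝ) 3 ×ˢ Set.Icc (0 : ℝ) 3) := by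
  have hb := gp_mem_big hN w
  have b1 : (gp w).1 ∈ Set.Icc (0 : ℝ) 3 := hb.1
  have b2 : (gp w).2 ∈ Set.Icc (0 : ℝ) 3 := hb.2
  unfold lab0
  refine ⟨fun h => ?_, fun h => ?_, fun h => ?_, fun h => ?_⟩
  · split_ifs at h with h1 h2 h3 h4 <;> try (exact absurd h (by decide))
    have a := t69_div_le hN (a := w.2.val) (c := 1) (by omega)
    push_cast at a
    exact ⟨b1, b2.1, a⟩
  · split_ifs at h with h1 h2 h3 h4 <;> try (exact absurd h (by decide))
    have a := t69_le_div hN (a := w.2.val) (c := 2) (by omega)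
    push_cast at a
    exact ⟨b1, a, b2.2⟩
  · split_ifs at h with h1 h2 h3 h4 <;> try (exact absurd h (by decide))
    have a := t69_div_le hN (a := w.1.val) (c := 1) (by omega)
    push_cast at a
    exact ⟨⟨b1.1, a⟩, b2⟩
  · split_ifs at h with h1 h2 h3 h4 <;> try (exact absurd h (by decide))
    have a := t69_le_div hN (a := w.1.val) (c := 2) (by omega)
    push_cast at a
    exact ⟨⟨a, b1.2⟩, b2⟩

/-- labels on the four edges of the board -/
theorem lab0_edge (hN : 0 < N) (w : Bo N) :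
    (w.2 = 0 → lab0 w = some 0) ∧ (w.2 = Fin.last _ → lab0 w = some 1) ∧
    (w.1 = 0 → lab0 w = some 0 ∨ lab0 w = some 1 ∨ lab0 w = some 2) ∧
    (w.1 = Fin.last _ → lab0 w = some 0 ∨ lab0 w = some 1 ∨ lab0 w = some 3) := by
  unfold lab0
  refine ⟨fun h => ?_, fun h => ?_, fun h => ?_, fun h => ?_⟩
  · have : w.2.val = 0 := by rw [h]; rfl
    rw [if_pos (by omega)]
  · have : w.2.val = 3 * N := by rw [h]; rfl
    rw [if_neg (by omega), if_pos (by omega)]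
  · have : w.1.val = 0 := by rw [h]; rfl
    split_ifs with h1 h2 h3 h4 <;> first | omega | simp
  · have : w.1.val = 3 * N := by rw [h]; rfl
    split_ifs with h1 h2 h3 h4 <;> first | omega | simp

theorem ST2b_vert {S : Set (Bo N)} (i a : Fin (3 * N + 1)) (d : ℕ) :
    ∀ b : Fin (3 * N + 1), b.val = a.val + d →
      (∀ k : Fin (3 * N + 1), a.val ≤ k.val → k.val ≤ b.val → (i, k) ∈ S) →
      Conn HexAdj S (i, a) (i, b) := by
  induction d with
  | zero =>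
    intro b hb h
    obtain rfl : b = a := Fin.ext hb
    exact Conn.refl (h b le_rfl le_rfl)
  | succ d ih =>
    intro b hb h
    have hlt : a.val + d < 3 * N + 1 := by have := b.2; omega
    refine (ih ⟨a.val + d, hlt⟩ rfl fun k h1 h2 => h k h1 ?_).tail ?_ (h b (by omega) le_rfl)
    · have : k.val ≤ a.val + d := h2
      omega
    · exact Or.inr (Or.inr (Or.inl ⟨rfl, hb.symm⟩))

theorem ST2b_hor {S : Set (Bo N)} (j a : Fin (3 * N + 1)) (d : ℕ) :
    ∀ b : Fin (3 * N + 1), b.val = a.val + d →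
      (∀ k : Fin (3 * N + 1), a.val ≤ k.val → k.val ≤ b.val → (k, j) ∈ S) →
      Conn HexAdj S (a, j) (b, j) := by
  induction d with
  | zero =>
    intro b hb h
    obtain rfl : b = a := Fin.ext hb
    exact Conn.refl (h b le_rfl le_rfl)
  | succ d ih =>
    intro b hb h
    have hlt : a.val + d < 3 * N + 1 := by have := b.2; omega
    refine (ih ⟨a.val + d, hlt⟩ rfl fun k h1 h2 => h k h1 ?_).tail ?_ (h b (by omega) le_rfl)
    · have : k.val ≤ a.val + d := h2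
      omega
    · exact Or.inl ⟨hb.symm, rfl⟩

theorem ST2b_lab (w : Bo N) :
    (lab0 w = some 0 ↔ w.2.val ≤ N) ∧ (lab0 w = some 1 ↔ N < w.2.val ∧ 2 * N ≤ w.2.val) ∧
    (lab0 w = some 2 ↔ N < w.2.val ∧ w.2.val < 2 * N ∧ w.1.val ≤ N) ∧
    (lab0 w = some 3 ↔ N < w.2.val ∧ w.2.val < 2 * N ∧ N < w.1.val ∧ 2 * N ≤ w.1.val) := by
  unfold lab0
  split_ifs <;> simp <;> omega

/-- every initially labelled vertex is joined to its edge of the board inside its class (go straight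
down, up, left, right) -/
theorem lab0_conn (hN : 0 < N) (w : Bo N) :
    (lab0 w = some 0 → ∃ p : Bo N, p.2 = 0 ∧ Conn HexAdj {u | lab0 u = some 0} p w) ∧
    (lab0 w = some 1 → ∃ p : Bo N, p.2 = Fin.last _ ∧ Conn HexAdj {u | lab0 u = some 1} p w) ∧
    (lab0 w = some 2 → ∃ p : Bo N, p.1 = 0 ∧ Conn HexAdj {u | lab0 u = some 2} p w) ∧
    (lab0 w = some 3 → ∃ p : Bo N, p.1 = Fin.last _ ∧ Conn HexAdj {u | lab0 u = some 3} p w) := by
  obtain ⟨i, j⟩ := w
  have hs : ∀ a b : Bo N, HexAdj a b → HexAdj b a := fun _ _ h => h.symm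
  refine ⟨fun h => ⟨(i, 0), rfl, ?_⟩, fun h => ⟨(i, Fin.last _), rfl, ?_⟩,
    fun h => ⟨(0, j), rfl, ?_⟩, fun h => ⟨(Fin.last _, j), rfl, ?_⟩⟩
  · have h' : j.val ≤ N := (ST2b_lab _).1.1 h
    exact ST2b_vert i 0 j.val j (by simp) fun k _ h2 =>
      (ST2b_lab (i, k)).1.2 (le_trans h2 h')
  · have h' : N < j.val ∧ 2 * N ≤ j.val := (ST2b_lab _).2.1.1 h
    refine Conn.symm hs (ST2b_vert i j (3 * N - j.val) (Fin.last _) ?_ fun k h1 _ =>
      (ST2b_lab (i, k)).2.1.2 ⟨lt_of_lt_of_le h'.1 h1, h'.2.trans h1⟩)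
    have := j.2
    rw [Fin.val_last]
    omega
  · have h' : N < j.val ∧ j.val < 2 * N ∧ i.val ≤ N := (ST2b_lab _).2.2.1.1 h
    exact ST2b_hor j 0 i.val i (by simp) fun k _ h2 =>
      (ST2b_lab (k, j)).2.2.1.2 ⟨h'.1, h'.2.1, le_trans h2 h'.2.2⟩
  · have h' : N < j.val ∧ j.val < 2 * N ∧ N < i.val ∧ 2 * N ≤ i.val := (ST2b_lab _).2.2.2.1 h
    refine Conn.symm hs (ST2b_hor j i (3 * N - i.val) (Fin.last _) ?_ fun k h1 _ =>
      (ST2b_lab (k, j)).2.2.2.2 ⟨h'.1, h'.2.1, lt_of_lt_of_le h'.2.2.1 h1, h'.2.2.2.trans h1⟩)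
    have := i.2
    rw [Fin.val_last]
    omega

theorem gl_rd1_bounds {x : ℝ} (hx : x ∈ Set.Icc (0 : ℝ) 3) :
    ((rd1 N x).val : ℝ) ≤ N * x ∧ N * x < (rd1 N x).val + 1 := by
  have h0 : 0 ≤ (N : ℝ) * x := mul_nonneg (Nat.cast_nonneg _) hx.1
  have h1 : ⌊(N : ℝ) * x⌋₊ ≤ 3 * N := by
    apply Nat.floor_le_of_le
    push_cast
    nlinarith [hx.2, (Nat.cast_nonneg N : (0 : ℝ) ≤ N)]
  have h2 : (rd1 N x).val = ⌊(N : ℝ) * x⌋₊ := min_eq_left h1
  rw [h2]
  exact ⟨Nat.floor_le h0, Nat.lt_floor_add_one _⟩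

theorem gl_rd1_close (hN : 0 < N) {x y : ℝ} (hx : x ∈ Set.Icc (0 : ℝ) 3)
    (hy : y ∈ Set.Icc (0 : ℝ) 3) (h : dist x y < 1 / N) :
    ((rd1 N x).val ≤ (rd1 N y).val + 1 ∧ (rd1 N y).val ≤ (rd1 N x).val + 1) ∧
      dist (((rd1 N y).val : ℝ) / N) x ≤ 2 / N := by
  have hN' : (0 : ℝ) < N := by exact_mod_cast hN
  obtain ⟨a1, a2⟩ := gl_rd1_bounds (N := N) hx
  obtain ⟨b1, b2⟩ := gl_rd1_bounds (N := N) hy
  rw [Real.dist_eq, lt_div_iff₀ hN', ← abs_of_pos hN', ← abs_mul, abs_lt] at h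
  obtain ⟨h1, h2⟩ := h
  refine ⟨⟨?_, ?_⟩, ?_⟩
  · have : ((rd1 N x).val : ℝ) < (rd1 N y).val + 2 := by nlinarith
    have : (rd1 N x).val < (rd1 N y).val + 2 := by exact_mod_cast this
    omega
  · have : ((rd1 N y).val : ℝ) < (rd1 N x).val + 2 := by nlinarith
    have : (rd1 N y).val < (rd1 N x).val + 2 := by exact_mod_cast this
    omega
  · rw [Real.dist_eq, abs_le]
    constructor
    · rw [le_sub_iff_add_le, le_div_iff₀ hN']
      have : (-(2 / (N : ℝ)) + x) * N = -2 + N * x := by field_simp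
      rw [this]
      nlinarith
    · rw [sub_le_iff_le_add, div_le_iff₀ hN']
      have : (2 / (N : ℝ) + x) * N = 2 + N * x := by field_simp
      rw [this]
      nlinarith

theorem gl_step {S : Set (Bo N)} {u v : Bo N} (hu : u ∈ S) (hv : v ∈ S)
    (h : u = v ∨ HexAdj u v) : Conn HexAdj S u v := by
  rcases h with rfl | h
  · exact Conn.refl hu
  · exact (Conn.refl hu).tail h hv

theorem gl_local (hN : 0 < N) {S : Set (Bo N)} {p q : ℝ × ℝ} (hp : p ∈ big) (hq : q ∈ big)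
    (h : dist p q < 1 / N) (hS : ∀ w : Bo N, dist (gp w) p ≤ 2 / N → w ∈ S) :
    Conn HexAdj S (rd N p) (rd N q) := by
  have hN' : (0 : ℝ) < N := by exact_mod_cast hN
  have h0 : dist p.1 p.1 < 1 / N := by simpa using hN'
  have h0' : dist p.2 p.2 < 1 / N := by simpa using hN'
  have h1 : dist p.1 q.1 < 1 / N := by
    rw [Prod.dist_eq] at h
    exact (le_max_left _ _).trans_lt h
  have h2 : dist p.2 q.2 < 1 / N := by
    rw [Prod.dist_eq] at h
    exact (le_max_right _ _).trans_lt h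
  obtain ⟨-, a1⟩ := gl_rd1_close hN hp.1 hp.1 h0
  obtain ⟨-, a2⟩ := gl_rd1_close hN hp.2 hp.2 h0'
  obtain ⟨c1, b1⟩ := gl_rd1_close hN hp.1 hq.1 h1
  obtain ⟨c2, b2⟩ := gl_rd1_close hN hp.2 hq.2 h2
  have m0 : rd N p ∈ S := hS _ (by rw [Prod.dist_eq]; exact max_le a1 a2)
  have m1 : ((rd1 N q.1, rd1 N p.2) : Bo N) ∈ S :=
    hS _ (by rw [Prod.dist_eq]; exact max_le b1 a2)
  have m2 : rd N q ∈ S := hS _ (by rw [Prod.dist_eq]; exact max_le b1 b2)
  refine (gl_step m0 m1 ?_).trans (gl_step m1 m2 ?_)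
  · by_cases e : (rd1 N p.1).val = (rd1 N q.1).val
    · left
      exact Prod.ext (Fin.ext e) rfl
    · right
      change HexStep (rd1 N p.1).val (rd1 N p.2).val (rd1 N q.1).val (rd1 N p.2).val
      generalize (rd1 N p.1).val = a at *
      generalize (rd1 N q.1).val = b at *
      generalize (rd1 N p.2).val = c at *
      unfold HexStep
      omega
  · by_cases e : (rd1 N p.2).val = (rd1 N q.2).val
    · left
      exact Prod.ext rfl (Fin.ext e)
    · right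
      change HexStep (rd1 N q.1).val (rd1 N p.2).val (rd1 N q.1).val (rd1 N q.2).val
      generalize (rd1 N p.2).val = a at *
      generalize (rd1 N q.2).val = b at *
      generalize (rd1 N q.1).val = c at *
      unfold HexStep
      omega

/-- Lifting a curve to the board.  Proof: if `dist p q < 1/N` (`p q ∈ big`) the roundings differ by
at most one in each coordinate, so `rd p → (rd1 q.1, rd1 p.2) → rd q` is a chain (steps are equalities
or horizontal/vertical edges) of vertices within `2/N` of `p`.  Conclude by uniform continuity and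
induction on a fine subdivision, or by `IsClosed.Icc_subset_of_forall_mem_nhdsWithin` /
`IsPreconnected.induction₂'`. -/
theorem grid_lift (hN : 0 < N) {τ : ℝ} (hτ : 0 ≤ τ) {g : ℝ → ℝ × ℝ}
    (hg : ContinuousOn g (Set.Icc 0 τ)) (hb : ∀ t ∈ Set.Icc 0 τ, g t ∈ big) :
    Conn HexAdj {w : Bo N | ∃ t ∈ Set.Icc 0 τ, dist (gp w) (g t) ≤ 2 / N} (rd N (g 0))
      (rd N (g τ)) := by
  have hN' : (0 : ℝ) < N := by exact_mod_cast hN
  set S := {w : Bo N | ∃ t ∈ Set.Icc 0 τ, dist (gp w) (g t) ≤ 2 / N} with hS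
  refine isPreconnected_Icc.induction₂ (fun s t => Conn HexAdj S (rd N (g s)) (rd N (g t)))
    (fun x hx => ?_) (fun _ _ _ _ _ _ h h' => h.trans h')
    (fun _ _ _ _ h => h.symm fun _ _ => HexAdj.symm) ⟨le_rfl, hτ⟩ ⟨hτ, le_rfl⟩
  have h1 := (hg x hx).eventually (Metric.ball_mem_nhds (g x) (one_div_pos.2 hN'))
  filter_upwards [h1, self_mem_nhdsWithin] with y hy hy'
  refine gl_local hN (hb x hx) (hb y hy') ?_ fun w hw => ⟨x, hx, hw⟩
  rw [dist_comm]
  exact hy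

/-- The same for a curve in `Z` inside the chart `ψ`.  Proof: `g = ψ⁻¹ ∘ γ` is continuous on
`Icc 0 τ` because `ψ` is an embedding (`IsInducing.continuousOn_iff`). -/
theorem chart_lift {Z : Type} [MetricSpace Z] (hN : 0 < N) {ψ : ℝ × ℝ → Z}
    (hψ : Topology.IsOpenEmbedding ψ) {δ : ℝ}
    (hδ : ∀ p ∈ big, ∀ q ∈ big, dist p q ≤ 2 / N → dist (ψ p) (ψ q) < δ) {τ : ℝ} (hτ : 0 ≤ τ)
    {γ : ℝ → Z} (hγ : ContinuousOn γ (Set.Icc 0 τ)) (hb : ∀ t ∈ Set.Icc 0 τ, γ t ∈ ψ '' big)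
    {p0 p1 : ℝ × ℝ} (h0 : γ 0 = ψ p0) (h1 : γ τ = ψ p1) :
    Conn HexAdj {w : Bo N | ∃ t ∈ Set.Icc 0 τ, dist (ψ (gp w)) (γ t) < δ} (rd N p0) (rd N p1) := by
  classical
  have hne : Nonempty (ℝ × ℝ) := inferInstance
  obtain ⟨g, hg⟩ : ∃ g : ℝ → ℝ × ℝ, ∀ t ∈ Set.Icc 0 τ, g t ∈ big ∧ ψ (g t) = γ t := by
    refine ⟨fun t => if h : t ∈ Set.Icc 0 τ then (hb t h).choose else 0, fun t ht => ?_⟩
    simp only [dif_pos ht]
    exact (hb t ht).choose_spec
  have hc : ContinuousOn g (Set.Icc 0 τ) :=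
    hψ.isInducing.continuousOn_iff.2 (hγ.congr fun t ht => (hg t ht).2)
  have e0 : g 0 = p0 := hψ.injective (by rw [(hg 0 ⟨le_rfl, hτ⟩).2, h0])
  have e1 : g τ = p1 := hψ.injective (by rw [(hg τ ⟨hτ, le_rfl⟩).2, h1])
  have := grid_lift hN hτ hc fun t ht => (hg t ht).1
  rw [e0, e1] at this
  refine this.mono ?_
  rintro w ⟨t, ht, hw⟩
  refine ⟨t, ht, ?_⟩
  rw [← (hg t ht).2]
  exact hδ _ (gp_mem_big hN w) _ (hg t ht).1 hw

end Crest.Agent.R193.Sq
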