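import Mathlib
import Crest.Agent.R193.SqTile1
import Crest.Agent.R193.SqTile2

/-! Row 193 [U]: the quadrilateral of tiles of a total labelling of the board. -/

set_option autoImplicit false

namespace Crest.Agent.R193.Sq

variable {N : ℕ}

/-- the tiles = the roots that are used -/
def Tl (l : Bo N → Option (Bo N ⊕ Fin 4)) : Type := {z : Bo N // l z = some (.inl z)}

noncomputable instance (l : Bo N → Option (Bo N ⊕ Fin 4)) : Fintype (Tl l) :=
  @Fintype.ofFinite _ (Subtype.finite (p := fun z : Bo N => l z = some (.inl z)))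

/-- adjacency of tiles -/
def tadj (l : Bo N → Option (Bo N ⊕ Fin 4)) (x y : Tl l) : Prop :=
  ∃ w w', l w = some (.inl x.1) ∧ l w' = some (.inl y.1) ∧ HexAdj w w'

/-- a tile adjacent to side `s` -/
def tside (l : Bo N → Option (Bo N ⊕ Fin 4)) (s : Fin 4) (x : Tl l) : Prop :=
  ∃ w w', l w = some (.inl x.1) ∧ l w' = some (.inr s) ∧ HexAdj w w'

/-- Projection of a fine chain starting in a tile: it ends in a tile or meets a side.  Proof:
`Conn.ind`; labels are total, and a vertex labelled `inl z` has `l z = inl z` (`LState.tile`). -/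
theorem proj_chain {Z : Type} [MetricSpace Z] {pos : Bo N → Z} {Nt : Set (Bo N)} {D : ℝ}
    {l : Bo N → Option (Bo N ⊕ Fin 4)} (h : LState HexAdj pos lab0 Nt D l) (ht : ∀ w, l w ≠ none)
    {W : Set (Bo N)} {w w' : Bo N} (hc : Conn HexAdj W w w') {x : Tl l}
    (hx : l w = some (.inl x.1)) {A : Set (Tl l)}
    (hA : ∀ u ∈ W, ∀ t : Tl l, l u = some (.inl t.1) → t ∈ A) :
    (∃ y : Tl l, l w' = some (.inl y.1) ∧ Conn (tadj l) A x y) ∨
      ∃ (y : Tl l) (s : Fin 4), Conn (tadj l) A x y ∧ tside l s y := by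
  refine hc.ind (fun u => (∃ y : Tl l, l u = some (.inl y.1) ∧ Conn (tadj l) A x y) ∨
      ∃ (y : Tl l) (s : Fin 4), Conn (tadj l) A x y ∧ tside l s y)
    (Or.inl ⟨x, hx, Conn.refl (hA w hc.left_mem x hx)⟩) ?_
  intro a b _ ha hab hb
  rcases ha with ⟨y, hy, hxy⟩ | ha
  · rcases hlb : l b with _ | z | s
    · exact absurd hlb (ht b)
    · refine Or.inl ⟨⟨z, (h.tile b z hlb).1⟩, rfl, ?_⟩
      exact hxy.tail ⟨a, b, hy, hlb, hab⟩ (hA b hb _ hlb)
    · exact Or.inr ⟨y, s, hxy, a, b, hy, hlb, hab⟩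
  · exact Or.inr ha

theorem h58_cross {l : Bo N → Option (Bo N ⊕ Fin 4)} {s0 s1 : Fin 4} (hs : s0 ≠ s1)
    (h01 : ∀ w w', l w = some (.inr s0) → l w' = some (.inr s1) → ¬ HexAdj w w')
    {A : Set (Tl l)} {W : Set (Bo N)}
    (hW : ∀ u ∈ W, l u = some (.inr s0) ∨ l u = some (.inr s1) ∨
      ∃ t ∈ A, l u = some (.inl t.1)) {p q : Bo N} (hc : Conn HexAdj W p q)
    (hp : l p = some (.inr s0)) (hq : l q = some (.inr s1)) :
    ∃ x y, tside l s0 x ∧ tside l s1 y ∧ Conn (tadj l) A x y := by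
  have key := hc.ind (fun u => l u = some (.inr s0) ∨
      (∃ x b : Tl l, l u = some (.inl x.1) ∧ tside l s0 b ∧ Conn (tadj l) A b x) ∨
      ∃ x y, tside l s0 x ∧ tside l s1 y ∧ Conn (tadj l) A x y) (Or.inl hp) (by
    intro a b _ ha hab hb
    rcases hW b hb with h0 | h1 | ⟨t, ht, htb⟩
    · exact Or.inl h0
    · rcases ha with ha | ⟨x, c, hx, hc, hcx⟩ | ha
      · exact absurd hab (h01 a b ha h1)
      · exact Or.inr (Or.inr ⟨c, x, hc, ⟨a, b, hx, h1, hab⟩, hcx⟩)
      · exact Or.inr (Or.inr ha)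
    · rcases ha with ha | ⟨x, c, hx, hc, hcx⟩ | ha
      · exact Or.inr (Or.inl ⟨t, t, htb, ⟨b, a, htb, ha, hab.symm⟩, Conn.refl ht⟩)
      · exact Or.inr (Or.inl ⟨t, c, htb, hc, hcx.tail ⟨a, b, hx, htb, hab⟩ ht⟩)
      · exact Or.inr (Or.inr ha))
  rcases key with h | ⟨x, -, hx, -⟩ | h
  · rw [hq] at h
    exact absurd (Sum.inr.inj (Option.some.inj h)).symm hs
  · rw [hq] at hx
    exact absurd (Option.some.inj hx) Sum.inr_ne_inl
  · exact h

/-- Hex existence for the tiles.  Proof: colour black the vertices labelled by a tile of `A`, by `0`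
or by `1`; apply `hex_exists`.  A black chain starts with label `0` (`lab0_edge`, `LState.ext`) and
ends with label `1`; by `Conn.ind` each vertex reached has label `0`, or a tile label `x ∈ A` with
`∃ b, tside 0 b ∧ Conn A b x`, or a crossing has been found (labels `0` and `1` are not adjacent).
A white chain starts with label `2` and ends with label `3`: same argument. -/
theorem tile_ex {Z : Type} [MetricSpace Z] (hN : 0 < N) {pos : Bo N → Z} {Nt : Set (Bo N)} {D : ℝ}
    {l : Bo N → Option (Bo N ⊕ Fin 4)} (h : LState HexAdj pos lab0 Nt D l) (ht : ∀ w, l w ≠ none)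
    (h01 : ∀ w w', l w = some (.inr 0) → l w' = some (.inr 1) → ¬ HexAdj w w')
    (h23 : ∀ w w', l w = some (.inr 2) → l w' = some (.inr 3) → ¬ HexAdj w w') (A : Set (Tl l)) :
    (∃ x y, tside l 0 x ∧ tside l 1 y ∧ Conn (tadj l) A x y) ∨
      (∃ x y, tside l 2 x ∧ tside l 3 y ∧ Conn (tadj l) Aᶜ x y) := by
  rcases hex_exists {u : Bo N | l u = some (.inr 0) ∨ l u = some (.inr 1) ∨
      ∃ t ∈ A, l u = some (.inl t.1)} with ⟨p, q, hp, hq, hc⟩ | ⟨p, q, hp, hq, hc⟩
  · exact Or.inl (h58_cross (by decide) h01 (fun u hu => hu) (conn_iff_hexJoin.2 hc)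
      (h.ext _ _ ((lab0_edge hN p).1 hp)) (h.ext _ _ ((lab0_edge hN q).2.1 hq)))
  · refine Or.inr (h58_cross (by decide) h23 (fun u hu => ?_) (conn_iff_hexJoin.2 hc) ?_ ?_)
    · rcases hlu : l u with _ | z | s
      · exact absurd hlu (ht u)
      · refine Or.inr (Or.inr ⟨⟨z, (h.tile u z hlu).1⟩, fun hz => hu ?_, rfl⟩)
        exact Or.inr (Or.inr ⟨_, hz, hlu⟩)
      · have hs : s = 0 ∨ s = 1 ∨ s = 2 ∨ s = 3 := by
          fin_cases s <;> simp
        rcases hs with rfl | rfl | rfl | rfl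
        · exact absurd (Or.inl hlu) hu
        · exact absurd (Or.inr (Or.inl hlu)) hu
        · exact Or.inl rfl
        · exact Or.inr (Or.inl rfl)
    · rcases (lab0_edge hN p).2.2.1 hp with h0 | h0 | h0
      · exact absurd (Or.inl (h.ext _ _ h0)) hc.left_mem
      · exact absurd (Or.inr (Or.inl (h.ext _ _ h0))) hc.left_mem
      · exact h.ext _ _ h0
    · rcases (lab0_edge hN q).2.2.2 hq with h0 | h0 | h0
      · exact absurd (Or.inl (h.ext _ _ h0)) hc.right_mem
      · exact absurd (Or.inr (Or.inl (h.ext _ _ h0))) hc.right_mem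
      · exact h.ext _ _ h0

theorem h31_cross {Z : Type} [MetricSpace Z] {pos : Bo N → Z} {Nt : Set (Bo N)}
    {D : ℝ} {l : Bo N → Option (Bo N ⊕ Fin 4)} (h : LState HexAdj pos lab0 Nt D l)
    (A : Set (Tl l)) (s s' : Fin 4)
    (h1 : ∃ x y, tside l s x ∧ tside l s' y ∧ Conn (tadj l) A x y) {p q : Bo N → Prop}
    (hp : ∀ w : Bo N, lab0 w = some s → ∃ u, p u ∧ Conn HexAdj {u | lab0 u = some s} u w)
    (hq : ∀ w : Bo N, lab0 w = some s' → ∃ u, q u ∧ Conn HexAdj {u | lab0 u = some s'} u w) :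
    ∃ u u', p u ∧ q u' ∧ HexJoin {u | l u = some (.inr s) ∨ l u = some (.inr s') ∨
      ∃ t ∈ A, l u = some (.inl t.1)} u u' := by
  set S : Set (Bo N) := {u | l u = some (.inr s) ∨ l u = some (.inr s') ∨
      ∃ t ∈ A, l u = some (.inl t.1)} with hS
  have hsy : ∀ a b : Bo N, HexAdj a b → HexAdj b a := fun _ _ h => h.symm
  have htile : ∀ (t : Tl l), t ∈ A → ∀ w, l w = some (.inl t.1) → Conn HexAdj S t.1 w :=
    fun t ht w hw => (h.tile w t.1 hw).2.2.1.mono fun u hu => Or.inr (Or.inr ⟨t, ht, hu⟩)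
  have hside : ∀ (r : Fin 4) (P : Bo N → Prop), (r = s ∨ r = s') →
      (∀ w : Bo N, lab0 w = some r → ∃ u, P u ∧ Conn HexAdj {u | lab0 u = some r} u w) →
      ∀ t ∈ A, tside l r t → ∃ u, P u ∧ Conn HexAdj S u t.1 := by
    rintro r P hr hP t ht ⟨w, w', hw, hw', hww⟩
    have hsub : {u | l u = some (.inr r)} ⊆ S := by
      intro u hu
      rcases hr with rfl | rfl
      · exact Or.inl hu
      · exact Or.inr (Or.inl hu)
    obtain ⟨w0, hw0, hc, -⟩ := h.side w' r hw'
    obtain ⟨u, hu, hc'⟩ := hP w0 hw0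
    have ht' := htile t ht w hw
    refine ⟨u, hu, ?_⟩
    exact (((hc'.mono fun v hv => hsub (h.ext v r hv)).trans (hc.mono hsub)).tail hww.symm
      ht'.right_mem).trans (ht'.symm hsy)
  obtain ⟨x, y, hx, hy, hxy⟩ := h1
  have hlift : Conn HexAdj S x.1 y.1 := by
    refine hxy.ind (fun y => Conn HexAdj S x.1 y.1) (htile x hxy.left_mem x.1 x.2) ?_
    rintro a b ha ih ⟨w, w', hw, hw', hww⟩ hb
    have h2 := htile b hb w' hw'
    exact ((ih.trans (htile a ha.right_mem w hw)).tail hww h2.right_mem).trans (h2.symm hsy)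
  obtain ⟨u, hu, hux⟩ := hside s p (Or.inl rfl) hp x hxy.left_mem hx
  obtain ⟨u', hu', huy⟩ := hside s' q (Or.inr rfl) hq y hxy.right_mem hy
  exact ⟨u, u', hu, hu', conn_iff_hexJoin.1 ((hux.trans hlift).trans (huy.symm hsy))⟩

/-- Hex exclusivity for the tiles.  Proof: a tile chain in `A` lifts to a fine chain in the vertices
labelled by tiles of `A` (classes are connected through their root, `LState.tile`); extend it through
the classes `0`, `1` (`LState.side`, `lab0_conn`, `LState.ext`) to the bottom and top rows; likewise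
for `A'` with `2`, `3`; `hex_excl` gives a common vertex, whose label must be a tile of `A ∩ A'`. -/
theorem tile_excl {Z : Type} [MetricSpace Z] (hN : 0 < N) {pos : Bo N → Z} {Nt : Set (Bo N)}
    {D : ℝ} {l : Bo N → Option (Bo N ⊕ Fin 4)} (h : LState HexAdj pos lab0 Nt D l)
    (A A' : Set (Tl l)) (h1 : ∃ x y, tside l 0 x ∧ tside l 1 y ∧ Conn (tadj l) A x y)
    (h2 : ∃ x y, tside l 2 x ∧ tside l 3 y ∧ Conn (tadj l) A' x y) : (A ∩ A').Nonempty := by
  have a1 := h31_cross h A 0 1 h1 (p := fun u => u.2 = 0) (q := fun u => u.2 = Fin.last _)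
    (fun w => (lab0_conn hN w).1) (fun w => (lab0_conn hN w).2.1)
  have a2 := h31_cross h A' 2 3 h2 (p := fun u => u.1 = 0) (q := fun u => u.1 = Fin.last _)
    (fun w => (lab0_conn hN w).2.2.1) (fun w => (lab0_conn hN w).2.2.2)
  obtain ⟨u, hu, hu'⟩ := hex_excl a1 a2
  simp only [Set.mem_setOf_eq] at hu hu'
  rcases hu with hu | hu | ⟨t, ht, hu⟩ <;> rcases hu' with hu' | hu' | ⟨t', ht', hu'⟩ <;>
    rw [hu] at hu' <;> simp only [Option.some.injEq, Sum.inr.injEq, Sum.inl.injEq,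
      reduceCtorEq] at hu'
  all_goals first
    | exact absurd hu' (by decide)
    | exact ⟨t, ht, by rw [Subtype.ext hu']; exact ht'⟩

/-- the quadrilateral of tiles -/
def tileQuad {Z : Type} [MetricSpace Z] (hN : 0 < N) {pos : Bo N → Z} {Nt : Set (Bo N)} {D : ℝ}
    {l : Bo N → Option (Bo N ⊕ Fin 4)} (h : LState HexAdj pos lab0 Nt D l) (ht : ∀ w, l w ≠ none)
    (h01 : ∀ w w', l w = some (.inr 0) → l w' = some (.inr 1) → ¬ HexAdj w w')
    (h23 : ∀ w w', l w = some (.inr 2) → l w' = some (.inr 3) → ¬ HexAdj w w') : Quad (Tl l) where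
  adj := tadj l
  B := tside l 0
  Tp := tside l 1
  L := tside l 2
  R := tside l 3
  symm := fun _ _ ⟨w, w', a, b, c⟩ => ⟨w', w, b, a, c.symm⟩
  ex := tile_ex hN h ht h01 h23
  excl := tile_excl hN h

end Crest.Agent.R193.Sq
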