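import Mathlib
import Crest.Agent.R193.SqTile3
import Crest.Agent.R193.SqSch2

/-! Row 193 [U]: geometric tiles at all small scales. -/

set_option autoImplicit false

namespace Crest.Agent.R193.Sq

open Metric

/-- a global planar chart (inverse stereographic projection) -/
theorem exists_chart {Z : Type} [MetricSpace Z] (hZ : Nonempty (Z ≃ₜ S2)) :
    ∃ ψ : ℝ × ℝ → Z, Topology.IsOpenEmbedding ψ := by
  obtain ⟨Φ⟩ := hZ
  have : Fact (Module.finrank ℝ (EuclideanSpace ℝ (Fin 3)) = 2 + 1) := ⟨by simp⟩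
  let v : S2 := ⟨EuclideanSpace.single 0 1, by simp⟩
  have h1 : Topology.IsOpenEmbedding (stereographic' 2 v).symm :=
    (stereographic' 2 v).symm.isOpenEmbedding (stereographic'_target v)
  let e : (ℝ × ℝ) ≃L[ℝ] EuclideanSpace ℝ (Fin 2) := ContinuousLinearEquiv.ofFinrankEq (by simp)
  exact ⟨_, Φ.symm.isOpenEmbedding.comp (h1.comp e.toHomeomorph.isOpenEmbedding)⟩

/-- the frame of the chart -/
structure IsFrame {Z : Type} [MetricSpace Z] (ψ : ℝ × ℝ → Z) (F : Frame Z) : Prop where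
  hI : F.I = ψ '' (Set.Ioo 1 2 ×ˢ Set.Ioo 1 2)
  hB : F.Bs = ψ '' (Set.Icc 0 3 ×ˢ Set.Icc 0 1)
  hT : F.Ts = ψ '' (Set.Icc 0 3 ×ˢ Set.Icc 2 3)
  hL : F.Ls = ψ '' (Set.Icc 0 1 ×ˢ Set.Icc 0 3)
  hR : F.Rs = ψ '' (Set.Icc 2 3 ×ˢ Set.Icc 0 3)

theorem h14_sep {Z : Type} [MetricSpace Z] {ψ : ℝ × ℝ → Z} (hψ : Topology.IsOpenEmbedding ψ)
    {A B : Set (ℝ × ℝ)} (hA : IsCompact A) (hB : IsCompact B) (hAB : Disjoint A B) :
    ∃ d : ℝ, 0 < d ∧ ∀ z ∈ ψ '' A, ∀ w ∈ ψ '' B, d ≤ dist z w := by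
  obtain ⟨d, hd, h⟩ := (hA.image hψ.continuous).exists_thickening_subset_open
    (hB.image hψ.continuous).isClosed.isOpen_compl
    ((Set.disjoint_image_of_injective hψ.injective hAB).subset_compl_right)
  refine ⟨d, hd, fun z hz w hw => not_lt.1 fun hlt => ?_⟩
  exact h (mem_thickening_iff.2 ⟨z, hz, by rwa [dist_comm]⟩) hw

/-- Proof: disjoint compact sets are at positive distance; `closure I ⊆ ψ '' ([1,2]²)` (compact). -/
theorem exists_frame {Z : Type} [MetricSpace Z] {ψ : ℝ × ℝ → Z}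
    (hψ : Topology.IsOpenEmbedding ψ) : ∃ F : Frame Z, IsFrame ψ F := by
  obtain ⟨d1, hd1, h1⟩ := h14_sep hψ (A := Set.Icc 0 3 ×ˢ Set.Icc 0 1) (B := Set.Icc 0 3 ×ˢ Set.Icc 2 3)
    (isCompact_Icc.prod isCompact_Icc) (isCompact_Icc.prod isCompact_Icc)
    (Set.disjoint_left.2 fun p hp hq => by linarith [hp.2.2, hq.2.1])
  obtain ⟨d2, hd2, h2⟩ := h14_sep hψ (A := Set.Icc 0 1 ×ˢ Set.Icc 0 3) (B := Set.Icc 2 3 ×ˢ Set.Icc 0 3)
    (isCompact_Icc.prod isCompact_Icc) (isCompact_Icc.prod isCompact_Icc)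
    (Set.disjoint_left.2 fun p hp hq => by linarith [hp.1.2, hq.1.1])
  refine ⟨{ I := ψ '' (Set.Ioo 1 2 ×ˢ Set.Ioo 1 2)
            Bs := ψ '' (Set.Icc 0 3 ×ˢ Set.Icc 0 1)
            Ts := ψ '' (Set.Icc 0 3 ×ˢ Set.Icc 2 3)
            Ls := ψ '' (Set.Icc 0 1 ×ˢ Set.Icc 0 3)
            Rs := ψ '' (Set.Icc 2 3 ×ˢ Set.Icc 0 3)
            d0 := min d1 d2
            d0_pos := lt_min hd1 hd2
            BT := fun z hz w hw => (min_le_left _ _).trans (h1 z hz w hw)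
            LR := fun z hz w hw => (min_le_right _ _).trans (h2 z hz w hw)
            Bne := ⟨_, (0, 0), by norm_num, rfl⟩
            Tne := ⟨_, (0, 2), by norm_num, rfl⟩
            Lne := ⟨_, (0, 0), by norm_num, rfl⟩
            Rne := ⟨_, (2, 0), by norm_num, rfl⟩
            isOpen_I := hψ.isOpenMap _ (isOpen_Ioo.prod isOpen_Ioo)
            notI := ?_
            cl := ?_ }, ⟨rfl, rfl, rfl, rfl, rfl⟩⟩
  · rintro z hz ⟨q, hq, rfl⟩
    rcases hz with ((⟨p, hp, e⟩ | ⟨p, hp, e⟩) | ⟨p, hp, e⟩) | ⟨p, hp, e⟩ <;>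
      obtain rfl := hψ.injective e
    · linarith [hp.2.2, hq.2.1]
    · linarith [hp.2.1, hq.2.2]
    · linarith [hp.1.2, hq.1.1]
    · linarith [hp.1.1, hq.1.2]
  · intro z hz
    have hc : IsClosed (ψ '' (Set.Icc (1 : ℝ) 2 ×ˢ Set.Icc (1 : ℝ) 2)) :=
      ((isCompact_Icc.prod isCompact_Icc).image hψ.continuous).isClosed
    obtain ⟨p, ⟨⟨a1, a2⟩, a3, a4⟩, rfl⟩ := closure_minimal
      (Set.image_mono (Set.prod_mono Set.Ioo_subset_Icc_self Set.Ioo_subset_Icc_self)) hc hz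
    rcases a3.eq_or_lt with b3 | b3
    · exact Or.inr (Or.inl (Or.inl (Or.inl ⟨p, ⟨⟨by linarith, by linarith⟩, by linarith, by linarith⟩, rfl⟩)))
    rcases a4.eq_or_lt with b4 | b4
    · exact Or.inr (Or.inl (Or.inl (Or.inr ⟨p, ⟨⟨by linarith, by linarith⟩, by linarith, by linarith⟩, rfl⟩)))
    rcases a1.eq_or_lt with b1 | b1
    · exact Or.inr (Or.inl (Or.inr ⟨p, ⟨⟨by linarith, by linarith⟩, by linarith, by linarith⟩, rfl⟩))
    rcases a2.eq_or_lt with b2 | b2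
    · exact Or.inr (Or.inr ⟨p, ⟨⟨by linarith, by linarith⟩, by linarith, by linarith⟩, rfl⟩)
    exact Or.inl ⟨p, ⟨⟨b1, b2⟩, b3, b4⟩, rfl⟩

/-- Proof: the compact set `ψ '' [1,2]²` lies in the open set `ψ '' (0,3)²`
(`IsCompact.exists_cthickening_subset_open`). -/
theorem exists_margin {Z : Type} [MetricSpace Z] {ψ : ℝ × ℝ → Z}
    (hψ : Topology.IsOpenEmbedding ψ) : ∃ e : ℝ, 0 < e ∧
      ∀ p ∈ Set.Icc (1 : ℝ) 2 ×ˢ Set.Icc (1 : ℝ) 2, ∀ z, dist z (ψ p) ≤ e → z ∈ ψ '' big := by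
  obtain ⟨e, he, h⟩ := ((isCompact_Icc.prod isCompact_Icc :
      IsCompact (Set.Icc (1 : ℝ) 2 ×ˢ Set.Icc (1 : ℝ) 2)).image hψ.continuous).exists_cthickening_subset_open
    (hψ.isOpenMap (Set.Ioo 0 3 ×ˢ Set.Ioo 0 3) (isOpen_Ioo.prod isOpen_Ioo))
    (Set.image_mono (Set.prod_mono (Set.Icc_subset_Ioo (by norm_num) (by norm_num))
      (Set.Icc_subset_Ioo (by norm_num) (by norm_num))))
  refine ⟨e, he, fun p hp z hz => ?_⟩
  exact Set.image_mono (Set.prod_mono Set.Ioo_subset_Icc_self Set.Ioo_subset_Icc_self)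
    (h (mem_cthickening_of_dist_le z (ψ p) e _ ⟨p, hp, rfl⟩ hz))

/-- uniform continuity of `ψ` on the big square -/
theorem exists_mesh {Z : Type} [MetricSpace Z] {ψ : ℝ × ℝ → Z} (hψ : Continuous ψ) {δ : ℝ}
    (hδ : 0 < δ) : ∃ N : ℕ, 0 < N ∧ ∀ p ∈ big, ∀ q ∈ big, dist p q ≤ 2 / N →
      dist (ψ p) (ψ q) < δ := by
  have hc : IsCompact big := isCompact_Icc.prod isCompact_Icc
  obtain ⟨η, hη, h⟩ := Metric.uniformContinuousOn_iff.1
    (hc.uniformContinuousOn_of_continuous hψ.continuousOn) δ hδ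
  obtain ⟨N, hN⟩ := exists_nat_gt (2 / η)
  have hN0 : (0 : ℝ) < N := lt_trans (by positivity) hN
  refine ⟨N, by exact_mod_cast hN0, fun p hp q hq hpq => h p hp q hq (hpq.trans_lt ?_)⟩
  rw [div_lt_iff₀ hη] at hN
  rw [div_lt_iff₀ hN0]
  linarith

/-- The labelling.  Proof: `L` from `LLC1`, `e` from `exists_margin`, `m` from `Doubling` with
`A = 2 (L + 1)`; `A0 = 2 (m + 1) (L + 1)`, `δ0 = e / L`.  `pos w = ψ (gp w)`; `Nt` = a maximal
`δ`-separated set of free vertices (finite type: take one of maximal cardinality);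
`R = (L + 1) δ`, `K z = {w | Conn HexAdj {u | dist (pos u) (pos z) ≤ R} z w}` (a chain from `z` inside
the ball lies inside `K z`).  A free `w` has `z ∈ Nt` with `dist < δ`; the `LLC1` path from `pos z` to
`pos w` stays within `L δ ≤ e` of `pos z`, so `chart_lift` (with `Path.extend`, `τ = 1`, `rd_gp`)
gives `w ∈ K z`.  Colour `Nt` by `exists_colouring` for the relation `dist ≤ 2 R` (the images
`pos '' Nt` are `δ`-separated, `pos` is injective); `exists_merge`; vertices with `lab0 ≠ none` are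
labelled by `LState.ext`. -/
theorem exists_label {Z : Type} [MetricSpace Z] (hD : Doubling Z) (h1 : LLC1 Z)
    {ψ : ℝ × ℝ → Z} (hψ : Topology.IsOpenEmbedding ψ) :
    ∃ A0 δ0 : ℝ, 0 ≤ A0 ∧ 0 < δ0 ∧ ∀ δ : ℝ, 0 < δ → δ < δ0 → ∀ N : ℕ, 0 < N →
      (∀ p ∈ big, ∀ q ∈ big, dist p q ≤ 2 / N → dist (ψ p) (ψ q) < δ) →
      ∃ (Nt : Set (Bo N)) (l : Bo N → Option (Bo N ⊕ Fin 4)),
        LState HexAdj (fun w => ψ (gp w)) lab0 Nt (A0 * δ) l ∧ (∀ w, l w ≠ none) ∧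
        (∀ z ∈ Nt, lab0 z = none) ∧
        ∀ z ∈ Nt, ∀ z' ∈ Nt, z ≠ z' → δ ≤ dist (ψ (gp z)) (ψ (gp z')) := by
  classical
  obtain ⟨L, hL, hp⟩ := h1
  obtain ⟨e, he, hm⟩ := exists_margin hψ
  obtain ⟨m, hmD⟩ := hD (2 * (L + 1))
  have hL0 : 0 < L := by linarith
  refine ⟨2 * (m + 1 : ℕ) * (L + 1), e / L, by positivity, by positivity, fun δ hδ hδe N hN hmesh => ?_⟩
  set pos : Bo N → Z := fun w => ψ (gp w) with hpos
  have hinj : Function.Injective pos := hψ.injective.comp (gp_injective hN)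
  obtain ⟨F, hF, hmax⟩ := Finset.exists_max_image
    (Finset.univ.filter fun F : Finset (Bo N) => (∀ z ∈ F, lab0 z = none) ∧
      ∀ z ∈ F, ∀ z' ∈ F, z ≠ z' → δ ≤ dist (pos z) (pos z')) Finset.card ⟨∅, by simp⟩
  obtain ⟨hF1, hF2⟩ := (Finset.mem_filter.1 hF).2
  have hcov : ∀ w, lab0 w = none → ∃ z ∈ F, dist (pos z) (pos w) < δ := by
    intro w hw
    by_contra hn
    push Not at hn
    have hwF : w ∉ F := fun h => by
      have := hn w h
      rw [dist_self] at this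
      linarith
    have := hmax (insert w F) (Finset.mem_filter.2 ⟨Finset.mem_univ _, fun z hz => ?_, fun z hz z' hz' hne => ?_⟩)
    · rw [Finset.card_insert_of_notMem hwF] at this
      omega
    · rcases Finset.mem_insert.1 hz with rfl | hz
      · exact hw
      · exact hF1 z hz
    · rcases Finset.mem_insert.1 hz with rfl | hz2
      · rcases Finset.mem_insert.1 hz' with rfl | hz3
        · exact (hne rfl).elim
        · rw [dist_comm]; exact hn z' hz3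
      · rcases Finset.mem_insert.1 hz' with rfl | hz3
        · exact hn z hz2
        · exact hF2 z hz2 z' hz3 hne
  set R : ℝ := (L + 1) * δ with hR
  have hR0 : 0 ≤ R := by positivity
  set K : Bo N → Set (Bo N) := fun z => {w | Conn HexAdj {u | dist (pos u) (pos z) ≤ R} z w} with hK
  have hK0 : ∀ z, z ∈ K z := fun z => Conn.refl (by simpa using hR0)
  have hK1 : ∀ z, ∀ w ∈ K z, Conn HexAdj (K z) z w ∧ dist (pos w) (pos z) ≤ R := fun z w hw =>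
    ⟨Conn.ind hw (fun y => Conn HexAdj (K z) z y) (Conn.refl (hK0 z))
      fun a b hza ha hab hb => ha.tail hab (hza.tail hab hb),
      Conn.right_mem (A := {u | dist (pos u) (pos z) ≤ R}) hw⟩
  obtain ⟨col, hcol⟩ := exists_colouring F (fun x y => dist (pos x) (pos y) ≤ 2 * R)
    (fun x y h => by rwa [dist_comm]) m fun x _ => by
      rw [← Finset.card_image_of_injective _ hinj]
      refine hmD (pos x) δ _ hδ ?_ ?_
      · intro a ha b hb hab
        obtain ⟨a', ha', rfl⟩ := Finset.mem_image.1 ha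
        obtain ⟨b', hb', rfl⟩ := Finset.mem_image.1 hb
        exact hF2 a' (Finset.mem_filter.1 ha').1 b' (Finset.mem_filter.1 hb').1 fun h => hab (h ▸ rfl)
      · intro a ha
        obtain ⟨a', ha', rfl⟩ := Finset.mem_image.1 ha
        rw [dist_comm]
        exact (Finset.mem_filter.1 ha').2.trans (le_of_eq (by rw [hR]; ring))
  obtain ⟨l, hl, hl'⟩ := exists_merge HexAdj pos lab0 (F : Set (Bo N)) (fun a b h => h.symm) hR0 K
    (fun z _ => hK0 z) (fun z _ => hK1 z) (m + 1) col fun z hz z' hz' hne hc => by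
      refine Set.disjoint_left.2 fun w h1 h2 => hcol z hz z' hz' hne ?_ hc
      have := dist_triangle_left (pos z) (pos z') (pos w)
      linarith [(hK1 z w h1).2, (hK1 z' w h2).2]
  refine ⟨F, l, ?_, fun w => ?_, hF1, hF2⟩
  · have e1 : 2 * ((m + 1 : ℕ) : ℝ) * (L + 1) * δ = 2 * ((m + 1 : ℕ) : ℝ) * R := by rw [hR]; ring
    rw [e1]
    exact hl
  · rcases hw : lab0 w with _ | s
    · obtain ⟨z, hz, hzw⟩ := hcov w hw
      obtain ⟨γ, hγ⟩ := hp (pos z) (pos w)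
      have hLδ : L * dist (pos z) (pos w) ≤ L * δ := mul_le_mul_of_nonneg_left hzw.le hL0.le
      have hγ' : ∀ t, dist (γ.extend t) (pos z) ≤ L * δ := fun t => (hγ _).trans hLδ
      have hLe : L * δ ≤ e := by
        rw [lt_div_iff₀ hL0] at hδe
        linarith
      have hz1 := gp_free hN (hF1 z hz)
      have hc := chart_lift hN hψ hmesh zero_le_one (γ := γ.extend) γ.continuous_extend.continuousOn
        (fun t _ => hm (gp z) ⟨Set.Ioo_subset_Icc_self hz1.1, Set.Ioo_subset_Icc_self hz1.2⟩ _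
          ((hγ' t).trans hLe)) (p0 := gp z) (p1 := gp w) γ.extend_zero γ.extend_one
      rw [rd_gp hN, rd_gp hN] at hc
      refine hl' z hz w (hc.mono ?_)
      rintro u ⟨t, -, ht⟩
      have := dist_triangle (pos u) (γ.extend t) (pos z)
      show dist (pos u) (pos z) ≤ R
      have := hγ' t
      rw [hR]
      linarith
    · rw [hl.ext w s hw]
      exact Option.some_ne_none _

/-- opposite side classes are not adjacent: each labelled vertex is `D`-close to its side set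
(`LState.side`, `gp_lab0`) and adjacent vertices are `δ`-close (`dist_gp_adj`) -/
theorem not_adj_sides {Z : Type} [MetricSpace Z] {ψ : ℝ × ℝ → Z} {F : Frame Z} (hF : IsFrame ψ F)
    {N : ℕ} (hN : 0 < N) {δ D : ℝ}
    (hδ : ∀ p ∈ big, ∀ q ∈ big, dist p q ≤ 2 / N → dist (ψ p) (ψ q) < δ)
    (hd : 2 * D + δ ≤ F.d0) {Nt : Set (Bo N)} {l : Bo N → Option (Bo N ⊕ Fin 4)}
    (h : LState HexAdj (fun w => ψ (gp w)) lab0 Nt D l) :
    (∀ w w', l w = some (.inr 0) → l w' = some (.inr 1) → ¬ HexAdj w w') ∧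
    (∀ w w', l w = some (.inr 2) → l w' = some (.inr 3) → ¬ HexAdj w w') := by
  have key : ∀ (w w' : Bo N) (s s' : Fin 4), l w = some (.inr s) → l w' = some (.inr s') → HexAdj w w' →
      ∃ u u' : Bo N, lab0 u = some s ∧ lab0 u' = some s' ∧ dist (ψ (gp u)) (ψ (gp u')) < F.d0 := by
    intro w w' s s' hw hw' ha
    obtain ⟨u, a1, -, a2⟩ := h.side w s hw
    obtain ⟨u', b1, -, b2⟩ := h.side w' s' hw'
    have hN0 : (0 : ℝ) < N := by exact_mod_cast hN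
    have c := hδ _ (gp_mem_big hN w) _ (gp_mem_big hN w')
      ((dist_gp_adj hN ha).trans (by gcongr; norm_num))
    refine ⟨u, u', a1, b1, ?_⟩
    have := dist_triangle4 (ψ (gp u)) (ψ (gp w)) (ψ (gp w')) (ψ (gp u'))
    rw [dist_comm (ψ (gp u)) (ψ (gp w))] at this
    linarith
  refine ⟨fun w w' hw hw' ha => ?_, fun w w' hw hw' ha => ?_⟩
  · obtain ⟨u, u', a1, a2, a3⟩ := key w w' _ _ hw hw' ha
    refine absurd (F.BT _ ?_ _ ?_) (not_le.2 a3)
    · rw [hF.hB]; exact ⟨_, (gp_lab0 hN).1 a1, rfl⟩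
    · rw [hF.hT]; exact ⟨_, (gp_lab0 hN).2.1 a2, rfl⟩
  · obtain ⟨u, u', a1, a2, a3⟩ := key w w' _ _ hw hw' ha
    refine absurd (F.LR _ ?_ _ ?_) (not_le.2 a3)
    · rw [hF.hL]; exact ⟨_, (gp_lab0 hN).2.2.1 a1, rfl⟩
    · rw [hF.hR]; exact ⟨_, (gp_lab0 hN).2.2.2 a2, rfl⟩

/-- Path lifting to tiles.  Proof: extend `γ` to `ℝ` (`Path.extend`).  If `γ` stays in `I` take
`τ = 1`; otherwise let `τ` be the first time with `γ τ ∉ I` (`I` open, `γ 0 ∈ I`), then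
`γ t ∈ closure I ⊆ ψ '' [1,2]²` for `t ≤ τ` and `γ τ = ψ p1` with `p1` outside the open inner square,
so `rd N p1` has a side label (`lab0_rd`, `LState.ext`).  Apply `chart_lift` and `proj_chain`
(a vertex `u` that is `δ`-close to `γ` and labelled `t` has `dist (c t) γ < D + δ`). -/
theorem tile_lift {Z : Type} [MetricSpace Z] {ψ : ℝ × ℝ → Z} (hψ : Topology.IsOpenEmbedding ψ)
    {F : Frame Z} (hF : IsFrame ψ F) {N : ℕ} (hN : 0 < N) {δ D e : ℝ}
    (hδ : ∀ p ∈ big, ∀ q ∈ big, dist p q ≤ 2 / N → dist (ψ p) (ψ q) < δ) (he : D + δ ≤ e)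
    {Nt : Set (Bo N)} {l : Bo N → Option (Bo N ⊕ Fin 4)}
    (h : LState HexAdj (fun w => ψ (gp w)) lab0 Nt D l) (ht : ∀ w, l w ≠ none)
    (hfree : ∀ z ∈ Nt, lab0 z = none) (x : Tl l) (q : Z) (γ : Path (ψ (gp x.1)) q) :
    (q ∈ F.I ∧ ∀ y : Tl l, q = ψ (gp y.1) →
      Conn (tadj l) (near (fun t : Tl l => ψ (gp t.1)) e γ) x y) ∨
    ∃ (y : Tl l) (s : Fin 4), Conn (tadj l) (near (fun t : Tl l => ψ (gp t.1)) e γ) x y ∧
      tside l s y := by
  have hgc : Continuous γ.extend := γ.continuous_extend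
  have hx0 : gp x.1 ∈ Set.Ioo (1 : ℝ) 2 ×ˢ Set.Ioo (1 : ℝ) 2 :=
    gp_free hN (hfree _ (h.tile x.1 x.1 x.2).2.1)
  have hsub : Set.Icc (1 : ℝ) 2 ×ˢ Set.Icc (1 : ℝ) 2 ⊆ big := fun p hp =>
    ⟨⟨by linarith [hp.1.1], by linarith [hp.1.2]⟩, ⟨by linarith [hp.2.1], by linarith [hp.2.2]⟩⟩
  have hoc : Set.Ioo (1 : ℝ) 2 ×ˢ Set.Ioo (1 : ℝ) 2 ⊆ Set.Icc (1 : ℝ) 2 ×ˢ Set.Icc (1 : ℝ) 2 :=
    Set.prod_mono Set.Ioo_subset_Icc_self Set.Ioo_subset_Icc_self
  have key : ∀ τ ∈ Set.Icc (0 : ℝ) 1, (∀ t ∈ Set.Icc 0 τ, γ.extend t ∈ ψ '' big) →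
      ∀ p1, γ.extend τ = ψ p1 →
      (∃ y : Tl l, l (rd N p1) = some (.inl y.1) ∧
        Conn (tadj l) (near (fun t : Tl l => ψ (gp t.1)) e γ) x y) ∨
      ∃ (y : Tl l) (s : Fin 4), Conn (tadj l) (near (fun t : Tl l => ψ (gp t.1)) e γ) x y ∧
        tside l s y := by
    intro τ hτ hb p1 h1
    have hc := chart_lift hN hψ hδ hτ.1 hgc.continuousOn hb (p0 := gp x.1) γ.extend_zero h1
    rw [rd_gp hN] at hc
    refine proj_chain h ht hc x.2 ?_
    rintro u ⟨t, htτ, hd⟩ y hy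
    have ht1 : t ∈ Set.Icc (0 : ℝ) 1 := ⟨htτ.1, htτ.2.trans hτ.2⟩
    refine ⟨⟨t, ht1⟩, ?_⟩
    rw [γ.extend_apply ht1] at hd
    have h2 := (h.tile u y.1 hy).2.2.2
    have h3 := dist_triangle_left (ψ (gp y.1)) (γ ⟨t, ht1⟩) (ψ (gp u))
    have h4 := dist_triangle (ψ (gp y.1)) (ψ (gp u)) (γ ⟨t, ht1⟩)
    rw [dist_comm] at h2
    show dist (ψ (gp y.1)) (γ ⟨t, ht1⟩) < e
    linarith
  by_cases hall : ∀ t ∈ Set.Icc (0 : ℝ) 1, γ.extend t ∈ F.I
  · have hq : q ∈ F.I := by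
      have := hall 1 ⟨zero_le_one, le_rfl⟩
      rwa [γ.extend_one] at this
    have hq' := hq
    rw [hF.hI] at hq'
    obtain ⟨p1, -, hp1⟩ := hq'
    rcases key 1 ⟨zero_le_one, le_rfl⟩ (fun t ht' => by
      have := hall t ht'
      rw [hF.hI] at this
      exact Set.image_mono (hoc.trans hsub) this) p1 (by rw [γ.extend_one, hp1]) with
      ⟨y0, hy0, hc⟩ | hr
    · refine Or.inl ⟨hq, fun y hy => ?_⟩
      have e1 : p1 = gp y.1 := hψ.injective (hp1.trans hy)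
      rw [e1, rd_gp hN, y.2] at hy0
      have e2 : y = y0 := Subtype.ext (Sum.inl_injective (Option.some_injective _ hy0))
      rw [e2]
      exact hc
    · exact Or.inr hr
  · push Not at hall
    have hS : IsCompact (Set.Icc (0 : ℝ) 1 ∩ γ.extend ⁻¹' F.Iᶜ) :=
      isCompact_Icc.inter_right (F.isOpen_I.isClosed_compl.preimage hgc)
    obtain ⟨τ, ⟨hτ, hτI⟩, hmin⟩ := hS.exists_isLeast hall
    have hτ0 : 0 < τ := by
      refine lt_of_le_of_ne hτ.1 fun h0 => hτI ?_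
      rw [← h0, γ.extend_zero, hF.hI]
      exact ⟨_, hx0, rfl⟩
    have hC : IsClosed (ψ '' (Set.Icc (1 : ℝ) 2 ×ˢ Set.Icc (1 : ℝ) 2)) :=
      ((isCompact_Icc.prod isCompact_Icc).image hψ.continuous).isClosed
    have hin : Set.Icc 0 τ ⊆ γ.extend ⁻¹' (ψ '' (Set.Icc (1 : ℝ) 2 ×ˢ Set.Icc (1 : ℝ) 2)) := by
      rw [← closure_Ico hτ0.ne]
      refine closure_minimal (fun t ht' => ?_) (hC.preimage hgc)
      have : γ.extend t ∈ F.I := by
        by_contra hn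
        exact absurd (hmin ⟨⟨ht'.1, ht'.2.le.trans hτ.2⟩, hn⟩) (not_le.2 ht'.2)
      rw [hF.hI] at this
      exact Set.image_mono hoc this
    obtain ⟨p1, hp1, he1⟩ := hin ⟨hτ.1, le_rfl⟩
    rcases key τ hτ (fun t ht' => Set.image_mono hsub (hin ht')) p1 he1.symm with
      ⟨y0, hy0, -⟩ | hr
    · exfalso
      have hn : p1 ∉ Set.Ioo (1 : ℝ) 2 ×ˢ Set.Ioo (1 : ℝ) 2 := fun hp => hτI (by
        rw [hF.hI]; exact ⟨p1, hp, he1⟩)
      obtain ⟨s, hs⟩ := Option.ne_none_iff_exists'.1 (lab0_rd hN (hsub hp1) hn)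
      rw [h.ext _ s hs] at hy0
      cases hy0
    · exact Or.inr hr

/-- Assembly of `GT` with `Q = tileQuad ..`, `c t = ψ (gp t.1)`, `K = 2 A0 + 2`. -/
theorem gt_of_label {Z : Type} [MetricSpace Z] {ψ : ℝ × ℝ → Z} (hψ : Topology.IsOpenEmbedding ψ)
    {F : Frame Z} (hF : IsFrame ψ F) {N : ℕ} (hN : 0 < N) {δ A0 : ℝ} (hA : 0 ≤ A0) (hδ0 : 0 < δ)
    (hδ : ∀ p ∈ big, ∀ q ∈ big, dist p q ≤ 2 / N → dist (ψ p) (ψ q) < δ)
    (hd : 2 * (A0 * δ) + δ ≤ F.d0) {Nt : Set (Bo N)} {l : Bo N → Option (Bo N ⊕ Fin 4)}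
    (h : LState HexAdj (fun w => ψ (gp w)) lab0 Nt (A0 * δ) l) (ht : ∀ w, l w ≠ none)
    (hfree : ∀ z ∈ Nt, lab0 z = none)
    (hsep : ∀ z ∈ Nt, ∀ z' ∈ Nt, z ≠ z' → δ ≤ dist (ψ (gp z)) (ψ (gp z'))) :
    Nonempty (GT F (2 * A0 + 2) δ (Tl l)) := by
  obtain ⟨h01, h23⟩ := not_adj_sides hF hN hδ hd h
  have hD : 0 ≤ A0 * δ := mul_nonneg hA hδ0.le
  have hK : (2 * A0 + 2) * δ = 2 * (A0 * δ) + 2 * δ := by ring
  have hN' : (0 : ℝ) < N := by exact_mod_cast hN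
  have h12 : (1 : ℝ) / N ≤ 2 / N := div_le_div_of_nonneg_right (by norm_num) hN'.le
  have hadj : ∀ w w' : Bo N, HexAdj w w' → dist (ψ (gp w)) (ψ (gp w')) < δ := fun w w' hw =>
    hδ _ (gp_mem_big hN w) _ (gp_mem_big hN w') ((dist_gp_adj hN hw).trans h12)
  have hside : ∀ (s : Fin 4) (x : Tl l), tside l s x → ∃ w0 : Bo N, lab0 w0 = some s ∧
      dist (ψ (gp x.1)) (ψ (gp w0)) < (2 * A0 + 2) * δ := by
    rintro s x ⟨w, w', hw, hw', ha⟩
    obtain ⟨w0, h0, -, h1⟩ := h.side w' s hw'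
    have h2 := (h.tile w x.1 hw).2.2.2
    have h3 := hadj w w' ha
    have h4 := dist_triangle4 (ψ (gp x.1)) (ψ (gp w)) (ψ (gp w')) (ψ (gp w0))
    rw [dist_comm] at h2
    exact ⟨w0, h0, by linarith⟩
  have hbd : ∀ (s : Fin 4) (y : Tl l), tside l s y → (tileQuad hN h ht h01 h23).Bd y := by
    intro s y hy
    fin_cases s
    · exact Or.inl hy
    · exact Or.inr (Or.inl hy)
    · exact Or.inr (Or.inr (Or.inl hy))
    · exact Or.inr (Or.inr (Or.inr hy))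
  have hB : ∀ w0 : Bo N, lab0 w0 = some 0 → ψ (gp w0) ∈ F.Bs := fun w0 h0 => by
    rw [hF.hB]; exact ⟨_, (gp_lab0 hN).1 h0, rfl⟩
  have hT : ∀ w0 : Bo N, lab0 w0 = some 1 → ψ (gp w0) ∈ F.Ts := fun w0 h0 => by
    rw [hF.hT]; exact ⟨_, (gp_lab0 hN).2.1 h0, rfl⟩
  have hL : ∀ w0 : Bo N, lab0 w0 = some 2 → ψ (gp w0) ∈ F.Ls := fun w0 h0 => by
    rw [hF.hL]; exact ⟨_, (gp_lab0 hN).2.2.1 h0, rfl⟩
  have hR : ∀ w0 : Bo N, lab0 w0 = some 3 → ψ (gp w0) ∈ F.Rs := fun w0 h0 => by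
    rw [hF.hR]; exact ⟨_, (gp_lab0 hN).2.2.2 h0, rfl⟩
  have he : A0 * δ + δ ≤ (2 * A0 + 2) * δ := by linarith
  refine ⟨{ Q := tileQuad hN h ht h01 h23
            c := fun t => ψ (gp t.1)
            mem := fun x => ?_
            sep := fun x y hxy => hsep _ (h.tile _ _ x.2).2.1 _ (h.tile _ _ y.2).2.1
              fun e => hxy (Subtype.ext e)
            adj_dist := ?_
            B_near := fun x hx => ?_
            T_near := fun x hx => ?_
            L_near := fun x hx => ?_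
            R_near := fun x hx => ?_
            dense := fun z hz => ?_
            lift1 := fun x y γ => ?_
            lift2 := fun x q γ hq => ?_ }⟩
  · rw [hF.hI]
    exact ⟨_, gp_free hN (hfree _ (h.tile _ _ x.2).2.1), rfl⟩
  · rintro x y ⟨w, w', hw, hw', ha⟩
    have h1 := (h.tile w' y.1 hw').2.2.2
    have h2 := (h.tile w x.1 hw).2.2.2
    have h3 := hadj w w' ha
    have h4 := dist_triangle4 (ψ (gp x.1)) (ψ (gp w)) (ψ (gp w')) (ψ (gp y.1))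
    rw [dist_comm] at h2
    linarith
  · obtain ⟨w0, h0, h1⟩ := hside 0 x hx
    exact ⟨_, hB w0 h0, h1⟩
  · obtain ⟨w0, h0, h1⟩ := hside 1 x hx
    exact ⟨_, hT w0 h0, h1⟩
  · obtain ⟨w0, h0, h1⟩ := hside 2 x hx
    exact ⟨_, hL w0 h0, h1⟩
  · obtain ⟨w0, h0, h1⟩ := hside 3 x hx
    exact ⟨_, hR w0 h0, h1⟩
  · rw [hF.hI] at hz
    obtain ⟨p, hp, rfl⟩ := hz
    have hpb : p ∈ big := ⟨⟨by linarith [hp.1.1], by linarith [hp.1.2]⟩,
      ⟨by linarith [hp.2.1], by linarith [hp.2.2]⟩⟩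
    have h1 := hδ _ (gp_mem_big hN (rd N p)) _ hpb ((dist_gp_rd hN hpb).trans h12)
    rcases hl : l (rd N p) with _ | t | s
    · exact absurd hl (ht _)
    · obtain ⟨h2, -, -, h3⟩ := h.tile _ t hl
      refine Or.inl ⟨⟨t, h2⟩, ?_⟩
      have h4 := dist_triangle (ψ (gp t)) (ψ (gp (rd N p))) (ψ p)
      rw [dist_comm] at h3
      show dist (ψ (gp t)) (ψ p) < _
      linarith
    · obtain ⟨w0, h0, -, h3⟩ := h.side _ s hl
      refine Or.inr ⟨ψ (gp w0), ?_, ?_⟩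
      · fin_cases s
        · exact Or.inl (Or.inl (Or.inl (hB w0 h0)))
        · exact Or.inl (Or.inl (Or.inr (hT w0 h0)))
        · exact Or.inl (Or.inr (hL w0 h0))
        · exact Or.inr (hR w0 h0)
      · have h4 := dist_triangle (ψ p) (ψ (gp (rd N p))) (ψ (gp w0))
        rw [dist_comm] at h1
        linarith
  · rcases tile_lift hψ hF hN hδ he h ht hfree x _ γ with h1 | ⟨y', s, h1, h2⟩
    · exact Or.inl (h1.2 y rfl)
    · exact Or.inr ⟨y', h1, hbd s y' h2⟩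
  · rcases tile_lift hψ hF hN hδ he h ht hfree x q γ with h1 | ⟨y', s, h1, h2⟩
    · exact absurd h1.1 hq
    · exact ⟨y', h1, hbd s y' h2⟩

theorem tileStmt : TileStmt := by
  intro Z _ hZ hD h1
  obtain ⟨ψ, hψ⟩ := exists_chart hZ
  obtain ⟨F, hF⟩ := exists_frame hψ
  obtain ⟨A0, δ0, hA, hδ0, H⟩ := exists_label hD h1 hψ
  have hd0 := F.d0_pos
  refine ⟨F, 2 * A0 + 2, min δ0 (F.d0 / (2 * A0 + 1)), by linarith,
    lt_min hδ0 (by positivity), fun δ hδ hδ' => ?_⟩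
  obtain ⟨N, hN, hm⟩ := exists_mesh hψ.continuous hδ
  obtain ⟨Nt, l, h, ht, hfree, hsep⟩ := H δ hδ (lt_of_lt_of_le hδ' (min_le_left _ _)) N hN hm
  refine ⟨Tl l, inferInstance, gt_of_label hψ hF hN hA hδ hm ?_ h ht hfree hsep⟩
  have h2 : δ < F.d0 / (2 * A0 + 1) := lt_of_lt_of_le hδ' (min_le_right _ _)
  rw [lt_div_iff₀ (by positivity)] at h2
  nlinarith

end Crest.Agent.R193.Sq
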