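import Mathlib
import Crest.Agent.R193.SqApp
import Crest.Agent.R193.SqLimA
import Crest.Agent.R193.SqSch1
import Crest.Agent.R193.SqTile4

/-! Row 193: block [U]. -/

set_option autoImplicit false

namespace Crest.Agent.R193.Sq

open Metric

theorem ublock : UStmt := by
  intro Z _ hZ hD h1 h2 hU
  obtain ⟨F, K, δ0, hK, hδ0, hT⟩ := tileStmt Z hZ hD h1
  obtain ⟨C, r0, hC, hr0, hS⟩ := exists_sig hD hU hK
  obtain ⟨Φ⟩ := hZ
  have : CompactSpace Z := Φ.symm.compactSpace
  obtain ⟨L1, hL1, l1⟩ := h1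
  obtain ⟨L2, hL2, l2⟩ := h2
  obtain ⟨D, hDD⟩ := Metric.isBounded_iff.1 (isCompact_univ (X := Z)).isBounded
  let P : Par Z :=
    { F := F, K := K, L := max L1 L2, C := C, r0 := r0, D := D, hK := hK
      hL := hL1.trans (le_max_left _ _), hC := hC, hr0 := hr0
      hD := fun a b => hDD (Set.mem_univ a) (Set.mem_univ b)
      llc1 := fun a b => by
        obtain ⟨γ, hγ⟩ := l1 a b
        exact ⟨γ, fun t => (hγ t).trans
          (mul_le_mul_of_nonneg_right (le_max_left _ _) dist_nonneg)⟩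
      llc2 := fun ξ a b r hr ha hb =>
        l2 ξ a b r hr ((mul_le_mul_of_nonneg_right (le_max_right _ _) hr.le).trans ha)
          ((mul_le_mul_of_nonneg_right (le_max_right _ _) hr.le).trans hb)
      dbl := hD }
  obtain ⟨s⟩ := exists_seq P hδ0 fun δ h0 h0' => by
    obtain ⟨T, iT, ⟨g⟩⟩ := hT δ h0 h0'
    obtain ⟨S, hS1⟩ := schramm T g.Q
    exact ⟨⟨δ, T, iT, g, S, hS F δ T g h0, h0, hS1⟩, rfl⟩
  exact qsChart_of_app s.appChart

end Crest.Agent.R193.Sq
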