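import Mathlib
import Crest.Agent.R193.SqDefs

/-! Row 193 [U]: from tile estimates to approximate charts. -/

set_option autoImplicit false

namespace Crest.Agent.R193.Sq.X

open Metric Filter

/-- A sequence of tilings with all the estimates, near the points `z n`. -/
structure TSeq (Z : Type) [MetricSpace Z] where
  T : ℕ → Type
  c : ∀ n, T n → Z
  sq : ∀ n, T n → Set (ℝ × ℝ)
  pt : ∀ n, T n → ℝ × ℝ
  sel : ∀ n, Z → T n
  z : ℕ → Z
  R : ℝ
  M : ℝ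
  t0 : ℝ
  R_pos : 0 < R
  t0_pos : 0 < t0
  pt_mem : ∀ n x, pt n x ∈ sq n x
  bound : ∀ n x, ∀ w ∈ sq n x, ‖w‖ ≤ M
  sel_near : ∀ η : ℝ, 0 < η → ∀ᶠ n in atTop, ∀ a ∈ ball (z n) R, dist (c n (sel n a)) a < η
  equi : ∀ ε : ℝ, 0 < ε → ∃ ρ : ℝ, 0 < ρ ∧ ∀ᶠ n in atTop, ∀ x y : T n,
    c n x ∈ ball (z n) (2 * R) → c n y ∈ ball (z n) (2 * R) → dist (c n x) (c n y) ≤ ρ →
      ∀ w ∈ sq n x, ∀ w' ∈ sq n y, dist w w' ≤ ε
  cover : ∀ᶠ n in atTop, ∀ x : T n, c n x ∈ ball (z n) (2 * R) → ∀ y : ℝ × ℝ,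
    dist y (pt n x) ≤ t0 → ∃ u : T n, y ∈ sq n u
  log : ∀ H : ℝ, ∃ Ψ : ℕ, ∀ η : ℝ, 0 < η → ∀ᶠ n in atTop, ∀ (r s : ℝ) (k : ℕ) (x x' x3 : T n),
    η ≤ r → r ≤ 4 * R → η ≤ s → 4 ^ k * s ≤ t0 → c n x ∈ ball (z n) (2 * R) →
      (∃ w ∈ sq n x', dist w (pt n x) ≤ s) → r ≤ dist (c n x) (c n x') →
      (∃ w ∈ sq n x3, 4 ^ k * s ≤ dist w (pt n x)) → dist (c n x) (c n x3) ≤ H * r → k ≤ Ψ
  ring : ∃ C A : ℝ, 0 ≤ C ∧ 1 ≤ A ∧ ∀ η : ℝ, 0 < η → ∀ᶠ n in atTop,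
    ∀ (x y : T n) (r t : ℝ) (k : ℕ), c n x ∈ ball (z n) (2 * R) → c n y ∈ ball (z n) (2 * R) →
      η ≤ r → dist (c n x) (c n y) ≤ r → A * 4 ^ k * r ≤ 4 * R → 0 ≤ t →
      (∀ u : T n, dist (c n u) (c n x) ≤ A * 4 ^ k * r → sq n u ⊆ closedBall (pt n x) t) →
      k * dist (pt n x) (pt n y) ^ 2 ≤ C * t ^ 2

namespace TSeq

variable {Z : Type} [MetricSpace Z] (D : TSeq Z)

/-- the approximate charts -/
def F (n : ℕ) (w : Z) : ℝ × ℝ := D.pt n (D.sel n w)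

/-- `sel_near` with `η = min R (ρ/3)` and `equi`, radius `ρ/3`. -/
theorem app_equi : ∀ ε : ℝ, 0 < ε → ∃ ρ : ℝ, 0 < ρ ∧ ∀ᶠ n in atTop, ∀ a ∈ ball (D.z n) D.R,
    ∀ b ∈ ball (D.z n) D.R, dist a b ≤ ρ → dist (D.F n a) (D.F n b) ≤ ε := by
  intro ε hε
  obtain ⟨ρ, hρ, h⟩ := D.equi ε hε
  refine ⟨ρ / 3, by positivity, ?_⟩
  filter_upwards [h, D.sel_near D.R D.R_pos, D.sel_near (ρ / 3) (by positivity)]
    with n h h1 h2 a ha b hb hab
  refine h _ _ ?_ ?_ ?_ _ (D.pt_mem n _) _ (D.pt_mem n _)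
  · have := dist_triangle (D.c n (D.sel n a)) a (D.z n)
    rw [mem_ball]
    linarith [h1 a ha, mem_ball.1 ha]
  · have := dist_triangle (D.c n (D.sel n b)) b (D.z n)
    rw [mem_ball]
    linarith [h1 b hb, mem_ball.1 hb]
  · have := dist_triangle4_right (D.c n (D.sel n a)) (D.c n (D.sel n b)) a b
    linarith [h2 a ha, h2 b hb]

/-- A tile whose square comes `κ`-close to `pt x` has its centre close to `c x`.  Proof: wlog
`η ≤ 4 R`; `Δ` a bound for all distances in the compact `Z`, `H = Δ / η`, `Ψ` from `log`,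
`κ = t0 / 4^(Ψ+1)`; otherwise apply `log` with `r = η`, `s = κ`, `k = Ψ+1` and `x3` a tile covering
the point `pt x + (t0, 0)` (`cover`). -/
theorem near_of_sq [CompactSpace Z] : ∀ η : ℝ, 0 < η → ∃ κ : ℝ, 0 < κ ∧ ∀ᶠ n in atTop,
    ∀ x x' : D.T n, D.c n x ∈ ball (D.z n) (2 * D.R) →
      (∃ w ∈ D.sq n x', dist w (D.pt n x) ≤ κ) → dist (D.c n x) (D.c n x') < η := by
  intro η hη
  have hR := D.R_pos
  have ht := D.t0_pos
  set r := min η (4 * D.R) with hr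
  have hr0 : 0 < r := lt_min hη (by positivity)
  obtain ⟨Ψ, hΨ⟩ := D.log (diam (Set.univ : Set Z) / r)
  set κ := D.t0 / 4 ^ (Ψ + 1) with hκ
  have hκ0 : 0 < κ := by positivity
  have e : 4 ^ (Ψ + 1) * κ = D.t0 := by rw [hκ]; field_simp
  refine ⟨κ, hκ0, ?_⟩
  filter_upwards [hΨ (min r κ) (lt_min hr0 hκ0), D.cover] with n h hc x x' hx hw
  by_contra hn
  have hy : dist (D.pt n x + (D.t0, 0)) (D.pt n x) = D.t0 := by
    rw [dist_self_add_left, Prod.norm_def]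
    simp [abs_of_pos ht, ht.le]
  obtain ⟨u, hu⟩ := hc x hx _ hy.le
  have := h r κ (Ψ + 1) x x' u (min_le_left _ _) (min_le_right _ _) (min_le_right _ _) e.le hx hw
    ((min_le_left _ _).trans (not_lt.1 hn)) ⟨_, hu, by rw [e, hy]⟩ (by
      rw [div_mul_cancel₀ _ hr0.ne']
      exact dist_le_diam_of_mem isCompact_univ.isBounded (Set.mem_univ _) (Set.mem_univ _))
  omega

/-- `near_of_sq` with `η/3` and `sel_near`. -/
theorem app_inj [CompactSpace Z] : ∀ η : ℝ, 0 < η → ∃ κ : ℝ, 0 < κ ∧ ∀ᶠ n in atTop,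
    ∀ a ∈ ball (D.z n) D.R, ∀ c ∈ ball (D.z n) D.R, η ≤ dist a c →
      κ ≤ dist (D.F n a) (D.F n c) := by
  intro η hη
  obtain ⟨κ, hκ, h⟩ := D.near_of_sq (η / 3) (by positivity)
  refine ⟨κ, hκ, ?_⟩
  filter_upwards [h, D.sel_near D.R D.R_pos, D.sel_near (η / 3) (by positivity)]
    with n h h1 h2 a ha c hc hac
  by_contra hn
  have h3 := h (D.sel n a) (D.sel n c) (by
    have := dist_triangle (D.c n (D.sel n a)) a (D.z n)
    rw [mem_ball]
    linarith [h1 a ha, mem_ball.1 ha]) ⟨_, D.pt_mem n _, by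
    rw [dist_comm]
    exact (not_le.1 hn).le⟩
  have := dist_triangle4_left (D.c n (D.sel n a)) (D.c n (D.sel n c)) a c
  linarith [h2 a ha, h2 c hc]

/-- Tile form of the three-point bound.  Proof: `Ψ` from `log H`, `k = Ψ+1`,
`M' = max (4^k) (2 M 4^k / t0)`.  If `4^k s ≤ t0`, `log` excludes `4^k s ≤ dist w (pt x)`; otherwise
`dist w (pt x) ≤ 2 M ≤ M' s` by `bound`. -/
theorem tile_bdd (H : ℝ) : ∃ M' : ℝ, 0 ≤ M' ∧ ∀ η : ℝ, 0 < η → ∀ᶠ n in atTop,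
    ∀ (r s : ℝ) (x x' u : D.T n), η ≤ r → r ≤ 4 * D.R → η ≤ s → D.c n x ∈ ball (D.z n) (2 * D.R) →
      dist (D.pt n x') (D.pt n x) ≤ s → r ≤ dist (D.c n x) (D.c n x') →
      dist (D.c n x) (D.c n u) ≤ H * r → D.sq n u ⊆ closedBall (D.pt n x) (M' * s) := by
  obtain ⟨Ψ, hΨ⟩ := D.log H
  have h4 : (0 : ℝ) < 4 ^ (Ψ + 1) := by positivity
  refine ⟨max (4 ^ (Ψ + 1)) (2 * D.M * 4 ^ (Ψ + 1) / D.t0), h4.le.trans (le_max_left _ _),
    fun η hη => ?_⟩
  filter_upwards [hΨ η hη] with n hn r s x x' u h1 h2 h3 h5 h6 h7 h8 w hw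
  have hs : 0 < s := hη.trans_le h3
  rw [mem_closedBall]
  by_cases hc : 4 ^ (Ψ + 1) * s ≤ D.t0
  · by_contra hd
    have h9 : 4 ^ (Ψ + 1) * s ≤ dist w (D.pt n x) :=
      (mul_le_mul_of_nonneg_right (le_max_left _ _) hs.le).trans (not_le.1 hd).le
    have := hn r s (Ψ + 1) x x' u h1 h2 h3 hc h5 ⟨_, D.pt_mem n x', h6⟩ h7 ⟨w, hw, h9⟩ h8
    omega
  · have a1 := D.bound n u w hw
    have a2 := D.bound n x _ (D.pt_mem n x)
    have a3 : dist w (D.pt n x) ≤ 2 * D.M := by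
      have := dist_le_norm_add_norm w (D.pt n x)
      linarith
    have a4 : 0 ≤ D.M := (norm_nonneg _).trans a1
    refine a3.trans (le_trans ?_ (mul_le_mul_of_nonneg_right (le_max_right _ _) hs.le))
    rw [div_mul_eq_mul_div, le_div_iff₀ D.t0_pos, mul_assoc (2 * D.M)]
    exact mul_le_mul_of_nonneg_left (not_le.1 hc).le (by linarith)

/-- `tile_bdd` with `H' = 2 |H| + 2`, `r = dist a c / 2`, `x, x', u = sel a, sel c, sel b`,
`s = dist (F a) (F c) + η'`, `η' = min (η/2) (η/(M'+1))`, `sel_near` with `η/4`. -/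
theorem app_bdd (H : ℝ) : ∃ M : ℝ, ∀ η : ℝ, 0 < η → ∀ᶠ n in atTop, ∀ a ∈ ball (D.z n) D.R,
    ∀ b ∈ ball (D.z n) D.R, ∀ c ∈ ball (D.z n) D.R, η ≤ dist a c → dist a b ≤ H * dist a c →
      dist (D.F n a) (D.F n b) ≤ M * dist (D.F n a) (D.F n c) + η := by
  obtain ⟨M', hM0, hM⟩ := D.tile_bdd (2 * |H| + 2)
  refine ⟨M', fun η hη => ?_⟩
  have hp : 0 < M' + 1 := by linarith
  obtain ⟨η', hη', e1, e2⟩ : ∃ η' : ℝ, 0 < η' ∧ η' ≤ η / 2 ∧ M' * η' ≤ η := by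
    refine ⟨min (η / 2) (η / (M' + 1)), lt_min (half_pos hη) (div_pos hη hp), min_le_left _ _, ?_⟩
    have h1 : min (η / 2) (η / (M' + 1)) ≤ η / (M' + 1) := min_le_right _ _
    rw [le_div_iff₀ hp] at h1
    have h2 : 0 < min (η / 2) (η / (M' + 1)) := lt_min (half_pos hη) (div_pos hη hp)
    nlinarith
  have hR := D.R_pos
  filter_upwards [hM η' hη', D.sel_near (min (η / 4) D.R) (lt_min (by linarith) hR)]
    with n h1 h2 a ha b hb c hc hac hab
  have m1 : min (η / 4) D.R ≤ η / 4 := min_le_left _ _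
  have m2 : min (η / 4) D.R ≤ D.R := min_le_right _ _
  have sa := h2 a ha
  have sb := h2 b hb
  have sc := h2 c hc
  rw [mem_ball] at ha hb hc
  have hd : 0 ≤ dist (D.F n a) (D.F n c) := dist_nonneg
  have key := h1 (dist a c / 2) (dist (D.F n a) (D.F n c) + η') (D.sel n a) (D.sel n c) (D.sel n b)
    (by linarith) (by linarith [dist_triangle_right a c (D.z n)]) (by linarith)
    (by rw [mem_ball]; linarith [dist_triangle (D.c n (D.sel n a)) a (D.z n)])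
    (by
      rw [dist_comm]
      exact le_add_of_nonneg_right hη'.le)
    (by
      have := dist_triangle4 a (D.c n (D.sel n a)) (D.c n (D.sel n c)) c
      rw [dist_comm a (D.c n (D.sel n a))] at this
      linarith)
    (by
      have := dist_triangle4 (D.c n (D.sel n a)) a b (D.c n (D.sel n b))
      rw [dist_comm b (D.c n (D.sel n b))] at this
      have h3 : H * dist a c ≤ |H| * dist a c :=
        mul_le_mul_of_nonneg_right (le_abs_self H) dist_nonneg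
      linarith)
    (D.pt_mem n (D.sel n b))
  rw [mem_closedBall, dist_comm, mul_add] at key
  exact key.trans (by linarith)

/-- `C, A` from `ring`, `M'` from `tile_bdd 2`, `k ≥ 1` with `C M'² ≤ k ε²`,
`τ = 1/(2 A 4^k)`; apply `ring` to `x = sel a`, `y = sel b`, `r = 2 τ dist a c` (so
`A 4^k r = dist a c ≤ 2R`; `sel_near` with `τ η / 2` and `η/4`), `t = M' s`,
`s = dist (F a) (F c) + η'`, the hypothesis on `u` coming from `tile_bdd 2` with radius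
`dist a c / 2`; this gives `dist (F a) (F b) ≤ ε s`, take `η' = min (η/2) (η/ε)`. -/
theorem app_small : ∀ ε : ℝ, 0 < ε → ∃ τ : ℝ, 0 < τ ∧ ∀ η : ℝ, 0 < η → ∀ᶠ n in atTop,
    ∀ a ∈ ball (D.z n) D.R, ∀ b ∈ ball (D.z n) D.R, ∀ c ∈ ball (D.z n) D.R, η ≤ dist a c →
      dist a b ≤ τ * dist a c → dist (D.F n a) (D.F n b) ≤ ε * dist (D.F n a) (D.F n c) + η := by
  intro ε hε
  obtain ⟨C, A, hC, hA, hring⟩ := D.ring
  obtain ⟨M', hM0, hM⟩ := D.tile_bdd 2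
  obtain ⟨k, hk⟩ := exists_nat_gt (C * M' ^ 2 / ε ^ 2)
  have hε2 : 0 < ε ^ 2 := by positivity
  have hk0 : (0 : ℝ) < k := lt_of_le_of_lt (by positivity) hk
  rw [div_lt_iff₀ hε2] at hk
  have hP : (0 : ℝ) < A * 4 ^ k := by positivity
  obtain ⟨τ, hτ, hτP⟩ : ∃ τ : ℝ, 0 < τ ∧ A * 4 ^ k * (2 * τ) = 1 :=
    ⟨1 / (2 * (A * 4 ^ k)), by positivity, by field_simp⟩
  refine ⟨τ, hτ, fun η hη => ?_⟩
  obtain ⟨η', hη', e1, e2⟩ : ∃ η' : ℝ, 0 < η' ∧ η' ≤ η / 2 ∧ ε * η' ≤ η := by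
    refine ⟨min (η / 2) (η / ε), lt_min (half_pos hη) (div_pos hη hε), min_le_left _ _, ?_⟩
    have h1 : min (η / 2) (η / ε) ≤ η / ε := min_le_right _ _
    rw [le_div_iff₀ hε] at h1
    linarith
  have hR := D.R_pos
  have hτη : 0 < τ * η := mul_pos hτ hη
  filter_upwards [hM η' hη', hring (2 * (τ * η)) (by positivity),
    D.sel_near (τ * η / 2) (by positivity), D.sel_near (η / 4) (by positivity),
    D.sel_near D.R hR] with n h1 h2 h3 h4 h5 a ha b hb c hc hac hab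
  have hin : ∀ w ∈ ball (D.z n) D.R, D.c n (D.sel n w) ∈ ball (D.z n) (2 * D.R) := by
    intro w hw
    rw [mem_ball]
    linarith [dist_triangle (D.c n (D.sel n w)) w (D.z n), h5 w hw, mem_ball.1 hw]
  have hd : 0 ≤ dist (D.F n a) (D.F n c) := dist_nonneg
  have hac2 : dist a c ≤ 2 * D.R := by
    linarith [dist_triangle_right a c (D.z n), mem_ball.1 ha, mem_ball.1 hc]
  have hτd : τ * η ≤ τ * dist a c := mul_le_mul_of_nonneg_left hac hτ.le
  have hr : A * 4 ^ k * (2 * τ * dist a c) = dist a c := by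
    rw [← mul_assoc, hτP, one_mul]
  set s := dist (D.F n a) (D.F n c) + η' with hs
  have hs0 : 0 < s := by positivity
  have key := h2 (D.sel n a) (D.sel n b) (2 * τ * dist a c) (M' * s) k (hin a ha) (hin b hb)
    (by linarith)
    (by
      have := dist_triangle4 (D.c n (D.sel n a)) a b (D.c n (D.sel n b))
      rw [dist_comm b (D.c n (D.sel n b))] at this
      linarith [h3 a ha, h3 b hb])
    (by rw [hr]; linarith) (by positivity)
    (fun u hu => h1 (dist a c / 2) s (D.sel n a) (D.sel n c) u (by linarith) (by linarith)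
      (by linarith) (hin a ha)
      (by
        rw [dist_comm]
        exact le_add_of_nonneg_right hη'.le)
      (by
        have := dist_triangle4 a (D.c n (D.sel n a)) (D.c n (D.sel n c)) c
        rw [dist_comm a (D.c n (D.sel n a))] at this
        linarith [h4 a ha, h4 c hc])
      (by
        rw [hr, dist_comm] at hu
        linarith))
  have h6 : dist (D.F n a) (D.F n b) ^ 2 ≤ (ε * s) ^ 2 := by
    refine le_of_mul_le_mul_left (key.trans ?_) hk0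
    have : C * M' ^ 2 * s ^ 2 ≤ k * ε ^ 2 * s ^ 2 :=
      mul_le_mul_of_nonneg_right hk.le (sq_nonneg s)
    calc C * (M' * s) ^ 2 = C * M' ^ 2 * s ^ 2 := by ring
      _ ≤ k * ε ^ 2 * s ^ 2 := this
      _ = k * (ε * s) ^ 2 := by ring
  have h7 : dist (D.F n a) (D.F n b) ≤ ε * s :=
    (pow_le_pow_iff_left₀ dist_nonneg (by positivity) two_ne_zero).1 h6
  rw [hs, mul_add] at h7
  linarith

/-- wlog `s ≤ R/2`; `κ = min t0 κ'` with `κ'` from `near_of_sq (s/2)`; `u ∋ y` from `cover`,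
`a' = c u`; `equi` for the tiles `sel a'` and `u`. -/
theorem app_opn [CompactSpace Z] : ∀ s : ℝ, 0 < s → ∃ κ : ℝ, 0 < κ ∧ ∀ η : ℝ, 0 < η →
    ∀ᶠ n in atTop, ∀ a ∈ ball (D.z n) (D.R / 2), ∀ y : ℝ × ℝ, dist y (D.F n a) ≤ κ →
      ∃ a' ∈ ball (D.z n) D.R, dist a' a ≤ s ∧ dist (D.F n a') y ≤ η := by
  intro s hs
  have hR := D.R_pos
  obtain ⟨s', hs', hs1, hs2⟩ : ∃ s' : ℝ, 0 < s' ∧ s' ≤ s ∧ s' ≤ D.R / 2 :=
    ⟨min s (D.R / 2), lt_min hs (half_pos hR), min_le_left _ _, min_le_right _ _⟩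
  obtain ⟨κ, hκ, hnear⟩ := D.near_of_sq (s' / 2) (half_pos hs')
  refine ⟨min D.t0 κ, lt_min D.t0_pos hκ, fun η hη => ?_⟩
  obtain ⟨ρ, hρ, hequi⟩ := D.equi η hη
  filter_upwards [hnear, hequi, D.cover, D.sel_near _ (lt_min (half_pos hs') hρ)] with n h1 h2 h3 h4
    a ha y hy
  rw [mem_ball] at ha
  have haR : a ∈ ball (D.z n) D.R := by rw [mem_ball]; linarith
  have hx := (h4 a haR).trans_le (min_le_left _ _)
  have hx2 : D.c n (D.sel n a) ∈ ball (D.z n) (2 * D.R) := by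
    rw [mem_ball]
    linarith [dist_triangle (D.c n (D.sel n a)) a (D.z n)]
  obtain ⟨u, hu⟩ := h3 _ hx2 y (hy.trans (min_le_left _ _))
  have hxu := h1 _ u hx2 ⟨y, hu, hy.trans (min_le_right _ _)⟩
  have hua : dist (D.c n u) a < s' := by
    linarith [dist_triangle_left (D.c n u) a (D.c n (D.sel n a))]
  have huz : dist (D.c n u) (D.z n) < D.R := by
    linarith [dist_triangle (D.c n u) a (D.z n)]
  have hu' := h4 (D.c n u) (mem_ball.2 huz)
  have hu1 := hu'.trans_le (min_le_left _ _)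
  refine ⟨D.c n u, mem_ball.2 huz, hua.le.trans hs1, ?_⟩
  refine h2 _ u ?_ ?_ (hu'.trans_le (min_le_right _ _)).le _ (D.pt_mem n _) y hu
  · rw [mem_ball]
    linarith [dist_triangle (D.c n (D.sel n (D.c n u))) (D.c n u) (D.z n)]
  · rw [mem_ball]
    linarith

theorem appChart [CompactSpace Z] : AppChart D.z D.R D.F where
  r_pos := D.R_pos
  bound := ⟨D.M, fun n _ => D.bound n _ _ (D.pt_mem n _)⟩
  equi := D.app_equi
  inj := D.app_inj
  bdd := D.app_bdd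
  small := D.app_small
  opn := D.app_opn

end TSeq

end Crest.Agent.R193.Sq.X
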