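import Mathlib
import Crest.Agent.R193.SqEst1
import Crest.Agent.R193.SqEst2
import Crest.Agent.R193.SqSch1
import Crest.Agent.R193.SqTile4
import Crest.Agent.R193.SqX3
import Crest.Agent.R193.SqLimA

/-! Row 193 [U]: the sequence of tilings and the block statement. -/

set_option autoImplicit false

namespace Crest.Agent.R193.Sq.X

open Metric Filter Topology

variable {Z : Type} [MetricSpace Z]

/-- one tiling with its squares and the central tile -/
structure Stage (P : Par Z) (δ : ℝ) where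
  T : Type
  ft : Fintype T
  g : GT P.F P.K δ T
  S : @SqT T ft g.Q
  hh : S.h = 1
  sig : @HasSig Z _ P.F P.K δ T ft g P.C P.r0
  xs : T
  hxs : (S.m / 2, 1 / 2) ∈ @SqT.sq T ft g.Q S xs

attribute [instance] Stage.ft

theorem exists_par (hZ : Nonempty (Z ≃ₜ S2)) (hD : Doubling Z) (h1 : LLC1 Z) (h2 : LLC2 Z)
    (hU : UB Z) : ∃ (P : Par Z) (δ0 : ℝ), 0 < δ0 ∧ ∀ δ : ℝ, 0 < δ → δ < δ0 →
      Nonempty (Stage P δ) := by
  obtain ⟨F, K, δ0, hK, hδ0, H⟩ := tileStmt Z hZ hD h1
  obtain ⟨C, r0, hC, hr0, Hs⟩ := exists_sig hD hU hK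
  obtain ⟨L1, hL1, h1⟩ := h1
  obtain ⟨L2, hL2, h2⟩ := h2
  obtain ⟨Φ⟩ := hZ
  have : CompactSpace Z := Φ.symm.compactSpace
  obtain ⟨D, hDb⟩ := Metric.isBounded_iff.1 (isCompact_univ (X := Z)).isBounded
  let P : Par Z :=
    { F := F, K := K, L := max L1 L2, C := C, r0 := r0, D := D, hK := hK
      hL := hL1.trans (le_max_left _ _), hC := hC, hr0 := hr0
      hD := fun a b => hDb (Set.mem_univ a) (Set.mem_univ b)
      llc1 := fun a b => by
        obtain ⟨γ, hγ⟩ := h1 a b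
        exact ⟨γ, fun t => (hγ t).trans (mul_le_mul_of_nonneg_right (le_max_left _ _) dist_nonneg)⟩
      llc2 := fun ξ a b r hr ha hb => h2 ξ a b r hr
        ((mul_le_mul_of_nonneg_right (le_max_right _ _) hr.le).trans ha)
        ((mul_le_mul_of_nonneg_right (le_max_right _ _) hr.le).trans hb)
      dbl := hD }
  refine ⟨P, δ0, hδ0, fun δ hδ hδ' => ?_⟩
  obtain ⟨T, ft, ⟨g⟩⟩ := H δ hδ hδ'
  obtain ⟨S, hS⟩ := schramm T g.Q
  have hm := S.m_pos
  obtain ⟨xs, hxs⟩ := S.cover (w := (S.m / 2, 1 / 2)) (by positivity) (by simp only; linarith)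
    (by norm_num) (by rw [hS]; norm_num)
  exact ⟨⟨T, ft, g, S, hS, Hs F δ T g hδ, xs, hxs⟩⟩

theorem bd_near {P : Par Z} {δ : ℝ} {T : Type} (g : GT P.F P.K δ T) {y : T} (hy : g.Q.Bd y) :
    ∃ w ∈ P.F.fr, dist (g.c y) w < P.K * δ := by
  rcases hy with h | h | h | h
  · obtain ⟨w, hw, h⟩ := g.B_near y h
    exact ⟨w, Or.inl (Or.inl (Or.inl hw)), h⟩
  · obtain ⟨w, hw, h⟩ := g.T_near y h
    exact ⟨w, Or.inl (Or.inl (Or.inr hw)), h⟩
  · obtain ⟨w, hw, h⟩ := g.L_near y h
    exact ⟨w, Or.inl (Or.inr hw), h⟩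
  · obtain ⟨w, hw, h⟩ := g.R_near y h
    exact ⟨w, Or.inr hw, h⟩

theorem far_conn {P : Par Z} {δ : ℝ} {T : Type} (g : GT P.F P.K δ T) {x y : T} {R ρ : ℝ}
    (hfar : ∀ w ∈ P.F.fr, R ≤ dist (g.c x) w)
    (hR : P.L * dist (g.c x) (g.c y) + 2 * (P.K * δ) ≤ R)
    (hρ : P.L * dist (g.c x) (g.c y) + P.K * δ ≤ ρ) : Conn g.Q.adj (tb g (g.c x) ρ) x y := by
  rcases conn_near g x y with h | ⟨y', h, hb⟩
  · exact h.mono fun z hz => lt_of_lt_of_le hz hρ
  · obtain ⟨w, hw, h'⟩ := bd_near g hb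
    have h1 : dist (g.c y') (g.c x) < _ := h.right_mem
    have h2 := hfar w hw
    have h3 := dist_triangle_left (g.c x) w (g.c y')
    linarith

/-- the central tile is far from the frame -/
theorem centre_far (P : Par Z) : ∃ t0 r2 δ2 C1 : ℝ, 0 < t0 ∧ 0 < r2 ∧ 0 < δ2 ∧
    ∀ δ : ℝ, 0 < δ → δ < δ2 → ∀ St : Stage P δ, St.S.m ≤ C1 ∧
      St.S.Box (St.S.m / 2, 1 / 2) (2 * t0) ∧ ∀ w ∈ P.F.fr, r2 ≤ dist (St.g.c St.xs) w := by
  obtain ⟨C1, hC1, Hm⟩ := m_bounds P
  set t0 : ℝ := min (1 / (4 * C1)) (1 / 4) with ht0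
  have ht0p : 0 < t0 := lt_min (by positivity) (by norm_num)
  obtain ⟨ρ0, δ1, hρ0, hδ1, Ho⟩ := osc_small P ht0p
  have hK : 0 < P.K := by linarith [P.hK]
  have hL : 0 < P.L := by linarith [P.hL]
  have hmin : 0 < min P.r0 P.F.d0 := lt_min P.hr0 P.F.d0_pos
  refine ⟨t0, ρ0 / (2 * P.L), min (min δ1 (min P.r0 P.F.d0 / (8 * P.K))) (ρ0 / (2 * P.K)), C1,
    ht0p, by positivity, by positivity, fun δ hδ hδ' St => ?_⟩
  have a1 : δ < δ1 := hδ'.trans_le ((min_le_left _ _).trans (min_le_left _ _))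
  have a2 : δ < min P.r0 P.F.d0 / (8 * P.K) :=
    hδ'.trans_le ((min_le_left _ _).trans (min_le_right _ _))
  have a3 : δ < ρ0 / (2 * P.K) := hδ'.trans_le (min_le_right _ _)
  rw [lt_div_iff₀ (by positivity)] at a2 a3
  obtain ⟨b1, b2⟩ := Hm δ St.T St.g St.S St.sig hδ (by linarith) St.hh
  have c1 : t0 ≤ 1 / (4 * C1) := min_le_left _ _
  have c2 : t0 ≤ 1 / 4 := min_le_right _ _
  have c3 : 4 * t0 ≤ St.S.m := by
    rw [le_div_iff₀ (by positivity)] at c1
    by_contra hlt
    have : C1 * St.S.m < C1 * (4 * t0) := mul_lt_mul_of_pos_left (not_le.1 hlt) hC1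
    nlinarith
  have hbox : St.S.Box (St.S.m / 2, 1 / 2) (2 * t0) := by
    refine ⟨?_, ?_, ?_, ?_⟩ <;> simp only [St.hh] <;> linarith
  refine ⟨b1, hbox, fun w hw => ?_⟩
  by_contra hlt
  rw [not_le, lt_div_iff₀ (by positivity)] at hlt
  obtain ⟨y', h, hb⟩ := conn_out St.g St.xs (P.F.notI w hw)
  have hc : Conn St.g.Q.adj (tb St.g (St.g.c St.xs) ρ0) St.xs y' :=
    h.mono fun z hz => by
      simp only [tb, Set.mem_setOf_eq] at hz ⊢
      nlinarith
  obtain ⟨w', hw', hd⟩ := St.S.bd_far hb hbox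
  have := Ho δ St.T St.g St.S St.sig hδ a1 St.hh _ _ _ hc _ St.hxs _ hw'
  rw [dist_comm] at this
  linarith

theorem box_near {T : Type} [Fintype T] {Q : Quad T} (S : SqT Q) {y y' : ℝ × ℝ} {t s : ℝ}
    (hb : S.Box y (2 * t)) (hd : dist y' y ≤ t) (hs : s ≤ t) : S.Box y' s := by
  have h1 : |y'.1 - y.1| ≤ t := by
    refine le_trans ?_ hd
    rw [Prod.dist_eq, Real.dist_eq]; exact le_max_left _ _
  have h2 : |y'.2 - y.2| ≤ t := by
    refine le_trans ?_ hd
    rw [Prod.dist_eq, Real.dist_eq y'.2]; exact le_max_right _ _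
  rw [abs_le] at h1 h2
  obtain ⟨a, b, c, d⟩ := hb
  refine ⟨?_, ?_, ?_, ?_⟩ <;> linarith [h1.1, h1.2, h2.1, h2.2]

theorem exists_tseq (P : Par Z) {δ0 : ℝ} (hδ0 : 0 < δ0)
    (H : ∀ δ : ℝ, 0 < δ → δ < δ0 → Nonempty (Stage P δ)) : Nonempty (TSeq Z) := by
  classical
  obtain ⟨t0, r2, δ2, C1, ht0, hr2, hδ2, Hc⟩ := centre_far P
  obtain ⟨ρ1, δ3, hρ1, hδ3, Ho⟩ := osc_small P ht0
  have hK : 0 < P.K := by linarith [P.hK]
  have hL : 0 < P.L := by linarith [P.hL]
  have hL1 := P.hL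
  have hd0 := P.F.d0_pos
  have hr0 := P.hr0
  set δm : ℝ := min δ0 δ2 with hδm
  have hδmp : 0 < δm := lt_min hδ0 hδ2
  let δ : ℕ → ℝ := fun n => δm / (n + 2)
  have hδp : ∀ n, 0 < δ n := fun n => by positivity
  have hδl : ∀ n, δ n < δm := fun n => by
    have : (0 : ℝ) ≤ n := Nat.cast_nonneg n
    simp only [δ]
    rw [div_lt_iff₀ (by positivity)]
    nlinarith
  have hδt : ∀ e : ℝ, 0 < e → ∀ᶠ n in atTop, δ n < e := fun e he => by
    have : Tendsto δ atTop (𝓝 0) :=
      Tendsto.div_atTop tendsto_const_nhds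
        (tendsto_atTop_add_const_right _ _ tendsto_natCast_atTop_atTop)
    exact this.eventually (gt_mem_nhds he)
  have hKt : ∀ e : ℝ, 0 < e → ∀ᶠ n in atTop, P.K * δ n < e := fun e he => by
    filter_upwards [hδt (e / P.K) (by positivity)] with n hn
    rw [lt_div_iff₀ hK] at hn
    linarith
  let St : ∀ n, Stage P (δ n) := fun n =>
    Classical.choice (H _ (hδp n) ((hδl n).trans_le (min_le_left _ _)))
  have Hc' := fun n => Hc (δ n) (hδp n) ((hδl n).trans_le (min_le_right _ _)) (St n)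
  set R : ℝ := min (min (r2 / (8 * P.L)) (ρ1 / (4 * P.L))) (min P.r0 (P.F.d0 / 8) / 4) with hR
  have hRp : 0 < R := by positivity
  have R1 : 8 * P.L * R ≤ r2 := by
    have : R ≤ r2 / (8 * P.L) := (min_le_left _ _).trans (min_le_left _ _)
    rw [le_div_iff₀ (by positivity)] at this
    linarith
  have R2 : 4 * P.L * R ≤ ρ1 := by
    have : R ≤ ρ1 / (4 * P.L) := (min_le_left _ _).trans (min_le_right _ _)
    rw [le_div_iff₀ (by positivity)] at this
    linarith
  have R3 : 4 * R ≤ min P.r0 (P.F.d0 / 8) := by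
    have : R ≤ min P.r0 (P.F.d0 / 8) / 4 := min_le_right _ _
    linarith
  have RL : R ≤ P.L * R := by nlinarith
  -- tiles near the centre are far from the frame
  have hfar : ∀ n (x : (St n).T), (St n).g.c x ∈ ball ((St n).g.c (St n).xs) (2 * R) →
      ∀ w ∈ P.F.fr, r2 - 2 * R ≤ dist ((St n).g.c x) w := fun n x hx w hw => by
    have h1 := (Hc' n).2.2 w hw
    have h2 := dist_triangle_left ((St n).g.c (St n).xs) w ((St n).g.c x)
    rw [mem_ball] at hx
    linarith
  -- and their squares are near the centre of the rectangle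
  have hmid : ∀ᶠ n in atTop, ∀ x : (St n).T,
      (St n).g.c x ∈ ball ((St n).g.c (St n).xs) (2 * R) →
        dist ((St n).S.pt x) ((St n).S.m / 2, 1 / 2) ≤ t0 := by
    filter_upwards [hδt δ3 hδ3, hKt (P.L * R) (by positivity)] with n h1 h2 x hx
    rw [mem_ball, dist_comm] at hx
    have h3 : P.L * dist ((St n).g.c (St n).xs) ((St n).g.c x) ≤ P.L * (2 * R) :=
      mul_le_mul_of_nonneg_left hx.le hL.le
    have hc := far_conn (St n).g (x := (St n).xs) (y := x) (ρ := ρ1) (Hc' n).2.2 (by linarith)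
      (by linarith)
    rw [dist_comm]
    exact Ho _ _ _ _ (St n).sig (hδp n) h1 (St n).hh _ _ _ hc _ (St n).hxs _ ((St n).S.pt_mem x)
  let sel : ∀ n, Z → (St n).T := fun n a =>
    if h : ∃ x, dist ((St n).g.c x) a < P.K * δ n then h.choose else (St n).xs
  refine ⟨{ T := fun n => (St n).T
            c := fun n => (St n).g.c
            sq := fun n => (St n).S.sq
            pt := fun n => (St n).S.pt
            sel := sel
            z := fun n => (St n).g.c (St n).xs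
            R := R
            M := max C1 1
            t0 := t0
            R_pos := hRp
            t0_pos := ht0
            pt_mem := fun n x => (St n).S.pt_mem x
            bound := ?_
            sel_near := ?_
            equi := ?_
            cover := ?_
            log := ?_
            ring := ?_ }⟩
  · intro n x w hw
    have h1 := (St n).S.b_nonneg x
    have h2 := (St n).S.b_le x
    have h3 := (St n).S.a_nonneg x
    have h4 := (St n).S.a_le x
    rw [(St n).hh] at h4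
    have h5 := (Hc' n).1
    obtain ⟨⟨a1, a2⟩, a3, a4⟩ := hw
    rw [Prod.norm_def, Real.norm_of_nonneg (by linarith), Real.norm_of_nonneg (by linarith)]
    exact max_le_max (by linarith) (by linarith)
  · intro η hη
    filter_upwards [hKt η hη, hKt (P.L * R) (by positivity)] with n h1 h2 a ha
    rw [mem_ball, dist_comm] at ha
    have h3 : P.L * dist ((St n).g.c (St n).xs) a ≤ P.L * R := mul_le_mul_of_nonneg_left ha.le hL.le
    have haI : a ∈ P.F.I := by
      by_contra hI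
      obtain ⟨y', h, hb⟩ := conn_out (St n).g (St n).xs hI
      obtain ⟨w, hw, h'⟩ := bd_near (St n).g hb
      have h4 : dist ((St n).g.c y') ((St n).g.c (St n).xs) < _ := h.right_mem
      have h5 := (Hc' n).2.2 w hw
      have h6 := dist_triangle_left ((St n).g.c (St n).xs) w ((St n).g.c y')
      nlinarith
    have hex : ∃ x, dist ((St n).g.c x) a < P.K * δ n := by
      rcases (St n).g.dense a haI with h | ⟨w, hw, h⟩
      · exact h
      · have h5 := (Hc' n).2.2 w hw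
        have h6 := dist_triangle ((St n).g.c (St n).xs) a w
        nlinarith
    simp only [sel, dif_pos hex]
    exact hex.choose_spec.trans h1
  · intro ε hε
    obtain ⟨ρ0, δ4, hρ0, hδ4, Ho'⟩ := osc_small P hε
    refine ⟨min (ρ0 / (2 * P.L)) R, by positivity, ?_⟩
    filter_upwards [hδt δ4 hδ4, hKt (ρ0 / 2) (by positivity), hKt (P.L * R) (by positivity)]
      with n h1 h2 h3 x y hx _ hxy w hw w' hw'
    have h4 : dist ((St n).g.c x) ((St n).g.c y) ≤ ρ0 / (2 * P.L) := hxy.trans (min_le_left _ _)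
    have h5 : dist ((St n).g.c x) ((St n).g.c y) ≤ R := hxy.trans (min_le_right _ _)
    rw [le_div_iff₀ (by positivity)] at h4
    have h6 : P.L * dist ((St n).g.c x) ((St n).g.c y) ≤ P.L * R :=
      mul_le_mul_of_nonneg_left h5 hL.le
    have hc := far_conn (St n).g (x := x) (y := y) (ρ := ρ0) (hfar n x hx) (by linarith)
      (by linarith)
    exact Ho' _ _ _ _ (St n).sig (hδp n) h1 (St n).hh _ _ _ hc _ hw _ hw'
  · filter_upwards [hmid] with n h1 x hx y hy
    have hb := box_near (St n).S (Hc' n).2.1 (h1 x hx) le_rfl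
    have hb' : (St n).S.Box ((St n).S.pt x) (2 * (t0 / 2)) := by
      rw [show 2 * (t0 / 2) = t0 by ring]; exact hb
    have h2 : |y.1 - ((St n).S.pt x).1| ≤ t0 := by
      refine le_trans ?_ hy
      rw [Prod.dist_eq, Real.dist_eq]; exact le_max_left _ _
    have h3 : |y.2 - ((St n).S.pt x).2| ≤ t0 := by
      refine le_trans ?_ hy
      rw [Prod.dist_eq, Real.dist_eq y.2]; exact le_max_right _ _
    rw [abs_le] at h2 h3
    obtain ⟨a, b, c, d⟩ := hb
    exact (St n).S.cover (by linarith [h2.1]) (by linarith [h2.2]) (by linarith [h3.1])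
      (by linarith [h3.2])
  · intro Hh
    obtain ⟨Ψ, HΨ⟩ := logtest P Hh
    refine ⟨Ψ, fun η hη => ?_⟩
    obtain ⟨δ5, hδ5, Hρ⟩ := rho_small P hη
    filter_upwards [hmid, hδt δ5 hδ5, hKt (η / (100 * P.L)) (by positivity)]
      with n h1 h2 h3 r s k x x' x3 hr1 hr2' hs1 hs2 hx hx' hxx hx3 hH
    rw [lt_div_iff₀ (by positivity)] at h3
    refine HΨ _ _ (St n).g (St n).S (St n).sig (hδp n) r s k ((St n).S.pt x) x x' x3
      (by nlinarith) ?_ (by linarith) (fun z => ?_)
      (box_near (St n).S (Hc' n).2.1 (h1 x hx) hs2) ⟨_, (St n).S.pt_mem x, ?_⟩ hx' hxx hx3 hH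
    · refine hr2'.trans (R3.trans (min_le_min le_rfl (by linarith)))
    · exact (Hρ _ _ (St n).g (St n).S (St n).sig (hδp n) h2 (St n).hh z).trans hs1
    · rw [dist_self]; linarith
  · refine ⟨4 * P.C, 2 * P.L, by linarith [P.hC], by linarith, fun η hη => ?_⟩
    filter_upwards [hKt (η / 4) (by positivity), hKt (P.L * R) (by positivity)]
      with n h1 h2 x y r t k hx _ hr1 hxy hk ht hu
    have hr : 0 < r := by linarith
    have h4 : (1 : ℝ) ≤ 4 ^ k := one_le_pow₀ (by norm_num)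
    have h5 : P.L * dist ((St n).g.c x) ((St n).g.c y) ≤ P.L * r :=
      mul_le_mul_of_nonneg_left hxy hL.le
    have h6 : P.L * r ≤ 2 * R := by
      have : P.L * r * 1 ≤ P.L * r * 4 ^ k := mul_le_mul_of_nonneg_left h4 (by positivity)
      nlinarith
    have h7 : r ≤ P.L * r := by nlinarith
    have hc := far_conn (St n).g (x := x) (y := y) (ρ := 2 * P.L * r) (hfar n x hx) (by linarith)
      (by linarith)
    have h8 := ring (St n).g (St n).S (St n).sig (hδp n) k (ξ := (St n).g.c x)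
      (r := 2 * P.L * r) (by linarith) (by linarith) hc ((St n).S.pt_mem x) ((St n).S.pt_mem y)
    have h9 := (St n).S.area (Finset.univ.filter
      (fun z => dist ((St n).g.c z) ((St n).g.c x) ≤ 4 ^ k * (2 * P.L * r))) ((St n).S.pt x) t ht
      (fun u hu' => hu u (by have := (Finset.mem_filter.1 hu').2; linarith))
    have h10 := mul_le_mul_of_nonneg_left h9 P.hC.le
    calc _ ≤ _ := h8
      _ ≤ _ := h10.trans_eq (by ring)

theorem ublock : UStmt := by
  intro Z _ hZ hD h1 h2 hU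
  obtain ⟨P, δ0, hδ0, H⟩ := exists_par hZ hD h1 h2 hU
  obtain ⟨D⟩ := exists_tseq P hδ0 H
  obtain ⟨Φ⟩ := hZ
  have : CompactSpace Z := Φ.symm.compactSpace
  exact qsChart_of_app D.appChart

end Crest.Agent.R193.Sq.X
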