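import Mathlib

/-! Row 193, block [T]: auxiliary lemmas for Stepanov's theorem. -/

set_option autoImplicit false

namespace Crest.Agent.R193.T

open MeasureTheory Set Metric Filter Topology

theorem step_vol (a : ℂ) {r : ℝ} (hr : 0 ≤ r) :
    (volume (closedBall a r)).toReal = r ^ 2 * Real.pi := by
  rw [Complex.volume_closedBall, ENNReal.toReal_mul, ENNReal.toReal_pow, ENNReal.toReal_ofReal hr]
  simp

/-- near a density point of `S`, every point `y` is `ε‖y-x‖`-close to `S` -/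
theorem step_dense {S : Set ℂ} {x : ℂ} (hx : x ∈ S)
    (hd : Tendsto (fun r => volume (S ∩ closedBall x r) / volume (closedBall x r)) (𝓝[>] 0) (𝓝 1))
    {ε : ℝ} (hε : 0 < ε) (hε1 : ε ≤ 1) :
    ∀ᶠ y in 𝓝 x, ∃ s ∈ S, ‖s - y‖ ≤ ε * ‖y - x‖ := by
  have h1 : Tendsto (fun r => (volume (S ∩ closedBall x r) / volume (closedBall x r)).toReal)
      (𝓝[>] 0) (𝓝 1) := by
    have := (ENNReal.tendsto_toReal ENNReal.one_ne_top).comp hd
    simpa [Function.comp_def] using this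
  have h2 : ∀ᶠ r in 𝓝[>] (0 : ℝ), 1 - ε ^ 2 / 4 <
      (volume (S ∩ closedBall x r) / volume (closedBall x r)).toReal :=
    h1.eventually (lt_mem_nhds (by nlinarith [sq_pos_of_pos hε]))
  rw [eventually_nhdsWithin_iff, Metric.eventually_nhds_iff] at h2
  obtain ⟨δ, hδ, h2⟩ := h2
  rw [Metric.eventually_nhds_iff]
  refine ⟨δ / 2, by positivity, fun y hy => ?_⟩
  by_cases hyx : y = x
  · exact ⟨x, hx, by simp [hyx]⟩
  by_contra hcon
  push Not at hcon
  rw [dist_eq_norm] at hy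
  have hpos : 0 < ‖y - x‖ := norm_pos_iff.2 (sub_ne_zero.2 hyx)
  set t := ‖y - x‖ with ht
  have h3 := h2 (y := 2 * t) (by rw [Real.dist_eq, sub_zero, abs_of_pos (by positivity)]; linarith)
    (by simp only [mem_Ioi]; positivity)
  have hdisj : Disjoint (S ∩ closedBall x (2 * t)) (closedBall y (ε * t)) := by
    rw [Set.disjoint_left]
    intro s hs hs'
    rw [mem_closedBall, dist_eq_norm] at hs'
    exact absurd hs' (not_le.2 (hcon s hs.1))
  have hsub : (S ∩ closedBall x (2 * t)) ∪ closedBall y (ε * t) ⊆ closedBall x (2 * t) := by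
    refine union_subset inter_subset_right fun s hs => ?_
    rw [mem_closedBall, dist_eq_norm] at hs ⊢
    calc ‖s - x‖ = ‖(s - y) + (y - x)‖ := by congr 1; ring
      _ ≤ ‖s - y‖ + ‖y - x‖ := norm_add_le _ _
      _ ≤ 2 * t := by nlinarith
  have hfin : volume (closedBall x (2 * t)) ≠ ⊤ := measure_closedBall_lt_top.ne
  have h4 : volume (S ∩ closedBall x (2 * t)) + volume (closedBall y (ε * t)) ≤
      volume (closedBall x (2 * t)) := by
    rw [← measure_union hdisj measurableSet_closedBall]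
    exact measure_mono hsub
  have h5 := ENNReal.toReal_mono hfin h4
  rw [ENNReal.toReal_add (ne_top_of_le_ne_top hfin (measure_mono inter_subset_right))
    measure_closedBall_lt_top.ne, step_vol y (by positivity), step_vol x (by positivity)] at h5
  rw [ENNReal.toReal_div, step_vol x (by positivity), lt_div_iff₀ (by positivity)] at h3
  nlinarith

theorem step_deriv {f : ℂ → ℂ} {S : Set ℂ} {x : ℂ} (hx : x ∈ S)
    (hd : Tendsto (fun r => volume (S ∩ closedBall x r) / volume (closedBall x r)) (𝓝[>] 0) (𝓝 1))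
    {k δ : ℝ} (hk : 0 ≤ k) (hδ : 0 < δ)
    (hS : ∀ s ∈ S, ∀ y, ‖y - s‖ < δ → ‖f y - f s‖ ≤ k * ‖y - s‖)
    (hD : DifferentiableWithinAt ℝ f S x) : DifferentiableAt ℝ f x := by
  obtain ⟨D, hD⟩ := hD
  refine ⟨D, ?_⟩
  rw [hasFDerivAt_iff_isLittleO, Asymptotics.isLittleO_iff]
  intro c hc
  set K : ℝ := k + 2 + ‖D‖ with hK
  have hK0 : 0 < K := by positivity
  set ε : ℝ := min 1 (c / K) with hε
  have hε0 : 0 < ε := lt_min one_pos (by positivity)
  have hε1 : ε ≤ 1 := min_le_left _ _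
  have hεc : ε * K ≤ c := (le_div_iff₀ hK0).1 (min_le_right _ _)
  have h1 := Asymptotics.isLittleO_iff.1 hD.isLittleO hε0
  rw [eventually_nhdsWithin_iff, Metric.eventually_nhds_iff] at h1
  obtain ⟨η, hη, h1⟩ := h1
  filter_upwards [step_dense hx hd hε0 hε1, ball_mem_nhds x (lt_min hδ (half_pos hη))] with
    y hy hy2
  obtain ⟨s, hs, hsy⟩ := hy
  rw [mem_ball, dist_eq_norm, lt_min_iff] at hy2
  have hn := norm_nonneg (y - x)
  have hsy' : ‖s - y‖ ≤ ‖y - x‖ := by nlinarith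
  have hsx : ‖s - x‖ ≤ 2 * ‖y - x‖ := by
    calc ‖s - x‖ = ‖(s - y) + (y - x)‖ := by congr 1; ring
      _ ≤ ‖s - y‖ + ‖y - x‖ := norm_add_le _ _
      _ ≤ 2 * ‖y - x‖ := by linarith
  have a1 : ‖f y - f s‖ ≤ k * (ε * ‖y - x‖) := by
    have := hS s hs y (by rw [norm_sub_rev]; linarith [hy2.1])
    rw [norm_sub_rev y s] at this
    exact this.trans (mul_le_mul_of_nonneg_left hsy hk)
  have a2 : ‖f s - f x - D (s - x)‖ ≤ ε * (2 * ‖y - x‖) := by
    have := h1 (y := s) (by rw [dist_eq_norm]; linarith [hy2.2]) hs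
    exact this.trans (mul_le_mul_of_nonneg_left hsx hε0.le)
  have a3 : ‖D (s - y)‖ ≤ ‖D‖ * (ε * ‖y - x‖) :=
    (D.le_opNorm _).trans (mul_le_mul_of_nonneg_left hsy (norm_nonneg _))
  have e : f y - f x - D (y - x) = (f y - f s) + (f s - f x - D (s - x)) + D (s - y) := by
    simp only [map_sub]; ring
  calc ‖f y - f x - D (y - x)‖ ≤ ‖f y - f s‖ + ‖f s - f x - D (s - x)‖ + ‖D (s - y)‖ := by
        rw [e]; exact norm_add₃_le
    _ ≤ ε * K * ‖y - x‖ := by rw [hK]; nlinarith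
    _ ≤ c * ‖y - x‖ := mul_le_mul_of_nonneg_right hεc hn

theorem stepanov_aux (f : ℂ → ℂ) :
    ∀ᵐ x : ℂ, (∃ C : ℝ, ∀ᶠ y in 𝓝 x, ‖f y - f x‖ ≤ C * ‖y - x‖) → DifferentiableAt ℝ f x := by
  obtain ⟨Q, hQc, hQd⟩ := TopologicalSpace.exists_countable_dense ℂ
  set S : ℕ → ℂ → Set ℂ := fun k q =>
    {x | ∀ y, ‖y - x‖ < 1 / ((k : ℝ) + 1) → ‖f y - f x‖ ≤ ((k : ℝ) + 1) * ‖y - x‖} ∩
      ball q (1 / ((k : ℝ) + 1) / 2) with hSdef
  have key : ∀ (k : ℕ) (q : ℂ), ∀ᵐ x : ℂ, x ∈ S k q → DifferentiableAt ℝ f x := by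
    intro k q
    have hL : LipschitzOnWith ⟨(k : ℝ) + 1, by positivity⟩ f (S k q) := by
      refine LipschitzOnWith.of_dist_le_mul fun a ha b hb => ?_
      rw [dist_eq_norm, dist_eq_norm]
      refine hb.1 a ?_
      have h1 := ha.2
      have h2 := hb.2
      rw [mem_ball] at h1 h2
      rw [← dist_eq_norm]
      linarith [dist_triangle_right a b q]
    filter_upwards [hL.ae_differentiableWithinAt_of_mem (μ := volume),
      ae_imp_of_ae_restrict (Besicovitch.ae_tendsto_measure_inter_div volume (S k q))] with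
      x h1 h2 hx
    exact step_deriv hx (h2 hx) (k := (k : ℝ) + 1) (δ := 1 / ((k : ℝ) + 1)) (by positivity)
      (by positivity) (fun s hs y hy => hs.1 y hy) (h1 hx)
  have key2 : ∀ᵐ x : ℂ, ∀ k : ℕ, ∀ q ∈ Q, x ∈ S k q → DifferentiableAt ℝ f x :=
    ae_all_iff.2 fun k => (ae_ball_iff hQc).2 fun q _ => key k q
  filter_upwards [key2] with x hx hC
  obtain ⟨C, hC⟩ := hC
  rw [Metric.eventually_nhds_iff] at hC
  obtain ⟨η, hη, hC⟩ := hC
  obtain ⟨k, hk⟩ := exists_nat_ge (max C (1 / η))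
  have hk1 : C ≤ (k : ℝ) + 1 := by linarith [le_max_left C (1 / η)]
  have hk2 : 1 / ((k : ℝ) + 1) ≤ η := by
    rw [div_le_iff₀ (by positivity)]
    have : 1 / η ≤ (k : ℝ) + 1 := by linarith [le_max_right C (1 / η)]
    rw [div_le_iff₀ hη] at this
    linarith
  obtain ⟨q, hq1, hq2⟩ := hQd.inter_open_nonempty (ball x (1 / ((k : ℝ) + 1) / 2)) isOpen_ball
    (nonempty_ball.2 (by positivity))
  refine hx k q hq2 ⟨fun y hy => ?_, ?_⟩
  · exact (hC (by rw [dist_eq_norm]; linarith)).trans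
      (mul_le_mul_of_nonneg_right hk1 (norm_nonneg _))
  · rw [mem_ball, dist_comm]; exact hq1

end Crest.Agent.R193.T
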