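import Mathlib
import Crest.Agent.R193.TDefs
import Crest.Agent.R193.TQ1Step

/-! Row 193, block [T]: general measure theory. -/

set_option autoImplicit false

namespace Crest.Agent.R193.T

open MeasureTheory Set Metric Filter Topology

/-- **Stepanov.** For `k ≥ 1` let `A k = {x | ∀ y, ‖y-x‖ < 1/k → ‖f y - f x‖ ≤ k‖y-x‖}`; every point with
the hypothesis lies in some `A k`.  Cover `ℂ` by countably many balls `ball q (1/(2k))` (`q` in a
countable dense set); on `S = A k ∩ ball q (1/(2k))` the map is `LipschitzOnWith k`, so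
`LipschitzOnWith.ae_differentiableWithinAt_of_mem` gives a.e. `x ∈ S → DifferentiableWithinAt ℝ f S x`,
and `Besicovitch.ae_tendsto_measure_inter_div volume S` + `ae_imp_of_ae_restrict` (no measurability
of `S` needed) says a.e. `x ∈ S` is a density point.  At such `x` with derivative `D` within `S`:
given `ε ∈ (0,1)`, for `y` near `x` there is `s ∈ S` with `‖s - y‖ ≤ ε‖y - x‖` (otherwise
`ball y (ε‖y-x‖) ⊆ closedBall x (2‖y-x‖)` misses `S`, so the density ratio is `≤ 1 - ε²/4`), and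
`‖f y - f x - D (y-x)‖ ≤ ‖f y - f s‖ + ‖f s - f x - D (s-x)‖ + ‖D‖‖s-y‖ ≤ (k ε + 2 ε + ‖D‖ ε)‖y-x‖`
(`‖f y - f s‖ ≤ k‖y-s‖` because `s ∈ A k`).  Combine with `ae_all_iff`. -/
theorem stepanov (f : ℂ → ℂ) :
    ∀ᵐ x : ℂ, (∃ C : ℝ, ∀ᶠ y in 𝓝 x, ‖f y - f x‖ ≤ C * ‖y - x‖) → DifferentiableAt ℝ f x :=
  stepanov_aux f

theorem l2_tendsto_aux {μ : Measure ℂ} {h : ℂ → ℂ} {M : ℝ} (hm : AEStronglyMeasurable h μ)
    (hM : ∫⁻ x, ‖h x‖ₑ ^ 2 ∂μ ≤ ENNReal.ofReal M) :
    Integrable (fun x => ‖h x‖ ^ 2) μ ∧ ∫ x, ‖h x‖ ^ 2 ∂μ ≤ max M 0 := by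
  have he : ∀ x, ‖‖h x‖ ^ 2‖ₑ = ‖h x‖ₑ ^ 2 := by
    intro x
    rw [enorm_pow, enorm_norm]
  have hmm : AEStronglyMeasurable (fun x => ‖h x‖ ^ 2) μ := hm.norm.pow 2
  refine ⟨⟨hmm, ?_⟩, ?_⟩
  · unfold HasFiniteIntegral
    simp_rw [he]
    exact hM.trans_lt ENNReal.ofReal_lt_top
  · have h1 : ∫ x, ‖h x‖ ^ 2 ∂μ = ∫ x, ‖‖h x‖ ^ 2‖ ∂μ := by
      refine integral_congr_ae (Eventually.of_forall fun x => ?_)
      simp
    rw [h1, integral_norm_eq_lintegral_enorm hmm]
    simp_rw [he]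
    refine ENNReal.toReal_le_of_le_ofReal (le_max_right _ _) (hM.trans ?_)
    exact ENNReal.ofReal_le_ofReal (le_max_left _ _)

/-- `L²`-bounded and a.e. convergent on a finite measure space implies `L¹`-convergent.
Fatou (`lintegral_liminf_le'`) gives `∫⁻ ‖g‖ₑ² ≤ M`, so all functions are in `L² ⊆ L¹`.  For `T > 0`:
`‖f n - g‖ ≤ min ‖f n - g‖ T + ‖f n - g‖²/T`, `‖f n - g‖² ≤ 2‖f n‖² + 2‖g‖²`; the first term tends
to `0` by dominated convergence, the second has integral `≤ 4 max M 0 / T`.  (Or use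
`tendsto_Lp_finite_of_tendsto_ae` with uniform integrability.) -/
theorem l2_tendsto {μ : Measure ℂ} [IsFiniteMeasure μ] {f : ℕ → ℂ → ℂ} {g : ℂ → ℂ} {M : ℝ}
    (hf : ∀ᶠ n in atTop, AEStronglyMeasurable (f n) μ)
    (hl : ∀ᵐ x ∂μ, Tendsto (fun n => f n x) atTop (𝓝 (g x)))
    (hM : ∀ᶠ n in atTop, ∫⁻ x, ‖f n x‖ₑ ^ 2 ∂μ ≤ ENNReal.ofReal M) :
    Integrable g μ ∧ (∀ᶠ n in atTop, Integrable (f n) μ) ∧
      Tendsto (fun n => ∫ x, ‖f n x - g x‖ ∂μ) atTop (𝓝 0) := by
  obtain ⟨N, hN⟩ := eventually_atTop.1 (hf.and hM)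
  have hf' : ∀ n, AEStronglyMeasurable (f (n + N)) μ := fun n => (hN _ (Nat.le_add_left _ _)).1
  have hM' : ∀ n, ∫⁻ x, ‖f (n + N) x‖ₑ ^ 2 ∂μ ≤ ENNReal.ofReal M :=
    fun n => (hN _ (Nat.le_add_left _ _)).2
  have hl' : ∀ᵐ x ∂μ, Tendsto (fun n => f (n + N) x) atTop (𝓝 (g x)) := by
    filter_upwards [hl] with x hx
    exact (tendsto_add_atTop_iff_nat (f := fun n => f n x) N).2 hx
  have hg : AEStronglyMeasurable g μ := aestronglyMeasurable_of_tendsto_ae atTop hf' hl'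
  have hgM : ∫⁻ x, ‖g x‖ₑ ^ 2 ∂μ ≤ ENNReal.ofReal M := by
    have h1 : ∫⁻ x, ‖g x‖ₑ ^ 2 ∂μ = ∫⁻ x, liminf (fun n => ‖f (n + N) x‖ₑ ^ 2) atTop ∂μ := by
      refine lintegral_congr_ae ?_
      filter_upwards [hl'] with x hx
      exact ((ENNReal.Tendsto.pow (n := 2) hx.enorm).liminf_eq).symm
    rw [h1]
    refine (lintegral_liminf_le' fun n => (hf' n).enorm.pow_const 2).trans ?_
    exact liminf_le_of_frequently_le' (Frequently.of_forall hM')
  have hint : ∀ {h : ℂ → ℂ}, AEStronglyMeasurable h μ → Integrable (fun x => ‖h x‖ ^ 2) μ →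
      Integrable h μ := by
    intro h hm h2
    exact ((memLp_two_iff_integrable_sq_norm hm).2 h2).integrable (by norm_num)
  obtain ⟨hg2, hgb⟩ := l2_tendsto_aux hg hgM
  have hgi : Integrable g μ := hint hg hg2
  refine ⟨hgi, ?_, ?_⟩
  · filter_upwards [hf, hM] with n h1 h2
    exact hint h1 (l2_tendsto_aux h1 h2).1
  rw [← tendsto_add_atTop_iff_nat N]
  rw [Metric.tendsto_atTop]
  intro ε hε
  set K := max M 0 with hK
  have hK0 : 0 ≤ K := le_max_right _ _
  set T : ℝ := 8 * (K + 1) / ε with hT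
  have hT0 : 0 < T := by positivity
  have hdom : Tendsto (fun n => ∫ x, min ‖f (n + N) x - g x‖ T ∂μ) atTop
      (𝓝 (∫ _x, (0 : ℝ) ∂μ)) := by
    refine tendsto_integral_of_dominated_convergence (fun _ => T) (fun n => ?_)
      (integrable_const T) (fun n => Eventually.of_forall fun x => ?_) ?_
    · exact (((hf' n).sub hg).norm.aemeasurable.min aemeasurable_const).aestronglyMeasurable
    · rw [Real.norm_of_nonneg (le_min (norm_nonneg _) hT0.le)]
      exact min_le_right _ _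
    · filter_upwards [hl'] with x hx
      have h1 : Tendsto (fun n => ‖f (n + N) x - g x‖) atTop (𝓝 0) :=
        tendsto_iff_norm_sub_tendsto_zero.1 hx
      have h2 := h1.min (tendsto_const_nhds (x := T))
      rwa [min_eq_left hT0.le] at h2
  rw [integral_zero, Metric.tendsto_atTop] at hdom
  obtain ⟨n0, hn0⟩ := hdom (ε / 2) (by positivity)
  refine ⟨n0, fun n hn => ?_⟩
  have h1 := hn0 n hn
  rw [Real.dist_eq, sub_zero] at h1 ⊢
  rw [abs_of_nonneg (integral_nonneg fun x => norm_nonneg _)]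
  have h1' := (le_abs_self _).trans_lt h1
  obtain ⟨hf2, hfb⟩ := l2_tendsto_aux (hf' n) (hM' n)
  have hmin : Integrable (fun x => min ‖f (n + N) x - g x‖ T) μ := by
    refine Integrable.mono' (integrable_const T)
      (((hf' n).sub hg).norm.aemeasurable.min aemeasurable_const).aestronglyMeasurable
      (Eventually.of_forall fun x => ?_)
    rw [Real.norm_of_nonneg (le_min (norm_nonneg _) hT0.le)]
    exact min_le_right _ _
  have hsq : Integrable (fun x => (2 * ‖f (n + N) x‖ ^ 2 + 2 * ‖g x‖ ^ 2) / T) μ :=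
    ((hf2.const_mul 2).add (hg2.const_mul 2)).div_const T
  have h2 : ∫ x, ‖f (n + N) x - g x‖ ∂μ ≤ ∫ x, (min ‖f (n + N) x - g x‖ T +
      (2 * ‖f (n + N) x‖ ^ 2 + 2 * ‖g x‖ ^ 2) / T) ∂μ := by
    refine integral_mono ((hint (hf' n) hf2).sub hgi).norm (hmin.add hsq) fun x => ?_
    have ha := norm_sub_le (f (n + N) x) (g x)
    have hb := norm_nonneg (f (n + N) x - g x)
    have hc : 0 ≤ (2 * ‖f (n + N) x‖ ^ 2 + 2 * ‖g x‖ ^ 2) / T := by positivity
    rcases le_total ‖f (n + N) x - g x‖ T with h | h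
    · simp only [min_eq_left h]
      linarith
    · simp only [min_eq_right h]
      have : ‖f (n + N) x - g x‖ ≤ (2 * ‖f (n + N) x‖ ^ 2 + 2 * ‖g x‖ ^ 2) / T := by
        rw [le_div_iff₀ hT0]
        nlinarith [sq_nonneg (‖f (n + N) x‖ - ‖g x‖), norm_nonneg (f (n + N) x), norm_nonneg (g x)]
      linarith
  rw [integral_add hmin hsq, integral_div, integral_add (hf2.const_mul 2) (hg2.const_mul 2),
    integral_const_mul, integral_const_mul] at h2
  have h3 : (2 * ∫ x, ‖f (n + N) x‖ ^ 2 ∂μ + 2 * ∫ x, ‖g x‖ ^ 2 ∂μ) / T ≤ ε / 2 := by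
    rw [div_le_iff₀ hT0, hT]
    have : ε / 2 * (8 * (K + 1) / ε) = 4 * (K + 1) := by field_simp; ring
    rw [this]
    linarith
  linarith

/-- The integral of the pointwise directional derivative vanishes.  `D n x = n • (u (x + n⁻¹ • v) - u x)`
has integral `0` (translation invariance, `u` integrable), converges to `fderiv ℝ u x v` at points of
differentiability (`HasFDerivAt.lim` or `HasLineDerivAt`), vanishes (as does `fderiv ℝ u x v`)
outside the compact set `S = cthickening ‖v‖ (tsupport u)` for `n ≥ 1`, and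
`∫⁻ ‖D n‖ₑ² ≤ ofReal (M‖v‖²)` for large `n`.  Apply `l2_tendsto` to `volume.restrict S`. -/
theorem integral_fderiv_eq_zero {u : ℂ → ℂ} (hc : Continuous u) (hs : HasCompactSupport u)
    (hd : ∀ᵐ x : ℂ, DifferentiableAt ℝ u x) {M δ : ℝ} (hδ : 0 < δ)
    (hq : ∀ z : ℂ, ‖z‖ < δ → ∫⁻ x, ‖u (x + z) - u x‖ₑ ^ 2 ≤ ENNReal.ofReal (M * ‖z‖ ^ 2))
    (v : ℂ) :
    Integrable (fun x => fderiv ℝ u x v) ∧ ∫ x, fderiv ℝ u x v = 0 := by
  set S : Set ℂ := cthickening ‖v‖ (tsupport u) with hS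
  have hSc : IsCompact S := hs.isCompact.cthickening
  have hSm : MeasurableSet S := hSc.isClosed.measurableSet
  haveI : IsFiniteMeasure (volume.restrict S) := isFiniteMeasure_restrict.2 hSc.measure_lt_top.ne
  set D : ℕ → ℂ → ℂ := fun n x => (n : ℝ) • (u (x + (n : ℝ)⁻¹ • v) - u x) with hD
  have hui : Integrable u := hc.integrable_of_hasCompactSupport hs
  have hDc : ∀ n, Continuous (D n) := fun n => by
    simp only [hD]; fun_prop
  have hDi : ∀ n, Integrable (D n) := fun n =>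
    ((hui.comp_add_right _).sub hui).smul (n : ℝ)
  have hD0 : ∀ n, ∫ x, D n x = 0 := fun n => by
    simp only [hD]
    rw [integral_smul, integral_sub (hui.comp_add_right _) hui,
      integral_add_right_eq_self (fun x => u x), sub_self, smul_zero]
  have hsub : tsupport u ⊆ S := self_subset_cthickening _
  have hDS : ∀ n, ∀ x ∉ S, D n x = 0 := by
    intro n x hx
    have h1 : u x = 0 := image_eq_zero_of_notMem_tsupport fun h => hx (hsub h)
    have h2 : u (x + (n : ℝ)⁻¹ • v) = 0 := by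
      refine image_eq_zero_of_notMem_tsupport fun h => hx ?_
      refine mem_cthickening_of_dist_le x _ _ _ h ?_
      rw [dist_eq_norm, sub_add_cancel_left, norm_neg, norm_smul, norm_inv, Real.norm_natCast]
      have : ((n : ℝ))⁻¹ ≤ 1 := Nat.cast_inv_le_one n
      nlinarith [norm_nonneg v]
    simp only [hD, h1, h2, sub_self, smul_zero]
  have hgS : ∀ x ∉ S, fderiv ℝ u x v = 0 := by
    intro x hx
    have : fderiv ℝ u x = 0 := by
      by_contra h
      exact hx (hsub (support_fderiv_subset ℝ (Function.mem_support.2 h)))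
    rw [this]; rfl
  have hl : ∀ᵐ x ∂(volume.restrict S), Tendsto (fun n => D n x) atTop (𝓝 (fderiv ℝ u x v)) := by
    refine ae_restrict_of_ae (hd.mono fun x hx => ?_)
    refine hx.hasFDerivAt.lim v (c := fun n : ℕ => (n : ℝ)) ?_
    simpa using tendsto_natCast_atTop_atTop (R := ℝ)
  have hM : ∀ᶠ n : ℕ in atTop, ∫⁻ x, ‖D n x‖ₑ ^ 2 ∂(volume.restrict S) ≤
      ENNReal.ofReal (M * ‖v‖ ^ 2) := by
    have h1 : Tendsto (fun n : ℕ => ‖(n : ℝ)⁻¹ • v‖) atTop (𝓝 0) := by
      have := (tendsto_inv_atTop_nhds_zero_nat (𝕜 := ℝ)).smul_const v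
      rw [zero_smul] at this
      simpa using this.norm
    filter_upwards [h1.eventually (gt_mem_nhds hδ), eventually_gt_atTop 0] with n hn hn0
    have hn' : (0 : ℝ) < n := Nat.cast_pos.2 hn0
    refine (lintegral_mono' Measure.restrict_le_self le_rfl).trans ?_
    have e : ∀ x, ‖D n x‖ₑ ^ 2 =
        ENNReal.ofReal ((n : ℝ) ^ 2) * ‖u (x + (n : ℝ)⁻¹ • v) - u x‖ₑ ^ 2 := by
      intro x
      simp only [hD]
      rw [enorm_smul, mul_pow, ENNReal.ofReal_pow hn'.le, Real.enorm_eq_ofReal hn'.le]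
    simp_rw [e]
    rw [lintegral_const_mul' _ _ ENNReal.ofReal_ne_top]
    refine (mul_le_mul_right (hq _ hn) _).trans ?_
    rw [← ENNReal.ofReal_mul (by positivity), norm_smul, norm_inv, Real.norm_natCast]
    apply le_of_eq
    congr 1
    field_simp
  obtain ⟨hgi, -, ht⟩ := l2_tendsto (μ := volume.restrict S) (f := D)
    (g := fun x => fderiv ℝ u x v)
    (Eventually.of_forall fun n => (hDc n).aestronglyMeasurable) hl hM
  have hgi' : Integrable (fun x => fderiv ℝ u x v) :=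
    IntegrableOn.integrable_of_forall_notMem_eq_zero (s := S) hgi hgS
  refine ⟨hgi', ?_⟩
  have key : ∀ n, ‖∫ x, fderiv ℝ u x v‖ ≤
      ∫ x, ‖D n x - fderiv ℝ u x v‖ ∂(volume.restrict S) := by
    intro n
    have e1 : ∫ x in S, (D n x - fderiv ℝ u x v) = ∫ x, (D n x - fderiv ℝ u x v) :=
      setIntegral_eq_integral_of_forall_compl_eq_zero fun x hx => by
        rw [hDS n x hx, hgS x hx, sub_self]
    rw [integral_sub (hDi n) hgi', hD0, zero_sub] at e1
    rw [← norm_neg, ← e1]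
    exact norm_integral_le_integral_norm _
  exact norm_le_zero_iff.1 (ge_of_tendsto' ht key)

theorem h72_det (T : ℂ →L[ℝ] ℂ) :
    T.det = (T 1).re * (T Complex.I).im - (T 1).im * (T Complex.I).re := by
  have : T.det = LinearMap.det (T : ℂ →ₗ[ℝ] ℂ) := rfl
  rw [this, ← LinearMap.det_toMatrix Complex.basisOneI, Matrix.det_fin_two]
  simp [LinearMap.toMatrix_apply]
  ring

theorem h72_apply (T : ℂ →L[ℝ] ℂ) (v : ℂ) : T v = v.re • T 1 + v.im • T Complex.I := by
  rw [← map_smul, ← map_smul, ← map_add]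
  congr 1
  apply Complex.ext <;> simp

/-- Bounded eccentricity controls the norm by the determinant.  For a unit vector `v` with
`T v ≠ 0` put `w = I v - s • v` with `s` real such that `T w ⊥ T v`; then `‖w‖ ≥ 1` and
`|det T| = ‖T v‖ ‖T w‖ ≥ ‖T v‖²/H` (`det T * (v ∧ w) = T v ∧ T w`, `v ∧ w = 1`, where
`p ∧ q = p.re * q.im - p.im * q.re`; `det T = T 1 ∧ T I` via `LinearMap.det_toLin`/
`Complex.basisOneI`).  Then `opNorm_le_bound` with `√(H |det T|)`. -/
theorem ecc_det {T : ℂ →L[ℝ] ℂ} {H : ℝ} (hH : 1 ≤ H)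
    (h : ∀ v w : ℂ, ‖v‖ ≤ ‖w‖ → ‖T v‖ ≤ H * ‖T w‖) : ‖T‖ ^ 2 ≤ H * |T.det| := by
  have hD : 0 ≤ H * |T.det| := mul_nonneg (by linarith) (abs_nonneg _)
  have key : ∀ v : ℂ, ‖T v‖ ^ 2 ≤ H * |T.det| * ‖v‖ ^ 2 := by
    intro v
    by_cases hp : T v = 0
    · rw [hp]; simp only [norm_zero]; nlinarith [mul_nonneg hD (sq_nonneg ‖v‖)]
    have hN : 0 < ‖T v‖ ^ 2 := by positivity
    set p := T v with hpdef
    set q := T (Complex.I * v) with hqdef
    set s : ℝ := (q.re * p.re + q.im * p.im) / ‖p‖ ^ 2 with hsdef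
    have hpp : ‖p‖ ^ 2 = p.re ^ 2 + p.im ^ 2 := by
      rw [Complex.sq_norm, Complex.normSq_apply]; ring
    have hvv : ‖v‖ ^ 2 = v.re ^ 2 + v.im ^ 2 := by
      rw [Complex.sq_norm, Complex.normSq_apply]; ring
    have hs : s * (p.re ^ 2 + p.im ^ 2) = q.re * p.re + q.im * p.im := by
      rw [hsdef, ← hpp]; field_simp
    have hw : ‖v‖ ≤ ‖Complex.I * v - s • v‖ := by
      have e : ‖Complex.I * v - s • v‖ ^ 2 = (1 + s ^ 2) * ‖v‖ ^ 2 := by
        rw [hvv, Complex.sq_norm, Complex.normSq_apply]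
        simp
        ring
      refine (abs_le_of_sq_le_sq' ?_ (norm_nonneg _)).2
      rw [e]
      nlinarith [mul_nonneg (sq_nonneg s) (sq_nonneg ‖v‖)]
    have hT := h v _ hw
    rw [map_sub, map_smul, ← hpdef, ← hqdef] at hT
    have hwedge : p.re * q.im - p.im * q.re = T.det * ‖v‖ ^ 2 := by
      rw [h72_det, hvv, hpdef, hqdef, h72_apply T v, h72_apply T (Complex.I * v)]
      simp
      ring
    have hprod : (‖p‖ * ‖q - s • p‖) ^ 2 = (T.det * ‖v‖ ^ 2) ^ 2 := by
      have e : ‖q - s • p‖ ^ 2 = (q.re - s * p.re) ^ 2 + (q.im - s * p.im) ^ 2 := by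
        rw [Complex.sq_norm, Complex.normSq_apply]
        simp
        ring
      rw [mul_pow, hpp, e, ← hwedge]
      have : (p.re ^ 2 + p.im ^ 2) * ((q.re - s * p.re) ^ 2 + (q.im - s * p.im) ^ 2) =
          (p.re * q.im - p.im * q.re) ^ 2 +
            (s * (p.re ^ 2 + p.im ^ 2) - (q.re * p.re + q.im * p.im)) ^ 2 := by ring
      rw [this, hs]; ring
    have hprod' : ‖p‖ * ‖q - s • p‖ = |T.det| * ‖v‖ ^ 2 := by
      have h1 : 0 ≤ ‖p‖ * ‖q - s • p‖ := by positivity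
      have h2 := sq_eq_sq_iff_abs_eq_abs _ _ |>.1 hprod
      rw [abs_of_nonneg h1, abs_mul, abs_of_nonneg (sq_nonneg ‖v‖)] at h2
      exact h2
    calc ‖p‖ ^ 2 = ‖p‖ * ‖p‖ := sq _
      _ ≤ ‖p‖ * (H * ‖q - s • p‖) := mul_le_mul_of_nonneg_left hT (norm_nonneg _)
      _ = H * (‖p‖ * ‖q - s • p‖) := by ring
      _ = H * |T.det| * ‖v‖ ^ 2 := by rw [hprod']; ring
  have hb : ‖T‖ ≤ √(H * |T.det|) := by
    refine T.opNorm_le_bound (Real.sqrt_nonneg _) fun v => ?_
    have := key v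
    refine abs_le_of_sq_le_sq' ?_ (by positivity) |>.2
    rw [mul_pow, Real.sq_sqrt hD]
    exact this
  calc ‖T‖ ^ 2 ≤ √(H * |T.det|) ^ 2 := pow_le_pow_left₀ (norm_nonneg _) hb 2
    _ = H * |T.det| := Real.sq_sqrt hD

/-- Telescoping: `‖φ (x+v) - φ x‖ ≤ ∑_{i<m} ‖φ (x + (i/m) v + v/m) - φ (x + (i/m) v)‖`; integrate over
`closedBall a r`, translate each term by `(i/m) v` (`closedBall (a + (i/m) v) r ⊆ closedBall a (2r)`,
translation invariance of `volume`, nonnegative continuous integrands on compact sets). -/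
theorem telescope {φ : ℂ → ℂ} {a v : ℂ} {r : ℝ} (hv : ‖v‖ ≤ r)
    (hc : ContinuousOn φ (closedBall a (3 * r))) {m : ℕ} (hm : 0 < m) :
    ∫ x in closedBall a r, ‖φ (x + v) - φ x‖ ≤
      ∫ y in closedBall a (2 * r), (m : ℝ) * ‖φ (y + (m : ℝ)⁻¹ • v) - φ y‖ := by
  have hr : 0 ≤ r := (norm_nonneg v).trans hv
  have hm' : (0 : ℝ) < m := by exact_mod_cast hm
  set u : ℂ := (m : ℝ)⁻¹ • v with hu
  have hiu : ∀ i : ℕ, i ≤ m → ‖(i : ℝ) • u‖ ≤ r := by
    intro i hi
    have hi' : (i : ℝ) ≤ m := by exact_mod_cast hi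
    rw [hu, smul_smul, norm_smul, Real.norm_eq_abs, abs_of_nonneg (by positivity)]
    have h1 : (i : ℝ) * (m : ℝ)⁻¹ ≤ 1 := by
      rw [← div_eq_mul_inv]; exact (div_le_one hm').2 hi'
    calc (i : ℝ) * (m : ℝ)⁻¹ * ‖v‖ ≤ 1 * ‖v‖ := mul_le_mul_of_nonneg_right h1 (norm_nonneg _)
      _ ≤ r := by linarith
  have hu1 : ‖u‖ ≤ r := by simpa using hiu 1 hm
  have hcont : ∀ (c : ℂ) (ρ : ℝ), ρ + ‖c‖ ≤ 3 * r →
      ContinuousOn (fun x => φ (x + c)) (closedBall a ρ) := by
    intro c ρ hρ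
    refine hc.comp (continuous_id.add continuous_const).continuousOn fun x hx => ?_
    rw [mem_closedBall, dist_eq_norm] at hx ⊢
    calc ‖x + c - a‖ = ‖(x - a) + c‖ := by congr 1; ring
      _ ≤ ‖x - a‖ + ‖c‖ := norm_add_le _ _
      _ ≤ 3 * r := by linarith
  set g : ℂ → ℝ := fun y => ‖φ (y + u) - φ y‖ with hg
  have hgc : ContinuousOn g (closedBall a (2 * r)) :=
    ((hcont u (2 * r) (by linarith)).sub
      (hc.mono (closedBall_subset_closedBall (by linarith)))).norm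
  have hgi : IntegrableOn g (closedBall a (2 * r)) :=
    hgc.integrableOn_compact (isCompact_closedBall _ _)
  have hterm : ∀ i : ℕ, i < m → ∫ x in closedBall a r, g (x + (i : ℝ) • u) ≤
      ∫ y in closedBall a (2 * r), g y := by
    intro i hi
    have hpre : (fun x : ℂ => x + (i : ℝ) • u) ⁻¹' closedBall (a + (i : ℝ) • u) r =
        closedBall a r := by
      ext x
      simp only [mem_preimage, mem_closedBall, dist_add_right]
    rw [← hpre, (measurePreserving_add_right volume ((i : ℝ) • u)).setIntegral_preimage_emb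
      (measurableEmbedding_addRight _) g]
    refine setIntegral_mono_set hgi (Eventually.of_forall fun y => norm_nonneg _)
      (HasSubset.Subset.eventuallyLE fun y hy => ?_)
    rw [mem_closedBall, dist_eq_norm] at hy ⊢
    have := hiu i hi.le
    calc ‖y - a‖ = ‖(y - (a + (i : ℝ) • u)) + (i : ℝ) • u‖ := by congr 1; ring
      _ ≤ ‖y - (a + (i : ℝ) • u)‖ + ‖(i : ℝ) • u‖ := norm_add_le _ _
      _ ≤ 2 * r := by linarith
  have hgi' : ∀ i : ℕ, i < m → IntegrableOn (fun x => g (x + (i : ℝ) • u)) (closedBall a r) := by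
    intro i hi
    refine ContinuousOn.integrableOn_compact (isCompact_closedBall _ _) ?_
    refine hgc.comp (continuous_id.add continuous_const).continuousOn fun x hx => ?_
    rw [mem_closedBall, dist_eq_norm] at hx ⊢
    have := hiu i hi.le
    calc ‖x + (i : ℝ) • u - a‖ = ‖(x - a) + (i : ℝ) • u‖ := by congr 1; ring
      _ ≤ ‖x - a‖ + ‖(i : ℝ) • u‖ := norm_add_le _ _
      _ ≤ 2 * r := by linarith
  have hpt : ∀ x : ℂ, ‖φ (x + v) - φ x‖ ≤ ∑ i ∈ Finset.range m, g (x + (i : ℝ) • u) := by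
    intro x
    have e := Finset.sum_range_sub (fun i : ℕ => φ (x + (i : ℝ) • u)) m
    have hmu : (m : ℝ) • u = v := by
      rw [hu, smul_smul, mul_inv_cancel₀ hm'.ne', one_smul]
    simp only [hmu, Nat.cast_zero, zero_smul, add_zero] at e
    rw [← e]
    refine (norm_sum_le _ _).trans (le_of_eq (Finset.sum_congr rfl fun i _ => ?_))
    simp only [hg]
    congr 3
    push_cast
    rw [add_smul, one_smul, add_assoc]
  have hl : IntegrableOn (fun x => ‖φ (x + v) - φ x‖) (closedBall a r) :=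
    (((hcont v r (by linarith)).sub
      (hc.mono (closedBall_subset_closedBall (by linarith)))).norm).integrableOn_compact
        (isCompact_closedBall _ _)
  calc ∫ x in closedBall a r, ‖φ (x + v) - φ x‖
      ≤ ∫ x in closedBall a r, ∑ i ∈ Finset.range m, g (x + (i : ℝ) • u) :=
        integral_mono hl (integrable_finset_sum _ fun i hi => hgi' i (Finset.mem_range.1 hi)) hpt
    _ = ∑ i ∈ Finset.range m, ∫ x in closedBall a r, g (x + (i : ℝ) • u) :=
        integral_finset_sum _ fun i hi => hgi' i (Finset.mem_range.1 hi)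
    _ ≤ ∑ _i ∈ Finset.range m, ∫ y in closedBall a (2 * r), g y :=
        Finset.sum_le_sum fun i hi => hterm i (Finset.mem_range.1 hi)
    _ = ∫ y in closedBall a (2 * r), (m : ℝ) * g y := by
        rw [Finset.sum_const, Finset.card_range, nsmul_eq_mul, integral_const_mul]

end Crest.Agent.R193.T
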