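import Mathlib
import Crest.Agent.R193.TQ1

/-! Row 193, block [T]: locally quasisymmetric maps, I. -/

set_option autoImplicit false

namespace Crest.Agent.R193.T

open MeasureTheory Set Metric Filter Topology

variable {H : ℝ} {φ : PH}

/-- Uniform radius on compact sets: `lebesgue_number_lemma_of_metric` for the cover by the balls
`ball x (r x)`; `QSOn` and `⊆ source` pass to subsets. -/
theorem LocQS.unif (h : LocQS H φ) {K : Set ℂ} (hK : IsCompact K) (hs : K ⊆ φ.source) :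
    ∃ r : ℝ, 0 < r ∧ ∀ x ∈ K, ball x r ⊆ φ.source ∧ QSOn H φ (ball x r) := by
  choose! r hr hsub hq using h
  obtain ⟨δ, hδ, hb⟩ := lebesgue_number_lemma_of_metric (c := fun x : K => ball (x : ℂ) (r x)) hK
    (fun _ => isOpen_ball)
    (fun x hx => mem_iUnion.2 ⟨⟨x, hx⟩, mem_ball_self (hr x (hs hx))⟩)
  refine ⟨δ, hδ, fun x hx => ?_⟩
  obtain ⟨i, hi⟩ := hb x hx
  exact ⟨hi.trans (hsub i (hs i.2)), fun a ha b hb c hc =>
    hq i (hs i.2) a (hi ha) b (hi hb) c (hi hc)⟩

/-- The image of a ball contains a disc of comparable radius.  Put `l = ‖φ b - φ a‖ / H`; nothing to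
do if `l = 0`, otherwise `r > 0`.  For `c ∈ sphere a r`, `dist a b ≤ 4 dist a c`, so `‖φ c - φ a‖ ≥ l`.
`V = φ '' ball a r` is open (`φ.isOpen_image_of_subset_source`), `closure V ⊆ φ '' closedBall a r`
(compact), so `closure V ∩ ball (φ a) l ⊆ V`; `IsPreconnected.subset_of_closure_inter_subset` gives
`ball (φ a) l ⊆ V`; `Complex.volume_ball`. -/
theorem area_lower (hH : 1 ≤ H) {a b : ℂ} {r : ℝ} (hs : closedBall a r ⊆ φ.source)
    (hq : QSOn H φ (closedBall a r)) (hb : b ∈ closedBall a r) :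
    ENNReal.ofReal (Real.pi * ‖φ b - φ a‖ ^ 2) ≤
      ENNReal.ofReal (H ^ 2) * volume (φ '' closedBall a r) := by
  have hH0 : 0 < H := by linarith
  set l : ℝ := ‖φ b - φ a‖ / H with hl
  have hl0 : 0 ≤ l := by positivity
  have hr0 : 0 ≤ r := dist_nonneg.trans (mem_closedBall.1 hb)
  have hsub : ball (φ a) l ⊆ φ '' closedBall a r := by
    rcases hl0.eq_or_lt with h0 | h0
    · rw [← h0, ball_zero]; exact empty_subset _
    have hr : 0 < r := by
      rcases hr0.eq_or_lt with h1 | h1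
      · exfalso
        rw [← h1, closedBall_zero, mem_singleton_iff] at hb
        rw [hl, hb] at h0
        simp at h0
      · exact h1
    have hVo : IsOpen (φ '' ball a r) :=
      φ.isOpen_image_of_subset_source isOpen_ball (ball_subset_closedBall.trans hs)
    have hK : IsCompact (φ '' closedBall a r) :=
      (isCompact_closedBall a r).image_of_continuousOn (φ.continuousOn.mono hs)
    have hcl : closure (φ '' ball a r) ⊆ φ '' closedBall a r :=
      closure_minimal (image_mono ball_subset_closedBall) hK.isClosed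
    refine ((convex_ball (φ a) l).isPreconnected.subset_of_closure_inter_subset hVo
      ⟨φ a, mem_ball_self h0, a, mem_ball_self hr, rfl⟩ ?_).trans
      (image_mono ball_subset_closedBall)
    rintro y ⟨hy1, hy2⟩
    obtain ⟨c, hc, rfl⟩ := hcl hy1
    refine ⟨c, ?_, rfl⟩
    by_contra hnc
    have hcr : r ≤ dist a c := by
      rw [dist_comm]; exact not_lt.1 hnc
    have hab : dist a b ≤ r := by rw [dist_comm]; exact hb
    have h1 := hq a (mem_closedBall_self hr0) b hb c hc (by linarith)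
    have h2 : dist (φ c) (φ a) < l := hy2
    rw [hl, lt_div_iff₀ hH0, dist_comm] at h2
    rw [dist_comm (φ a) (φ b), dist_eq_norm (φ b)] at h1
    linarith
  calc ENNReal.ofReal (Real.pi * ‖φ b - φ a‖ ^ 2)
      = ENNReal.ofReal (H ^ 2) * volume (ball (φ a) l) := by
        rw [Complex.volume_ball, ← ENNReal.ofReal_pow hl0, ← ENNReal.ofReal_coe_nnreal,
          NNReal.coe_real_pi, ← ENNReal.ofReal_mul (by positivity),
          ← ENNReal.ofReal_mul (by positivity)]
        congr 1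
        rw [hl]
        field_simp
    _ ≤ _ := by gcongr

/-- For compact `K ⊆ source` the set function `A ↦ volume (φ '' (A ∩ K))` is a finite measure:
`ν = (volume.restrict (φ '' K)).map φ.symm` (`φ.symm` is `ContinuousOn` the compact set `φ '' K`, so
a.e.-measurable; `Measure.map_apply_of_aemeasurable`). -/
theorem exists_nu (φ : PH) {K : Set ℂ} (hK : IsCompact K) (hs : K ⊆ φ.source) :
    ∃ ν : Measure ℂ, IsFiniteMeasure ν ∧
      ∀ A : Set ℂ, MeasurableSet A → ν A = volume (φ '' (A ∩ K)) := by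
  have hKc : IsCompact (φ '' K) := hK.image_of_continuousOn (φ.continuousOn.mono hs)
  have hKm : MeasurableSet (φ '' K) := hKc.isClosed.measurableSet
  have hsub : φ '' K ⊆ φ.target := by
    rintro _ ⟨x, hx, rfl⟩
    exact φ.map_source (hs hx)
  have hcont : ContinuousOn φ.symm (φ '' K) := φ.continuousOn_symm.mono hsub
  have hae : AEMeasurable φ.symm (volume.restrict (φ '' K)) := hcont.aemeasurable hKm
  have hfin : IsFiniteMeasure (volume.restrict (φ '' K)) :=
    isFiniteMeasure_restrict.mpr hKc.measure_lt_top.ne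
  refine ⟨(volume.restrict (φ '' K)).map φ.symm, inferInstance, fun A hA => ?_⟩
  rw [Measure.map_apply_of_aemeasurable hae hA, Measure.restrict_apply' hKm]
  congr 1
  ext w
  constructor
  · rintro ⟨hw, x, hx, rfl⟩
    refine ⟨x, ⟨?_, hx⟩, rfl⟩
    have : φ.symm (φ x) = x := φ.left_inv (hs hx)
    simpa [mem_preimage, this] using hw
  · rintro ⟨x, ⟨hxA, hx⟩, rfl⟩
    refine ⟨?_, x, hx, rfl⟩
    have : φ.symm (φ x) = x := φ.left_inv (hs hx)
    simpa [mem_preimage, this] using hxA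

/-- A.e. differentiability.  By `measure_null_of_locally_null` it suffices to treat a.e. point of
`ball x₀ ρ` where `closedBall x₀ (2ρ) ⊆ source` carries `QSOn`.  With `ν` from `exists_nu` for
`K = closedBall x₀ (2ρ)`: `Besicovitch.ae_tendsto_rnDeriv ν volume` and `Measure.rnDeriv_lt_top`
give a.e. `ν (closedBall x r) ≤ C r²` for small `r`; `area_lower` with `r = ‖y - x‖` turns this into
`‖φ y - φ x‖ ≤ C' ‖y - x‖` near `x`; conclude with `stepanov`. -/
theorem LocQS.ae_diff (hH : 1 ≤ H) (h : LocQS H φ) :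
    ∀ᵐ x : ℂ, x ∈ φ.source → DifferentiableAt ℝ φ x := by
  have hst := stepanov φ
  suffices hL : ∀ᵐ x : ℂ, x ∈ φ.source →
      ∃ C : ℝ, ∀ᶠ y in 𝓝 x, ‖φ y - φ x‖ ≤ C * ‖y - x‖ by
    filter_upwards [hst, hL] with x h1 h2 hx using h1 (h2 hx)
  rw [ae_iff]
  apply measure_null_of_locally_null
  intro x₀ hx₀
  have hx₀s : x₀ ∈ φ.source := by
    by_contra hc
    exact hx₀ (fun h' => absurd h' hc)
  obtain ⟨r, hr, hsub, hq⟩ := h x₀ hx₀s
  set K : Set ℂ := closedBall x₀ (r / 2) with hKdef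
  have hKb : K ⊆ ball x₀ r := closedBall_subset_ball (by linarith)
  have hK : IsCompact K := isCompact_closedBall _ _
  obtain ⟨ν, hνf, hν⟩ := exists_nu φ hK (hKb.trans hsub)
  have h1 := Besicovitch.ae_tendsto_rnDeriv ν (volume : Measure ℂ)
  have h2 := Measure.rnDeriv_lt_top ν (volume : Measure ℂ)
  have key : ∀ᵐ x : ℂ, x ∈ ball x₀ (r / 4) →
      ∃ C : ℝ, ∀ᶠ y in 𝓝 x, ‖φ y - φ x‖ ≤ C * ‖y - x‖ := by
    filter_upwards [h1, h2] with x hx1 hx2 hxb
    set D : ENNReal := ν.rnDeriv volume x with hD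
    have hlt : D < D + 1 := ENNReal.lt_add_right hx2.ne one_ne_zero
    have hev : ∀ᶠ ρ in 𝓝[>] (0 : ℝ),
        ν (closedBall x ρ) / volume (closedBall x ρ) < D + 1 := hx1.eventually (gt_mem_nhds hlt)
    obtain ⟨ε, hε, hεb⟩ : ∃ ε > 0, ∀ ρ : ℝ, 0 < ρ → ρ < ε →
        ν (closedBall x ρ) / volume (closedBall x ρ) < D + 1 := by
      rw [eventually_nhdsWithin_iff, Metric.eventually_nhds_iff] at hev
      obtain ⟨ε, hε, hb⟩ := hev
      refine ⟨ε, hε, fun ρ h0 h1 => hb ?_ h0⟩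
      simpa [Real.dist_eq, abs_of_pos h0] using h1
    set M : ℝ := (D + 1).toReal with hM
    have hDtop : D + 1 ≠ ⊤ := ENNReal.add_ne_top.mpr ⟨hx2.ne, ENNReal.one_ne_top⟩
    have hM0 : 0 ≤ M := ENNReal.toReal_nonneg
    refine ⟨H * Real.sqrt M, ?_⟩
    have hnb : ball x (min ε (r / 4)) ∈ 𝓝 x := ball_mem_nhds x (lt_min hε (by linarith))
    filter_upwards [hnb] with y hy
    have hy' : ‖y - x‖ < min ε (r / 4) := by simpa [dist_eq_norm] using hy
    rcases eq_or_ne y x with rfl | hne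
    · simp
    set ρ : ℝ := ‖y - x‖ with hρ
    have hρ0 : 0 < ρ := norm_pos_iff.mpr (sub_ne_zero.mpr hne)
    have hρε : ρ < ε := lt_of_lt_of_le hy' (min_le_left _ _)
    have hρr : ρ < r / 4 := lt_of_lt_of_le hy' (min_le_right _ _)
    have hBK : closedBall x ρ ⊆ K := by
      intro z hz
      have h3 : dist z x ≤ ρ := hz
      have h4 : dist x x₀ < r / 4 := hxb
      have h5 := dist_triangle z x x₀
      show dist z x₀ ≤ r / 2
      linarith
    have hqB : QSOn H φ (closedBall x ρ) := fun a ha b hb c hc habc =>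
      hq a (hKb (hBK ha)) b (hKb (hBK hb)) c (hKb (hBK hc)) habc
    have hyB : y ∈ closedBall x ρ := by
      show dist y x ≤ ρ
      rw [dist_eq_norm]
    have hA := area_lower hH (hBK.trans (hKb.trans hsub)) hqB hyB
    have hνB : ν (closedBall x ρ) = volume (φ '' closedBall x ρ) := by
      rw [hν _ measurableSet_closedBall, inter_eq_left.mpr hBK]
    have hvol : volume (closedBall x ρ) = ENNReal.ofReal (Real.pi * ρ ^ 2) := by
      rw [Complex.volume_closedBall, mul_comm Real.pi, ENNReal.ofReal_mul (by positivity),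
        ENNReal.ofReal_pow hρ0.le]
      congr 1
      rw [← NNReal.coe_real_pi, ENNReal.ofReal_coe_nnreal]
    have hvol0 : volume (closedBall x ρ) ≠ 0 := by
      rw [hvol]
      exact (ENNReal.ofReal_pos.mpr (by positivity)).ne'
    have hvolt : volume (closedBall x ρ) ≠ ⊤ := by
      rw [hvol]; exact ENNReal.ofReal_ne_top
    have hb1 : ν (closedBall x ρ) ≤ (D + 1) * volume (closedBall x ρ) := by
      have := (hεb ρ hρ0 hρε).le
      rwa [ENNReal.div_le_iff hvol0 hvolt] at this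
    have hb2 : ENNReal.ofReal (Real.pi * ‖φ y - φ x‖ ^ 2) ≤
        ENNReal.ofReal (H ^ 2 * (M * (Real.pi * ρ ^ 2))) := by
      refine hA.trans ?_
      rw [← hνB, ENNReal.ofReal_mul (by positivity), ENNReal.ofReal_mul hM0, hM,
        ENNReal.ofReal_toReal hDtop, ← hvol]
      exact mul_le_mul_right hb1 _
    have hb3 : Real.pi * ‖φ y - φ x‖ ^ 2 ≤ H ^ 2 * (M * (Real.pi * ρ ^ 2)) :=
      (ENNReal.ofReal_le_ofReal_iff (by positivity)).mp hb2
    have hb4 : ‖φ y - φ x‖ ^ 2 ≤ (H * Real.sqrt M * ρ) ^ 2 := by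
      have hs : Real.sqrt M ^ 2 = M := Real.sq_sqrt hM0
      have : Real.pi * ‖φ y - φ x‖ ^ 2 ≤ Real.pi * (H * Real.sqrt M * ρ) ^ 2 := by
        calc _ ≤ _ := hb3
          _ = _ := by rw [mul_pow, mul_pow, hs]; ring
      exact le_of_mul_le_mul_left this Real.pi_pos
    have hH0 : 0 ≤ H := by linarith
    exact (abs_le_of_sq_le_sq' hb4 (by positivity)).2
  refine ⟨{x | ¬(x ∈ φ.source → ∃ C : ℝ, ∀ᶠ y in 𝓝 x, ‖φ y - φ x‖ ≤ C * ‖y - x‖)} ∩
    ball x₀ (r / 4), inter_mem_nhdsWithin _ (ball_mem_nhds _ (by linarith)), ?_⟩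
  rw [ae_iff] at key
  refine measure_mono_null ?_ key
  rintro x ⟨hx1, hx2⟩ hx3
  exact hx1 (fun _ => hx3 hx2)

private theorem dq_tonelli (ν : Measure ℂ) [IsFiniteMeasure ν] (ρ : ℝ) :
    ∫⁻ x : ℂ, ν (closedBall x ρ) =
      ENNReal.ofReal ρ ^ 2 * ENNReal.ofReal Real.pi * ν univ := by
  have hS : MeasurableSet {p : ℂ × ℂ | dist p.2 p.1 ≤ ρ} :=
    (isClosed_le (by fun_prop) continuous_const).measurableSet
  have h1 := Measure.prod_apply (μ := (volume : Measure ℂ)) (ν := ν) hS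
  have h2 := Measure.prod_apply_symm (μ := (volume : Measure ℂ)) (ν := ν) hS
  have h3 : ∀ y : ℂ, (volume : Measure ℂ) ((fun x => (x, y)) ⁻¹' {p : ℂ × ℂ | dist p.2 p.1 ≤ ρ}) =
      ENNReal.ofReal ρ ^ 2 * ENNReal.ofReal Real.pi := by
    intro y
    have : ((fun x => (x, y)) ⁻¹' {p : ℂ × ℂ | dist p.2 p.1 ≤ ρ}) = closedBall y ρ := by
      ext x
      simp [dist_comm]
    rw [this, Complex.volume_closedBall]
    congr 1
    rw [ENNReal.ofReal, ENNReal.coe_inj]
    ext
    simp [Real.pi_pos.le]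
  simp_rw [h3] at h2
  rw [lintegral_const] at h2
  rw [← h2, h1]
  rfl

/-- `L²` bound for difference quotients.  Take `δ` smaller than the radius of `LocQS.unif` with
`cthickening δ K ⊆ source` (`IsCompact.exists_cthickening_subset_open`).  For `ρ = ‖z‖ ≤ δ`,
`K' = cthickening ρ K`, `ν` from `exists_nu` for `K'`: `area_lower` gives
`π‖φ (x+z) - φ x‖² ≤ H² ν (closedBall x ρ)` on `K`, and by Tonelli (`lintegral_lintegral_swap` for
the indicator of `{(x,y) | dist x y ≤ ρ}`) `∫⁻ x, ν (closedBall x ρ) = π ρ² ν univ`. -/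
theorem LocQS.dq_bound (hH : 1 ≤ H) (h : LocQS H φ) {K : Set ℂ} (hK : IsCompact K)
    (hs : K ⊆ φ.source) :
    ∃ δ : ℝ, 0 < δ ∧ cthickening δ K ⊆ φ.source ∧ ∀ z : ℂ, ‖z‖ ≤ δ →
      ∫⁻ x in K, ‖φ (x + z) - φ x‖ₑ ^ 2 ≤
        ENNReal.ofReal (H ^ 2 * ‖z‖ ^ 2) * volume (φ '' cthickening ‖z‖ K) := by
  obtain ⟨r, hr, hru⟩ := h.unif hK hs
  obtain ⟨δ₀, hδ₀, hδs⟩ := hK.exists_cthickening_subset_open φ.open_source hs
  refine ⟨min δ₀ (r / 2), by positivity,
    (cthickening_mono (min_le_left _ _) K).trans hδs, fun z hz => ?_⟩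
  have hρ1 : ‖z‖ ≤ δ₀ := hz.trans (min_le_left _ _)
  have hρ2 : ‖z‖ < r := by
    have := hz.trans (min_le_right _ _)
    linarith
  have hs' : cthickening ‖z‖ K ⊆ φ.source := (cthickening_mono hρ1 K).trans hδs
  obtain ⟨ν, hνf, hν⟩ := exists_nu φ (hK.cthickening (r := ‖z‖)) hs'
  have hpt : ∀ x ∈ K, ENNReal.ofReal Real.pi * ‖φ (x + z) - φ x‖ₑ ^ 2 ≤
      ENNReal.ofReal (H ^ 2) * ν (closedBall x ‖z‖) := by
    intro x hx
    have hsub : closedBall x ‖z‖ ⊆ ball x r := closedBall_subset_ball hρ2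
    have h1 := area_lower hH (a := x) (b := x + z) (r := ‖z‖) (hsub.trans (hru x hx).1)
      (fun a ha b hb c hc => (hru x hx).2 a (hsub ha) b (hsub hb) c (hsub hc))
      (by simp [dist_eq_norm])
    rw [hν _ measurableSet_closedBall, inter_eq_left.2 (closedBall_subset_cthickening hx ‖z‖)]
    rwa [ENNReal.ofReal_mul Real.pi_pos.le, ENNReal.ofReal_pow (norm_nonneg _),
      ofReal_norm] at h1
  have hπ0 : ENNReal.ofReal Real.pi ≠ 0 := by simp [Real.pi_pos]
  have hmain : ENNReal.ofReal Real.pi * ∫⁻ x in K, ‖φ (x + z) - φ x‖ₑ ^ 2 ≤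
      ENNReal.ofReal Real.pi *
        (ENNReal.ofReal (H ^ 2 * ‖z‖ ^ 2) * volume (φ '' cthickening ‖z‖ K)) := by
    calc ENNReal.ofReal Real.pi * ∫⁻ x in K, ‖φ (x + z) - φ x‖ₑ ^ 2
        = ∫⁻ x in K, ENNReal.ofReal Real.pi * ‖φ (x + z) - φ x‖ₑ ^ 2 :=
          (lintegral_const_mul' _ _ ENNReal.ofReal_ne_top).symm
      _ ≤ ∫⁻ x in K, ENNReal.ofReal (H ^ 2) * ν (closedBall x ‖z‖) :=
          setLIntegral_mono' hK.measurableSet hpt
      _ ≤ ∫⁻ x, ENNReal.ofReal (H ^ 2) * ν (closedBall x ‖z‖) := setLIntegral_le_lintegral _ _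
      _ = ENNReal.ofReal (H ^ 2) * ∫⁻ x, ν (closedBall x ‖z‖) :=
          lintegral_const_mul' _ _ ENNReal.ofReal_ne_top
      _ = _ := by
          rw [dq_tonelli, hν _ MeasurableSet.univ, univ_inter,
            ENNReal.ofReal_mul (sq_nonneg H), ENNReal.ofReal_pow (norm_nonneg z)]
          ring
  exact (ENNReal.mul_le_mul_iff_right hπ0 ENNReal.ofReal_ne_top).1 hmain

/-- Eccentricity of the derivative: for small `t > 0` apply `QSOn` to `x, x + t v, x + t w`, divide by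
`t` and let `t → 0⁺` (`le_of_tendsto_of_tendsto`). -/
theorem LocQS.ecc (h : LocQS H φ) {x : ℂ} (hx : x ∈ φ.source) (hd : DifferentiableAt ℝ φ x)
    (v w : ℂ) (hvw : ‖v‖ ≤ ‖w‖) : ‖fderiv ℝ φ x v‖ ≤ H * ‖fderiv ℝ φ x w‖ := by
  obtain ⟨r, hr, -, hq⟩ := h x hx
  have t1 := (hd.hasFDerivAt.hasLineDerivAt v).tendsto_slope_zero_right.norm
  have t2 := ((hd.hasFDerivAt.hasLineDerivAt w).tendsto_slope_zero_right.norm).const_mul H
  refine le_of_tendsto_of_tendsto t1 t2 ?_
  have hb : ∀ u : ℂ, ∀ᶠ t : ℝ in 𝓝[>] 0, x + t • u ∈ ball x r := fun u => by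
    have : Tendsto (fun t : ℝ => x + t • u) (𝓝 0) (𝓝 x) :=
      (by fun_prop : Continuous fun t : ℝ => x + t • u).tendsto' 0 x (by simp)
    exact (this.eventually (ball_mem_nhds x hr)).filter_mono nhdsWithin_le_nhds
  filter_upwards [hb v, hb w, self_mem_nhdsWithin] with t hv hw ht
  have ht0 : 0 < t := ht
  have h1 := hq x (mem_ball_self hr) _ hv _ hw (by
    rw [dist_self_add_right, dist_self_add_right, norm_smul, norm_smul]
    have := mul_le_mul_of_nonneg_left hvw (norm_nonneg t)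
    have : 0 ≤ ‖t‖ * ‖w‖ := by positivity
    linarith)
  rw [dist_comm, dist_eq_norm, dist_comm, dist_eq_norm] at h1
  rw [norm_smul, norm_smul, mul_left_comm]
  exact mul_le_mul_of_nonneg_left h1 (norm_nonneg _)

end Crest.Agent.R193.T
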