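import Mathlib
import Crest.Agent.R193.TQ2

/-! Row 193, block [T]: locally quasisymmetric maps, II. -/

set_option autoImplicit false

namespace Crest.Agent.R193.T

open MeasureTheory Set Metric Filter Topology

variable {H : ℝ} {φ : PH}

/-- The derivative is nonzero on a definite proportion of every small ball.
Let `v = (r : ℂ)`, `ν = volume (φ '' closedBall a (3r))` (finite; positive since it contains the
nonempty open set `φ '' ball a r`), `d x = ‖φ (x+v) - φ x‖`.  For `x ∈ closedBall a r` and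
`c ∈ closedBall a (3r)`: `dist x c ≤ 4 dist x (x+v)`, so `φ '' closedBall a (3r) ⊆ closedBall (φ x) (H d x)`
and `ν ≤ π H² (d x)²`.  Hence `π r² √(ν/π)/H ≤ ∫_{closedBall a r} d ≤ ∫_{B} q m` (`telescope`),
`B = closedBall a (2r)`, `q m y = m‖φ (y + v/m) - φ y‖`.  Split `B = (B ∩ Z) ∪ (B \ Z)`,
`Z = {fderiv = 0}` (measurable, `measurable_fderiv`).  By `dq_bound` for `K = B`, `∫⁻_B (q m)² ≤ H² r² ν`
for large `m` (`cthickening (r/m) B ⊆ closedBall a (3r)`).  On `B ∩ Z`, `q m → 0` a.e. (`ae_diff`), so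
`∫_{B ∩ Z} q m → 0` (`l2_tendsto`); on `B \ Z` Cauchy-Schwarz gives `≤ √(vol (B \ Z)) H r √ν`.
So `√π r² / H ≤ H r √(vol (B \ Z))`. -/
theorem LocQS.density_lower (hH : 1 ≤ H) (h : LocQS H φ) {a : ℂ} {r : ℝ} (hr : 0 < r)
    (hs : closedBall a (3 * r) ⊆ φ.source) (hq : QSOn H φ (closedBall a (3 * r))) :
    ENNReal.ofReal (Real.pi * r ^ 2 / H ^ 4) ≤
      volume (closedBall a (2 * r) ∩ {x | fderiv ℝ φ x ≠ 0}) := by
  have hH0 : 0 < H := by linarith
  set v : ℂ := (r : ℂ) with hv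
  have hvn : ‖v‖ = r := by simp [hv, hr.le]
  have hc3 : ContinuousOn φ (closedBall a (3 * r)) := φ.continuousOn.mono hs
  have hB3 : closedBall a (2 * r) ⊆ closedBall a (3 * r) := closedBall_subset_closedBall (by linarith)
  have hνfin : volume (φ '' closedBall a (3 * r)) ≠ ⊤ :=
    ((isCompact_closedBall a (3 * r)).image_of_continuousOn hc3).measure_lt_top.ne
  have hb3 : ball a r ⊆ closedBall a (3 * r) :=
    ball_subset_closedBall.trans (closedBall_subset_closedBall (by linarith))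
  have hνpos : 0 < volume (φ '' closedBall a (3 * r)) :=
    ((φ.isOpen_image_of_subset_source isOpen_ball (hb3.trans hs)).measure_pos volume
      ⟨φ a, mem_image_of_mem _ (mem_ball_self hr)⟩).trans_le (measure_mono (image_mono hb3))
  set n : ℝ := (volume (φ '' closedBall a (3 * r))).toReal with hn
  have hn0 : 0 < n := ENNReal.toReal_pos hνpos.ne' hνfin
  have hshift : ∀ (s : ℝ) (z : ℂ), ‖z‖ ≤ r → s ≤ 2 * r → ∀ x ∈ closedBall a s,
      x + z ∈ closedBall a (3 * r) := fun s z hz hs' x hx => by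
    rw [mem_closedBall, dist_eq_norm] at hx ⊢
    have e : x + z - a = (x - a) + z := by ring
    rw [e]
    linarith [norm_add_le (x - a) z]
  -- step 1
  set l : ℝ := √(n / Real.pi) / H with hl
  have hl0 : 0 < l := div_pos (Real.sqrt_pos.2 (div_pos hn0 Real.pi_pos)) hH0
  have h1 : ∀ x ∈ closedBall a r, l ≤ ‖φ (x + v) - φ x‖ := fun x hx => by
    have hx3 : x ∈ closedBall a (3 * r) := closedBall_subset_closedBall (by linarith) hx
    have hsub : φ '' closedBall a (3 * r) ⊆ closedBall (φ x) (H * ‖φ (x + v) - φ x‖) := by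
      rintro _ ⟨c, hc, rfl⟩
      have := hq x hx3 c hc (x + v) (hshift r v hvn.le (by linarith) x hx) (by
        rw [dist_self_add_right, hvn]
        have h1 := dist_triangle_right x c a
        rw [mem_closedBall] at hx hc
        linarith)
      rwa [mem_closedBall, dist_comm, ← dist_eq_norm, dist_comm (φ (x + v))]
    have h2 := ENNReal.toReal_mono (isCompact_closedBall _ _).measure_lt_top.ne (measure_mono hsub
      (μ := volume))
    rw [Complex.volume_closedBall, ENNReal.toReal_mul, ENNReal.toReal_pow,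
      ENNReal.toReal_ofReal (by positivity), ENNReal.coe_toReal, NNReal.coe_real_pi] at h2
    rw [hl, div_le_iff₀ hH0, Real.sqrt_le_left (by positivity), div_le_iff₀ Real.pi_pos,
      mul_comm _ H]
    exact h2
  -- step 2
  set c : ℝ := Real.pi * r ^ 2 * l with hc
  have hc0 : 0 < c := by have := Real.pi_pos; positivity
  have h2 : c ≤ ∫ x in closedBall a r, ‖φ (x + v) - φ x‖ := by
    have hcont : ContinuousOn (fun x => ‖φ (x + v) - φ x‖) (closedBall a r) :=
      ((hc3.comp (continuous_add_const v).continuousOn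
        (hshift r v hvn.le (by linarith))).sub
        (hc3.mono (closedBall_subset_closedBall (by linarith)))).norm
    have h3 := setIntegral_mono_on (μ := volume) (f := fun _ => l)
      (integrableOn_const (isCompact_closedBall a r).measure_lt_top.ne)
      (hcont.integrableOn_compact (isCompact_closedBall a r)) measurableSet_closedBall h1
    rw [setIntegral_const, Measure.real, Complex.volume_closedBall, ENNReal.toReal_mul,
      ENNReal.toReal_pow, ENNReal.toReal_ofReal hr.le, ENNReal.coe_toReal, NNReal.coe_real_pi,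
      smul_eq_mul] at h3
    rw [hc, mul_comm Real.pi]
    exact h3
  -- step 3
  set B := closedBall a (2 * r) with hB
  have hBc : IsCompact B := isCompact_closedBall _ _
  set Z : Set ℂ := {x | fderiv ℝ φ x = 0} with hZ
  have hZm : MeasurableSet Z := measurable_fderiv ℝ φ (measurableSet_singleton 0)
  set f : ℕ → ℂ → ℂ := fun m y => (m : ℝ) • (φ (y + (m : ℝ)⁻¹ • v) - φ y) with hf
  set M : ℝ := H ^ 2 * r ^ 2 * n with hM
  have hM0 : 0 < M := by positivity
  have hzn : ∀ m : ℕ, ‖(m : ℝ)⁻¹ • v‖ = (m : ℝ)⁻¹ * r := fun m => by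
    rw [norm_smul, hvn, Real.norm_of_nonneg (by positivity)]
  have hzr : ∀ m : ℕ, 0 < m → ‖(m : ℝ)⁻¹ • v‖ ≤ r := fun m hm => by
    rw [hzn]
    exact mul_le_of_le_one_left hr.le (inv_le_one_of_one_le₀ (by exact_mod_cast hm))
  have hfc : ∀ m : ℕ, 0 < m → ContinuousOn (f m) B := fun m hm =>
    ((hc3.comp (continuous_add_const _).continuousOn
      (hshift (2 * r) _ (hzr m hm) le_rfl)).sub (hc3.mono hB3)).const_smul (m : ℝ)
  have hfn : ∀ (m : ℕ) y, ‖f m y‖ = (m : ℝ) * ‖φ (y + (m : ℝ)⁻¹ • v) - φ y‖ := fun m y => by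
    simp only [hf]
    rw [norm_smul, Real.norm_of_nonneg (by positivity)]
  obtain ⟨δ, hδ, -, hdq⟩ := h.dq_bound hH hBc (hB3.trans hs)
  have hL2 : ∀ᶠ m : ℕ in atTop, ∫⁻ y in B, ‖f m y‖ₑ ^ 2 ≤ ENNReal.ofReal M := by
    have ht : Tendsto (fun m : ℕ => (m : ℝ)⁻¹ * r) atTop (𝓝 (0 * r)) :=
      tendsto_inv_atTop_nhds_zero_nat.mul_const r
    rw [zero_mul] at ht
    filter_upwards [ht.eventually (ge_mem_nhds hδ), eventually_gt_atTop 0] with m hm hm0
    have hm0' : (0 : ℝ) < m := by exact_mod_cast hm0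
    have h3 := hdq _ ((hzn m).trans_le hm)
    have h4 : cthickening ‖(m : ℝ)⁻¹ • v‖ B ⊆ closedBall a (3 * r) := by
      rw [hB, cthickening_closedBall (norm_nonneg _) (by positivity)]
      exact closedBall_subset_closedBall (by linarith [hzr m hm0])
    have e : ∀ y, ‖f m y‖ₑ ^ 2 =
        ENNReal.ofReal ((m : ℝ) ^ 2) * ‖φ (y + (m : ℝ)⁻¹ • v) - φ y‖ₑ ^ 2 := fun y => by
      rw [← ofReal_norm, ← ofReal_norm, hfn, ENNReal.ofReal_mul hm0'.le, mul_pow,
        ENNReal.ofReal_pow hm0'.le]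
    simp only [e]
    rw [lintegral_const_mul' _ _ ENNReal.ofReal_ne_top]
    refine (mul_le_mul_right (h3.trans (mul_le_mul_right (measure_mono (image_mono h4)) _)) _).trans
      (le_of_eq ?_)
    rw [← ENNReal.ofReal_toReal hνfin, ← hn, ← ENNReal.ofReal_mul (by positivity),
      ← ENNReal.ofReal_mul (by positivity), hzn, hM]
    congr 1
    field_simp
  have : IsFiniteMeasure (volume.restrict (B ∩ Z)) :=
    isFiniteMeasure_restrict.2 ((measure_mono inter_subset_left).trans_lt hBc.measure_lt_top).ne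
  obtain ⟨-, -, hlim⟩ := l2_tendsto (μ := volume.restrict (B ∩ Z)) (f := f) (g := fun _ => 0)
    (M := M)
    (by
      filter_upwards [eventually_gt_atTop 0] with m hm
      exact ((hfc m hm).mono inter_subset_left).aestronglyMeasurable
        (hBc.measurableSet.inter hZm))
    (by
      rw [ae_restrict_iff' (hBc.measurableSet.inter hZm)]
      filter_upwards [h.ae_diff hH] with y hy hyB
      have h3 := (hy (hs (hB3 hyB.1))).hasFDerivAt.lim v (c := fun m : ℕ => (m : ℝ)) (l := atTop)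
        (by simpa using tendsto_natCast_atTop_atTop (R := ℝ))
      rw [show fderiv ℝ φ y = 0 from hyB.2] at h3
      exact h3)
    (by
      filter_upwards [hL2] with m hm
      exact (lintegral_mono_set inter_subset_left).trans hm)
  simp only [sub_zero] at hlim
  have hwfin : volume (B \ Z) ≠ ⊤ := ((measure_mono sdiff_subset).trans_lt hBc.measure_lt_top).ne
  set w : ℝ := volume.real (B \ Z) with hw
  set t : ℝ := M / c with ht
  have ht0 : 0 < t := div_pos hM0 hc0
  have h4 : c ≤ 0 + (t / 2 * w + M / (2 * t)) := by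
    refine ge_of_tendsto (hlim.add_const _) ?_
    filter_upwards [hL2, eventually_gt_atTop 0] with m hm hm0
    have i1 : IntegrableOn (fun y => ‖f m y‖) B := (hfc m hm0).norm.integrableOn_compact hBc
    have i2 : IntegrableOn (fun y => ‖f m y‖ ^ 2) B :=
      ((hfc m hm0).norm.pow 2).integrableOn_compact hBc
    have hI : ∫ y in B, ‖f m y‖ ^ 2 ≤ M := by
      rw [← ENNReal.ofReal_le_ofReal_iff hM0.le,
        ofReal_integral_eq_lintegral_ofReal i2 (ae_of_all _ fun _ => sq_nonneg _)]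
      refine le_trans (le_of_eq (lintegral_congr fun y => ?_)) hm
      rw [← ofReal_norm, ENNReal.ofReal_pow (norm_nonneg _)]
    have h5 := telescope hvn.le hc3 hm0
    simp only [← hfn] at h5
    have h6 := integral_inter_add_sdiff hZm i1
    have i3 : IntegrableOn (fun _ : ℂ => t / 2) (B \ Z) := integrableOn_const hwfin
    have i4 : IntegrableOn (fun y => ‖f m y‖ ^ 2 / (2 * t)) (B \ Z) :=
      (i2.mono_set sdiff_subset).div_const _
    have h7 : ∫ y in B \ Z, ‖f m y‖ ≤ ∫ y in B \ Z, (t / 2 + ‖f m y‖ ^ 2 / (2 * t)) := by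
      refine setIntegral_mono (i1.mono_set sdiff_subset) (i3.add i4) fun y => ?_
      rw [← sub_nonneg]
      have e : t / 2 + ‖f m y‖ ^ 2 / (2 * t) - ‖f m y‖ = (t - ‖f m y‖) ^ 2 / (2 * t) := by
        field_simp
        ring
      exact e ▸ by positivity
    rw [integral_add i3 i4, setIntegral_const, integral_div, smul_eq_mul] at h7
    have h8 : ∫ y in B \ Z, ‖f m y‖ ^ 2 ≤ ∫ y in B, ‖f m y‖ ^ 2 :=
      setIntegral_mono_set i2 (ae_of_all _ fun _ => sq_nonneg _) sdiff_subset.eventuallyLE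
    have h9 : (∫ y in B \ Z, ‖f m y‖ ^ 2) / (2 * t) ≤ M / (2 * t) :=
      div_le_div_of_nonneg_right (h8.trans hI) (by positivity)
    rw [← hw, mul_comm w] at h7
    linarith
  have h5 : c ^ 2 ≤ M * w := by
    have e1 : M / (2 * t) = c / 2 := by rw [ht]; field_simp
    have e2 : t / 2 * w = M * w / (2 * c) := by rw [ht]; field_simp
    rw [e1, e2] at h4
    have : c / 2 ≤ M * w / (2 * c) := by linarith
    rw [div_le_div_iff₀ two_pos (by positivity)] at this
    nlinarith
  have h6 : c ^ 2 = M * (Real.pi * r ^ 2 / H ^ 4) := by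
    have := Real.pi_pos
    rw [hc, hl, hM, mul_pow, div_pow, Real.sq_sqrt (by positivity)]
    field_simp
  exact ENNReal.ofReal_le_of_le_toReal (le_of_mul_le_mul_left (h6 ▸ h5) hM0)

/-- A.e. point is good.  `Z = {x | fderiv ℝ φ x = 0}` is measurable; at a.e. `x ∈ Z`
`vol (Zᶜ ∩ closedBall x ρ)/vol (closedBall x ρ) → 0`
(`Besicovitch.ae_tendsto_measure_inter_div_of_measurableSet volume` for `Zᶜ`), which contradicts
`density_lower` (ratio `≥ 1/(4H⁴)`) if `x ∈ source`.  So a.e. `fderiv ≠ 0`; then `ae_diff`, `ecc`,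
`ecc_det` (and `‖T‖² ≤ H|det T|`, `T ≠ 0` give `det T ≠ 0`). -/
theorem LocQS.ae_good (hH : 1 ≤ H) (h : LocQS H φ) :
    ∀ᵐ x : ℂ, x ∈ φ.source → DifferentiableAt ℝ φ x ∧ (fderiv ℝ φ x).det ≠ 0 ∧
      ‖fderiv ℝ φ x‖ ^ 2 ≤ H * |(fderiv ℝ φ x).det| := by
  have hZ : MeasurableSet {x : ℂ | fderiv ℝ φ x ≠ 0} :=
    (measurable_fderiv ℝ (φ : ℂ → ℂ)) (measurableSet_singleton 0).compl
  filter_upwards [Besicovitch.ae_tendsto_measure_inter_div_of_measurableSet volume hZ,
    h.ae_diff hH] with x hx hd hxs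
  have hdx := hd hxs
  have hne : fderiv ℝ φ x ≠ 0 := by
    intro h0
    have hi : ({x : ℂ | fderiv ℝ φ x ≠ 0}.indicator (1 : ℂ → ENNReal) x) = 0 :=
      indicator_of_notMem (by simpa using h0) _
    rw [hi] at hx
    obtain ⟨r₀, hr₀, hsub, hq⟩ := h x hxs
    have hH0 : 0 < H := lt_of_lt_of_le one_pos hH
    have hc : (0 : ENNReal) < ENNReal.ofReal (1 / (4 * H ^ 4)) :=
      ENNReal.ofReal_pos.2 (by positivity)
    have h1 := hx.eventually (gt_mem_nhds hc)
    have h2 : ∀ᶠ ρ : ℝ in 𝓝[>] 0, ρ ∈ Ioo (0 : ℝ) (r₀ / 2) :=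
      Ioo_mem_nhdsGT (by positivity)
    obtain ⟨ρ, hρ1, hρ0, hρ2⟩ := (h1.and h2).exists
    have hb : closedBall x (3 * (ρ / 2)) ⊆ ball x r₀ := closedBall_subset_ball (by linarith)
    have h3 := h.density_lower hH (a := x) (r := ρ / 2) (by positivity) (hb.trans hsub)
      (fun a ha b hb' c hc' => hq a (hb ha) b (hb hb') c (hb hc'))
    have e : 2 * (ρ / 2) = ρ := by ring
    rw [e, inter_comm] at h3
    have hv : volume (closedBall x ρ) = ENNReal.ofReal (Real.pi * ρ ^ 2) := by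
      rw [Complex.volume_closedBall, ENNReal.ofReal_mul Real.pi_pos.le,
        ENNReal.ofReal_pow hρ0.le, mul_comm, ← NNReal.coe_real_pi, ENNReal.ofReal_coe_nnreal]
    rw [hv, ENNReal.div_lt_iff (Or.inl (by
      simp only [ne_eq, ENNReal.ofReal_eq_zero, not_le]; positivity))
      (Or.inl ENNReal.ofReal_ne_top), ← ENNReal.ofReal_mul (by positivity)] at hρ1
    have e2 : 1 / (4 * H ^ 4) * (Real.pi * ρ ^ 2) = Real.pi * (ρ / 2) ^ 2 / H ^ 4 := by
      field_simp
      ring
    rw [e2] at hρ1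
    exact absurd h3 (not_le.2 hρ1)
  have hb := ecc_det hH (h.ecc hxs hdx)
  refine ⟨hdx, fun h0 => hne ?_, hb⟩
  rw [h0, abs_zero, mul_zero] at hb
  exact norm_eq_zero.1 (pow_eq_zero_iff (two_ne_zero) |>.1 (le_antisymm hb (sq_nonneg _)))

/-- Preimages of null sets are null.  Let `N ⊇ {¬ P}` be measurable and null,
`s = {x ∈ source | DifferentiableAt ∧ det ≠ 0 ∧ φ x ∈ N}` (measurable: `measurableSet_of_differentiableAt`,
`measurable_fderiv`, `ContinuousLinearMap.continuous_det`, `ContinuousOn` on the open source).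
`lintegral_abs_det_fderiv_eq_addHaar_image` gives `∫⁻_s |det| = vol (φ '' s) ≤ vol N = 0`, so `s` is
null; use `ae_good`. -/
theorem LocQS.ae_comp (hH : 1 ≤ H) (h : LocQS H φ) {P : ℂ → Prop} (hP : ∀ᵐ y : ℂ, P y) :
    ∀ᵐ x : ℂ, x ∈ φ.source → P (φ x) := by
  obtain ⟨N, hN, hNm, hN0⟩ := exists_measurable_superset_of_null (ae_iff.1 hP)
  set s : Set ℂ := (φ.source ∩ φ ⁻¹' N) ∩
    ({x | DifferentiableAt ℝ φ x} ∩ {x | (fderiv ℝ φ x).det ≠ 0}) with hs
  have hdet : Measurable fun x : ℂ => (fderiv ℝ φ x).det :=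
    ContinuousLinearMap.continuous_det.measurable.comp (measurable_fderiv ℝ (φ : ℂ → ℂ))
  have hm1 : MeasurableSet (φ.source ∩ φ ⁻¹' N) := by
    have hr : Measurable (φ.source.domRestrict φ) := φ.continuousOn.domRestrict.measurable
    have := φ.open_source.measurableSet.subtype_image (hr hNm)
    convert this using 1
    ext x
    constructor
    · rintro ⟨h1, h2⟩
      exact ⟨⟨x, h1⟩, h2, rfl⟩
    · rintro ⟨⟨y, hy⟩, h2, rfl⟩
      exact ⟨hy, h2⟩
  have hsm : MeasurableSet s :=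
    hm1.inter ((measurableSet_of_differentiableAt ℝ (φ : ℂ → ℂ)).inter
      (hdet (measurableSet_singleton 0).compl))
  have h1 := lintegral_abs_det_fderiv_eq_addHaar_image volume (f := φ)
    (f' := fun x => fderiv ℝ φ x) hsm
    (fun x hx => hx.2.1.hasFDerivAt.hasFDerivWithinAt)
    (φ.injOn.mono fun x hx => hx.1.1)
  have h2 : volume (φ '' s) = 0 := by
    refine measure_mono_null ?_ hN0
    rintro _ ⟨x, hx, rfl⟩
    exact hx.1.2
  rw [h2, lintegral_eq_zero_iff (hdet.abs.ennreal_ofReal)] at h1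
  have h3 : ∀ᵐ x : ℂ, x ∉ s := by
    filter_upwards [(ae_restrict_iff' hsm).1 h1] with x hx hxs
    have := hx hxs
    simp only [Pi.zero_apply, ENNReal.ofReal_eq_zero, abs_nonpos_iff] at this
    exact hxs.2.2 this
  filter_upwards [h3, h.ae_good hH] with x hx hg hxs
  by_contra hPx
  exact hx ⟨⟨hxs, hN hPx⟩, (hg hxs).1, (hg hxs).2.1⟩

/-- Change of variables.  `s = {x ∈ source | DifferentiableAt ℝ φ x}` is measurable and
`s =ᵐ source` (`ae_diff`); `φ '' s =ᵐ target` (`ae_comp` for `φ.symm` with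
`P x = (x ∈ source → DifferentiableAt ℝ φ x)`); `integral_image_eq_integral_abs_det_fderiv_smul`,
`setIntegral_congr_set`. -/
theorem IsQC.change (h : IsQC H φ) (g : ℂ → ℂ) :
    ∫ x in φ.source, ((|(fderiv ℝ φ x).det| : ℝ) : ℂ) * g (φ x) = ∫ y in φ.target, g y := by
  have hm : MeasurableSet (φ.source ∩ {x | DifferentiableAt ℝ φ x}) :=
    φ.open_source.measurableSet.inter (measurableSet_of_differentiableAt ℝ φ)
  have h1 : (φ.source ∩ {x | DifferentiableAt ℝ φ x} : Set ℂ) =ᵐ[volume] φ.source := by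
    filter_upwards [h.fwd.ae_diff h.one_le] with x hx
    exact propext ⟨fun h' => h'.1, fun h' => ⟨h', hx h'⟩⟩
  have h2 : (φ '' (φ.source ∩ {x | DifferentiableAt ℝ φ x}) : Set ℂ) =ᵐ[volume] φ.target := by
    filter_upwards [h.bwd.ae_comp h.one_le (h.fwd.ae_diff h.one_le)] with y hy
    refine propext ⟨?_, fun h' => ?_⟩
    · rintro ⟨x, hx, rfl⟩
      exact φ.map_source hx.1
    · exact ⟨φ.symm y, ⟨φ.map_target h', hy h' (φ.map_target h')⟩, φ.right_inv h'⟩
  rw [← setIntegral_congr_set h1, ← setIntegral_congr_set h2,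
    integral_image_eq_integral_abs_det_fderiv_smul volume hm (f' := fderiv ℝ φ)
      (fun x hx => (DifferentiableAt.hasFDerivAt hx.2).hasFDerivWithinAt)
      (φ.injOn.mono inter_subset_left)]
  simp only [Complex.real_smul]

/-- `L²` bound of the derivative: a.e. `‖Dφ‖² ≤ H |det Dφ|` (`ae_good`), and
`lintegral_abs_det_fderiv_le_addHaar_image` on `K ∩ {DifferentiableAt}`. -/
theorem LocQS.fderiv_L2 (hH : 1 ≤ H) (h : LocQS H φ) {K : Set ℂ} (hK : MeasurableSet K)
    (hs : K ⊆ φ.source) :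
    ∫⁻ x in K, ‖fderiv ℝ φ x‖ₑ ^ 2 ≤ ENNReal.ofReal H * volume (φ '' K) := by
  have hm : MeasurableSet (K ∩ {x | DifferentiableAt ℝ φ x}) :=
    hK.inter (measurableSet_of_differentiableAt ℝ φ)
  have h1 : (K ∩ {x | DifferentiableAt ℝ φ x} : Set ℂ) =ᵐ[volume] K := by
    filter_upwards [h.ae_diff hH] with x hx
    exact propext ⟨fun h' => h'.1, fun h' => ⟨h', hx (hs h')⟩⟩
  have h2 := lintegral_abs_det_fderiv_le_addHaar_image volume hm (f := φ) (f' := fderiv ℝ φ)
    (fun x hx => (DifferentiableAt.hasFDerivAt hx.2).hasFDerivWithinAt)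
    (φ.injOn.mono (inter_subset_left.trans hs))
  rw [setLIntegral_congr h1] at h2
  calc ∫⁻ x in K, ‖fderiv ℝ φ x‖ₑ ^ 2
      ≤ ∫⁻ x in K, ENNReal.ofReal H * ENNReal.ofReal |(fderiv ℝ φ x).det| := by
        refine lintegral_mono_ae ?_
        rw [ae_restrict_iff' hK]
        filter_upwards [h.ae_good hH] with x hx hxK
        rw [← ofReal_norm, ← ENNReal.ofReal_pow (norm_nonneg _),
          ← ENNReal.ofReal_mul (by linarith)]
        exact ENNReal.ofReal_le_ofReal (hx (hs hxK)).2.2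
    _ = ENNReal.ofReal H * ∫⁻ x in K, ENNReal.ofReal |(fderiv ℝ φ x).det| :=
        lintegral_const_mul' _ _ ENNReal.ofReal_ne_top
    _ ≤ ENNReal.ofReal H * volume (φ '' K) :=
        mul_le_mul_right (h2.trans (measure_mono (image_mono inter_subset_left))) _

/-- Derivative of the inverse: a.e. `φ` is differentiable at `x` and `φ.symm` at `φ x` (`ae_comp`);
`φ.symm ∘ φ =ᶠ[𝓝 x] id` (`eventually_left_inverse`), chain rule. -/
theorem IsQC.ae_inv (h : IsQC H φ) :
    ∀ᵐ x : ℂ, x ∈ φ.source →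
      (fderiv ℝ φ.symm (φ x)).comp (fderiv ℝ φ x) = ContinuousLinearMap.id ℝ ℂ := by
  filter_upwards [h.fwd.ae_diff h.one_le, h.fwd.ae_comp h.one_le (h.bwd.ae_diff h.one_le)]
    with x h1 h2 hx
  have h3 := (h2 hx (φ.map_source hx)).hasFDerivAt.comp x (h1 hx).hasFDerivAt
  have h4 : HasFDerivAt (φ.symm ∘ φ) (ContinuousLinearMap.id ℝ ℂ) x :=
    (hasFDerivAt_id x).congr_of_eventuallyEq (φ.eventually_left_inverse hx)
  exact h3.unique h4

end Crest.Agent.R193.T
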