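import Mathlib
import Crest.Agent.R193.TQ3

/-! Row 193, block [T]: the invariant (Binet-Legendre) field. -/

set_option autoImplicit false

namespace Crest.Agent.R193.T

open MeasureTheory Set Metric Filter Topology

/-- second moments of a set -/
noncomputable def coef (S : Set ℂ) : Coef :=
  (∫ v in S, v.re ^ 2, ∫ v in S, v.re * v.im, ∫ v in S, v.im ^ 2)

/-- unit ball of the norm `sup_g ‖Dg v‖ / √|det Dg|` -/
def Kset {G : Type} (φ : G → PH) (x : ℂ) : Set ℂ :=
  {v | ∀ g, x ∈ (φ g).source → ‖fderiv ℝ (φ g) x v‖ ^ 2 ≤ |(fderiv ℝ (φ g) x).det|}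

theorem coef_intOn {E : Type*} [NormedAddCommGroup E] {S : Set ℂ} (hS : S ⊆ closedBall 0 1)
    {f : ℂ → E} (hf : Continuous f) : IntegrableOn f S :=
  (hf.continuousOn.integrableOn_compact (isCompact_closedBall (0 : ℂ) 1)).mono_set hS

theorem coef_clm_apply (α : ℂ →L[ℝ] ℂ) (v : ℂ) :
    α v = (v.re : ℂ) * α 1 + (v.im : ℂ) * α Complex.I := by
  have h : v = v.re • (1 : ℂ) + v.im • Complex.I := by
    apply Complex.ext <;> simp
  conv_lhs => rw [h]
  rw [map_add, map_smul, map_smul]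
  simp

theorem coef_quad {S : Set ℂ} (hS : S ⊆ closedBall 0 1) (s t : ℝ) :
    ∫ v in S, (s * v.re + t * v.im) ^ 2 =
      (coef S).1 * s ^ 2 + 2 * (coef S).2.1 * (s * t) + (coef S).2.2 * t ^ 2 := by
  have h1 : IntegrableOn (fun v : ℂ => v.re ^ 2 * s ^ 2) S := coef_intOn hS (by fun_prop)
  have h2 : IntegrableOn (fun v : ℂ => v.re * v.im * (2 * (s * t))) S :=
    coef_intOn hS (by fun_prop)
  have h3 : IntegrableOn (fun v : ℂ => v.im ^ 2 * t ^ 2) S := coef_intOn hS (by fun_prop)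
  have e : ∀ v : ℂ, (s * v.re + t * v.im) ^ 2 =
      v.re ^ 2 * s ^ 2 + v.re * v.im * (2 * (s * t)) + v.im ^ 2 * t ^ 2 := fun v => by ring
  have h12 : IntegrableOn (fun v : ℂ => v.re ^ 2 * s ^ 2 + v.re * v.im * (2 * (s * t))) S :=
    h1.add h2
  simp_rw [e]
  rw [integral_add h12 h3, integral_add h1 h2, integral_mul_const, integral_mul_const,
    integral_mul_const]
  simp only [coef]
  ring

theorem coef_quad_pos {S : Set ℂ} (hS : S ⊆ closedBall 0 1) {ρ : ℝ}
    (hρ : 0 < ρ) (hb : ball 0 ρ ⊆ S) {s t : ℝ} (hst : s ≠ 0 ∨ t ≠ 0) :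
    0 < ∫ v in S, (s * v.re + t * v.im) ^ 2 := by
  have hc : Continuous fun v : ℂ => (s * v.re + t * v.im) ^ 2 := by fun_prop
  rw [setIntegral_pos_iff_support_of_nonneg_ae (Eventually.of_forall fun v => sq_nonneg _)
    (coef_intOn hS hc)]
  have ho : IsOpen (Function.support (fun v : ℂ => (s * v.re + t * v.im) ^ 2) ∩ ball 0 ρ) :=
    hc.isOpen_support.inter isOpen_ball
  refine lt_of_lt_of_le (ho.measure_pos volume ?_) (measure_mono (inter_subset_inter_right _ hb))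
  rcases hst with hs | ht
  · refine ⟨((ρ / 2 : ℝ) : ℂ), ?_, ?_⟩
    · simp only [Function.mem_support, Complex.ofReal_re, Complex.ofReal_im, mul_zero, add_zero]
      positivity
    · rw [mem_ball_zero_iff, Complex.norm_real, Real.norm_of_nonneg (by positivity)]
      linarith
  · refine ⟨((ρ / 2 : ℝ) : ℂ) * Complex.I, ?_, ?_⟩
    · simp only [Function.mem_support, Complex.mul_re, Complex.mul_im, Complex.ofReal_re,
        Complex.ofReal_im, Complex.I_re, Complex.I_im, mul_zero, mul_one, sub_zero, add_zero,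
        zero_add]
      positivity
    · rw [mem_ball_zero_iff, norm_mul, Complex.norm_I, mul_one, Complex.norm_real,
        Real.norm_of_nonneg (by positivity)]
      linarith

/-- `α v = v.re * α 1 + v.im * α I`; expand the product, continuous functions are integrable on the
bounded set `S` (`IntegrableOn.mono_set` from the compact `closedBall 0 1`), `integral_add`,
`integral_mul_const`, `integral_ofReal`/`integral_complex_ofReal`. -/
theorem Q_coef {S : Set ℂ} (hS : S ⊆ closedBall 0 1) (α β : ℂ →L[ℝ] ℂ) :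
    Q (coef S) α β = ∫ v in S, α v * β v := by
  have h1 : IntegrableOn (fun v : ℂ => ((v.re ^ 2 : ℝ) : ℂ) * (α 1 * β 1)) S :=
    coef_intOn hS (by fun_prop)
  have h2 : IntegrableOn (fun v : ℂ => ((v.re * v.im : ℝ) : ℂ) *
      (α 1 * β Complex.I + α Complex.I * β 1)) S := coef_intOn hS (by fun_prop)
  have h3 : IntegrableOn (fun v : ℂ => ((v.im ^ 2 : ℝ) : ℂ) * (α Complex.I * β Complex.I)) S :=
    coef_intOn hS (by fun_prop)
  have e : ∀ v : ℂ, α v * β v = ((v.re ^ 2 : ℝ) : ℂ) * (α 1 * β 1) + ((v.re * v.im : ℝ) : ℂ) *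
      (α 1 * β Complex.I + α Complex.I * β 1) +
      ((v.im ^ 2 : ℝ) : ℂ) * (α Complex.I * β Complex.I) := fun v => by
    rw [coef_clm_apply α v, coef_clm_apply β v]
    push_cast
    ring
  have h12 : IntegrableOn (fun v : ℂ => ((v.re ^ 2 : ℝ) : ℂ) * (α 1 * β 1) +
      ((v.re * v.im : ℝ) : ℂ) * (α 1 * β Complex.I + α Complex.I * β 1)) S := h1.add h2
  rw [show (fun v : ℂ => α v * β v) = _ from funext e]
  rw [integral_add h12 h3, integral_add h1 h2, integral_mul_const, integral_mul_const,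
    integral_mul_const, integral_complex_ofReal, integral_complex_ofReal, integral_complex_ofReal]
  rfl

/-- each integrand has norm `≤ 1` on `closedBall 0 1`, whose area is `π ≤ 4`
(`norm_setIntegral_le_of_norm_le_const`, `Complex.volume_closedBall`, `Prod.norm_def`). -/
theorem norm_coef {S : Set ℂ} (hm : MeasurableSet S) (hS : S ⊆ closedBall 0 1) : ‖coef S‖ ≤ 4 := by
  have hv : volume S ≤ volume (closedBall (0 : ℂ) 1) := measure_mono hS
  have hfin : volume S < ⊤ := lt_of_le_of_lt hv measure_closedBall_lt_top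
  have hreal : volume.real S ≤ 4 := by
    have h1 : volume.real S ≤ volume.real (closedBall (0 : ℂ) 1) :=
      measureReal_mono hS measure_closedBall_lt_top.ne
    have h2 : volume.real (closedBall (0 : ℂ) 1) = Real.pi := by
      simp [measureReal_def, Complex.volume_closedBall]
    linarith [Real.pi_le_four]
  have key : ∀ f : ℂ → ℝ, (∀ v ∈ S, ‖f v‖ ≤ 1) → ‖∫ v in S, f v‖ ≤ 4 := fun f hf => by
    have := norm_setIntegral_le_of_norm_le_const hfin hf
    linarith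
  have hre : ∀ v ∈ S, |v.re| ≤ 1 := fun v hv =>
    (Complex.abs_re_le_norm v).trans (mem_closedBall_zero_iff.1 (hS hv))
  have him : ∀ v ∈ S, |v.im| ≤ 1 := fun v hv =>
    (Complex.abs_im_le_norm v).trans (mem_closedBall_zero_iff.1 (hS hv))
  simp only [coef, Prod.norm_def]
  refine max_le (key _ fun v hv => ?_) (max_le (key _ fun v hv => ?_) (key _ fun v hv => ?_))
  · rw [norm_pow, Real.norm_eq_abs]
    exact pow_le_one₀ (abs_nonneg _) (hre v hv)
  · rw [norm_mul, Real.norm_eq_abs, Real.norm_eq_abs]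
    exact mul_le_one₀ (hre v hv) (abs_nonneg _) (him v hv)
  · rw [norm_pow, Real.norm_eq_abs]
    exact pow_le_one₀ (abs_nonneg _) (him v hv)

/-- For `(s,t) ≠ 0`, `∫_S (s v.re + t v.im)² = b₁ s² + 2 b₂ s t + b₃ t² > 0`: the integrand is
continuous, `≥ 0`, and positive on a nonempty open subset of `ball 0 ρ`
(`setIntegral_pos_iff_support_of_nonneg_ae`).  Take `(s,t) = (1,0)` and `(-b₂, b₁)`. -/
theorem posDef_coef {S : Set ℂ} (hm : MeasurableSet S) (hS : S ⊆ closedBall 0 1) {ρ : ℝ}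
    (hρ : 0 < ρ) (hb : ball 0 ρ ⊆ S) : PosDef (coef S) := by
  have h1 : 0 < (coef S).1 := by
    have := coef_quad_pos hS hρ hb (s := 1) (t := 0) (Or.inl one_ne_zero)
    rw [coef_quad hS] at this
    linarith
  refine ⟨h1, ?_⟩
  have := coef_quad_pos hS hρ hb (s := -(coef S).2.1) (t := (coef S).1) (Or.inr h1.ne')
  rw [coef_quad hS] at this
  by_contra hcon
  push Not at hcon
  nlinarith [mul_nonneg h1.le (sub_nonneg.2 hcon)]

/-- Linear change of variables.  `T' = c⁻¹ • T`, `c = √|det T|`, has `|det T'| = 1`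
(`LinearMap.det_smul`, `finrank ℝ ℂ = 2`), is injective, `S' = T' '' S`
(surjectivity from `det ≠ 0`); `integral_image_eq_integral_abs_det_fderiv_smul` with the constant
derivative `T'`; `α (T v) * β (T v) = c² * (α (T' v) * β (T' v))`. -/
theorem integral_linear {T : ℂ →L[ℝ] ℂ} (hT : T.det ≠ 0) {S S' : Set ℂ} (hm : MeasurableSet S)
    (h : ∀ v, v ∈ S ↔ (Real.sqrt |T.det|)⁻¹ • T v ∈ S') (α β : ℂ →L[ℝ] ℂ) :
    ∫ v in S, α (T v) * β (T v) = ((|T.det| : ℝ) : ℂ) * ∫ w in S', α w * β w := by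
  have hpos : 0 < |T.det| := abs_pos.2 hT
  set c : ℝ := Real.sqrt |T.det| with hc
  have hc0 : 0 < c := Real.sqrt_pos.2 hpos
  have hc2 : c ^ 2 = |T.det| := Real.sq_sqrt hpos.le
  set T' : ℂ →L[ℝ] ℂ := c⁻¹ • T with hT'
  have hdet : T'.det = (c⁻¹) ^ 2 * T.det := by
    have := LinearMap.det_smul (c⁻¹) (T : ℂ →ₗ[ℝ] ℂ)
    rw [Complex.finrank_real_complex] at this
    exact this
  have habs : |T'.det| = 1 := by
    rw [hdet, abs_mul, abs_of_nonneg (sq_nonneg _), ← hc2]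
    field_simp
  have hne : T'.det ≠ 0 := by
    intro h0
    rw [h0, abs_zero] at habs
    exact zero_ne_one habs
  have hbij : Function.Bijective T' := (T'.toContinuousLinearEquivOfDetNeZero hne).bijective
  have himg : S' = T' '' S := by
    ext w
    constructor
    · intro hw
      obtain ⟨v, rfl⟩ := hbij.2 w
      exact ⟨v, (h v).2 hw, rfl⟩
    · rintro ⟨v, hv, rfl⟩
      exact (h v).1 hv
  rw [himg, integral_image_eq_integral_abs_det_fderiv_smul volume hm
    (fun x _ => T'.hasFDerivAt.hasFDerivWithinAt) hbij.1.injOn, ← integral_const_mul]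
  refine integral_congr_ae (Eventually.of_forall fun v => ?_)
  have hcc : (c : ℂ) ≠ 0 := by exact_mod_cast hc0.ne'
  have hv : T' v = c⁻¹ • T v := rfl
  simp only [habs, one_smul]
  rw [hv, map_smul, map_smul, Complex.real_smul, Complex.real_smul, ← hc2]
  push_cast
  field_simp

/-- countable intersection of `{x ∉ source} ∪ {‖fderiv x v‖² ≤ |det (fderiv x)|}`; `measurable_fderiv`,
continuity of `(T, v) ↦ T v` and of `det` (`ContinuousLinearMap.continuous_det`). -/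
theorem measurableSet_Kset {G : Type} [Countable G] (φ : G → PH) :
    MeasurableSet {p : ℂ × ℂ | p.2 ∈ Kset φ p.1} := by
  have he : {p : ℂ × ℂ | p.2 ∈ Kset φ p.1} = ⋂ g, ((Prod.fst ⁻¹' (φ g).source)ᶜ ∪
      {p : ℂ × ℂ | ‖fderiv ℝ (φ g) p.1 p.2‖ ^ 2 ≤ |(fderiv ℝ (φ g) p.1).det|}) := by
    ext p
    simp only [Kset, mem_ofPred_eq, mem_iInter, mem_union, mem_compl_iff, mem_preimage,
      imp_iff_not_or]
  rw [he]
  refine MeasurableSet.iInter fun g => ?_
  refine (measurable_fst ((φ g).open_source.measurableSet)).compl.union ?_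
  have h1 : Measurable fun p : ℂ × ℂ => fderiv ℝ (φ g) p.1 :=
    (measurable_fderiv ℝ (φ g)).comp measurable_fst
  have h2 : Measurable fun p : ℂ × ℂ => fderiv ℝ (φ g) p.1 p.2 := by
    have hc : Continuous fun q : (ℂ →L[ℝ] ℂ) × ℂ => q.1 q.2 := by fun_prop
    exact hc.measurable.comp (h1.prodMk measurable_snd)
  have h3 : Measurable fun p : ℂ × ℂ => |(fderiv ℝ (φ g) p.1).det| :=
    (ContinuousLinearMap.continuous_det.abs.measurable).comp h1
  exact measurableSet_le (h2.norm.pow_const 2) h3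

/-- `∫ v in 𝒦 x, F v = ∫ v, indicator graph (fun p => F p.2) (x, v)`;
`StronglyMeasurable.integral_prod_right'`, sections are measurable (`measurable_prodMk_left`). -/
theorem measurable_coef {𝒦 : ℂ → Set ℂ} (h : MeasurableSet {p : ℂ × ℂ | p.2 ∈ 𝒦 p.1}) :
    Measurable fun x => coef (𝒦 x) := by
  have key : ∀ F : ℂ → ℝ, Measurable F → Measurable fun x => ∫ v in 𝒦 x, F v := by
    intro F hF
    have h1 : StronglyMeasurable
        (indicator {p : ℂ × ℂ | p.2 ∈ 𝒦 p.1} fun p : ℂ × ℂ => F p.2) :=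
      ((hF.comp measurable_snd).indicator h).stronglyMeasurable
    have h2 := (h1.integral_prod_right' (ν := (volume : Measure ℂ))).measurable
    have h3 : (fun x => ∫ v in 𝒦 x, F v) = fun x => ∫ v,
        indicator {p : ℂ × ℂ | p.2 ∈ 𝒦 p.1} (fun p : ℂ × ℂ => F p.2) (x, v) := by
      funext x
      have hx : MeasurableSet (𝒦 x) := measurable_prodMk_left h
      rw [← integral_indicator hx]
      rfl
    rw [h3]
    exact h2
  unfold coef
  exact (key _ (by fun_prop)).prodMk ((key _ (by fun_prop)).prodMk (key _ (by fun_prop)))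

variable {G : Type} [Group G] {H : ℝ} {Ω : Set ℂ} {φ : G → PH}

/-- `g = 1`: `φ 1 =ᶠ[𝓝 x] id` on the open set `Ω = (φ 1).source`, so `fderiv = id`, `det = 1`. -/
theorem PG.Kset_subset (h : PG G H Ω φ) {x : ℂ} (hx : x ∈ Ω) : Kset φ x ⊆ closedBall 0 1 := by
  intro v hv
  have hx1 : x ∈ (φ 1).source := by rw [h.one_src]; exact hx
  have he : (φ 1 : ℂ → ℂ) =ᶠ[𝓝 x] id := by
    filter_upwards [(φ 1).open_source.mem_nhds hx1] with y hy
    rw [h.one_src] at hy
    exact h.one_eq y hy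
  have h1 := hv 1 hx1
  rw [he.fderiv_eq, fderiv_id] at h1
  have h2 : (ContinuousLinearMap.id ℝ ℂ).det = 1 := by
    simp [ContinuousLinearMap.det]
  rw [h2, abs_one, ContinuousLinearMap.id_apply] at h1
  rw [mem_closedBall_zero_iff]
  nlinarith [norm_nonneg v]

/-- `ae_all_iff` + `LocQS.ae_good`: `‖T v‖² ≤ ‖T‖²‖v‖² ≤ H |det T| / H² ≤ |det T|`. -/
theorem PG.ball_subset_Kset [Countable G] (h : PG G H Ω φ) :
    ∀ᵐ x : ℂ, ball (0 : ℂ) H⁻¹ ⊆ Kset φ x := by
  have hH : 1 ≤ H := (h.qc 1).one_le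
  have hall := ae_all_iff.2 fun g : G => LocQS.ae_good hH (h.qc g).fwd
  filter_upwards [hall] with x hx v hv g hg
  obtain ⟨-, -, h3⟩ := hx g hg
  rw [mem_ball_zero_iff] at hv
  have hH0 : 0 < H := lt_of_lt_of_le one_pos hH
  have h1 : ‖fderiv ℝ (φ g) x v‖ ≤ ‖fderiv ℝ (φ g) x‖ * H⁻¹ :=
    ((fderiv ℝ (φ g) x).le_opNorm v).trans
      (mul_le_mul_of_nonneg_left hv.le (norm_nonneg _))
  have h2 : ‖fderiv ℝ (φ g) x v‖ ^ 2 ≤ (‖fderiv ℝ (φ g) x‖ * H⁻¹) ^ 2 :=
    pow_le_pow_left₀ (norm_nonneg _) h1 2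
  have h4 : H⁻¹ ≤ 1 := inv_le_one_of_one_le₀ hH
  have h5 : 0 < H⁻¹ := inv_pos.2 hH0
  calc _ ≤ (‖fderiv ℝ (φ g) x‖ * H⁻¹) ^ 2 := h2
    _ = ‖fderiv ℝ (φ g) x‖ ^ 2 * H⁻¹ ^ 2 := mul_pow _ _ _
    _ ≤ H * |(fderiv ℝ (φ g) x).det| * H⁻¹ ^ 2 :=
        mul_le_mul_of_nonneg_right h3 (by positivity)
    _ = |(fderiv ℝ (φ g) x).det| * H⁻¹ := by field_simp
    _ ≤ |(fderiv ℝ (φ g) x).det| * 1 := mul_le_mul_of_nonneg_left h4 (abs_nonneg _)
    _ = _ := mul_one _

/-- For a.e. `x ∈ (φ g).source`: `φ g` is differentiable at `x` with `T = fderiv`, `det T ≠ 0`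
(`ae_good`), and every `φ k` with `y = φ g x ∈ (φ k).source` is differentiable at `y` (`ae_comp` +
`ae_all_iff` + `ae_diff`).  For such `k`, `φ (k*g) =ᶠ[𝓝 x] φ k ∘ φ g` (`mul_eq`, the set
`(φ g).source ∩ φ g ⁻¹' (φ k).source` is open), so `fderiv (φ (k*g)) x = D_k ∘ T` and
`det = det D_k * det T` (`ContinuousLinearMap.det` = `LinearMap.det`, `map_mul`/`LinearMap.det_comp`);
`‖D_k (c⁻¹ • T v)‖² ≤ |det D_k| ↔ ‖D_k (T v)‖² ≤ |det D_k| |det T|`.  Use the bijection `k ↦ k * g`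
and `mul_src`. -/
theorem PG.Kset_inv [Countable G] (h : PG G H Ω φ) (g : G) :
    ∀ᵐ x : ℂ, x ∈ (φ g).source → (fderiv ℝ (φ g) x).det ≠ 0 ∧ ∀ v, v ∈ Kset φ x ↔
      (Real.sqrt |(fderiv ℝ (φ g) x).det|)⁻¹ • fderiv ℝ (φ g) x v ∈ Kset φ (φ g x) := by
  have hH : 1 ≤ H := (h.qc 1).one_le
  have hall := ae_all_iff.2 fun k : G => LocQS.ae_diff hH (h.qc k).fwd
  filter_upwards [LocQS.ae_good hH (h.qc g).fwd, LocQS.ae_comp hH (h.qc g).fwd hall]
    with x hx1 hx2 hx
  obtain ⟨hd, hdet, -⟩ := hx1 hx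
  have hy := hx2 hx
  refine ⟨hdet, fun v => ?_⟩
  have hpos : 0 < |(fderiv ℝ (φ g) x).det| := abs_pos.2 hdet
  have key : ∀ k, φ g x ∈ (φ k).source →
      (‖fderiv ℝ (φ (k * g)) x v‖ ^ 2 ≤ |(fderiv ℝ (φ (k * g)) x).det| ↔
        ‖fderiv ℝ (φ k) (φ g x) ((Real.sqrt |(fderiv ℝ (φ g) x).det|)⁻¹ •
          fderiv ℝ (φ g) x v)‖ ^ 2 ≤ |(fderiv ℝ (φ k) (φ g x)).det|) := by
    intro k hk
    have he : (φ (k * g) : ℂ → ℂ) =ᶠ[𝓝 x] (φ k ∘ φ g) := by
      filter_upwards [(φ g).open_source.mem_nhds hx,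
        hd.continuousAt.preimage_mem_nhds ((φ k).open_source.mem_nhds hk)] with y hy1 hy2
      exact h.mul_eq k g y hy1 hy2
    rw [he.fderiv_eq, fderiv_comp x (hy k hk) hd]
    have hc : ((fderiv ℝ (φ k) (φ g x)).comp (fderiv ℝ (φ g) x)).det =
        (fderiv ℝ (φ k) (φ g x)).det * (fderiv ℝ (φ g) x).det := by
      exact LinearMap.det_comp (fderiv ℝ (φ k) (φ g x) : ℂ →ₗ[ℝ] ℂ) (fderiv ℝ (φ g) x : ℂ →ₗ[ℝ] ℂ)
    rw [hc, abs_mul, map_smul, norm_smul, mul_pow, ContinuousLinearMap.comp_apply, Real.norm_eq_abs,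
      sq_abs, inv_pow, Real.sq_sqrt hpos.le, inv_mul_le_iff₀ hpos, mul_comm]
  constructor
  · intro hv k hk
    exact (key k hk).1 (hv (k * g) ((h.mul_src k g x hx).1 hk))
  · intro hv k hk
    have hk' : φ g x ∈ (φ (k * g⁻¹)).source := by
      refine (h.mul_src (k * g⁻¹) g x hx).2 ?_
      rwa [inv_mul_cancel_right]
    have := (key _ hk').2 (hv _ hk')
    rwa [inv_mul_cancel_right] at this

/-- The invariant field: `b x = if x ∈ Ω then coef (Kset φ x) else 0`.  (`φ g x ∈ Ω` for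
`x ∈ (φ g).source`: `x ∈ (φ 1).source = (φ (g⁻¹ * g)).source`, so `φ g x ∈ (φ g⁻¹).source ⊆ Ω` by
`mul_src`.)  `Q_coef` + `integral_linear` + `Kset_inv` give `Inv`. -/
theorem PG.exists_field [Countable G] (h : PG G H Ω φ) :
    ∃ b : ℂ → Coef, Measurable b ∧ (∀ x, ‖b x‖ ≤ 4) ∧ (∀ᵐ x : ℂ, x ∈ Ω → PosDef (b x)) ∧
      ∀ g, Inv b (φ g) := by
  -- h29_field
  classical
  have hΩo : IsOpen Ω := h.one_src ▸ (φ 1).open_source
  have hsec : ∀ x, MeasurableSet (Kset φ x) := fun x =>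
    measurable_prodMk_left (x := x) (measurableSet_Kset φ)
  have hH : 0 < H := lt_of_lt_of_le one_pos (h.qc 1).one_le
  refine ⟨fun x => if x ∈ Ω then coef (Kset φ x) else 0,
    Measurable.ite hΩo.measurableSet (measurable_coef (measurableSet_Kset φ)) measurable_const,
    fun x => ?_, ?_, fun g => ?_⟩
  · by_cases hx : x ∈ Ω
    · simp only [if_pos hx]; exact norm_coef (hsec x) (h.Kset_subset hx)
    · simp only [if_neg hx, norm_zero]; norm_num
  · filter_upwards [h.ball_subset_Kset] with x hx hxΩ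
    simp only [if_pos hxΩ]
    exact posDef_coef (hsec x) (h.Kset_subset hxΩ) (inv_pos.2 hH) hx
  · filter_upwards [h.Kset_inv g] with x hx hxs α β
    obtain ⟨hdet, hK⟩ := hx hxs
    have hxΩ : x ∈ Ω := h.src g hxs
    have hyΩ : φ g x ∈ Ω := by
      refine h.src g⁻¹ ((h.mul_src g⁻¹ g x hxs).2 ?_)
      rw [inv_mul_cancel, h.one_src]; exact hxΩ
    simp only [if_pos hxΩ, if_pos hyΩ]
    rw [Q_coef (h.Kset_subset hxΩ), Q_coef (h.Kset_subset hyΩ)]
    simp only [ContinuousLinearMap.comp_apply]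
    exact integral_linear hdet (hsec x) hK α β

end Crest.Agent.R193.T
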