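import Mathlib
import Crest.Agent.R193.TQ3

/-! Row 193, block [T]: integration by parts. -/

set_option autoImplicit false

namespace Crest.Agent.R193.T

open MeasureTheory Set Metric Filter Topology

variable {H : ℝ} {φ : PH}

/-- Integrability of `x ↦ β x (Dφ x v)`: it vanishes on `source \ K`; on `K` it is a.e. strongly
measurable (`measurable_fderiv_apply_const`, `ContinuousOn.aestronglyMeasurable`, continuity of
evaluation), `‖β x‖ ≤ C` on the compact set `K` and `Dφ ∈ L²(K) ⊆ L¹(K)` (`fderiv_L2`,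
`φ '' K` compact). -/
theorem LocQS.integrableOn_apply (hH : 1 ≤ H) (h : LocQS H φ) {β : ℂ → ℂ →L[ℝ] ℂ}
    (hβ : ContinuousOn β φ.source) {K : Set ℂ} (hK : IsCompact K) (hs : K ⊆ φ.source)
    (h0 : ∀ x ∈ φ.source, x ∉ K → β x = 0) (v : ℂ) :
    IntegrableOn (fun x => β x (fderiv ℝ φ x v)) φ.source := by
  have hKm := hK.measurableSet
  have hI : IntegrableOn (fun x => β x (fderiv ℝ φ x v)) K := by
    obtain ⟨C, hC⟩ := hK.exists_bound_of_continuousOn (hβ.mono hs)
    have m1 : AEStronglyMeasurable β (volume.restrict K) :=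
      (hβ.mono hs).aestronglyMeasurable hKm
    have m2 : AEStronglyMeasurable (fun x => fderiv ℝ φ x v) (volume.restrict K) :=
      (measurable_fderiv_apply_const ℝ φ v).aestronglyMeasurable
    have m3 : AEStronglyMeasurable (fun x => β x (fderiv ℝ φ x v)) (volume.restrict K) :=
      (ContinuousLinearMap.id ℝ (ℂ →L[ℝ] ℂ)).aestronglyMeasurable_comp₂ m1 m2
    have m4 : AEStronglyMeasurable (fun x => ‖fderiv ℝ φ x‖ ^ 2) (volume.restrict K) :=
      ((measurable_fderiv ℝ φ).norm.pow_const 2).aestronglyMeasurable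
    have hφK : IsCompact (φ '' K) := hK.image_of_continuousOn (φ.continuousOn.mono hs)
    have i1 : Integrable (fun x => ‖fderiv ℝ φ x‖ ^ 2) (volume.restrict K) := by
      refine ⟨m4, ?_⟩
      have e := h.fderiv_L2 hH hKm hs
      have e2 : ENNReal.ofReal H * volume (φ '' K) < ⊤ :=
        ENNReal.mul_lt_top ENNReal.ofReal_lt_top hφK.measure_lt_top
      refine lt_of_le_of_lt (le_of_eq ?_) (e.trans_lt e2)
      refine lintegral_congr fun x => ?_
      rw [enorm_pow, enorm_norm]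
    have i2 : Integrable (fun _ : ℂ => (1 : ℝ)) (volume.restrict K) :=
      integrableOn_const hK.measure_lt_top.ne
    refine Integrable.mono' ((i2.add i1).const_mul (max C 0 * ‖v‖)) m3 ?_
    filter_upwards [ae_restrict_mem hKm] with x hx
    have e1 : ‖β x‖ ≤ max C 0 := (hC x hx).trans (le_max_left _ _)
    have e2 : ‖fderiv ℝ φ x‖ ≤ 1 + ‖fderiv ℝ φ x‖ ^ 2 := by
      nlinarith [sq_nonneg (‖fderiv ℝ φ x‖ - 1), norm_nonneg (fderiv ℝ φ x)]
    have e0 : 0 ≤ max C 0 := le_max_right _ _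
    calc ‖β x (fderiv ℝ φ x v)‖ ≤ ‖β x‖ * ‖fderiv ℝ φ x v‖ := (β x).le_opNorm _
      _ ≤ max C 0 * (‖fderiv ℝ φ x‖ * ‖v‖) := by
          gcongr
          exact (fderiv ℝ φ x).le_opNorm v
      _ ≤ max C 0 * ((1 + ‖fderiv ℝ φ x‖ ^ 2) * ‖v‖) := by gcongr
      _ = _ := by simp only [Pi.add_apply]; ring
  exact hI.of_forall_diff_eq_zero φ.open_source.measurableSet fun x hx => by
    rw [h0 x hx.1 hx.2]; rfl

/-- Difference quotients of `u = 1_source * a * (b ∘ φ)`.  Take `η > 0` with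
`K₁ = cthickening η K ⊆ source` and `δ₁` from `dq_bound` for `K₁`, `K₂ = cthickening δ₁ K₁ ⊆ source`
compact.  For `‖z‖ < min η δ₁` and `x ∉ K₁` both `x` and `x + z` lie outside `K`, so
`u x = u (x+z) = 0`.  For `x ∈ K₁`: `x, x + z ∈ K₂`, `a`, `b` are Lipschitz and bounded on closed balls
containing `K₂` and `φ '' K₂` (`C¹`, `Convex.norm_image_sub_le_of_norm_fderiv_le`), so
`‖u (x+z) - u x‖ ≤ C (‖z‖ + ‖φ (x+z) - φ x‖)`; square, integrate over `K₁`. -/
theorem LocQS.dq_prod (hH : 1 ≤ H) (h : LocQS H φ) {a b : ℂ → ℂ} (ha : ContDiff ℝ 1 a)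
    (hb : ContDiff ℝ 1 b) {K : Set ℂ} (hK : IsCompact K) (hs : K ⊆ φ.source)
    (h0 : ∀ x ∈ φ.source, x ∉ K → a x * b (φ x) = 0) :
    ∃ M δ : ℝ, 0 < δ ∧ ∀ z : ℂ, ‖z‖ < δ →
      ∫⁻ x, ‖φ.source.indicator (fun y => a y * b (φ y)) (x + z) -
          φ.source.indicator (fun y => a y * b (φ y)) x‖ₑ ^ 2 ≤ ENNReal.ofReal (M * ‖z‖ ^ 2) := by
  obtain ⟨η, hη, hK1s⟩ := hK.exists_cthickening_subset_open φ.open_source hs
  have hK1 : IsCompact (cthickening η K) := hK.cthickening
  obtain ⟨δ₁, hδ₁, hK2s, hdq⟩ := h.dq_bound hH hK1 hK1s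
  have hK2 : IsCompact (cthickening δ₁ (cthickening η K)) := hK1.cthickening
  have hK3 : IsCompact (φ '' cthickening δ₁ (cthickening η K)) :=
    hK2.image_of_continuousOn (φ.continuousOn.mono hK2s)
  obtain ⟨La, hLa⟩ := ha.locallyLipschitz.locallyLipschitzOn.exists_lipschitzOnWith_of_compact hK2
  obtain ⟨Lb, hLb⟩ := hb.locallyLipschitz.locallyLipschitzOn.exists_lipschitzOnWith_of_compact hK3
  obtain ⟨Ba, hBa⟩ := hK2.exists_bound_of_continuousOn ha.continuous.continuousOn
  obtain ⟨Bb, hBb⟩ := hK3.exists_bound_of_continuousOn hb.continuous.continuousOn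
  set u : ℂ → ℂ := φ.source.indicator (fun y => a y * b (φ y)) with hu
  have hu0 : ∀ x, x ∉ K → u x = 0 := by
    intro x hx
    by_cases hxs : x ∈ φ.source
    · rw [hu, indicator_of_mem hxs]; exact h0 x hxs hx
    · rw [hu, indicator_of_notMem hxs]
  set c1 : ℝ := 2 * (La * Bb) ^ 2 with hc1
  set c2 : ℝ := 2 * (Ba * Lb) ^ 2 with hc2
  have hc1' : 0 ≤ c1 := by positivity
  have hc2' : 0 ≤ c2 := by positivity
  set V1 := volume (cthickening η K) with hV1
  set V2 := volume (φ '' cthickening δ₁ (cthickening η K)) with hV2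
  have hV1' : V1 ≠ ⊤ := hK1.measure_lt_top.ne
  have hV2' : V2 ≠ ⊤ := hK3.measure_lt_top.ne
  refine ⟨c1 * V1.toReal + c2 * (H ^ 2 * V2.toReal), min η δ₁, lt_min hη hδ₁, fun z hz => ?_⟩
  have hz1 : ‖z‖ ≤ η := (hz.trans_le (min_le_left _ _)).le
  have hz2 : ‖z‖ ≤ δ₁ := (hz.trans_le (min_le_right _ _)).le
  have hsupp : (Function.support fun x => ‖u (x + z) - u x‖ₑ ^ 2) ⊆ cthickening η K := by
    intro x hx
    by_contra hx'
    apply hx
    have e1 : x ∉ K := fun e => hx' (self_subset_cthickening _ e)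
    have e2 : x + z ∉ K := fun e =>
      hx' (mem_cthickening_of_dist_le x (x + z) η K e (by simpa using hz1))
    simp [hu0 x e1, hu0 _ e2]
  have hpt : ∀ x ∈ cthickening η K, ‖u (x + z) - u x‖ₑ ^ 2 ≤
      ENNReal.ofReal (c1 * ‖z‖ ^ 2) + ENNReal.ofReal c2 * ‖φ (x + z) - φ x‖ₑ ^ 2 := by
    intro x hx
    have x1 : x ∈ cthickening δ₁ (cthickening η K) := self_subset_cthickening _ hx
    have x2 : x + z ∈ cthickening δ₁ (cthickening η K) :=
      mem_cthickening_of_dist_le (x + z) x δ₁ _ hx (by simpa using hz2)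
    have e1 : ‖a (x + z) - a x‖ ≤ La * ‖z‖ := by
      have := hLa.dist_le_mul _ x2 _ x1
      simpa [dist_eq_norm] using this
    have e2 : ‖b (φ (x + z)) - b (φ x)‖ ≤ Lb * ‖φ (x + z) - φ x‖ := by
      have := hLb.dist_le_mul _ (mem_image_of_mem _ x2) _ (mem_image_of_mem _ x1)
      simpa [dist_eq_norm] using this
    have e3 := hBa x x1
    have e4 := hBb _ (mem_image_of_mem _ x2)
    have e5 : ‖u (x + z) - u x‖ ≤ La * ‖z‖ * Bb + Ba * (Lb * ‖φ (x + z) - φ x‖) := by
      rw [hu, indicator_of_mem (hK2s x1), indicator_of_mem (hK2s x2)]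
      have : a (x + z) * b (φ (x + z)) - a x * b (φ x) =
          (a (x + z) - a x) * b (φ (x + z)) + a x * (b (φ (x + z)) - b (φ x)) := by ring
      rw [this]
      refine (norm_add_le _ _).trans (add_le_add ?_ ?_)
      · rw [norm_mul]
        exact mul_le_mul e1 e4 (norm_nonneg _) (by positivity)
      · rw [norm_mul]
        exact mul_le_mul e3 e2 (norm_nonneg _) ((norm_nonneg _).trans e3)
    have e6 : ‖u (x + z) - u x‖ ^ 2 ≤ c1 * ‖z‖ ^ 2 + c2 * ‖φ (x + z) - φ x‖ ^ 2 := by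
      refine (pow_le_pow_left₀ (norm_nonneg _) e5 2).trans ?_
      rw [hc1, hc2]
      nlinarith [sq_nonneg (La * ‖z‖ * Bb - Ba * (Lb * ‖φ (x + z) - φ x‖))]
    rw [← ofReal_norm_eq_enorm, ← ofReal_norm_eq_enorm, ← ENNReal.ofReal_pow (norm_nonneg _),
      ← ENNReal.ofReal_pow (norm_nonneg _), ← ENNReal.ofReal_mul hc2',
      ← ENNReal.ofReal_add (by positivity) (by positivity)]
    exact ENNReal.ofReal_le_ofReal e6
  have hmono : volume (φ '' cthickening ‖z‖ (cthickening η K)) ≤ V2 :=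
    measure_mono (image_mono (cthickening_mono hz2 _))
  calc ∫⁻ x, ‖u (x + z) - u x‖ₑ ^ 2 = ∫⁻ x in cthickening η K, ‖u (x + z) - u x‖ₑ ^ 2 :=
        (setLIntegral_eq_of_support_subset hsupp).symm
    _ ≤ ∫⁻ x in cthickening η K, (ENNReal.ofReal (c1 * ‖z‖ ^ 2) +
          ENNReal.ofReal c2 * ‖φ (x + z) - φ x‖ₑ ^ 2) := setLIntegral_mono' hK1.measurableSet hpt
    _ = ENNReal.ofReal (c1 * ‖z‖ ^ 2) * V1 +
          ENNReal.ofReal c2 * ∫⁻ x in cthickening η K, ‖φ (x + z) - φ x‖ₑ ^ 2 := by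
        rw [lintegral_add_left measurable_const, lintegral_const_mul' _ _ ENNReal.ofReal_ne_top,
          setLIntegral_const]
    _ ≤ ENNReal.ofReal (c1 * ‖z‖ ^ 2) * V1 +
          ENNReal.ofReal c2 * (ENNReal.ofReal (H ^ 2 * ‖z‖ ^ 2) * V2) := by
        gcongr
        exact (hdq z hz2).trans (by gcongr)
    _ = _ := by
        have t1 := ENNReal.toReal_nonneg (a := V1)
        have t2 := ENNReal.toReal_nonneg (a := V2)
        conv_lhs => rw [← ENNReal.ofReal_toReal hV1', ← ENNReal.ofReal_toReal hV2']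
        rw [← ENNReal.ofReal_mul (by positivity), ← ENNReal.ofReal_mul (by positivity),
          ← ENNReal.ofReal_mul hc2', ← ENNReal.ofReal_add (by positivity) (by positivity)]
        congr 1
        ring

/-- **Integration by parts.**  `u = source.indicator (a * b ∘ φ)` is continuous (on the open sets
`source` and `Kᶜ`), supported in `K`, differentiable off `K` (locally zero, `fderiv = 0`) and at
every point of `source` where `φ` is, with `Du v = Da v * b (φ x) + a x * Db (φ x) (Dφ v)`.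
`integral_fderiv_eq_zero` + `dq_prod` give `∫ Du v = 0`, and `∫ Du v = ∫_source Du v`
(`Du = 0` off `K`).  The first summand is continuous on `source` and vanishes off `K`, the second is
integrable by `integrableOn_apply` with `β x = a x • fderiv ℝ b (φ x)`. -/
theorem LocQS.ibp (hH : 1 ≤ H) (h : LocQS H φ) {a b : ℂ → ℂ} (ha : ContDiff ℝ 1 a)
    (hb : ContDiff ℝ 1 b) {K : Set ℂ} (hK : IsCompact K) (hs : K ⊆ φ.source)
    (h0 : ∀ x ∈ φ.source, x ∉ K →
      (a x = 0 ∧ fderiv ℝ a x = 0) ∨ (b (φ x) = 0 ∧ fderiv ℝ b (φ x) = 0)) (v : ℂ) :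
    IntegrableOn (fun x => fderiv ℝ a x v * b (φ x)) φ.source ∧
    IntegrableOn (fun x => a x * fderiv ℝ b (φ x) (fderiv ℝ φ x v)) φ.source ∧
    ∫ x in φ.source, fderiv ℝ a x v * b (φ x) =
      -∫ x in φ.source, a x * fderiv ℝ b (φ x) (fderiv ℝ φ x v) := by
  have h0' : ∀ x ∈ φ.source, x ∉ K → a x * b (φ x) = 0 := fun x hx hK' => by
    rcases h0 x hx hK' with h | h <;> simp [h.1]
  obtain ⟨M, δ, hδ, hq⟩ := h.dq_prod hH ha hb hK hs h0'
  generalize hu : φ.source.indicator (fun y => a y * b (φ y)) = u at hq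
  have uK : ∀ x, x ∉ K → u x = 0 := fun x hx => by
    rw [← hu]
    exact indicator_apply_eq_zero.2 fun hx' => h0' x hx' hx
  have e0 : ∀ x, x ∉ φ.source → u =ᶠ[𝓝 x] fun _ => 0 := fun x hx =>
    mem_of_superset (hK.isClosed.isOpen_compl.mem_nhds fun h => hx (hs h)) fun y hy => uK y hy
  have e1 : ∀ x ∈ φ.source, u =ᶠ[𝓝 x] fun y => a y * b (φ y) := fun x hx =>
    mem_of_superset (φ.open_source.mem_nhds hx) fun y hy => by
      rw [← hu]
      exact indicator_of_mem hy _
  have hc : Continuous u := continuous_iff_continuousAt.2 fun x => by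
    by_cases hx : x ∈ φ.source
    · exact (ha.continuous.continuousAt.mul
        (hb.continuous.continuousAt.comp (φ.continuousAt hx))).congr (e1 x hx).symm
    · exact continuousAt_const.congr (e0 x hx).symm
  have hD : ∀ x ∈ φ.source, DifferentiableAt ℝ φ x → DifferentiableAt ℝ u x ∧ fderiv ℝ u x v =
      fderiv ℝ a x v * b (φ x) + a x * fderiv ℝ b (φ x) (fderiv ℝ φ x v) := fun x hx hd => by
    have := ((ha.differentiable one_ne_zero x).hasFDerivAt.mul
      ((hb.differentiable one_ne_zero (φ x)).hasFDerivAt.comp x hd.hasFDerivAt)).congr_of_eventuallyEq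
      (e1 x hx)
    refine ⟨this.differentiableAt, ?_⟩
    rw [this.fderiv]
    simp
    ring
  have hd : ∀ᵐ x : ℂ, DifferentiableAt ℝ u x := by
    filter_upwards [h.ae_diff hH] with x hx
    by_cases hx' : x ∈ φ.source
    · exact (hD x hx' (hx hx')).1
    · exact (differentiableAt_const _).congr_of_eventuallyEq (e0 x hx')
  have hz := (integral_fderiv_eq_zero hc (HasCompactSupport.intro hK uK) hd hδ hq v).2
  have i1 : IntegrableOn (fun x => fderiv ℝ a x v * b (φ x)) φ.source := by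
    refine IntegrableOn.of_forall_sdiff_eq_zero (s := K) (ContinuousOn.integrableOn_compact hK ?_)
      φ.open_source.measurableSet fun x hx => ?_
    · exact ((ha.continuous_fderiv one_ne_zero).clm_apply continuous_const).continuousOn.mul
        (hb.continuous.comp_continuousOn (φ.continuousOn.mono hs))
    · rcases h0 x hx.1 hx.2 with h | h <;> simp [h.1, h.2]
  have i2 : IntegrableOn (fun x => a x * fderiv ℝ b (φ x) (fderiv ℝ φ x v)) φ.source :=
    h.integrableOn_apply hH (β := fun x => a x • fderiv ℝ b (φ x))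
      (ha.continuous.continuousOn.smul
        ((hb.continuous_fderiv one_ne_zero).comp_continuousOn φ.continuousOn)) hK hs
      (fun x hx hK' => by rcases h0 x hx hK' with h | h <;> simp [h.1, h.2]) v
  refine ⟨i1, i2, eq_neg_of_add_eq_zero_left ?_⟩
  rw [← integral_add i1 i2, ← hz, ← setIntegral_eq_integral_of_forall_compl_eq_zero
    (s := φ.source) (f := fun x => fderiv ℝ u x v) fun x hx => by rw [(e0 x hx).fderiv_eq]; simp]
  refine setIntegral_congr_ae φ.open_source.measurableSet ?_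
  filter_upwards [h.ae_diff hH] with x hx hx'
  exact (hD x hx' (hx hx')).2.symm

end Crest.Agent.R193.T
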