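import Mathlib
import Crest.Agent.R193.TQ4

/-! Row 193, block [T]: the key estimate. -/

set_option autoImplicit false

namespace Crest.Agent.R193.T

open MeasureTheory Set Metric Filter Topology

variable {H : ℝ} {φ : PH}

theorem Q_comm (b : Coef) (α β : ℂ →L[ℝ] ℂ) : Q b α β = Q b β α := by
  unfold Q; ring

theorem Q_sub (b c : Coef) (α β : ℂ →L[ℝ] ℂ) : Q (b - c) α β = Q b α β - Q c α β := by
  simp only [Q, Prod.fst_sub, Prod.snd_sub, Complex.ofReal_sub]; ring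

theorem Q_zero_left (b : Coef) (β : ℂ →L[ℝ] ℂ) : Q b 0 β = 0 := by
  simp [Q]

/-- four terms, each `≤ ‖b‖‖α‖‖β‖` (`‖1‖ = ‖I‖ = 1`). -/
theorem norm_Q_le (b : Coef) (α β : ℂ →L[ℝ] ℂ) : ‖Q b α β‖ ≤ 4 * ‖b‖ * ‖α‖ * ‖β‖ := by
  have h1 : ‖b.1‖ ≤ ‖b‖ := norm_fst_le b
  have h2 : ‖b.2.1‖ ≤ ‖b‖ := (norm_fst_le b.2).trans (norm_snd_le b)
  have h3 : ‖b.2.2‖ ≤ ‖b‖ := (norm_snd_le b.2).trans (norm_snd_le b)
  have a1 : ‖α 1‖ ≤ ‖α‖ := by simpa using α.le_opNorm 1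
  have aI : ‖α Complex.I‖ ≤ ‖α‖ := by simpa using α.le_opNorm Complex.I
  have b1 : ‖β 1‖ ≤ ‖β‖ := by simpa using β.le_opNorm 1
  have bI : ‖β Complex.I‖ ≤ ‖β‖ := by simpa using β.le_opNorm Complex.I
  have hm : ∀ u v : ℂ, ‖u‖ ≤ ‖α‖ → ‖v‖ ≤ ‖β‖ → ‖u * v‖ ≤ ‖α‖ * ‖β‖ := fun u v hu hv => by
    rw [norm_mul]; exact mul_le_mul hu hv (norm_nonneg _) (norm_nonneg _)
  have hr : ∀ (t : ℝ) (w : ℂ) (M : ℝ), ‖t‖ ≤ ‖b‖ → ‖w‖ ≤ M → ‖(t : ℂ) * w‖ ≤ ‖b‖ * M :=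
    fun t w M ht hw => by
      rw [norm_mul, Complex.norm_real]
      exact mul_le_mul ht hw (norm_nonneg _) (norm_nonneg _)
  have e1 := hr _ _ _ h1 (hm _ _ a1 b1)
  have e2 := hr _ _ _ h2 ((norm_add_le (α 1 * β Complex.I) (α Complex.I * β 1)).trans
    (add_le_add (hm _ _ a1 bI) (hm _ _ aI b1)))
  have e3 := hr _ _ _ h3 (hm _ _ aI bI)
  unfold Q
  refine (norm_add₃_le).trans ?_
  nlinarith [e1, e2, e3]

theorem h73_cont_Q : Continuous fun p : Coef × (ℂ →L[ℝ] ℂ) × (ℂ →L[ℝ] ℂ) × (ℂ →L[ℝ] ℂ) =>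
    Q p.1 (p.2.1.comp p.2.2.1) p.2.2.2 := by
  unfold Q
  simp only [ContinuousLinearMap.comp_apply]
  fun_prop

/-- The integrand vanishes on `source \ K`; on `K` it is a.e. strongly measurable and bounded by
`4 Λ Λ' ‖c x‖ ‖Dφ x‖`; Cauchy-Schwarz (`integral_mul_le_Lp_mul_Lq_of_nonneg` or
`ENNReal.lintegral_mul_le_Lp_mul_Lq`) with `fderiv_L2` (`φ '' K` is compact, so of finite measure). -/
theorem LocQS.pair_bound (hH : 1 ≤ H) (h : LocQS H φ) {c : ℂ → Coef} (hc : Measurable c) {B : ℝ}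
    (hcb : ∀ x, ‖c x‖ ≤ B) {α β : ℂ → ℂ →L[ℝ] ℂ} (hα : ContinuousOn α φ.source)
    (hβ : ContinuousOn β φ.source) {K : Set ℂ} (hK : IsCompact K) (hs : K ⊆ φ.source)
    (h0 : ∀ x ∈ φ.source, x ∉ K → α x = 0 ∨ β x = 0) {Λ Λ' : ℝ} (hΛ0 : 0 ≤ Λ) (hΛ0' : 0 ≤ Λ')
    (hΛ : ∀ x ∈ K, ‖α x‖ ≤ Λ) (hΛ' : ∀ x ∈ K, ‖β x‖ ≤ Λ') :
    IntegrableOn (fun x => Q (c x) ((α x).comp (fderiv ℝ φ x)) (β x)) φ.source ∧
    ‖∫ x in φ.source, Q (c x) ((α x).comp (fderiv ℝ φ x)) (β x)‖ ≤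
      4 * Λ * Λ' * Real.sqrt (H * (volume (φ '' K)).toReal) * Real.sqrt (∫ x in K, ‖c x‖ ^ 2) := by
  have hKm : MeasurableSet K := hK.measurableSet
  have hKfin : volume K < ⊤ := hK.measure_lt_top
  have : IsFiniteMeasure (volume.restrict K) := isFiniteMeasure_restrict.2 hKfin.ne
  have hKi : IsCompact (φ '' K) := hK.image_of_continuousOn (φ.continuousOn.mono hs)
  have hL2 := h.fderiv_L2 hH hKm hs
  have hH0 : 0 ≤ H := zero_le_one.trans hH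
  have hfin : ENNReal.ofReal H * volume (φ '' K) ≠ ⊤ :=
    ENNReal.mul_ne_top ENNReal.ofReal_ne_top hKi.measure_lt_top.ne
  set F : ℂ → ℂ := fun x => Q (c x) ((α x).comp (fderiv ℝ φ x)) (β x) with hF
  have hDm : AEStronglyMeasurable (fun x => fderiv ℝ φ x) (volume.restrict K) :=
    (measurable_fderiv ℝ φ).aestronglyMeasurable
  have hcm : AEStronglyMeasurable c (volume.restrict K) := hc.aestronglyMeasurable
  have hFm : AEStronglyMeasurable F (volume.restrict K) :=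
    h73_cont_Q.comp_aestronglyMeasurable (hcm.prodMk
      (((hα.mono hs).aestronglyMeasurable hKm).prodMk
        (hDm.prodMk ((hβ.mono hs).aestronglyMeasurable hKm))))
  have hD2 : MemLp (fun x => ‖fderiv ℝ φ x‖) 2 (volume.restrict K) := by
    refine MemLp.norm ⟨hDm, ?_⟩
    rw [eLpNorm_lt_top_iff_lintegral_rpow_enorm_lt_top (by norm_num) (by norm_num)]
    simp only [ENNReal.toReal_ofNat, ENNReal.rpow_ofNat]
    exact hL2.trans_lt hfin.lt_top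
  have hc2 : MemLp (fun x => ‖c x‖) 2 (volume.restrict K) :=
    (MemLp.of_bound hcm B (Eventually.of_forall hcb)).norm
  have hprod : Integrable (fun x => ‖fderiv ℝ φ x‖ * ‖c x‖) (volume.restrict K) :=
    hD2.integrable_mul hc2
  have hle : ∀ x ∈ K, ‖F x‖ ≤ 4 * Λ * Λ' * (‖fderiv ℝ φ x‖ * ‖c x‖) := by
    intro x hx
    refine (norm_Q_le _ _ _).trans ?_
    have e1 : ‖(α x).comp (fderiv ℝ φ x)‖ ≤ Λ * ‖fderiv ℝ φ x‖ :=
      ((α x).opNorm_comp_le _).trans (mul_le_mul_of_nonneg_right (hΛ x hx) (norm_nonneg _))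
    have e2 : ‖(α x).comp (fderiv ℝ φ x)‖ * ‖β x‖ ≤ Λ * ‖fderiv ℝ φ x‖ * Λ' :=
      mul_le_mul e1 (hΛ' x hx) (norm_nonneg _) (by positivity)
    have e3 := mul_le_mul_of_nonneg_left e2 (norm_nonneg (c x))
    nlinarith [e3]
  have hle' : ∀ᵐ x ∂(volume.restrict K), ‖F x‖ ≤ 4 * Λ * Λ' * (‖fderiv ℝ φ x‖ * ‖c x‖) :=
    (ae_restrict_iff' hKm).2 (Eventually.of_forall hle)
  have hFK : IntegrableOn F K := (hprod.const_mul (4 * Λ * Λ')).mono' hFm hle'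
  have hzero : ∀ x ∈ φ.source \ K, F x = 0 := by
    rintro x ⟨hx, hxK⟩
    rcases h0 x hx hxK with h1 | h1
    · simp [hF, h1, Q]
    · simp [hF, h1, Q]
  refine ⟨hFK.of_forall_sdiff_eq_zero φ.open_source.measurableSet hzero, ?_⟩
  rw [setIntegral_eq_of_subset_of_forall_sdiff_eq_zero φ.open_source.measurableSet hs hzero]
  have hcs : ∫ x in K, ‖fderiv ℝ φ x‖ * ‖c x‖ ≤
      Real.sqrt (∫ x in K, ‖fderiv ℝ φ x‖ ^ 2) * Real.sqrt (∫ x in K, ‖c x‖ ^ 2) := by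
    have h22 : (2 : ℝ).HolderConjugate 2 := Real.HolderConjugate.two_two
    have := integral_mul_le_Lp_mul_Lq_of_nonneg (μ := volume.restrict K) h22
      (f := fun x => ‖fderiv ℝ φ x‖) (g := fun x => ‖c x‖)
      (Eventually.of_forall fun x => norm_nonneg _) (Eventually.of_forall fun x => norm_nonneg _)
      (by simpa using hD2) (by simpa using hc2)
    simpa only [Real.rpow_two, Real.sqrt_eq_rpow] using this
  have hDle : ∫ x in K, ‖fderiv ℝ φ x‖ ^ 2 ≤ H * (volume (φ '' K)).toReal := by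
    rw [integral_eq_lintegral_of_nonneg_ae (f := fun x => ‖fderiv ℝ φ x‖ ^ 2)
      (Eventually.of_forall fun x => sq_nonneg _) (hDm.norm.pow 2)]
    have e : ∀ x, ENNReal.ofReal (‖fderiv ℝ φ x‖ ^ 2) = ‖fderiv ℝ φ x‖ₑ ^ 2 := fun x => by
      rw [ENNReal.ofReal_pow (norm_nonneg _), ofReal_norm]
    simp only [e]
    have := ENNReal.toReal_mono hfin hL2
    rwa [ENNReal.toReal_mul, ENNReal.toReal_ofReal hH0] at this
  calc ‖∫ x in K, F x‖ ≤ ∫ x in K, 4 * Λ * Λ' * (‖fderiv ℝ φ x‖ * ‖c x‖) :=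
        norm_integral_le_of_norm_le (hprod.const_mul _) hle'
    _ = 4 * Λ * Λ' * ∫ x in K, ‖fderiv ℝ φ x‖ * ‖c x‖ := integral_const_mul _ _
    _ ≤ 4 * Λ * Λ' * (Real.sqrt (H * (volume (φ '' K)).toReal) *
          Real.sqrt (∫ x in K, ‖c x‖ ^ 2)) := by
        refine mul_le_mul_of_nonneg_left (hcs.trans ?_) (by positivity)
        exact mul_le_mul_of_nonneg_right (Real.sqrt_le_sqrt hDle) (Real.sqrt_nonneg _)
    _ = _ := by ring

private theorem h90_cd {f : ℂ → ℂ} (hf : ContDiff ℝ 2 f) (e : ℂ) :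
    ContDiff ℝ 1 (fun y => fderiv ℝ f y e) :=
  (hf.fderiv_right (m := 1) (by norm_num)).clm_apply contDiff_const

private theorem h90_zero {θ : ℂ → ℂ} {x : ℂ} (hx : x ∉ tsupport θ) (e : ℂ) :
    fderiv ℝ θ x e = 0 ∧ fderiv ℝ (fun y => fderiv ℝ θ y e) x = 0 := by
  have h1 : ∀ᶠ y in 𝓝 x, fderiv ℝ θ y e = 0 := by
    filter_upwards [(isClosed_tsupport θ).isOpen_compl.mem_nhds hx] with y hy
    rw [fderiv_of_notMem_tsupport ℝ hy]; rfl
  refine ⟨h1.self_of_nhds, ?_⟩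
  have h2 : (fun y => fderiv ℝ θ y e) =ᶠ[𝓝 x] fun _ => (0 : ℂ) := h1
  rw [h2.fderiv_eq]
  simp

/-- `ibp` twice with `a = fun y => fderiv ℝ θ y eᵢ` (`C¹`, vanishing with its derivative off
`K = tsupport θ`), `b = f`, `v = eᵢ`; finally `L e₁ e₂ θ = 0` off `tsupport θ ⊆ source`
(`setIntegral_eq_integral_of_forall_compl_eq_zero`). -/
theorem est_one (hH : 1 ≤ H) (h : LocQS H φ) {b₀ : Coef} {e₁ e₂ : ℂ}
    (he : ∀ α β : ℂ →L[ℝ] ℂ, Q b₀ α β = α e₁ * β e₁ + α e₂ * β e₂) {f θ : ℂ → ℂ}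
    (hf : ContDiff ℝ 2 f) (hθ : Test φ.source θ) :
    ∫ x in φ.source, Q b₀ ((fderiv ℝ f (φ x)).comp (fderiv ℝ φ x)) (fderiv ℝ θ x) =
      -∫ x, f (φ x) * L e₁ e₂ θ x := by
  have hK : IsCompact (tsupport θ) := hθ.cs
  have hf1 : ContDiff ℝ 1 f := hf.of_le (by norm_num)
  obtain ⟨a1, a2, a3⟩ := h.ibp hH (h90_cd hθ.cd e₁) hf1 hK hθ.sub
    (fun x _ hx => Or.inl (h90_zero hx e₁)) e₁
  obtain ⟨b1, b2, b3⟩ := h.ibp hH (h90_cd hθ.cd e₂) hf1 hK hθ.sub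
    (fun x _ hx => Or.inl (h90_zero hx e₂)) e₂
  have e1 : ∫ x in φ.source, Q b₀ ((fderiv ℝ f (φ x)).comp (fderiv ℝ φ x)) (fderiv ℝ θ x) =
      ∫ x in φ.source, (fderiv ℝ θ x e₁ * fderiv ℝ f (φ x) (fderiv ℝ φ x e₁) +
        fderiv ℝ θ x e₂ * fderiv ℝ f (φ x) (fderiv ℝ φ x e₂)) := by
    congr 1
    funext x
    rw [he]
    simp only [ContinuousLinearMap.comp_apply]
    ring
  have e2 : ∫ x, f (φ x) * L e₁ e₂ θ x = ∫ x in φ.source, f (φ x) * L e₁ e₂ θ x := by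
    symm
    apply setIntegral_eq_integral_of_forall_compl_eq_zero
    intro x hx
    have hx' : x ∉ tsupport θ := fun h' => hx (hθ.sub h')
    simp [L, (h90_zero hx' e₁).2, (h90_zero hx' e₂).2]
  have e3 : ∫ x in φ.source, f (φ x) * L e₁ e₂ θ x =
      ∫ x in φ.source, (fderiv ℝ (fun y => fderiv ℝ θ y e₁) x e₁ * f (φ x) +
        fderiv ℝ (fun y => fderiv ℝ θ y e₂) x e₂ * f (φ x)) := by
    congr 1
    funext x
    simp only [L]
    ring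
  rw [e1, e2, e3, integral_add a2 b2, integral_add a1 b1, a3, b3]
  ring

/-- `ibp` twice for the map `ψ` with `a = fun y => fderiv ℝ f y eᵢ`, `b = θ`, `v = eᵢ`,
`K = ψ.symm '' tsupport θ` (compact, inside `ψ.source`; for `y ∈ ψ.source \ K`, `ψ y ∉ tsupport θ`, so
`θ (ψ y) = 0` and `fderiv ℝ θ (ψ y) = 0`); the sum of the left sides is `∫ (L e₁ e₂ f) * θ ∘ ψ = 0`. -/
theorem est_four {ψ : PH} (hH : 1 ≤ H) (h : LocQS H ψ) {b₀ : Coef} {e₁ e₂ : ℂ}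
    (he : ∀ α β : ℂ →L[ℝ] ℂ, Q b₀ α β = α e₁ * β e₁ + α e₂ * β e₂) {f θ : ℂ → ℂ}
    (hf : ContDiff ℝ 2 f) (hL : ∀ y, L e₁ e₂ f y = 0) (hθ : Test ψ.target θ) :
    ∫ y in ψ.source, Q b₀ ((fderiv ℝ θ (ψ y)).comp (fderiv ℝ ψ y)) (fderiv ℝ f y) = 0 := by
  have hK0 : IsCompact (tsupport θ) := hθ.cs
  have hK : IsCompact (ψ.symm '' tsupport θ) :=
    hK0.image_of_continuousOn (ψ.continuousOn_symm.mono hθ.sub)
  have hs : ψ.symm '' tsupport θ ⊆ ψ.source := by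
    rintro _ ⟨y, hy, rfl⟩
    exact ψ.map_target (hθ.sub hy)
  have hθ1 : ContDiff ℝ 1 θ := hθ.cd.of_le (by norm_num)
  have h0 : ∀ y ∈ ψ.source, y ∉ ψ.symm '' tsupport θ →
      θ (ψ y) = 0 ∧ fderiv ℝ θ (ψ y) = 0 := by
    intro y hy hy'
    have hn : ψ y ∉ tsupport θ := fun h' => hy' ⟨ψ y, h', ψ.left_inv hy⟩
    exact ⟨image_eq_zero_of_notMem_tsupport hn, fderiv_of_notMem_tsupport ℝ hn⟩
  obtain ⟨a1, a2, a3⟩ := h.ibp hH (h90_cd hf e₁) hθ1 hK hs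
    (fun x hx hx' => Or.inr (h0 x hx hx')) e₁
  obtain ⟨b1, b2, b3⟩ := h.ibp hH (h90_cd hf e₂) hθ1 hK hs
    (fun x hx hx' => Or.inr (h0 x hx hx')) e₂
  have e1 : ∫ y in ψ.source, Q b₀ ((fderiv ℝ θ (ψ y)).comp (fderiv ℝ ψ y)) (fderiv ℝ f y) =
      ∫ x in ψ.source, (fderiv ℝ f x e₁ * fderiv ℝ θ (ψ x) (fderiv ℝ ψ x e₁) +
        fderiv ℝ f x e₂ * fderiv ℝ θ (ψ x) (fderiv ℝ ψ x e₂)) := by
    congr 1
    funext x
    rw [he]
    simp only [ContinuousLinearMap.comp_apply]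
    ring
  have e2 : ∫ x in ψ.source, (fderiv ℝ (fun y => fderiv ℝ f y e₁) x e₁ * θ (ψ x) +
      fderiv ℝ (fun y => fderiv ℝ f y e₂) x e₂ * θ (ψ x)) = 0 := by
    have : (fun x => fderiv ℝ (fun y => fderiv ℝ f y e₁) x e₁ * θ (ψ x) +
        fderiv ℝ (fun y => fderiv ℝ f y e₂) x e₂ * θ (ψ x)) = fun _ => 0 := by
      funext x
      have := hL x
      simp only [L] at this
      rw [← add_mul, this, zero_mul]
    rw [this]
    simp
  rw [integral_add a1 b1, a3, b3] at e2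
  rw [e1, integral_add a2 b2]
  linear_combination -e2

/-- Invariance.  For a.e. `x ∈ source`, with `T = Dφ x`, `y = φ x`, `S = D(φ.symm) y`: `S ∘ T = id`
(`ae_inv`), `φ.symm y = x`, so `β x = ((β (φ.symm y)).comp S).comp T`; `hinv` turns the integrand into
`|det T| * Q (b y) (α y) ((β (φ.symm y)).comp S)`; `IsQC.change`, `Q_comm`. -/
theorem est_inv (h : IsQC H φ) {b : ℂ → Coef} (hinv : Inv b φ) (α β : ℂ → ℂ →L[ℝ] ℂ) :
    ∫ x in φ.source, Q (b x) ((α (φ x)).comp (fderiv ℝ φ x)) (β x) =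
      ∫ y in φ.target, Q (b y) ((β (φ.symm y)).comp (fderiv ℝ φ.symm y)) (α y) := by
  rw [← h.change (fun y => Q (b y) ((β (φ.symm y)).comp (fderiv ℝ φ.symm y)) (α y))]
  refine setIntegral_congr_ae φ.open_source.measurableSet ?_
  filter_upwards [hinv, h.ae_inv] with x hx hi hxs
  have h1 := hx hxs (α (φ x)) ((β x).comp (fderiv ℝ φ.symm (φ x)))
  rw [ContinuousLinearMap.comp_assoc, hi hxs, ContinuousLinearMap.comp_id] at h1
  rw [h1, φ.left_inv hxs, Q_comm]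

/-- **Key estimate.**  With `I₁` = `est_one` integral (coefficient `b₀`), `I₂` = same with `b x`,
`I₃` = right side of `est_inv`, `I₄` = same with `b₀` (`= 0` by `est_four` for `φ.symm`):
`‖∫ f (φ x) L θ‖ = ‖I₁‖ ≤ ‖I₁ - I₂‖ + ‖I₃ - I₄‖`; both differences are integrals with coefficient
`c = b - b₀` (`Q_sub`, `integral_sub`, integrability from `pair_bound` with `c = b` and `c = b₀`),
bounded by `pair_bound` for `φ` with `K = tsupport θ` and for `φ.symm` with `K' = φ '' tsupport θ`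
(`φ.symm '' K' = K`); `K, K' ⊆ ball y₀ r`, whose area is `π r²`. -/
theorem est (h : IsQC H φ) {b : ℂ → Coef} (hb : Measurable b) {B : ℝ} (hbb : ∀ x, ‖b x‖ ≤ B)
    (hinv : Inv b φ) {b₀ : Coef} {e₁ e₂ : ℂ}
    (he : ∀ α β : ℂ →L[ℝ] ℂ, Q b₀ α β = α e₁ * β e₁ + α e₂ * β e₂) {f θ : ℂ → ℂ}
    (hf : ContDiff ℝ 2 f) (hL : ∀ y, L e₁ e₂ f y = 0) (hθ : Test φ.source θ) {y₀ : ℂ} {r : ℝ}
    (hr : 0 < r) (hin : ∀ x ∈ tsupport θ, x ∈ ball y₀ r ∧ φ x ∈ ball y₀ r) {Λ Λ' : ℝ}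
    (hΛ0 : 0 ≤ Λ) (hΛ : ∀ x ∈ tsupport θ, ‖fderiv ℝ f (φ x)‖ ≤ Λ)
    (hΛ' : ∀ x, ‖fderiv ℝ θ x‖ ≤ Λ') :
    ‖∫ x, f (φ x) * L e₁ e₂ θ x‖ ≤
      8 * Λ * Λ' * Real.sqrt (H * (Real.pi * r ^ 2)) *
        Real.sqrt (∫ x in ball y₀ r, ‖b x - b₀‖ ^ 2) := by
  have hH := h.one_le
  have hK : IsCompact (tsupport θ) := hθ.cs
  have hs : tsupport θ ⊆ φ.source := hθ.sub
  have hK' : IsCompact (φ '' tsupport θ) := hK.image_of_continuousOn (φ.continuousOn.mono hs)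
  have hs' : φ '' tsupport θ ⊆ φ.symm.source := by
    rintro _ ⟨x, hx, rfl⟩; exact φ.map_source (hs hx)
  have hΛ0' : 0 ≤ Λ' := (norm_nonneg _).trans (hΛ' 0)
  have cf : Continuous (fderiv ℝ f) := hf.continuous_fderiv (by norm_num)
  have cθ : Continuous (fderiv ℝ θ) := hθ.cd.continuous_fderiv (by norm_num)
  have z0 : ∀ x, x ∉ tsupport θ → fderiv ℝ θ x = 0 := fun x hx => by
    by_contra hn
    exact hx (support_fderiv_subset ℝ (f := θ) hn)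
  have P1 := fun (c : ℂ → Coef) (hc : Measurable c) (B : ℝ) (hcb : ∀ x, ‖c x‖ ≤ B) =>
    h.fwd.pair_bound hH hc hcb (α := fun x => fderiv ℝ f (φ x)) (β := fderiv ℝ θ)
      (cf.comp_continuousOn φ.continuousOn) cθ.continuousOn hK hs
      (fun x _ hx => Or.inr (z0 x hx)) hΛ0 hΛ0' hΛ (fun x _ => hΛ' x)
  have P2 := fun (c : ℂ → Coef) (hc : Measurable c) (B : ℝ) (hcb : ∀ x, ‖c x‖ ≤ B) =>
    h.bwd.pair_bound hH hc hcb (α := fun y => fderiv ℝ θ (φ.symm y)) (β := fderiv ℝ f)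
      (cθ.comp_continuousOn φ.symm.continuousOn) cf.continuousOn hK' hs'
      (fun y hy hy' => Or.inl (z0 _ fun hx => hy' ⟨_, hx, φ.right_inv hy⟩)) hΛ0' hΛ0
      (fun x _ => hΛ' _) (by rintro _ ⟨x, hx, rfl⟩; exact hΛ x hx)
  have hc : Measurable fun x => b x - b₀ := hb.sub measurable_const
  have hcb : ∀ x, ‖b x - b₀‖ ≤ B + ‖b₀‖ := fun x =>
    (norm_sub_le _ _).trans (by linarith [hbb x])
  have e1 := est_one hH h.fwd he hf hθ
  have e4 := est_four (ψ := φ.symm) hH h.bwd he hf hL hθ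
  have e2 := est_inv h hinv (fderiv ℝ f) (fderiv ℝ θ)
  have d1 := (P1 _ hc _ hcb).2
  have d2 := (P2 _ hc _ hcb).2
  simp only [Q_sub] at d1 d2
  rw [integral_sub (P1 _ hb _ hbb).1 (P1 (fun _ => b₀) measurable_const _ fun _ => le_rfl).1, e1,
    e2] at d1
  rw [integral_sub (P2 _ hb _ hbb).1 (P2 (fun _ => b₀) measurable_const _ fun _ => le_rfl).1, e4,
    sub_zero] at d2
  have hv : ∀ A : Set ℂ, A ⊆ ball y₀ r → (volume A).toReal ≤ Real.pi * r ^ 2 := by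
    intro A hA
    refine ENNReal.toReal_le_of_le_ofReal (by positivity) ((measure_mono hA).trans ?_)
    rw [Complex.volume_ball, mul_comm Real.pi, ENNReal.ofReal_mul (by positivity),
      ENNReal.ofReal_pow hr.le]
    exact le_of_eq (by congr 1; exact (ENNReal.ofReal_coe_nnreal (p := NNReal.pi)).symm)
  have hi : IntegrableOn (fun x => ‖b x - b₀‖ ^ 2) (ball y₀ r) :=
    Measure.integrableOn_of_bounded (M := (B + ‖b₀‖) ^ 2) measure_ball_lt_top.ne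
      (hc.norm.pow_const 2).aestronglyMeasurable (Eventually.of_forall fun x => by
        rw [Real.norm_of_nonneg (by positivity)]
        exact pow_le_pow_left₀ (norm_nonneg _) (hcb x) 2)
  have hI : ∀ A : Set ℂ, A ⊆ ball y₀ r →
      ∫ x in A, ‖b x - b₀‖ ^ 2 ≤ ∫ x in ball y₀ r, ‖b x - b₀‖ ^ 2 := fun A hA =>
    setIntegral_mono_set hi (Eventually.of_forall fun x => by positivity) hA.eventuallyLE
  have k1 : tsupport θ ⊆ ball y₀ r := fun x hx => (hin x hx).1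
  have k2 : φ '' tsupport θ ⊆ ball y₀ r := by rintro _ ⟨x, hx, rfl⟩; exact (hin x hx).2
  have k3 : φ.symm '' (φ '' tsupport θ) ⊆ ball y₀ r := by
    rintro _ ⟨_, ⟨x, hx, rfl⟩, rfl⟩
    rw [φ.left_inv (hs hx)]; exact k1 hx
  have H0 : 0 ≤ H := by linarith
  have d1' := d1.trans (show _ ≤ 4 * Λ * Λ' * Real.sqrt (H * (Real.pi * r ^ 2)) *
      Real.sqrt (∫ x in ball y₀ r, ‖b x - b₀‖ ^ 2) by
    have a1 := hv _ k2
    have a2 := hI _ k1
    exact mul_le_mul (by gcongr) (Real.sqrt_le_sqrt a2) (Real.sqrt_nonneg _) (by positivity))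
  have d2' := d2.trans (show _ ≤ 4 * Λ' * Λ * Real.sqrt (H * (Real.pi * r ^ 2)) *
      Real.sqrt (∫ x in ball y₀ r, ‖b x - b₀‖ ^ 2) by
    have a1 := hv _ k3
    have a2 := hI _ k2
    exact mul_le_mul (by gcongr) (Real.sqrt_le_sqrt a2) (Real.sqrt_nonneg _) (by positivity))
  have t : ∀ u v : ℂ, ‖v‖ ≤ ‖u - -v‖ + ‖u‖ := fun u v => by
    simpa using norm_sub_le (u - -v) u
  simp only [OpenPartialHomeomorph.symm_source] at d2'
  refine (t _ _).trans ((add_le_add d1' d2').trans (le_of_eq ?_))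
  ring

end Crest.Agent.R193.T
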