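import Mathlib
import Crest.Agent.R193.TDefs

/-! Row 193, block [T]: a Lebesgue point and a Cholesky frame (auxiliary to `TB3`). -/

set_option autoImplicit false

namespace Crest.Agent.R193.T

open MeasureTheory Set Metric Filter Topology

theorem TB3Leb_lebesgue {Ω : Set ℂ} (hΩ : IsOpen Ω) (hne : Ω.Nonempty) {b : ℂ → Coef}
    (hb : Measurable b) (hbb : ∀ x, ‖b x‖ ≤ 4) (hp : ∀ᵐ x : ℂ, x ∈ Ω → PosDef (b x)) :
    ∃ y₀ ∈ Ω, PosDef (b y₀) ∧ ∀ ε : ℝ, 0 < ε → ∃ r₀ : ℝ, 0 < r₀ ∧ ∀ r : ℝ, 0 < r → r < r₀ →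
      ∫ x in ball y₀ r, ‖b x - b y₀‖ ^ 2 ≤ ε * r ^ 2 := by
  have hli : LocallyIntegrable b (volume : Measure ℂ) := by
    intro x
    refine ⟨ball x 1, ball_mem_nhds x one_pos, ?_⟩
    exact Measure.integrableOn_of_bounded (M := 4) measure_ball_lt_top.ne
      hb.aestronglyMeasurable (Eventually.of_forall hbb)
  have hae := (Besicovitch.vitaliFamily (volume : Measure ℂ)).ae_tendsto_average_norm_sub hli
  have hpos : (volume : Measure ℂ) Ω ≠ 0 := (hΩ.measure_pos _ hne).ne'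
  have hfr : ∃ᵐ x ∂(volume : Measure ℂ), x ∈ Ω := frequently_ae_mem_iff.mpr hpos
  obtain ⟨y₀, hy, h1, h2⟩ := (hfr.and_eventually (hp.and hae)).exists
  refine ⟨y₀, hy, h1 hy, fun ε hε => ?_⟩
  have h3 := h2.comp (Besicovitch.tendsto_filterAt (volume : Measure ℂ) y₀)
  have hε' : 0 < ε / (8 * Real.pi) := by positivity
  have h4 := h3.eventually (gt_mem_nhds hε')
  obtain ⟨r₀, hr₀, hsub⟩ := (mem_nhdsGT_iff_exists_Ioo_subset).1 h4
  refine ⟨r₀, hr₀, fun r hr hrr => ?_⟩
  have h5 : ⨍ y in closedBall y₀ r, ‖b y - b y₀‖ < ε / (8 * Real.pi) := hsub ⟨hr, hrr⟩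
  have hvol : (volume : Measure ℂ).real (closedBall y₀ r) = Real.pi * r ^ 2 := by
    rw [measureReal_def, Complex.volume_closedBall]
    rw [ENNReal.toReal_mul, ENNReal.toReal_pow, ENNReal.toReal_ofReal hr.le]
    simp [mul_comm]
  have hm : Measurable fun y => ‖b y - b y₀‖ := (hb.sub_const _).norm
  have hbd : ∀ y, ‖b y - b y₀‖ ≤ 8 := fun y =>
    (norm_sub_le _ _).trans (by linarith [hbb y, hbb y₀])
  have hi1 : IntegrableOn (fun y => ‖b y - b y₀‖) (closedBall y₀ r) volume :=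
    Measure.integrableOn_of_bounded (M := 8) measure_closedBall_lt_top.ne
      hm.aestronglyMeasurable (Eventually.of_forall fun y => by
        rw [Real.norm_of_nonneg (norm_nonneg _)]; exact hbd y)
  have hi2 : IntegrableOn (fun y => ‖b y - b y₀‖ ^ 2) (ball y₀ r) volume :=
    Measure.integrableOn_of_bounded (M := 64) measure_ball_lt_top.ne
      (hm.pow_const 2).aestronglyMeasurable (Eventually.of_forall fun y => by
        rw [Real.norm_of_nonneg (by positivity)]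
        nlinarith [hbd y, norm_nonneg (b y - b y₀)])
  rw [setAverage_eq, hvol, smul_eq_mul] at h5
  have hpr : 0 < Real.pi * r ^ 2 := by positivity
  have h6 : ∫ y in closedBall y₀ r, ‖b y - b y₀‖ ≤ ε / (8 * Real.pi) * (Real.pi * r ^ 2) := by
    rw [inv_mul_lt_iff₀ hpr] at h5
    linarith
  calc ∫ x in ball y₀ r, ‖b x - b y₀‖ ^ 2 ≤ ∫ x in ball y₀ r, 8 * ‖b x - b y₀‖ := by
        refine setIntegral_mono hi2 ((hi1.mono_set ball_subset_closedBall).const_mul 8) fun y => ?_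
        nlinarith [hbd y, norm_nonneg (b y - b y₀)]
    _ = 8 * ∫ x in ball y₀ r, ‖b x - b y₀‖ := integral_const_mul _ _
    _ ≤ 8 * ∫ x in closedBall y₀ r, ‖b x - b y₀‖ := by
        refine mul_le_mul_of_nonneg_left ?_ (by norm_num)
        exact setIntegral_mono_set hi1 (Eventually.of_forall fun y => norm_nonneg _)
          ball_subset_closedBall.eventuallyLE
    _ ≤ 8 * (ε / (8 * Real.pi) * (Real.pi * r ^ 2)) := by gcongr
    _ = ε * r ^ 2 := by field_simp

theorem TB3Leb_apply (α : ℂ →L[ℝ] ℂ) (x y : ℝ) :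
    α ((x : ℂ) + (y : ℂ) * Complex.I) = (x : ℂ) * α 1 + (y : ℂ) * α Complex.I := by
  have h : ((x : ℂ) + (y : ℂ) * Complex.I) = x • (1 : ℂ) + y • Complex.I := by
    simp
  rw [h, map_add, map_smul, map_smul]
  simp

theorem TB3Leb_frame {b : Coef} (hb : PosDef b) :
    ∃ A : ℂ ≃L[ℝ] ℂ, ∀ α β : ℂ →L[ℝ] ℂ,
      Q b α β = α (A.symm 1) * β (A.symm 1) + α (A.symm Complex.I) * β (A.symm Complex.I) := by
  obtain ⟨b₁, b₂, b₃⟩ := b
  obtain ⟨h1, h2⟩ := hb
  simp only at h1 h2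
  set p : ℝ := Real.sqrt b₁ with hp
  have hp0 : 0 < p := Real.sqrt_pos.2 h1
  have hp2 : p * p = b₁ := Real.mul_self_sqrt h1.le
  have h3 : 0 < b₃ - b₂ ^ 2 / b₁ := by
    rw [sub_pos, div_lt_iff₀ h1]; linarith
  set s : ℝ := Real.sqrt (b₃ - b₂ ^ 2 / b₁) with hs
  have hs0 : 0 < s := Real.sqrt_pos.2 h3
  have hs2 : s * s = b₃ - b₂ ^ 2 / b₁ := Real.mul_self_sqrt h3.le
  set q : ℝ := b₂ / p with hq
  have hpq : p * q = b₂ := by rw [hq]; field_simp
  have hq2 : q * q + s * s = b₃ := by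
    rw [hs2, hq, ← hp2]; field_simp; ring
  clear_value p s q
  let B : ℂ →L[ℝ] ℂ := Complex.reCLM.smulRight ((p : ℂ) + (q : ℂ) * Complex.I) +
    Complex.imCLM.smulRight (((0 : ℝ) : ℂ) + (s : ℂ) * Complex.I)
  let C : ℂ →L[ℝ] ℂ := Complex.reCLM.smulRight (((p⁻¹ : ℝ) : ℂ) + ((-(q / (p * s)) : ℝ) : ℂ) * Complex.I) +
    Complex.imCLM.smulRight (((0 : ℝ) : ℂ) + ((s⁻¹ : ℝ) : ℂ) * Complex.I)
  have hBre : ∀ w, (B w).re = p * w.re := fun w => by
    simp [B]; ring
  have hBim : ∀ w, (B w).im = q * w.re + s * w.im := fun w => by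
    simp [B]; ring
  have hCre : ∀ w, (C w).re = p⁻¹ * w.re := fun w => by
    simp only [C, ContinuousLinearMap.add_apply, ContinuousLinearMap.smulRight_apply,
      Complex.reCLM_apply, Complex.imCLM_apply, Complex.add_re, Complex.smul_re, Complex.ofReal_re,
      Complex.mul_re, Complex.I_re, Complex.ofReal_im, Complex.I_im, smul_eq_mul]
    ring
  have hCim : ∀ w, (C w).im = -(q / (p * s)) * w.re + s⁻¹ * w.im := fun w => by
    simp only [C, ContinuousLinearMap.add_apply, ContinuousLinearMap.smulRight_apply,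
      Complex.reCLM_apply, Complex.imCLM_apply, Complex.add_im, Complex.smul_im, Complex.ofReal_re,
      Complex.mul_im, Complex.I_re, Complex.ofReal_im, Complex.I_im, smul_eq_mul]
    ring
  have hCB : Function.LeftInverse C B := fun w => by
    apply Complex.ext
    · rw [hCre, hBre]; field_simp
    · rw [hCim, hBre, hBim]; field_simp; ring
  have hBC : Function.RightInverse C B := fun w => by
    apply Complex.ext
    · rw [hBre, hCre]; field_simp
    · rw [hBim, hCre, hCim]; field_simp; ring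
  refine ⟨(ContinuousLinearEquiv.equivOfInverse B C hCB hBC).symm, fun α β => ?_⟩
  have e1 : (ContinuousLinearEquiv.equivOfInverse B C hCB hBC).symm.symm 1 =
      (p : ℂ) + (q : ℂ) * Complex.I := by
    change B 1 = _
    simp [B]
  have e2 : (ContinuousLinearEquiv.equivOfInverse B C hCB hBC).symm.symm Complex.I =
      ((0 : ℝ) : ℂ) + (s : ℂ) * Complex.I := by
    change B Complex.I = _
    simp [B]
  rw [e1, e2, TB3Leb_apply, TB3Leb_apply, TB3Leb_apply, TB3Leb_apply]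
  simp only [Q, ← hp2, ← hpq, ← hq2]
  push_cast
  ring

end Crest.Agent.R193.T
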