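import Mathlib
import Crest.Agent.R193.TB1
import Crest.Agent.R193.TB2
import Crest.Agent.R193.TB3Leb

/-! Row 193, block [T]: the analytic half. -/

set_option autoImplicit false

namespace Crest.Agent.R193.T

open MeasureTheory Set Metric Filter Topology

/-- A Lebesgue point.  `b` is locally integrable (bounded, measurable);
`IsUnifLocDoublingMeasure.ae_tendsto_average_norm_sub` (or `(Besicovitch.vitaliFamily volume).ae_tendsto_average_norm_sub`
with `Besicovitch.tendsto_filterAt`) gives a.e. `⨍_{closedBall y r} ‖b - b y‖ → 0`; `Ω` has positive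
measure; `‖b x - b y‖² ≤ 8 ‖b x - b y‖`, `vol (closedBall y r) = π r²`. -/
theorem exists_lebesgue {Ω : Set ℂ} (hΩ : IsOpen Ω) (hne : Ω.Nonempty) {b : ℂ → Coef}
    (hb : Measurable b) (hbb : ∀ x, ‖b x‖ ≤ 4) (hp : ∀ᵐ x : ℂ, x ∈ Ω → PosDef (b x)) :
    ∃ y₀ ∈ Ω, PosDef (b y₀) ∧ ∀ ε : ℝ, 0 < ε → ∃ r₀ : ℝ, 0 < r₀ ∧ ∀ r : ℝ, 0 < r → r < r₀ →
      ∫ x in ball y₀ r, ‖b x - b y₀‖ ^ 2 ≤ ε * r ^ 2 :=
  TB3Leb_lebesgue hΩ hne hb hbb hp

/-- Cholesky: `e₁ = √b₁ + (b₂/√b₁) I`, `e₂ = √(b₃ - b₂²/b₁) I`; `A.symm` is the real-linear map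
`w ↦ w.re • e₁ + w.im • e₂` (invertible; e.g. `ContinuousLinearEquiv.equivOfInverse` with the explicit
inverse, or `LinearEquiv.ofInjectiveEndo` + `toContinuousLinearEquiv`). -/
theorem exists_frame {b : Coef} (hb : PosDef b) :
    ∃ A : ℂ ≃L[ℝ] ℂ, ∀ α β : ℂ →L[ℝ] ℂ,
      Q b α β = α (A.symm 1) * β (A.symm 1) + α (A.symm Complex.I) * β (A.symm Complex.I) :=
  TB3Leb_frame hb

/-- `aff` is affine with derivative `s⁻¹ • A`. -/
theorem hasFDerivAt_aff (y₀ : ℂ) (A : ℂ ≃L[ℝ] ℂ) (s : ℝ) (y : ℂ) :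
    HasFDerivAt (aff y₀ A s) (s⁻¹ • (A : ℂ →L[ℝ] ℂ)) y := by
  have h1 : HasFDerivAt (fun y : ℂ => y - y₀) (ContinuousLinearMap.id ℝ ℂ) y :=
    (hasFDerivAt_id y).sub_const y₀
  have h2 := ((A : ℂ →L[ℝ] ℂ).hasFDerivAt.comp y h1).const_smul s⁻¹
  rw [ContinuousLinearMap.comp_id] at h2
  exact h2

theorem contDiff_aff (y₀ : ℂ) (A : ℂ ≃L[ℝ] ℂ) (s : ℝ) : ContDiff ℝ 2 (aff y₀ A s) := by
  have h1 : ContDiff ℝ 2 (fun y : ℂ => y - y₀) := contDiff_id.sub contDiff_const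
  exact ((A : ℂ →L[ℝ] ℂ).contDiff.comp h1).const_smul s⁻¹

/-- chain rule twice: `fderiv (θ ∘ aff) y (A.symm e) = s⁻¹ • fderiv θ (aff y) e`. -/
theorem L_comp_aff (y₀ : ℂ) (A : ℂ ≃L[ℝ] ℂ) (s : ℝ) {θ : ℂ → ℂ} (hθ : ContDiff ℝ 2 θ) (y : ℂ) :
    L (A.symm 1) (A.symm Complex.I) (fun y => θ (aff y₀ A s y)) y =
      ((s⁻¹ ^ 2 : ℝ) : ℂ) * L 1 Complex.I θ (aff y₀ A s y) := by
  have key : ∀ (g : ℂ → ℂ), Differentiable ℝ g → ∀ (e y : ℂ),
      fderiv ℝ (fun y => g (aff y₀ A s y)) y (A.symm e) =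
        ((s⁻¹ : ℝ) : ℂ) * fderiv ℝ g (aff y₀ A s y) e := by
    intro g hg e y
    have h := ((hg (aff y₀ A s y)).hasFDerivAt.comp y (hasFDerivAt_aff y₀ A s y)).fderiv
    have h' : fderiv ℝ (fun y => g (aff y₀ A s y)) y =
        (fderiv ℝ g (aff y₀ A s y)).comp (s⁻¹ • (A : ℂ →L[ℝ] ℂ)) := h
    rw [h']
    simp only [ContinuousLinearMap.comp_apply, smul_apply,
      ContinuousLinearEquiv.coe_coe, ContinuousLinearEquiv.apply_symm_apply]
    rw [map_smul, Complex.real_smul]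
  have hd : Differentiable ℝ θ := hθ.differentiable (by norm_num)
  have hd2 : ∀ e : ℂ, Differentiable ℝ (fun y => fderiv ℝ θ y e) := by
    intro e
    have h1 : ContDiff ℝ 1 (fderiv ℝ θ) := hθ.fderiv_right (m := 1) (by norm_num)
    exact (h1.differentiable (by norm_num)).clm_apply (differentiable_const e)
  have key2 : ∀ e : ℂ,
      fderiv ℝ (fun z => fderiv ℝ (fun y => θ (aff y₀ A s y)) z (A.symm e)) y (A.symm e) =
        ((s⁻¹ ^ 2 : ℝ) : ℂ) * fderiv ℝ (fun z => fderiv ℝ θ z e) (aff y₀ A s y) e := by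
    intro e
    have h1 : (fun z => fderiv ℝ (fun y => θ (aff y₀ A s y)) z (A.symm e)) =
        fun z => (fun w => ((s⁻¹ : ℝ) : ℂ) * fderiv ℝ θ w e) (aff y₀ A s z) := by
      funext z
      exact key θ hd e z
    rw [h1, key _ ((hd2 e).const_mul _) e y, fderiv_const_mul ((hd2 e) _)]
    simp only [smul_apply, smul_eq_mul]
    push_cast
    ring
  simp only [L]
  rw [key2 1, key2 Complex.I]
  ring

/-- `fderiv ℝ f y e = e * deriv f y`, twice; `1² + I² = 0`. -/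
theorem L_holo {f : ℂ → ℂ} (hf : Differentiable ℂ f) (y : ℂ) : L 1 Complex.I f y = 0 := by
  have key : ∀ (g : ℂ → ℂ), Differentiable ℂ g → ∀ (e y : ℂ),
      fderiv ℝ g y e = e * deriv g y := by
    intro g hg e y
    have h := ((hg y).hasDerivAt.hasFDerivAt.restrictScalars ℝ).fderiv
    rw [h]
    simp
  have hf' : Differentiable ℂ (deriv f) := hf.deriv
  have key2 : ∀ e : ℂ, fderiv ℝ (fun z => fderiv ℝ f z e) y e = e * (e * deriv (deriv f) y) := by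
    intro e
    have h1 : (fun z => fderiv ℝ f z e) = fun z => e * deriv f z := by
      funext z
      exact key f hf e z
    rw [h1, key _ (hf'.const_mul e) e y, deriv_const_mul e (hf' y)]
  simp only [L]
  rw [key2 1, key2 Complex.I]
  have : Complex.I * (Complex.I * deriv (deriv f) y) = -deriv (deriv f) y := by
    rw [← mul_assoc, Complex.I_mul_I]; ring
  rw [this]; ring

/-- Affine change of variables (`integral_image_eq_integral_abs_det_fderiv_smul` on `univ` for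
`affi`, whose derivative `s • A.symm` has determinant `s² det A.symm`). -/
theorem integral_aff (y₀ : ℂ) (A : ℂ ≃L[ℝ] ℂ) {s : ℝ} (hs : 0 < s) (g : ℂ → ℂ) :
    ∫ y, g (aff y₀ A s y) =
      ((s ^ 2 * |(A.symm : ℂ →L[ℝ] ℂ).det| : ℝ) : ℂ) * ∫ w, g w := by
  have hder : ∀ w ∈ (univ : Set ℂ),
      HasFDerivWithinAt (affi y₀ A s) (s • (A.symm : ℂ →L[ℝ] ℂ)) univ w := by
    intro w _
    have h := (((A.symm : ℂ →L[ℝ] ℂ).hasFDerivAt (x := w)).const_smul s).const_add y₀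
    exact h.hasFDerivWithinAt
  have hinj : InjOn (affi y₀ A s) univ := by
    intro a _ b _ hab
    have := congrArg (aff y₀ A s) hab
    rwa [aff_affi y₀ A hs.ne', aff_affi y₀ A hs.ne'] at this
  have himg : affi y₀ A s '' univ = univ := by
    apply eq_univ_of_forall
    intro y
    exact ⟨aff y₀ A s y, mem_univ _, affi_aff y₀ A hs.ne' y⟩
  have h := integral_image_eq_integral_abs_det_fderiv_smul (volume : Measure ℂ)
    MeasurableSet.univ hder hinj (fun y => g (aff y₀ A s y))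
  rw [himg, Measure.restrict_univ] at h
  rw [h]
  have hdet : |(s • (A.symm : ℂ →L[ℝ] ℂ)).det| = s ^ 2 * |(A.symm : ℂ →L[ℝ] ℂ).det| := by
    have : (s • (A.symm : ℂ →L[ℝ] ℂ)).det = s ^ 2 * (A.symm : ℂ →L[ℝ] ℂ).det := by
      simp only [ContinuousLinearMap.det, ContinuousLinearMap.toLinearMap_smul, LinearMap.det_smul,
        Complex.finrank_real_complex]
    rw [this, abs_mul, abs_of_nonneg (sq_nonneg s)]
  simp only [hdet, aff_affi y₀ A hs.ne']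
  rw [integral_smul, Complex.real_smul]

/-- `b` from `exists_field`, `y₀` from `exists_lebesgue`, `A` from `exists_frame`.  Apply `est` to
`f ∘ aff`, `θ ∘ aff` (`aff = aff y₀ A ρ`; `tsupport (θ ∘ aff) = affi '' tsupport θ`, `aff` is a
homeomorphism), `r = ρ (‖A.symm‖ + 1) R`, `Λ = b ‖A‖/ρ`, `Λ' = a ‖A‖/ρ`.  The left side is
`|det A.symm| * ‖∫ z, f (aff (φ g (affi z))) * L 1 I θ z‖` (`L_comp_aff`, `integral_aff` with
`g w = f (aff (φ g (affi w))) * L 1 I θ w`, `affi_aff`), the right side is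
`≤ 8 a b ‖A‖² √(H π) √ε' ((‖A.symm‖+1) R)²`; `det A.symm ≠ 0`; choose `ε'`. -/
theorem ta_final : TAStmt := by
  intro G _ _ H Ω φ hne hPG
  have hΩ : IsOpen Ω := hPG.one_src ▸ (φ 1).open_source
  have hH : 1 ≤ H := (hPG.qc 1).one_le
  obtain ⟨bb, hbm, hbb, hbp, hinv⟩ := hPG.exists_field
  obtain ⟨y₀, hy₀, hpos, hleb⟩ := exists_lebesgue hΩ hne hbm hbb hbp
  obtain ⟨A, hA⟩ := exists_frame hpos
  refine ⟨y₀, hy₀, A, ?_⟩
  intro ε hε R hR
  set N : ℝ := ‖(A.symm : ℂ →L[ℝ] ℂ)‖ + 1 with hN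
  set M : ℝ := ‖(A : ℂ →L[ℝ] ℂ)‖ with hM
  set d : ℝ := |(A.symm : ℂ →L[ℝ] ℂ).det| with hd
  have hN0 : 0 < N := by rw [hN]; positivity
  have hM0 : 0 ≤ M := norm_nonneg _
  have hd0 : 0 < d := by
    rw [hd]
    exact abs_pos.mpr (LinearEquiv.isUnit_det' A.symm.toLinearEquiv).ne_zero
  set C : ℝ := 8 * M ^ 2 * Real.sqrt (H * Real.pi) * (N * R) ^ 2 with hC
  have hC0 : 0 ≤ C := by rw [hC]; positivity
  set η : ℝ := ε * d / (C + 1) with hη
  have hη0 : 0 < η := by rw [hη]; positivity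
  obtain ⟨r₀, hr₀, hr⟩ := hleb (η ^ 2) (by positivity)
  refine ⟨r₀ / (N * R), by positivity, ?_⟩
  intro ρ hρ hρ₀ g f θ hf hθ hin a b ha hb
  have ha0 : 0 ≤ a := (norm_nonneg _).trans (ha 0)
  have hb0 : 0 ≤ b := (norm_nonneg _).trans (hb 0 (mem_ball_self hR))
  set r : ℝ := ρ * (N * R) with hrdef
  have hr0 : 0 < r := by rw [hrdef]; positivity
  have hrr : r < r₀ := by
    rw [hrdef]; exact (lt_div_iff₀ (by positivity)).mp hρ₀
  have hρne : ρ ≠ 0 := hρ.ne'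
  have hball : ∀ w ∈ ball (0 : ℂ) R, affi y₀ A ρ w ∈ ball y₀ r := by
    intro w hw
    rw [mem_ball_zero_iff] at hw
    rw [mem_ball, dist_eq_norm, affi, add_sub_cancel_left, norm_smul, Real.norm_eq_abs,
      abs_of_pos hρ, hrdef]
    refine mul_lt_mul_of_pos_left ?_ hρ
    have h1 : ‖A.symm w‖ ≤ ‖(A.symm : ℂ →L[ℝ] ℂ)‖ * ‖w‖ :=
      (A.symm : ℂ →L[ℝ] ℂ).le_opNorm w
    have h2 : ‖(A.symm : ℂ →L[ℝ] ℂ)‖ * ‖w‖ ≤ ‖(A.symm : ℂ →L[ℝ] ℂ)‖ * R :=
      mul_le_mul_of_nonneg_left hw.le (norm_nonneg _)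
    rw [hN]
    nlinarith
  have hcont : Continuous (aff y₀ A ρ) := (contDiff_aff y₀ A ρ).continuous
  have hconti : Continuous (affi y₀ A ρ) := by
    unfold affi
    fun_prop
  have hsupp : ∀ x ∈ tsupport (fun y => θ (aff y₀ A ρ y)), aff y₀ A ρ x ∈ tsupport θ := by
    have : tsupport (fun y => θ (aff y₀ A ρ y)) ⊆ aff y₀ A ρ ⁻¹' tsupport θ := by
      refine closure_minimal ?_ ((isClosed_tsupport θ).preimage hcont)
      intro x hx
      exact subset_tsupport θ hx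
    exact fun x hx => this hx
  have hfR : ContDiff ℝ 2 f := (hf.contDiff (n := 2)).restrict_scalars ℝ
  have hf' : ContDiff ℝ 2 (fun y => f (aff y₀ A ρ y)) := hfR.comp (contDiff_aff y₀ A ρ)
  have hL : ∀ y, L (A.symm 1) (A.symm Complex.I) (fun y => f (aff y₀ A ρ y)) y = 0 := by
    intro y
    rw [L_comp_aff y₀ A ρ hfR, L_holo hf, mul_zero]
  have hθ' : Test (φ g).source (fun y => θ (aff y₀ A ρ y)) := by
    refine ⟨hθ.cd.comp (contDiff_aff y₀ A ρ), ?_, ?_⟩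
    · refine IsCompact.of_isClosed_subset (hθ.cs.isCompact.image hconti) (isClosed_tsupport _) ?_
      intro x hx
      exact ⟨_, hsupp x hx, affi_aff y₀ A hρne x⟩
    · intro x hx
      have := (hin _ (hsupp x hx)).1
      rwa [affi_aff y₀ A hρne] at this
  have hin' : ∀ x ∈ tsupport (fun y => θ (aff y₀ A ρ y)), x ∈ ball y₀ r ∧ φ g x ∈ ball y₀ r := by
    intro x hx
    constructor
    · have := hball _ (hθ.sub (hsupp x hx))
      rwa [affi_aff y₀ A hρne] at this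
    · have := hball _ (hin _ (hsupp x hx)).2
      rwa [affi_aff y₀ A hρne, affi_aff y₀ A hρne] at this
  have hder : ∀ (u : ℂ → ℂ), ContDiff ℝ 2 u → ∀ (y : ℂ) (c : ℝ), 0 ≤ c →
      ‖fderiv ℝ u (aff y₀ A ρ y)‖ ≤ c → ‖fderiv ℝ (fun y => u (aff y₀ A ρ y)) y‖ ≤ c * (ρ⁻¹ * M) := by
    intro u hu y c hc h
    have h1 : HasFDerivAt (fun y => u (aff y₀ A ρ y))
        ((fderiv ℝ u (aff y₀ A ρ y)).comp (ρ⁻¹ • (A : ℂ →L[ℝ] ℂ))) y :=
      ((hu.differentiable (by norm_num)) _).hasFDerivAt.comp y (hasFDerivAt_aff y₀ A ρ y)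
    rw [h1.fderiv]
    refine (ContinuousLinearMap.opNorm_comp_le _ _).trans ?_
    rw [norm_smul, Real.norm_eq_abs, abs_of_pos (inv_pos.mpr hρ)]
    exact mul_le_mul_of_nonneg_right h (by positivity)
  have hΛ : ∀ x ∈ tsupport (fun y => θ (aff y₀ A ρ y)),
      ‖fderiv ℝ (fun y => f (aff y₀ A ρ y)) (φ g x)‖ ≤ b * (ρ⁻¹ * M) := by
    intro x hx
    refine hder f hfR _ b hb0 (hb _ ?_)
    have := (hin _ (hsupp x hx)).2
    rwa [affi_aff y₀ A hρne] at this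
  have hΛ' : ∀ x, ‖fderiv ℝ (fun y => θ (aff y₀ A ρ y)) x‖ ≤ a * (ρ⁻¹ * M) :=
    fun x => hder θ hθ.cd x a ha0 (ha _)
  have key := est (hPG.qc g) hbm hbb (hinv g) hA hf' hL hθ' hr0 hin' (by positivity) hΛ hΛ'
  have hlhs : ∫ x, f (aff y₀ A ρ (φ g x)) *
      L (A.symm 1) (A.symm Complex.I) (fun y => θ (aff y₀ A ρ y)) x =
      (d : ℂ) * ∫ z, f (aff y₀ A ρ (φ g (affi y₀ A ρ z))) * L 1 Complex.I θ z := by
    have h1 := integral_aff y₀ A hρ
      (fun w => f (aff y₀ A ρ (φ g (affi y₀ A ρ w))) * L 1 Complex.I θ w)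
    have h2 : ∀ x, f (aff y₀ A ρ (φ g x)) *
        L (A.symm 1) (A.symm Complex.I) (fun y => θ (aff y₀ A ρ y)) x =
        ((ρ⁻¹ ^ 2 : ℝ) : ℂ) * (f (aff y₀ A ρ (φ g (affi y₀ A ρ (aff y₀ A ρ x)))) *
          L 1 Complex.I θ (aff y₀ A ρ x)) := by
      intro x
      rw [L_comp_aff y₀ A ρ hθ.cd, affi_aff y₀ A hρne]
      ring
    simp only [h2]
    rw [integral_const_mul, h1, ← mul_assoc, ← Complex.ofReal_mul, ← hd]
    congr 2
    field_simp
  rw [hlhs, norm_mul, Complex.norm_real, Real.norm_eq_abs, abs_of_pos hd0] at key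
  have hs1 : Real.sqrt (H * (Real.pi * r ^ 2)) = Real.sqrt (H * Real.pi) * r := by
    rw [← mul_assoc, Real.sqrt_mul (by positivity), Real.sqrt_sq hr0.le]
  have hs2 : Real.sqrt (∫ x in ball y₀ r, ‖bb x - bb y₀‖ ^ 2) ≤ η * r := by
    rw [Real.sqrt_le_left (by positivity), mul_pow]
    exact hr r hr0 hrr
  have hfin : 8 * (b * (ρ⁻¹ * M)) * (a * (ρ⁻¹ * M)) * Real.sqrt (H * (Real.pi * r ^ 2)) *
      Real.sqrt (∫ x in ball y₀ r, ‖bb x - bb y₀‖ ^ 2) ≤ d * (ε * a * b) := by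
    calc _ ≤ 8 * (b * (ρ⁻¹ * M)) * (a * (ρ⁻¹ * M)) * Real.sqrt (H * (Real.pi * r ^ 2)) * (η * r) :=
          mul_le_mul_of_nonneg_left hs2 (by positivity)
      _ = C * η * (a * b) := by
          rw [hs1, hC, hrdef]
          field_simp
      _ ≤ (ε * d) * (a * b) := by
          refine mul_le_mul_of_nonneg_right ?_ (by positivity)
          rw [hη, ← mul_div_assoc, div_le_iff₀ (by positivity)]
          have : 0 < ε * d := by positivity
          nlinarith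
      _ = d * (ε * a * b) := by ring
  exact le_of_mul_le_mul_left (key.trans hfin) hd0

end Crest.Agent.R193.T
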