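import Mathlib
import Crest.Agent.R193.TDefs

/-! Row 193, block [T]: the pseudogroup of a quasisymmetric chart. -/

set_option autoImplicit false

namespace Crest.Agent.R193.T

open MeasureTheory Set Metric Filter Topology

variable {G Z : Type} [Group G] [MetricSpace Z] [MulAction G Z]

/-- The inverse chart is quasisymmetric.  Given `T`, put `T' = max T 1` and take `τ` from `small` for
`ε = 1/(2T')`.  If `dist a c ≤ τ dist a b` then `dist (F a) (F c) ≤ ε dist (F a) (F b) ≤ dist (F a) (F c)/2`,
so `F a = F c`, then `F a = F b`, `a = b` (injectivity) and the claim is trivial; otherwise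
`dist a b < dist a c / τ`.  `M = 1/τ`. -/
theorem inv_bdd {F : OpenPartialHomeomorph Z ℂ} (hF : QSChart F) (T : ℝ) :
    ∃ M : ℝ, 0 < M ∧ ∀ a ∈ F.source, ∀ b ∈ F.source, ∀ c ∈ F.source,
      dist (F a) (F b) ≤ T * dist (F a) (F c) → dist a b ≤ M * dist a c := by
  have hT : 0 < max T 1 := lt_max_of_lt_right one_pos
  obtain ⟨τ, hτ, h⟩ := hF.small (1 / (2 * max T 1)) (by positivity)
  refine ⟨1 / τ, by positivity, fun a ha b hb c hc hab => ?_⟩
  have hab' : dist (F a) (F b) ≤ max T 1 * dist (F a) (F c) :=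
    hab.trans (mul_le_mul_of_nonneg_right (le_max_left _ _) dist_nonneg)
  rcases le_or_gt (dist a c) (τ * dist a b) with h1 | h1
  · have h2 := (h a ha c hc b hb h1).trans (mul_le_mul_of_nonneg_left hab' (by positivity))
    have e : 1 / (2 * max T 1) * (max T 1 * dist (F a) (F c)) = dist (F a) (F c) / 2 := by field_simp
    rw [e] at h2
    have h3 : dist (F a) (F c) = 0 := le_antisymm (by linarith) dist_nonneg
    rw [h3, mul_zero] at hab'
    have h4 : a = b := F.injOn ha hb (dist_le_zero.1 hab')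
    rw [h4, dist_self]
    positivity
  · rw [one_div, inv_mul_eq_div, le_div_iff₀ hτ]
    linarith

/-- Group elements are locally quasi-similar with a uniform constant: near `x`, with `d ≠ x` fixed,
`dist c d ≤ 2 dist b d`, `dist (g•b) (g•d) ≤ 2 dist (g•c) (g•d)` and these distances are positive
(continuity at `x`), so the cross-ratio bound for `(a,b,c,d)` gives the claim with `4C`. -/
theorem loc_sim (hcont : ∀ g : G, Continuous fun z : Z => g • z) (hCR : CRBound G Z) :
    ∃ C : ℝ, 0 < C ∧ ∀ (g : G) (x d : Z), d ≠ x → ∃ r : ℝ, 0 < r ∧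
      ∀ a ∈ ball x r, ∀ b ∈ ball x r, ∀ c ∈ ball x r,
        dist (g • a) (g • b) * dist a c ≤ C * (dist a b * dist (g • a) (g • c)) := by
  obtain ⟨C, hC, h⟩ := hCR
  refine ⟨4 * C, by positivity, fun g x d hd => ?_⟩
  have hD : 0 < dist x d := dist_pos.2 hd.symm
  have hD' : 0 < dist (g • x) (g • d) := dist_pos.2 fun e => hd (smul_left_cancel g e).symm
  obtain ⟨r, hr, hr'⟩ := Metric.continuous_iff.1 (hcont g) x (dist (g • x) (g • d) / 3) (by positivity)
  refine ⟨min r (dist x d / 3), by positivity, fun a _ b hb c hc => ?_⟩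
  rw [mem_ball, lt_min_iff] at hb hc
  have b1 := hr' b hb.1
  have c1 := hr' c hc.1
  have t1 := dist_triangle c x d
  have t2 := dist_triangle_left x d b
  have t3 := dist_triangle (g • b) (g • x) (g • d)
  have t4 := dist_triangle_left (g • x) (g • d) (g • c)
  have p1 : 0 < dist b d := by linarith [hb.2]
  have p2 : 0 < dist (g • c) (g • d) := by linarith
  have q1 : dist c d ≤ 2 * dist b d := by linarith [hb.2, hc.2]
  have q2 : dist (g • b) (g • d) ≤ 2 * dist (g • c) (g • d) := by linarith
  refine le_of_mul_le_mul_right ?_ (mul_pos p1 p2)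
  calc dist (g • a) (g • b) * dist a c * (dist b d * dist (g • c) (g • d))
      = dist (g • a) (g • b) * dist (g • c) (g • d) * (dist a c * dist b d) := by ring
    _ ≤ C * (dist a b * dist c d * (dist (g • a) (g • c) * dist (g • b) (g • d))) := h g a b c d
    _ ≤ C * (dist a b * (2 * dist b d) * (dist (g • a) (g • c) * (2 * dist (g • c) (g • d)))) := by gcongr
    _ = _ := by ring

/-- `LocQS` only depends on the source and the values on it. -/
theorem LocQS.congr {H : ℝ} {φ ψ : PH} (h : LocQS H φ) (hs : ψ.source = φ.source)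
    (he : ∀ x ∈ φ.source, ψ x = φ x) : LocQS H ψ := by
  intro x hx
  obtain ⟨r, hr, h1, h2⟩ := h x (hs ▸ hx)
  refine ⟨r, hr, hs ▸ h1, fun a ha b hb c hc habc => ?_⟩
  rw [he a (h1 ha), he b (h1 hb), he c (h1 hc)]
  exact h2 a ha b hb c hc habc

/-- `T₁` from `inv_bdd` for `T = 4`, `C` from `loc_sim`, `M` from `hF.bdd (C * T₁)`, `H = max M 1`.
For `x ∈ (phi g).source` take `d = F.symm x'` with `x' ≠ x` in the open set `F.target`, and a ball
around `x` inside the source mapped by `F.symm` into the ball of `loc_sim`.  (If `F.symm a = F.symm c`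
then `a = c`, `a = b`.)  `bwd`: `LocQS.congr` from `phi g⁻¹` (`mem_phi_target`, `phi_symm_apply`).
The algebraic fields follow from `mem_phi_source`, `phi_apply`, `F.left_inv`, `F.right_inv`,
`mul_smul`. -/
theorem pg_phi (hcont : ∀ g : G, Continuous fun z : Z => g • z) (hCR : CRBound G Z)
    {F : OpenPartialHomeomorph Z ℂ} (hF : QSChart F) :
    ∃ H : ℝ, PG G H F.target (phi hcont F) := by
  obtain ⟨T₁, hT₁, hinv⟩ := inv_bdd hF 4
  obtain ⟨C, hC, hloc⟩ := loc_sim hcont hCR
  obtain ⟨M, hM⟩ := hF.bdd (C * T₁)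
  have hfwd : ∀ g : G, LocQS (max M 1) (phi hcont F g) := by
    intro g x hx
    have hx' := (mem_phi_source hcont F g x).1 hx
    obtain ⟨x', hx't, hx'ne⟩ : ∃ x' ∈ F.target, x' ≠ x := by
      have h1 : F.target ∈ 𝓝[≠] x := mem_nhdsWithin_of_mem_nhds (F.open_target.mem_nhds hx'.1)
      obtain ⟨y, hy1, hy2⟩ := Filter.nonempty_of_mem (inter_mem h1 self_mem_nhdsWithin)
      exact ⟨y, hy1, hy2⟩
    have hd : F.symm x' ≠ F.symm x := fun e => hx'ne (F.symm.injOn hx't hx'.1 e)
    obtain ⟨r, hr, hsim⟩ := hloc g (F.symm x) (F.symm x') hd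
    have hca : ContinuousAt F.symm x := F.continuousAt_symm hx'.1
    have h1 : F.symm ⁻¹' ball (F.symm x) r ∈ 𝓝 x := hca (ball_mem_nhds _ hr)
    have h2 : (phi hcont F g).source ∈ 𝓝 x := (phi hcont F g).open_source.mem_nhds hx
    obtain ⟨ρ, hρ, hb⟩ := Metric.mem_nhds_iff.1 (inter_mem h1 h2)
    refine ⟨ρ, hρ, fun y hy => (hb hy).2, fun a ha b hb' c hc habc => ?_⟩
    have ha2 := (mem_phi_source hcont F g a).1 (hb ha).2
    have hb2 := (mem_phi_source hcont F g b).1 (hb hb').2
    have hc2 := (mem_phi_source hcont F g c).1 (hb hc).2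
    rw [phi_apply, phi_apply, phi_apply]
    have e1 := hinv _ (F.map_target ha2.1) _ (F.map_target hb2.1) _ (F.map_target hc2.1)
      (by rw [F.right_inv ha2.1, F.right_inv hb2.1, F.right_inv hc2.1]; exact habc)
    have e2 := hsim _ (hb ha).1 _ (hb hb').1 _ (hb hc).1
    have e3 : dist (g • F.symm a) (g • F.symm b) ≤
        C * T₁ * dist (g • F.symm a) (g • F.symm c) := by
      rcases (dist_nonneg (x := F.symm a) (y := F.symm c)).eq_or_lt with h0 | h0
      · rw [← h0, mul_zero] at e1
        have e4 : F.symm a = F.symm b := dist_le_zero.1 e1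
        rw [← e4, dist_self]
        positivity
      · refine le_of_mul_le_mul_right (e2.trans ?_) h0
        calc C * (dist (F.symm a) (F.symm b) * dist (g • F.symm a) (g • F.symm c))
            ≤ C * (T₁ * dist (F.symm a) (F.symm c) * dist (g • F.symm a) (g • F.symm c)) := by
              gcongr
          _ = _ := by ring
    exact (hM _ ha2.2 _ hb2.2 _ hc2.2 e3).trans
      (mul_le_mul_of_nonneg_right (le_max_left _ _) dist_nonneg)
  refine ⟨max M 1, ⟨fun g => ⟨le_max_right _ _, hfwd g, ?_⟩, ?_, ?_, ?_, ?_, ?_⟩⟩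
  · refine (hfwd g⁻¹).congr ?_ ?_
    · ext x
      rw [mem_phi_source]
      exact mem_phi_target hcont F g x
    · intro x _
      rw [phi_symm_apply, phi_apply]
  · intro g x hx
    exact ((mem_phi_source hcont F g x).1 hx).1
  · ext x
    rw [mem_phi_source, one_smul]
    exact ⟨fun h => h.1, fun h => ⟨h, F.map_target h⟩⟩
  · intro x hx
    rw [phi_apply, one_smul, F.right_inv hx]
  · intro g k x hx
    have hx' := (mem_phi_source hcont F k x).1 hx
    rw [mem_phi_source, mem_phi_source, phi_apply, F.left_inv hx'.2, mul_smul]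
    exact ⟨fun h => ⟨hx'.1, h.2⟩, fun h => ⟨F.map_source hx'.2, h.2⟩⟩
  · intro g k x hx _
    have hx' := (mem_phi_source hcont F k x).1 hx
    rw [phi_apply, phi_apply, phi_apply, F.left_inv hx'.2, mul_smul]

end Crest.Agent.R193.T
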