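import Mathlib
import Crest.Agent.R193.TZ1

/-! Row 193, block [T]: the zoom sequence. -/

set_option autoImplicit false

namespace Crest.Agent.R193.T

open MeasureTheory Set Metric Filter Topology

variable {G Z : Type} [Group G] [MetricSpace Z] [MulAction G Z]

/-- `g` maps the `e`-separated points `p, q` (far from `g⁻¹ • w₀`) to points at mutual distance
`≍ r` within `κ r` of `x₀`. -/
structure ZP (e κ r : ℝ) (x₀ w₀ : Z) (g : G) (p q : Z) : Prop where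
  sep : e ≤ dist p q
  pw : e ≤ dist p (g⁻¹ • w₀)
  qw : e ≤ dist q (g⁻¹ • w₀)
  lo : r ≤ κ * dist (g • p) (g • q)
  hp : dist (g • p) x₀ ≤ κ * r
  hq : dist (g • q) x₀ ≤ κ * r

/-- Bi-Lipschitz zoom away from `η = g⁻¹ • w₀`.  Let `D > 0` bound all distances, `ρ = dist x₀ w₀ > 0`,
`g • η = w₀`; for small `r`, `dist (g•p) w₀, dist (g•q) w₀ ∈ [ρ/2, D]`.
(1) CR for `(p,z,q,η)`: `d(gp,gz) d(gq,w₀) d(p,q) d(z,η) ≤ C d(p,z) d(q,η) d(gp,gq) d(gz,w₀)` gives
`d(gp,gz) ≤ C₁ r` (`d(gp,gq) ≤ 2κ r`), the same for `q`, hence `d(gz,x₀) ≤ C₂ r`, so `d(gz,w₀) ≥ ρ/2` for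
small `r`.  One of `p, q` is at distance `≥ e/2` from `z`; by symmetry (`ZP` is symmetric in `p,q`)
call it `p`.
(2) CR for `(z,z',p,η)`: `d(gz,gz') d(gp,w₀) d(z,p) d(z',η) ≤ C d(z,z') d(p,η) d(gz,gp) d(gz',w₀)` is the
upper bound.
(3) CR for `(p,q,z,η)`: `d(gp,gq) d(gz,w₀) d(p,z) d(q,η) ≤ C d(p,q) d(z,η) d(gp,gz) d(gq,w₀)` gives
`d(gp,gz) ≥ c₁ r`; CR for `(z,p,z',η)`:
`d(gz,gp) d(gz',w₀) d(z,z') d(p,η) ≤ C d(z,p) d(z',η) d(gz,gz') d(gp,w₀)` is the lower bound. -/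
theorem cr_zoom [CompactSpace Z] (hCR : CRBound G Z) {e κ : ℝ} (he : 0 < e) (hκ : 0 < κ)
    {x₀ w₀ : Z} (hw : w₀ ≠ x₀) {δ : ℝ} (hδ : 0 < δ) :
    ∃ c C r₀ : ℝ, 0 < c ∧ 0 < C ∧ 0 < r₀ ∧ ∀ r : ℝ, 0 < r → r < r₀ → ∀ (g : G) (p q : Z),
      ZP e κ r x₀ w₀ g p q → ∀ z z' : Z, δ ≤ dist z (g⁻¹ • w₀) → δ ≤ dist z' (g⁻¹ • w₀) →
        dist (g • z) x₀ ≤ C * r ∧ dist (g • z) (g • z') ≤ C * r * dist z z' ∧
          c * r * dist z z' ≤ dist (g • z) (g • z') := by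
  obtain ⟨K, hK, hcr⟩ := hCR
  obtain ⟨D, hD, hDb⟩ : ∃ D : ℝ, 0 < D ∧ ∀ a b : Z, dist a b ≤ D :=
    ⟨diam (univ : Set Z) + 1, by positivity, fun a b =>
      (dist_le_diam_of_mem isCompact_univ.isBounded (mem_univ a) (mem_univ b)).trans (by linarith)⟩
  obtain ⟨ρ, hρ, hρd⟩ : ∃ ρ : ℝ, 0 < ρ ∧ 2 * ρ = dist x₀ w₀ :=
    ⟨dist x₀ w₀ / 2, half_pos (dist_pos.2 hw.symm), by ring⟩
  obtain ⟨C1, hC1, hC1e⟩ : ∃ C1 : ℝ, 0 < C1 ∧ C1 * (ρ * (e * δ)) = K * (D * D * (2 * κ * D)) :=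
    ⟨K * (D * D * (2 * κ * D)) / (ρ * (e * δ)), by positivity, by field_simp⟩
  obtain ⟨C3, hC3, hC3e⟩ : ∃ C3 : ℝ, 0 < C3 ∧ C3 * (ρ * (e / 2 * δ)) = K * (D * (C1 * D)) :=
    ⟨K * (D * (C1 * D)) / (ρ * (e / 2 * δ)), by positivity, by field_simp⟩
  obtain ⟨c1, hc1, hc1e⟩ : ∃ c1 : ℝ, 0 < c1 ∧ c1 * (κ * (K * (D * D * D))) = ρ * (e / 2 * e) :=
    ⟨ρ * (e / 2 * e) / (κ * (K * (D * D * D))), by positivity, by field_simp⟩
  obtain ⟨c, hc, hce⟩ : ∃ c : ℝ, 0 < c ∧ c * (K * (D * D * D)) = c1 * ρ * e :=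
    ⟨c1 * ρ * e / (K * (D * D * D)), by positivity, by field_simp⟩
  refine ⟨c, C1 + κ + C3, ρ / (C1 + κ), hc, by positivity, by positivity, ?_⟩
  intro r hr hr0 g
  have hr1 : (C1 + κ) * r ≤ ρ := by
    rw [lt_div_iff₀ (by positivity)] at hr0
    linarith
  have hη : g • g⁻¹ • w₀ = w₀ := smul_inv_smul g w₀
  have far : ∀ y : Z, dist y x₀ ≤ (C1 + κ) * r → ρ ≤ dist y w₀ := by
    intro y hy
    have := dist_triangle x₀ y w₀
    rw [dist_comm x₀ y] at this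
    linarith
  have hκr : κ * r ≤ (C1 + κ) * r := by nlinarith
  have symm : ∀ p q : Z, ZP e κ r x₀ w₀ g p q → ZP e κ r x₀ w₀ g q p := fun p q h =>
    ⟨by rw [dist_comm]; exact h.sep, h.qw, h.pw, by rw [dist_comm]; exact h.lo, h.hq, h.hp⟩
  have step1 : ∀ p q : Z, ZP e κ r x₀ w₀ g p q → ∀ z : Z, δ ≤ dist z (g⁻¹ • w₀) →
      dist (g • p) (g • z) ≤ C1 * r := by
    intro p q h z hz
    have h1 := hcr g p z q (g⁻¹ • w₀)
    rw [hη] at h1
    have hq := far _ (h.hq.trans hκr)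
    have hpq : dist (g • p) (g • q) ≤ 2 * κ * r := by
      have := dist_triangle_right (g • p) (g • q) x₀
      linarith [h.hp, h.hq]
    have hsep := h.sep
    have h2 : dist (g • p) (g • z) * (ρ * (e * δ)) ≤ C1 * r * (ρ * (e * δ)) := by
      calc dist (g • p) (g • z) * (ρ * (e * δ))
          = dist (g • p) (g • z) * ρ * (e * δ) := by ring
        _ ≤ dist (g • p) (g • z) * dist (g • q) w₀ * (dist p q * dist z (g⁻¹ • w₀)) := by
          gcongr
        _ ≤ _ := h1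
        _ ≤ K * (D * D * (2 * κ * r * D)) := by
          gcongr <;> exact hDb _ _
        _ = K * (D * D * (2 * κ * D)) * r := by ring
        _ = C1 * r * (ρ * (e * δ)) := by rw [← hC1e]; ring
    exact le_of_mul_le_mul_right h2 (by positivity)
  have step2 : ∀ p q : Z, ZP e κ r x₀ w₀ g p q → ∀ z : Z, δ ≤ dist z (g⁻¹ • w₀) →
      dist (g • z) x₀ ≤ (C1 + κ) * r := by
    intro p q h z hz
    have := dist_triangle_left (g • z) x₀ (g • p)
    linarith [step1 p q h z hz, h.hp]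
  have main : ∀ p q : Z, ZP e κ r x₀ w₀ g p q → ∀ z z' : Z, δ ≤ dist z (g⁻¹ • w₀) →
      δ ≤ dist z' (g⁻¹ • w₀) → e / 2 ≤ dist z p →
      dist (g • z) (g • z') ≤ C3 * r * dist z z' ∧ c * r * dist z z' ≤ dist (g • z) (g • z') := by
    intro p q h z z' hz hz' hzp
    have hp := far _ (h.hp.trans hκr)
    have hgz := far _ (step2 p q h z hz)
    have hgz' := far _ (step2 p q h z' hz')
    have hup : dist (g • z) (g • p) ≤ C1 * r := by rw [dist_comm]; exact step1 p q h z hz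
    constructor
    · have h1 := hcr g z z' p (g⁻¹ • w₀)
      rw [hη] at h1
      have h2 : dist (g • z) (g • z') * (ρ * (e / 2 * δ)) ≤
          C3 * r * dist z z' * (ρ * (e / 2 * δ)) := by
        calc dist (g • z) (g • z') * (ρ * (e / 2 * δ))
            = dist (g • z) (g • z') * ρ * (e / 2 * δ) := by ring
          _ ≤ dist (g • z) (g • z') * dist (g • p) w₀ * (dist z p * dist z' (g⁻¹ • w₀)) := by
            gcongr
          _ ≤ _ := h1
          _ ≤ K * (dist z z' * D * (C1 * r * D)) := by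
            gcongr <;> exact hDb _ _
          _ = K * (D * (C1 * D)) * r * dist z z' := by ring
          _ = C3 * r * dist z z' * (ρ * (e / 2 * δ)) := by rw [← hC3e]; ring
      exact le_of_mul_le_mul_right h2 (by positivity)
    · have hlo : c1 * r ≤ dist (g • z) (g • p) := by
        have h1 := hcr g p q z (g⁻¹ • w₀)
        rw [hη] at h1
        have hpz : e / 2 ≤ dist p z := by rwa [dist_comm]
        have hqw := h.qw
        have hl := h.lo
        have h2 : c1 * r * (κ * (K * (D * D * D))) ≤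
            dist (g • z) (g • p) * (κ * (K * (D * D * D))) := by
          calc c1 * r * (κ * (K * (D * D * D))) = r * ρ * (e / 2 * e) := by
                rw [mul_right_comm, hc1e]; ring
            _ ≤ κ * dist (g • p) (g • q) * dist (g • z) w₀ * (dist p z * dist q (g⁻¹ • w₀)) := by
              gcongr
            _ = κ * (dist (g • p) (g • q) * dist (g • z) w₀ * (dist p z * dist q (g⁻¹ • w₀))) := by
              ring
            _ ≤ κ * (K * (dist p q * dist z (g⁻¹ • w₀) *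
                  (dist (g • p) (g • z) * dist (g • q) w₀))) := by gcongr
            _ ≤ κ * (K * (D * D * (dist (g • p) (g • z) * D))) := by
              gcongr <;> exact hDb _ _
            _ = dist (g • z) (g • p) * (κ * (K * (D * D * D))) := by rw [dist_comm]; ring
        exact le_of_mul_le_mul_right h2 (by positivity)
      have h1 := hcr g z p z' (g⁻¹ • w₀)
      rw [hη] at h1
      have hpw := h.pw
      have h2 : c * r * dist z z' * (K * (D * D * D)) ≤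
          dist (g • z) (g • z') * (K * (D * D * D)) := by
        calc c * r * dist z z' * (K * (D * D * D))
            = c * (K * (D * D * D)) * r * dist z z' := by ring
          _ = c1 * r * ρ * (dist z z' * e) := by rw [hce]; ring
          _ ≤ dist (g • z) (g • p) * dist (g • z') w₀ * (dist z z' * dist p (g⁻¹ • w₀)) := by
            gcongr
          _ ≤ _ := h1
          _ ≤ K * (D * D * (dist (g • z) (g • z') * D)) := by
            gcongr <;> exact hDb _ _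
          _ = dist (g • z) (g • z') * (K * (D * D * D)) := by ring
      exact le_of_mul_le_mul_right h2 (by positivity)
  intro p q h z z' hz hz'
  have hmain : dist (g • z) (g • z') ≤ C3 * r * dist z z' ∧
      c * r * dist z z' ≤ dist (g • z) (g • z') := by
    by_cases hzp : e / 2 ≤ dist z p
    · exact main p q h z z' hz hz' hzp
    · refine main q p (symm p q h) z z' hz hz' ?_
      have := dist_triangle_left p q z
      linarith [h.sep, not_le.1 hzp]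
  refine ⟨(step2 p q h z hz).trans ?_, hmain.1.trans ?_, hmain.2⟩
  · exact mul_le_mul_of_nonneg_right (by linarith) hr.le
  · exact mul_le_mul_of_nonneg_right (mul_le_mul_of_nonneg_right (by linarith) hr.le) dist_nonneg

/-- Properness of the zoom.  Suppose `d(gz,x₀) ≤ R r` and `d(z,η) < δ ≤ e/2`; then `d(p,z) ≥ e/2`,
`d(gz,w₀) ≥ ρ/2` for small `r`, `d(gp,gz) ≤ (κ + |R|) r`, and CR for `(p,q,z,η)` (see `cr_zoom`) gives
`(r/κ)(ρ/2)(e/2) e ≤ C D δ (κ+|R|) r D`, false for small `δ`. -/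
theorem cr_prop [CompactSpace Z] (hCR : CRBound G Z) {e κ : ℝ} (he : 0 < e) (hκ : 0 < κ)
    {x₀ w₀ : Z} (hw : w₀ ≠ x₀) (R : ℝ) :
    ∃ δ r₀ : ℝ, 0 < δ ∧ 0 < r₀ ∧ ∀ r : ℝ, 0 < r → r < r₀ → ∀ (g : G) (p q : Z),
      ZP e κ r x₀ w₀ g p q → ∀ z : Z, dist (g • z) x₀ ≤ R * r → δ ≤ dist z (g⁻¹ • w₀) := by
  obtain ⟨C, hC, hcr⟩ := hCR
  obtain ⟨D0, hD0⟩ := Metric.isBounded_iff.mp (isCompact_univ (X := Z)).isBounded
  have hD : ∀ a b : Z, dist a b ≤ D0 := fun a b => hD0 (mem_univ a) (mem_univ b)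
  have hρ : 0 < dist x₀ w₀ := dist_pos.mpr hw.symm
  have hD0' : 0 < D0 := hρ.trans_le (hD _ _)
  set ρ := dist x₀ w₀ with hρdef
  have hR : 0 ≤ |R| := abs_nonneg R
  set L : ℝ := ρ * e ^ 2 / (4 * κ) with hL
  set K : ℝ := C * D0 ^ 2 * (κ + |R|) with hK
  have hLpos : 0 < L := by positivity
  have hKpos : 0 < K := by positivity
  refine ⟨min (e / 2) (L / (K + 1)), ρ / (2 * (|R| + 1)), by positivity, by positivity, ?_⟩
  intro r hr hr0 g p q hZ z hz
  by_contra hlt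
  push Not at hlt
  set η := g⁻¹ • w₀ with hη
  have hgη : g • η = w₀ := smul_inv_smul g w₀
  have h1 : dist z η < e / 2 := hlt.trans_le (min_le_left _ _)
  have h2 : dist z η < L / (K + 1) := hlt.trans_le (min_le_right _ _)
  have hpz : e / 2 ≤ dist p z := by
    have := dist_triangle p z η
    have := hZ.pw
    linarith
  have hRr : R * r ≤ |R| * r := mul_le_mul_of_nonneg_right (le_abs_self R) hr.le
  have hr1 : (|R| + 1) * r ≤ ρ / 2 := by
    rw [lt_div_iff₀ (by positivity)] at hr0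
    linarith
  have hzw : ρ / 2 ≤ dist (g • z) w₀ := by
    have h := dist_triangle x₀ (g • z) w₀
    rw [dist_comm x₀ (g • z)] at h
    nlinarith
  have hpgz : dist (g • p) (g • z) ≤ (κ + |R|) * r := by
    have h := dist_triangle (g • p) x₀ (g • z)
    rw [dist_comm x₀ (g • z)] at h
    have := hZ.hp
    linarith
  have hpq : r / κ ≤ dist (g • p) (g • q) := by
    rw [div_le_iff₀ hκ, mul_comm]; exact hZ.lo
  have key := hcr g p q z η
  rw [hgη] at key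
  have hlo : L * r ≤ dist (g • p) (g • q) * dist (g • z) w₀ * (dist p z * dist q η) := by
    have e1 : L * r = r / κ * (ρ / 2) * (e / 2 * e) := by
      rw [hL]; field_simp; ring
    rw [e1]
    have hq := hZ.qw
    gcongr
  have hhi : C * (dist p q * dist z η * (dist (g • p) (g • z) * dist (g • q) w₀)) ≤
      K * r * dist z η := by
    have e1 : K * r * dist z η = C * (D0 * dist z η * ((κ + |R|) * r * D0)) := by
      rw [hK]; ring
    rw [e1]
    have := hD p q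
    have := hD (g • q) w₀
    gcongr
  have h3 : L ≤ K * dist z η := by
    have : L * r ≤ K * dist z η * r := by linarith
    exact le_of_mul_le_mul_right this hr
  rw [lt_div_iff₀ (by positivity)] at h2
  have := dist_nonneg (x := z) (y := η)
  nlinarith

private theorem h68_mkZP {e₀ κ r : ℝ} (he : 0 < e₀) {x₀ w₀ u v : Z} {k : G}
    (h1 : e₀ ≤ dist (k • u) (k • v)) (h2 : e₀ / 2 ≤ dist (k • u) (k • w₀))
    (h3 : e₀ / 2 ≤ dist (k • v) (k • w₀)) (h4 : r ≤ κ * dist u v) (h5 : dist u x₀ ≤ κ * r)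
    (h6 : dist v x₀ ≤ κ * r) : ZP (e₀ / 2) κ r x₀ w₀ k⁻¹ (k • u) (k • v) :=
  ⟨by linarith, by rwa [inv_inv], by rwa [inv_inv], by simpa using h4, by simpa using h5,
    by simpa using h6⟩

private theorem h68_three {e₀ κ r : ℝ} (he : 0 < e₀) {x₀ w₀ u v w : Z} {k : G}
    (h : Sep3 e₀ (k • u) (k • v) (k • w)) (h1 : r ≤ κ * dist u v) (h2 : r ≤ κ * dist v w)
    (h3 : r ≤ κ * dist u w) (hu : dist u x₀ ≤ κ * r) (hv : dist v x₀ ≤ κ * r)
    (hw : dist w x₀ ≤ κ * r) : ∃ p q : Z, ZP (e₀ / 2) κ r x₀ w₀ k⁻¹ p q := by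
  obtain ⟨s1, s2, s3⟩ := h
  have t1 := dist_triangle_right (k • u) (k • v) (k • w₀)
  have t2 := dist_triangle_right (k • v) (k • w) (k • w₀)
  have t3 := dist_triangle_right (k • u) (k • w) (k • w₀)
  by_cases c1 : e₀ / 2 ≤ dist (k • u) (k • w₀)
  · by_cases c2 : e₀ / 2 ≤ dist (k • v) (k • w₀)
    · exact ⟨_, _, h68_mkZP he s1 c1 c2 h1 hu hv⟩
    · exact ⟨_, _, h68_mkZP he s3 c1 (by linarith) h3 hu hw⟩
  · exact ⟨_, _, h68_mkZP he s2 (by linarith) (by linarith) h2 hv hw⟩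

/-- The zoom sequence.  `x₀ = F.symm y₀`; `ball y₀ σ ⊆ target`; `s n = σ/(n+2)`,
`b n = F.symm (y₀ + s n)`, `c n = F.symm (y₀ - s n)`, `w₀ = b 0`, `r n = dist (b n) x₀ → 0` (continuity
of `F.symm` at `y₀`), `r n > 0`.  With `M` from `inv_bdd` for `T = 2` the three distances between
`x₀, b n, c n` lie in `[r n / κ, κ r n]`, `κ = (M+1)²` (e.g. `dist x₀ c ≤ M r`, `r ≤ M dist x₀ c`,
`r = dist b x₀ ≤ M dist b c`).  `hcoc` gives `k` with `Sep3 e₀ (k•x₀) (k•b n) (k•c n)`; `g n = k⁻¹`; at most one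
of these three points is within `e₀/2` of `k • w₀`; the other two are `p n, q n`; `e = e₀/2`. -/
theorem exists_seq (hcoc : Coc3 G Z) {F : OpenPartialHomeomorph Z ℂ} (hF : QSChart F) {y₀ : ℂ}
    (hy : y₀ ∈ F.target) :
    ∃ (e κ : ℝ) (w₀ : Z) (s r : ℕ → ℝ) (g : ℕ → G) (p q b : ℕ → Z), 0 < e ∧ 0 < κ ∧
      w₀ ≠ F.symm y₀ ∧ Tendsto s atTop (𝓝 0) ∧ Tendsto r atTop (𝓝 0) ∧
      ∀ n, 0 < s n ∧ 0 < r n ∧ ZP e κ (r n) (F.symm y₀) w₀ (g n) (p n) (q n) ∧
        b n ∈ F.source ∧ dist (F (b n)) y₀ = s n ∧ dist (b n) (F.symm y₀) = r n := by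
  obtain ⟨σ, hσ, hball⟩ := Metric.isOpen_iff.1 F.open_target y₀ hy
  obtain ⟨e₀, he₀, hcoc⟩ := hcoc
  obtain ⟨M, hM, hinv⟩ := inv_bdd hF 2
  set x₀ := F.symm y₀ with hx₀
  let s : ℕ → ℝ := fun n => σ / ((n : ℝ) + 2)
  have hs0 : ∀ n, 0 < s n := fun n => by positivity
  have hs1 : ∀ n, s n < σ := fun n => by
    have : (0 : ℝ) ≤ n := Nat.cast_nonneg n
    exact div_lt_self hσ (by linarith)
  have hst : Tendsto s atTop (𝓝 0) :=
    tendsto_const_nhds.div_atTop (tendsto_atTop_add_const_right _ _ tendsto_natCast_atTop_atTop)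
  let b : ℕ → Z := fun n => F.symm (y₀ + s n)
  let c : ℕ → Z := fun n => F.symm (y₀ - s n)
  have d1 : ∀ n, dist (y₀ + s n) y₀ = s n := fun n => by simp [abs_of_pos (hs0 n)]
  have d2 : ∀ n, dist (y₀ - s n) y₀ = s n := fun n => by simp [abs_of_pos (hs0 n)]
  have d3 : ∀ n, dist (y₀ + s n) (y₀ - s n) = 2 * s n := fun n => by
    rw [dist_eq_norm, show y₀ + s n - (y₀ - s n) = ((2 * s n : ℝ) : ℂ) by push_cast; ring,
      Complex.norm_real, Real.norm_eq_abs, abs_of_pos (by linarith [hs0 n])]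
  have t1 : ∀ n, y₀ + s n ∈ F.target := fun n => hball (by rw [mem_ball, d1]; exact hs1 n)
  have t2 : ∀ n, y₀ - s n ∈ F.target := fun n => hball (by rw [mem_ball, d2]; exact hs1 n)
  have hx : x₀ ∈ F.source := F.map_target hy
  have hb : ∀ n, b n ∈ F.source := fun n => F.map_target (t1 n)
  have hc : ∀ n, c n ∈ F.source := fun n => F.map_target (t2 n)
  have Fx : F x₀ = y₀ := F.right_inv hy
  have Fb : ∀ n, F (b n) = y₀ + s n := fun n => F.right_inv (t1 n)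
  have Fc : ∀ n, F (c n) = y₀ - s n := fun n => F.right_inv (t2 n)
  have nb : ∀ n, b n ≠ x₀ := fun n h => by
    have := d1 n
    rw [← Fb, h, Fx, dist_self] at this
    exact (hs0 n).ne this
  have nc : ∀ n, c n ≠ x₀ := fun n h => by
    have := d2 n
    rw [← Fc, h, Fx, dist_self] at this
    exact (hs0 n).ne this
  have nbc : ∀ n, b n ≠ c n := fun n h => by
    have := d3 n
    rw [← Fb, ← Fc, h, dist_self] at this
    linarith [hs0 n]
  have key : ∀ n, ∃ (g : G) (p q : Z),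
      ZP (e₀ / 2) (M + 1) (dist (b n) x₀) x₀ (b 0) g p q := by
    intro n
    obtain ⟨k, hk⟩ := hcoc x₀ (b n) (c n) (nb n).symm (nbc n) (nc n).symm
    have r0 : 0 ≤ dist (b n) x₀ := dist_nonneg
    have e1 : dist x₀ (c n) ≤ M * dist x₀ (b n) := hinv _ hx _ (hc n) _ (hb n) (by
      rw [Fx, Fb, Fc, dist_comm y₀, dist_comm y₀, d1, d2]; linarith [hs0 n])
    have e2 : dist x₀ (b n) ≤ M * dist x₀ (c n) := hinv _ hx _ (hb n) _ (hc n) (by
      rw [Fx, Fb, Fc, dist_comm y₀, dist_comm y₀, d1, d2]; linarith [hs0 n])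
    have e3 : dist (b n) x₀ ≤ M * dist (b n) (c n) := hinv _ (hb n) _ hx _ (hc n) (by
      rw [Fx, Fb, Fc, d1, d3]; linarith [hs0 n])
    have c1 := dist_comm x₀ (b n)
    have c2 := dist_comm x₀ (c n)
    have p1 : 0 ≤ dist x₀ (c n) := dist_nonneg
    have p2 : 0 ≤ dist (b n) (c n) := dist_nonneg
    have p3 : 0 ≤ M * dist (b n) x₀ := by positivity
    refine ⟨k⁻¹, h68_three he₀ hk ?_ ?_ ?_ ?_ ?_ ?_⟩
    · rw [c1]; linarith
    · linarith
    · linarith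
    · rw [dist_self]; linarith
    · linarith
    · rw [c1] at e1; linarith
  choose g p q hZ using key
  refine ⟨e₀ / 2, M + 1, b 0, s, fun n => dist (b n) x₀, g, p, q, b, half_pos he₀, by linarith,
    nb 0, hst, ?_, fun n => ⟨hs0 n, dist_pos.2 (nb n), hZ n, hb n, by rw [Fb, d1], rfl⟩⟩
  have h1 : Tendsto (fun n => y₀ + (s n : ℂ)) atTop (𝓝 y₀) := by
    have := (Complex.continuous_ofReal.tendsto 0).comp hst
    simpa using this.const_add y₀
  have h2 : Tendsto b atTop (𝓝 x₀) := (F.continuousAt_symm hy).tendsto.comp h1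
  exact tendsto_iff_dist_tendsto_zero.1 h2

/-- Chart estimates at scale `r`: `x₀ = F.symm y₀`, `b ∈ source`, `dist b x₀ = r`, `dist (F b) y₀ = s`.
(1) `dist a x₀ ≤ C r → dist (F a) y₀ ≤ M s` (`bdd C` for `(x₀, a, b)`).
(2) one of `x₀, b`, call it `c`, has `dist a c ≥ r/2`; if `dist a a' ≤ τ r` then
`dist a a' ≤ 2τ dist a c`, so `dist (F a) (F a') ≤ ε' dist (F a) (F c) ≤ ε' (M+1) s` (`small`).
(3) if `m r ≤ dist a a'` then for `c ∈ {x₀, b}`, `dist a c ≤ (C+1) r ≤ ((C+1)/m) dist a a'`, so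
`dist (F a) (F c) ≤ M' dist (F a) (F a')` and `s ≤ 2 M' dist (F a) (F a')`.
(4) if `R' r ≤ dist a x₀` then `dist x₀ b ≤ τ dist x₀ a` (`R' = 1/τ`), so `s ≤ ε dist y₀ (F a)`. -/
theorem chart_est {F : OpenPartialHomeomorph Z ℂ} (hF : QSChart F) {y₀ : ℂ} (hy : y₀ ∈ F.target) :
    (∀ C : ℝ, ∃ M : ℝ, ∀ (b : Z) (r s : ℝ), b ∈ F.source → dist b (F.symm y₀) = r →
      dist (F b) y₀ = s → ∀ a ∈ F.source, dist a (F.symm y₀) ≤ C * r → dist (F a) y₀ ≤ M * s) ∧
    (∀ C ε : ℝ, 0 < ε → ∃ τ : ℝ, 0 < τ ∧ ∀ (b : Z) (r s : ℝ), b ∈ F.source →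
      dist b (F.symm y₀) = r → dist (F b) y₀ = s → ∀ a ∈ F.source, ∀ a' ∈ F.source,
        dist a (F.symm y₀) ≤ C * r → dist a a' ≤ τ * r → dist (F a) (F a') ≤ ε * s) ∧
    (∀ C m : ℝ, 0 < m → ∃ μ : ℝ, 0 < μ ∧ ∀ (b : Z) (r s : ℝ), b ∈ F.source →
      dist b (F.symm y₀) = r → dist (F b) y₀ = s → ∀ a ∈ F.source, ∀ a' ∈ F.source,
        dist a (F.symm y₀) ≤ C * r → m * r ≤ dist a a' → μ * s ≤ dist (F a) (F a')) ∧
    (∀ R : ℝ, ∃ R' : ℝ, ∀ (b : Z) (r s : ℝ), b ∈ F.source → dist b (F.symm y₀) = r →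
      dist (F b) y₀ = s → 0 < s → ∀ a ∈ F.source, dist (F a) y₀ ≤ R * s →
        dist a (F.symm y₀) ≤ R' * r) := by
  have hx : F.symm y₀ ∈ F.source := F.map_target hy
  have hFx : F (F.symm y₀) = y₀ := F.right_inv hy
  have H1 : ∀ C : ℝ, ∃ M : ℝ, ∀ (b : Z) (r s : ℝ), b ∈ F.source → dist b (F.symm y₀) = r →
      dist (F b) y₀ = s → ∀ a ∈ F.source, dist a (F.symm y₀) ≤ C * r →
        dist (F a) y₀ ≤ M * s := by
    intro C
    obtain ⟨M, hM⟩ := hF.bdd C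
    refine ⟨M, fun b r s hb hr hs a ha h => ?_⟩
    have := hM _ hx a ha b hb (by rwa [dist_comm _ a, dist_comm _ b, hr])
    rwa [hFx, dist_comm y₀, dist_comm y₀, hs] at this
  refine ⟨H1, ?_, ?_, ?_⟩
  · intro C ε hε
    obtain ⟨M, hM⟩ := H1 C
    have hM1 : 0 < |M| + 1 := by positivity
    obtain ⟨τ, hτ, hsm⟩ := hF.small (ε / (|M| + 1)) (by positivity)
    refine ⟨τ / 2, by positivity, fun b r s hb hr hs a ha a' ha' h h' => ?_⟩
    have hs0 : 0 ≤ s := hs ▸ dist_nonneg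
    have h1 := hM b r s hb hr hs a ha h
    have h2 : M * s ≤ |M| * s := mul_le_mul_of_nonneg_right (le_abs_self M) hs0
    have hc : ∃ c ∈ F.source, r / 2 ≤ dist a c ∧ dist (F a) (F c) ≤ (|M| + 1) * s := by
      by_cases hh : r / 2 ≤ dist a (F.symm y₀)
      · exact ⟨_, hx, hh, by rw [hFx]; linarith⟩
      · refine ⟨b, hb, ?_, ?_⟩
        · have := dist_triangle b a (F.symm y₀)
          rw [dist_comm b a] at this
          push Not at hh
          linarith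
        · have := dist_triangle (F a) y₀ (F b)
          rw [dist_comm y₀ (F b)] at this
          linarith
    obtain ⟨c, hc, hc1, hc2⟩ := hc
    have h3 := hsm a ha a' ha' c hc (by nlinarith)
    calc dist (F a) (F a') ≤ ε / (|M| + 1) * dist (F a) (F c) := h3
      _ ≤ ε / (|M| + 1) * ((|M| + 1) * s) := by gcongr
      _ = ε * s := by field_simp
  · intro C m hm
    obtain ⟨M, hM⟩ := hF.bdd ((|C| + 1) / m)
    have hM1 : 0 < 2 * |M| + 1 := by positivity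
    refine ⟨1 / (2 * |M| + 1), by positivity, fun b r s hb hr hs a ha a' ha' h h' => ?_⟩
    have hr0 : 0 ≤ r := hr ▸ dist_nonneg
    have hC : C * r ≤ |C| * r := mul_le_mul_of_nonneg_right (le_abs_self C) hr0
    have hT : (|C| + 1) * r ≤ (|C| + 1) / m * dist a a' := by
      calc (|C| + 1) * r = (|C| + 1) / m * (m * r) := by field_simp
        _ ≤ _ := by gcongr
    have h1 := hM a ha _ hx a' ha' (by linarith)
    have h2 := hM a ha b hb a' ha' (by
      have := dist_triangle a (F.symm y₀) b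
      rw [dist_comm (F.symm y₀) b] at this
      linarith)
    rw [hFx] at h1
    have h3 := dist_triangle (F b) (F a) y₀
    rw [dist_comm (F b) (F a)] at h3
    have hd : 0 ≤ dist (F a) (F a') := dist_nonneg
    have h4 : M * dist (F a) (F a') ≤ |M| * dist (F a) (F a') :=
      mul_le_mul_of_nonneg_right (le_abs_self M) hd
    rw [div_mul_eq_mul_div, one_mul, div_le_iff₀ hM1]
    nlinarith
  · intro R
    have hR1 : 0 < |R| + 1 := by positivity
    obtain ⟨τ, hτ, hsm⟩ := hF.small (1 / (2 * (|R| + 1))) (by positivity)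
    refine ⟨1 / τ, fun b r s hb hr hs hs0 a ha h => ?_⟩
    by_contra hlt
    push Not at hlt
    have h1 : r ≤ τ * dist a (F.symm y₀) := by
      rw [div_mul_eq_mul_div, one_mul, div_lt_iff₀ hτ] at hlt
      linarith
    have h2 := hsm _ hx b hb a ha (by rwa [dist_comm _ a, dist_comm _ b, hr])
    rw [hFx, dist_comm y₀, dist_comm y₀, hs, div_mul_eq_mul_div, one_mul,
      le_div_iff₀ (by positivity)] at h2
    have h3 : R * s ≤ |R| * s := mul_le_mul_of_nonneg_right (le_abs_self R) hs0.le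
    have := abs_nonneg R
    nlinarith

private theorem h68_aff_sub (y₀ : ℂ) (A : ℂ ≃L[ℝ] ℂ) {s : ℝ} (hs : 0 < s) (y y' : ℂ) :
    s * dist (aff y₀ A s y) (aff y₀ A s y') = ‖A (y - y')‖ := by
  rw [dist_eq_norm, aff, aff, ← smul_sub, ← map_sub, norm_smul, sub_sub_sub_cancel_right,
    norm_inv, Real.norm_eq_abs, abs_of_pos hs, ← mul_assoc, mul_inv_cancel₀ hs.ne', one_mul]

private theorem h68_aff_bds (y₀ : ℂ) (A : ℂ ≃L[ℝ] ℂ) : ∃ a₁ a₂ : ℝ, 0 < a₁ ∧ 0 < a₂ ∧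
    ∀ s : ℝ, 0 < s → ∀ y y' : ℂ,
      s * dist (aff y₀ A s y) (aff y₀ A s y') ≤ a₁ * dist y y' ∧
      dist y y' ≤ a₂ * (s * dist (aff y₀ A s y) (aff y₀ A s y')) := by
  refine ⟨‖(A : ℂ →L[ℝ] ℂ)‖ + 1, ‖(A.symm : ℂ →L[ℝ] ℂ)‖ + 1, by positivity, by positivity,
    fun s hs y y' => ?_⟩
  rw [h68_aff_sub y₀ A hs, dist_eq_norm]
  have h1 := (A : ℂ →L[ℝ] ℂ).le_opNorm (y - y')
  have h2 := (A.symm : ℂ →L[ℝ] ℂ).le_opNorm (A (y - y'))
  simp only [ContinuousLinearEquiv.coe_coe, ContinuousLinearEquiv.symm_apply_apply] at h1 h2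
  have h3 := norm_nonneg (y - y')
  have h4 := norm_nonneg (A (y - y'))
  constructor <;> linarith

/-- `𝒰 = Ultrafilter.of atTop` (`Ultrafilter.of_le`), `η` = limit of `(g n)⁻¹ • w₀` along `𝒰`
(`Ultrafilter.le_nhds_lim`/`isCompact_univ.ultrafilter_le_nhds`), so eventually
`δ ≤ dist z η → δ/2 ≤ dist z ((g n)⁻¹ • w₀)` and conversely.  `dom`: `cr_zoom` + `ball x₀ ρ ⊆ source`,
`r n → 0`.  `bdd`, `equi`, `inj`: `cr_zoom` + `chart_est` (1)-(3) and
`dist (aff y) (aff y') = s⁻¹ ‖A (y - y')‖ ∈ [s⁻¹ ‖y-y'‖/(‖A.symm‖+1), s⁻¹ ‖A‖ ‖y-y'‖]`.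
`prop`: `chart_est` (4) + `cr_prop`.  `tgt`: `affi y₀ A (s n) w ∈ ball y₀ σ ⊆ target` eventually,
`smul_inv_smul`, `F.right_inv`, `aff_affi`. -/
theorem exists_approx [CompactSpace Z] (hCR : CRBound G Z) (hcoc : Coc3 G Z)
    {F : OpenPartialHomeomorph Z ℂ} (hF : QSChart F) {y₀ : ℂ} (hy : y₀ ∈ F.target)
    (A : ℂ ≃L[ℝ] ℂ) :
    ∃ (𝒰 : Ultrafilter ℕ) (η : Z) (g : ℕ → G) (s : ℕ → ℝ), (∀ n, 0 < s n) ∧
      Tendsto s (𝒰 : Filter ℕ) (𝓝 0) ∧
      Approx 𝒰 η (fun n => {z | g n • z ∈ F.source}) (fun n z => aff y₀ A (s n) (F (g n • z)))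
        (fun n w => (g n)⁻¹ • F.symm (affi y₀ A (s n) w)) := by
  obtain ⟨e, κ, w₀, s, r, g, p, q, b, he, hκ, hw, hs, hr, H⟩ := exists_seq hcoc hF hy
  obtain ⟨a₁, a₂, ha₁, ha₂, haff⟩ := h68_aff_bds y₀ A
  obtain ⟨E1, E2, E3, E4⟩ := chart_est hF hy
  obtain ⟨σ, hσ, hball⟩ := Metric.isOpen_iff.1 F.open_target y₀ hy
  obtain ⟨ρ, hρ, hballρ⟩ := Metric.isOpen_iff.1 F.open_source _ (F.map_target hy)
  let 𝒰 : Ultrafilter ℕ := Ultrafilter.of atTop
  have h𝒰 : (𝒰 : Filter ℕ) ≤ atTop := Ultrafilter.of_le _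
  obtain ⟨η, -, hη⟩ := isCompact_univ.ultrafilter_le_nhds (𝒰.map fun n => (g n)⁻¹ • w₀) (by simp)
  have hη' : Tendsto (fun n => (g n)⁻¹ • w₀) (𝒰 : Filter ℕ) (𝓝 η) := hη
  have hclose : ∀ δ : ℝ, 0 < δ → ∀ᶠ n in (𝒰 : Filter ℕ), dist ((g n)⁻¹ • w₀) η < δ :=
    fun δ hδ => Metric.tendsto_nhds.1 hη' δ hδ
  have hr' : ∀ (C r₀ : ℝ), 0 < r₀ → ∀ᶠ n in (𝒰 : Filter ℕ), C * r n < r₀ := by
    intro C r₀ h0
    have := (hr.mono_left h𝒰).const_mul C
    rw [mul_zero] at this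
    exact this.eventually (gt_mem_nhds h0)
  have aff0 : ∀ (t : ℝ) (y : ℂ), ‖aff y₀ A t y‖ = dist (aff y₀ A t y) (aff y₀ A t y₀) := by
    intro t y
    simp [aff]
  have zoom : ∀ δ : ℝ, 0 < δ → ∃ c C : ℝ, 0 < c ∧ 0 < C ∧ ∀ᶠ n in (𝒰 : Filter ℕ), ∀ z z' : Z,
      δ ≤ dist z η → δ ≤ dist z' η → g n • z ∈ F.source ∧
        dist (g n • z) (F.symm y₀) ≤ C * r n ∧ dist (g n • z) (g n • z') ≤ C * r n * dist z z' ∧
          c * r n * dist z z' ≤ dist (g n • z) (g n • z') := by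
    intro δ hδ
    obtain ⟨c, C, r₀, hc, hC, hr₀, h⟩ := cr_zoom hCR he hκ hw (half_pos hδ)
    refine ⟨c, C, hc, hC, ?_⟩
    filter_upwards [hclose _ (half_pos hδ), hr' 1 r₀ hr₀, hr' C ρ hρ] with n h1 h2 h3 z z' hz hz'
    have t1 := dist_triangle z ((g n)⁻¹ • w₀) η
    have t2 := dist_triangle z' ((g n)⁻¹ • w₀) η
    have h4 := h (r n) (H n).2.1 (by linarith) _ _ _ (H n).2.2.1 z z' (by linarith) (by linarith)
    exact ⟨hballρ (mem_ball.2 (h4.1.trans_lt h3)), h4⟩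
  refine ⟨𝒰, η, g, s, fun n => (H n).1, hs.mono_left h𝒰, ?_, ?_, ?_, ?_, ?_, ?_⟩
  · intro δ hδ
    obtain ⟨c, C, -, -, h⟩ := zoom δ hδ
    filter_upwards [h] with n hn z hz
    exact (hn z z hz hz).1
  · intro δ hδ
    obtain ⟨c, C, -, -, h⟩ := zoom δ hδ
    obtain ⟨M, hM⟩ := E1 C
    refine ⟨a₁ * M, ?_⟩
    filter_upwards [h] with n hn z hz
    obtain ⟨s0, -, -, b1, b2, b3⟩ := H n
    obtain ⟨h1, h2, -, -⟩ := hn z z hz hz
    have h3 := hM _ _ _ b1 b3 b2 _ h1 h2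
    have h4 := (haff _ s0 (F (g n • z)) y₀).1
    have h5 := mul_le_mul_of_nonneg_left h3 ha₁.le
    rw [aff0]
    refine le_of_mul_le_mul_left ?_ s0
    linarith
  · intro δ hδ ε hε
    obtain ⟨c, C, -, hC, h⟩ := zoom δ hδ
    obtain ⟨τ, hτ, hM⟩ := E2 C (ε / a₁) (div_pos hε ha₁)
    refine ⟨τ / C, div_pos hτ hC, ?_⟩
    filter_upwards [h] with n hn z z' hz hz' hzz
    obtain ⟨s0, r0, -, b1, b2, b3⟩ := H n
    obtain ⟨h1, h2, h3, -⟩ := hn z z' hz hz'
    have h4 : dist (g n • z) (g n • z') ≤ τ * r n := by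
      calc _ ≤ C * r n * dist z z' := h3
        _ ≤ C * r n * (τ / C) := by gcongr
        _ = _ := by field_simp
    have h5 := hM _ _ _ b1 b3 b2 _ h1 _ (hn z' z hz' hz).1 h2 h4
    have h6 := (haff _ s0 (F (g n • z)) (F (g n • z'))).1
    have h7 := mul_le_mul_of_nonneg_left h5 ha₁.le
    have h8 : a₁ * (ε / a₁ * s n) = s n * ε := by field_simp
    refine le_of_mul_le_mul_left ?_ s0
    linarith
  · intro δ hδ τ hτ
    obtain ⟨c, C, hc, -, h⟩ := zoom δ hδ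
    obtain ⟨μ, hμ, hM⟩ := E3 C (c * τ) (mul_pos hc hτ)
    refine ⟨μ / a₂, div_pos hμ ha₂, ?_⟩
    filter_upwards [h] with n hn z z' hz hz' hzz
    obtain ⟨s0, r0, -, b1, b2, b3⟩ := H n
    obtain ⟨h1, h2, -, h3⟩ := hn z z' hz hz'
    have h4 : c * τ * r n ≤ dist (g n • z) (g n • z') := by
      calc c * τ * r n = c * r n * τ := by ring
        _ ≤ c * r n * dist z z' := by gcongr
        _ ≤ _ := h3
    have h5 := hM _ _ _ b1 b3 b2 _ h1 _ (hn z' z hz' hz).1 h2 h4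
    have h6 := (haff _ s0 (F (g n • z)) (F (g n • z'))).2
    rw [div_le_iff₀ ha₂]
    refine le_of_mul_le_mul_left ?_ s0
    linarith
  · intro R
    obtain ⟨R', hM⟩ := E4 (a₂ * R)
    obtain ⟨δ, r₀, hδ, hr₀, h⟩ := cr_prop hCR he hκ hw R'
    refine ⟨δ / 2, half_pos hδ, ?_⟩
    filter_upwards [hclose _ (half_pos hδ), hr' 1 r₀ hr₀] with n h1 h2 z hz hR
    obtain ⟨s0, r0, hZ, b1, b2, b3⟩ := H n
    have h3 := (haff _ s0 (F (g n • z)) y₀).2
    rw [← aff0] at h3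
    have h4 : dist (F (g n • z)) y₀ ≤ a₂ * R * s n := by
      calc _ ≤ _ := h3
        _ ≤ a₂ * (s n * R) := by gcongr
        _ = _ := by ring
    have h5 := hM _ _ _ b1 b3 b2 s0 _ hz h4
    have h6 := h (r n) r0 (by linarith) _ _ _ hZ z h5
    have h7 := dist_triangle_right z ((g n)⁻¹ • w₀) η
    linarith
  · intro R
    have h1 := (hs.mono_left h𝒰).const_mul (a₂ * R)
    rw [mul_zero] at h1
    filter_upwards [h1.eventually (gt_mem_nhds hσ)] with n hn w hwR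
    have s0 := (H n).1
    have h3 := (haff _ s0 (affi y₀ A (s n) w) y₀).2
    rw [← aff0, aff_affi y₀ A s0.ne'] at h3
    have h4 : affi y₀ A (s n) w ∈ F.target := by
      refine hball (mem_ball.2 ?_)
      calc _ ≤ _ := h3
        _ ≤ a₂ * (s n * R) := by gcongr
        _ = a₂ * R * s n := by ring
        _ < σ := hn
    refine ⟨?_, ?_⟩
    · show g n • (g n)⁻¹ • F.symm (affi y₀ A (s n) w) ∈ F.source
      rw [smul_inv_smul]
      exact F.map_target h4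
    · show aff y₀ A (s n) (F (g n • (g n)⁻¹ • F.symm (affi y₀ A (s n) w))) = w
      rw [smul_inv_smul, F.right_inv h4, aff_affi y₀ A s0.ne']

end Crest.Agent.R193.T
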