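import Mathlib
import Crest.Agent.R193.TDefs

/-! Row 193, block [T]: the limit of the zoom. -/

set_option autoImplicit false

namespace Crest.Agent.R193.T

open MeasureTheory Set Metric Filter Topology

variable {Z : Type} [MetricSpace Z] {𝒰 : Ultrafilter ℕ} {η : Z} {U : ℕ → Set Z}
  {e : ℕ → Z → ℂ} {k : ℕ → ℂ → Z}

/-- The limit map.  For `z ≠ η`, `e n z` is eventually in a compact ball (`bdd`), so it has a limit
`h z` along `𝒰` (`IsCompact.ultrafilter_le_nhds`).  `equi` passes to the limit (uniform continuity on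
`{δ ≤ dist · η}`, hence `ContinuousOn {η}ᶜ`); uniform convergence on the compact set
`{δ ≤ dist · η}` by a finite `τ`-net inside it (`IsCompact.finite_cover_balls` /
`TotallyBounded`); `inj` and `prop` (with `dom`) pass to the limit. -/
theorem Approx.exists_h [CompactSpace Z] (hA : Approx 𝒰 η U e k) :
    ∃ h : Z → ℂ, ContinuousOn h {η}ᶜ ∧
      (∀ δ : ℝ, 0 < δ → ∀ ε : ℝ, 0 < ε → ∀ᶠ n in (𝒰 : Filter ℕ), ∀ z, δ ≤ dist z η →
        dist (e n z) (h z) ≤ ε) ∧
      (∀ δ : ℝ, 0 < δ → ∀ τ : ℝ, 0 < τ → ∃ m : ℝ, 0 < m ∧ ∀ z z', δ ≤ dist z η → δ ≤ dist z' η →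
        τ ≤ dist z z' → m ≤ dist (h z) (h z')) ∧
      (∀ R : ℝ, ∃ δ : ℝ, 0 < δ ∧ ∀ z, z ≠ η → ‖h z‖ ≤ R → δ ≤ dist z η) := by
  have hex : ∀ z, ∃ w : ℂ, z ≠ η → Tendsto (fun n => e n z) (𝒰 : Filter ℕ) (𝓝 w) := by
    intro z
    by_cases hz : z = η
    · exact ⟨0, fun h => absurd hz h⟩
    obtain ⟨R, hR⟩ := hA.bdd (dist z η) (dist_pos.2 hz)
    have h1 : (↑(𝒰.map fun n => e n z) : Filter ℂ) ≤ 𝓟 (closedBall (0 : ℂ) R) := by
      rw [le_principal_iff, Ultrafilter.coe_map, mem_map]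
      filter_upwards [hR] with n hn
      simpa using hn z le_rfl
    obtain ⟨w, -, hw⟩ := (isCompact_closedBall (0 : ℂ) R).ultrafilter_le_nhds _ h1
    exact ⟨w, fun _ => hw⟩
  choose h hh using hex
  have ne : ∀ {δ : ℝ}, 0 < δ → ∀ {z}, δ ≤ dist z η → z ≠ η := fun hδ _ hz =>
    dist_pos.1 (hδ.trans_le hz)
  have hd : ∀ z z', z ≠ η → z' ≠ η →
      Tendsto (fun n => dist (e n z) (e n z')) (𝒰 : Filter ℕ) (𝓝 (dist (h z) (h z'))) :=
    fun z z' hz hz' => (hh z hz).dist (hh z' hz')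
  have hequi : ∀ δ : ℝ, 0 < δ → ∀ ε : ℝ, 0 < ε → ∃ τ : ℝ, 0 < τ ∧ (∀ᶠ n in (𝒰 : Filter ℕ), ∀ z z',
      δ ≤ dist z η → δ ≤ dist z' η → dist z z' ≤ τ → dist (e n z) (e n z') ≤ ε) ∧ ∀ z z',
      δ ≤ dist z η → δ ≤ dist z' η → dist z z' ≤ τ → dist (h z) (h z') ≤ ε := by
    intro δ hδ ε hε
    obtain ⟨τ, hτ, H⟩ := hA.equi δ hδ ε hε
    refine ⟨τ, hτ, H, fun z z' hz hz' hzz => ?_⟩
    exact le_of_tendsto (hd z z' (ne hδ hz) (ne hδ hz')) (H.mono fun n hn => hn z z' hz hz' hzz)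
  refine ⟨h, ?_, ?_, ?_, ?_⟩
  · intro z hz
    have hz' : 0 < dist z η := dist_pos.2 hz
    apply ContinuousAt.continuousWithinAt
    rw [Metric.continuousAt_iff]
    intro ε hε
    obtain ⟨τ, hτ, -, H⟩ := hequi (dist z η / 2) (half_pos hz') (ε / 2) (half_pos hε)
    refine ⟨min τ (dist z η / 2), lt_min hτ (half_pos hz'), fun y hy => ?_⟩
    rw [lt_min_iff] at hy
    have h1 : dist z η / 2 ≤ dist y η := by
      have := dist_triangle z y η
      rw [dist_comm z y] at this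
      linarith [hy.2]
    exact (H y z h1 (by linarith) hy.1.le).trans_lt (half_lt_self hε)
  · intro δ hδ ε hε
    have hε3 : 0 < ε / 3 := by linarith
    obtain ⟨τ, hτ, H1, H2⟩ := hequi δ hδ (ε / 3) hε3
    have hK : IsCompact {z : Z | δ ≤ dist z η} :=
      (isClosed_le continuous_const (continuous_id.dist continuous_const)).isCompact
    obtain ⟨t, ht, htf, hcov⟩ := hK.finite_cover_balls hτ
    have H3 : ∀ᶠ n in (𝒰 : Filter ℕ), ∀ y ∈ t, dist (e n y) (h y) < ε / 3 := by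
      rw [eventually_all_finite htf]
      intro y hy
      exact (Metric.tendsto_nhds.1 (hh y (ne hδ (ht hy)))) _ hε3
    filter_upwards [H1, H3] with n hn1 hn3 z hz
    obtain ⟨y, hy, hzy⟩ := mem_iUnion₂.1 (hcov hz)
    have a1 := hn1 z y hz (ht hy) (mem_ball.1 hzy).le
    have a2 := hn3 y hy
    have a3 := H2 z y hz (ht hy) (mem_ball.1 hzy).le
    have a4 := dist_triangle4 (e n z) (e n y) (h y) (h z)
    rw [dist_comm (h y) (h z)] at a4
    linarith
  · intro δ hδ τ hτ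
    obtain ⟨m, hm, H⟩ := hA.inj δ hδ τ hτ
    refine ⟨m, hm, fun z z' hz hz' hzz => ?_⟩
    exact ge_of_tendsto (hd z z' (ne hδ hz) (ne hδ hz')) (H.mono fun n hn => hn z z' hz hz' hzz)
  · intro R
    obtain ⟨δ, hδ, H⟩ := hA.prop (R + 1)
    refine ⟨δ, hδ, fun z hz hR => ?_⟩
    have h1 := hA.dom (dist z η) (dist_pos.2 hz)
    have h2 := (Metric.tendsto_nhds.1 (hh z hz)) 1 one_pos
    obtain ⟨n, hn1, hn2, hn3⟩ := (H.and (h1.and h2)).exists
    apply hn1 z (hn2 z le_rfl)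
    have h3 : ‖e n z‖ ≤ ‖h z‖ + dist (e n z) (h z) := by
      rw [dist_eq_norm]
      exact norm_le_insert' _ _
    linarith

/-- `κ w` = limit of `k n w` along `𝒰` (compactness of `Z`); eventually `δ ≤ dist (k n w) η`
(`tgt`, `prop`), so `κ w ≠ η` and `h (κ w) = w` (`dist w (h (k n w)) ≤ ε`, continuity of `h` at `κ w`).
`h` is injective on `{η}ᶜ`, so `κ (h z) = z`, `range κ = {η}ᶜ`.  For `‖w‖, ‖w'‖ ≤ R`:
`dist w w' < m → dist (κ w) (κ w') < τ`, so `κ` is continuous; it has the left inverse `h`, continuous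
on its range, so it is an embedding (`Topology.IsInducing` via `isInducing_iff_nhds`, or
`Function.LeftInverse.isEmbedding` after `codRestrict` to `{η}ᶜ`).  `convi`: if `τ ≤ dist (k n w) (κ w)` then
`m ≤ dist (h (k n w)) w ≤ m/2`. -/
theorem Approx.lim [CompactSpace Z] (hA : Approx 𝒰 η U e k) :
    ∃ (h : Z → ℂ) (κ : ℂ → Z), Lim 𝒰 η e k h κ := by
  obtain ⟨h, hc, hconv, hinj, hprop⟩ := hA.exists_h
  have hex : ∀ w : ℂ, ∃ z : Z, Tendsto (fun n => k n w) (𝒰 : Filter ℕ) (𝓝 z) := by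
    intro w
    obtain ⟨z, -, hz⟩ := isCompact_univ.ultrafilter_le_nhds (𝒰.map fun n => k n w) (by simp)
    exact ⟨z, hz⟩
  choose κ hκ using hex
  have hfar : ∀ R : ℝ, ∃ δ : ℝ, 0 < δ ∧ (∀ᶠ n in (𝒰 : Filter ℕ), ∀ w : ℂ, ‖w‖ ≤ R →
      δ ≤ dist (k n w) η ∧ e n (k n w) = w) ∧ ∀ w : ℂ, ‖w‖ ≤ R → δ ≤ dist (κ w) η := by
    intro R
    obtain ⟨δ, hδ, hp⟩ := hA.prop R
    have h1 : ∀ᶠ n in (𝒰 : Filter ℕ), ∀ w : ℂ, ‖w‖ ≤ R →
        δ ≤ dist (k n w) η ∧ e n (k n w) = w := by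
      filter_upwards [hp, hA.tgt R] with n hn hn' w hw
      obtain ⟨h2, h3⟩ := hn' w hw
      exact ⟨hn _ h2 (by rw [h3]; exact hw), h3⟩
    refine ⟨δ, hδ, h1, fun w hw => ?_⟩
    exact ge_of_tendsto ((hκ w).dist tendsto_const_nhds) (h1.mono fun n hn => (hn w hw).1)
  have hne : ∀ w, κ w ≠ η := by
    intro w hw
    obtain ⟨δ, hδ, -, h2⟩ := hfar ‖w‖
    have := h2 w le_rfl
    rw [hw, dist_self] at this
    linarith
  have hhk : ∀ w, h (κ w) = w := by
    intro w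
    obtain ⟨δ, hδ, h1, -⟩ := hfar ‖w‖
    have hca : ContinuousAt h (κ w) :=
      hc.continuousAt (isOpen_compl_singleton.mem_nhds (hne w))
    have t1 : Tendsto (fun n => h (k n w)) (𝒰 : Filter ℕ) (𝓝 (h (κ w))) := hca.tendsto.comp (hκ w)
    have t2 : Tendsto (fun n => h (k n w)) (𝒰 : Filter ℕ) (𝓝 w) := by
      refine Metric.tendsto_nhds.2 fun ε hε => ?_
      filter_upwards [h1, hconv δ hδ (ε / 2) (by positivity)] with n hn hn'
      have := hn' _ (hn w le_rfl).1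
      rw [(hn w le_rfl).2, dist_comm] at this
      linarith
    exact tendsto_nhds_unique t1 t2
  have hinj' : ∀ z z', z ≠ η → z' ≠ η → h z = h z' → z = z' := by
    intro z z' hz hz' hzz
    by_contra hn
    obtain ⟨m, hm, h1⟩ := hinj (min (dist z η) (dist z' η))
      (lt_min (dist_pos.2 hz) (dist_pos.2 hz')) (dist z z') (dist_pos.2 hn)
    have := h1 z z' (min_le_left _ _) (min_le_right _ _) le_rfl
    rw [hzz, dist_self] at this
    linarith
  have hkh : ∀ z, z ≠ η → κ (h z) = z := fun z hz => hinj' _ _ (hne _) hz (hhk _)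
  have hcont : Continuous κ := by
    refine continuous_iff_continuousAt.2 fun w => Metric.continuousAt_iff.2 fun τ hτ => ?_
    obtain ⟨δ, hδ, -, h2⟩ := hfar (‖w‖ + 1)
    obtain ⟨m, hm, h1⟩ := hinj δ hδ τ hτ
    refine ⟨min m 1, lt_min hm one_pos, fun w' hw' => ?_⟩
    by_contra hn
    have hw1 : ‖w'‖ ≤ ‖w‖ + 1 := by
      have h3 : dist w' w < 1 := hw'.trans_le (min_le_right _ _)
      rw [dist_eq_norm] at h3
      have := norm_sub_norm_le w' w
      linarith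
    have := h1 _ _ (h2 w' hw1) (h2 w (by linarith)) (not_lt.1 hn)
    rw [hhk, hhk] at this
    have h3 : dist w' w < m := hw'.trans_le (min_le_left _ _)
    linarith
  refine ⟨h, κ, ?_, ?_, hc, hhk, hkh, hconv, ?_⟩
  · have hr : Continuous (({η}ᶜ : Set Z).restrict h) := continuousOn_iff_continuous_restrict.1 hc
    have he : IsEmbedding (Set.codRestrict κ ({η}ᶜ : Set Z) hne) :=
      Function.LeftInverse.isEmbedding (f := ({η}ᶜ : Set Z).restrict h) (fun w => hhk w) hr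
        (hcont.codRestrict hne)
    exact IsEmbedding.subtypeVal.comp he
  · ext z
    constructor
    · rintro ⟨w, rfl⟩
      exact hne w
    · intro hz
      exact ⟨h z, hkh z hz⟩
  · intro R ε hε
    obtain ⟨δ, hδ, h1, h2⟩ := hfar R
    obtain ⟨m, hm, h3⟩ := hinj δ hδ ε hε
    filter_upwards [h1, hconv δ hδ (m / 2) (by positivity)] with n hn hn' w hw
    by_contra hlt
    have h4 := h3 _ _ (hn w hw).1 (h2 w hw) (not_le.1 hlt).le
    have h5 := hn' _ (hn w hw).1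
    rw [(hn w hw).2, dist_comm] at h5
    rw [hhk] at h4
    linarith

/-- `γ ∘ κ` maps `K` onto a compact set at distance `≥ 2δ` from `η`; `γ` is uniformly continuous and
`h` is uniformly continuous on the compact set `{δ ≤ dist · η}`; use `convi` (`K` bounded), `dom`,
`conv`. -/
theorem Lim.conj [CompactSpace Z] {h : Z → ℂ} {κ : ℂ → Z} (hA : Approx 𝒰 η U e k)
    (hL : Lim 𝒰 η e k h κ) {γ : Z → Z} (hγ : Continuous γ) {K : Set ℂ} (hK : IsCompact K)
    (hs : ∀ w ∈ K, γ (κ w) ≠ η) {ε : ℝ} (hε : 0 < ε) :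
    ∀ᶠ n in (𝒰 : Filter ℕ), ∀ w ∈ K, γ (k n w) ∈ U n ∧
      dist (e n (γ (k n w))) (h (γ (κ w))) ≤ ε := by
  have hc : Continuous fun w => dist (γ (κ w)) η :=
    (hγ.comp hL.emb.continuous).dist continuous_const
  obtain ⟨δ, hδ, hδK⟩ : ∃ δ : ℝ, 0 < δ ∧ ∀ w ∈ K, 2 * δ ≤ dist (γ (κ w)) η := by
    rcases K.eq_empty_or_nonempty with rfl | hne
    · exact ⟨1, one_pos, fun w hw => absurd hw (notMem_empty w)⟩
    · obtain ⟨w₀, hw₀, hmin⟩ := hK.exists_isMinOn hne hc.continuousOn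
      have hp : 0 < dist (γ (κ w₀)) η := dist_pos.2 (hs w₀ hw₀)
      refine ⟨dist (γ (κ w₀)) η / 2, by linarith, fun w hw => ?_⟩
      have := hmin hw
      simp only [mem_ofPred_eq] at this
      linarith
  have hCc : IsCompact {z : Z | δ ≤ dist z η} :=
    (isClosed_le continuous_const (continuous_id.dist continuous_const)).isCompact
  have hCs : {z : Z | δ ≤ dist z η} ⊆ {η}ᶜ := by
    intro z hz hzη
    rw [mem_singleton_iff] at hzη
    simp only [mem_ofPred_eq, hzη, dist_self] at hz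
    linarith
  have hu := hCc.uniformContinuousOn_of_continuous (hL.cont.mono hCs)
  rw [Metric.uniformContinuousOn_iff] at hu
  obtain ⟨τ, hτ, hτ'⟩ := hu (ε / 2) (by linarith)
  have hγu := CompactSpace.uniformContinuous_of_continuous hγ
  rw [Metric.uniformContinuous_iff] at hγu
  obtain ⟨σ, hσ, hσ'⟩ := hγu (min τ δ) (lt_min hτ hδ)
  obtain ⟨R, hR⟩ := hK.isBounded.exists_norm_le
  filter_upwards [hL.convi R (σ / 2) (by linarith), hA.dom δ hδ, hL.conv δ hδ (ε / 2) (by linarith)]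
    with n h1 h2 h3 w hw
  have h4 : dist (γ (k n w)) (γ (κ w)) < min τ δ :=
    hσ' (lt_of_le_of_lt (h1 w (hR w hw)) (by linarith))
  have h5 := hδK w hw
  have h6 : δ ≤ dist (γ (k n w)) η := by
    have := dist_triangle (γ (κ w)) (γ (k n w)) η
    rw [dist_comm (γ (κ w)) (γ (k n w))] at this
    linarith [min_le_right τ δ]
  refine ⟨h2 _ h6, ?_⟩
  have h7 := h3 _ h6
  have h8 := hτ' (γ (k n w)) h6 (γ (κ w)) (show δ ≤ dist (γ (κ w)) η by linarith)
    (h4.trans_le (min_le_left _ _))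
  have := dist_triangle (e n (γ (k n w))) (h (γ (k n w))) (h (γ (κ w)))
  linarith

end Crest.Agent.R193.T
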