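import Mathlib
import Crest.Agent.R193.TB3
import Crest.Agent.R193.TW
import Crest.Agent.R193.TZ2
import Crest.Agent.R193.TZ3

/-! Row 193, block [T]: assembly. -/

set_option autoImplicit false

namespace Crest.Agent.R193.T

open MeasureTheory Set Metric Filter Topology

/-- Passing to the limit in the approximate weak harmonicity.  `K = tsupport θ`, `L θ` vanishes off `K`
and is continuous; `W '' K` is compact; choose `R` with `K ⊆ ball 0 R`, `‖W w‖ + 1 < R` on `K`, a bound `a` of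
`‖fderiv θ‖` and `b` of `‖fderiv ℝ f‖` on `ball 0 R`.  Eventually `‖∫ f (V n w) L θ‖ ≤ ε a b` and
`‖f (V n w) - f (W w)‖ ≤ b ε` on `K` (mean value inequality on the ball), so
`‖∫ f (W w) L θ‖ ≤ ε a b + b ε ∫ ‖L θ‖` (both integrands are continuous on `K` and vanish off `K`). -/
theorem weakHarm_of_approx {𝒰 : Ultrafilter ℕ} {O : Set ℂ} {W : ℂ → ℂ} (hW : ContinuousOn W O)
    {V : ℕ → ℂ → ℂ} {f : ℂ → ℂ} (hf : Differentiable ℂ f)
    (hV : ∀ K : Set ℂ, IsCompact K → K ⊆ O → ∀ ε : ℝ, 0 < ε → ∀ᶠ n in (𝒰 : Filter ℕ),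
      ContinuousOn (V n) K ∧ ∀ w ∈ K, dist (V n w) (W w) ≤ ε)
    (hE : ∀ ε : ℝ, 0 < ε → ∀ R : ℝ, 0 < R → ∀ θ : ℂ → ℂ, Test (ball 0 R) θ → tsupport θ ⊆ O →
      ∀ᶠ n in (𝒰 : Filter ℕ), (∀ z ∈ tsupport θ, V n z ∈ ball (0 : ℂ) R) →
        ∀ a b : ℝ, (∀ z, ‖fderiv ℝ θ z‖ ≤ a) → (∀ z ∈ ball (0 : ℂ) R, ‖fderiv ℝ f z‖ ≤ b) →
          ‖∫ z, f (V n z) * L 1 Complex.I θ z‖ ≤ ε * a * b) :
    WeakHarm O fun w => f (W w) := by
  intro θ hθ
  have hK : IsCompact (tsupport θ) := hθ.cs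
  have hd1 : ContDiff ℝ 1 (fderiv ℝ θ) := hθ.cd.fderiv_right (by norm_num)
  have hLc : Continuous (L 1 Complex.I θ) := by
    have h1 : ∀ e : ℂ, Continuous fun x => fderiv ℝ (fun y => fderiv ℝ θ y e) x e := fun e =>
      ((hd1.clm_apply contDiff_const).continuous_fderiv (by norm_num)).clm_apply continuous_const
    exact (h1 1).add (h1 Complex.I)
  have hL0 : ∀ x, x ∉ tsupport θ → L 1 Complex.I θ x = 0 := by
    intro x hx
    have h0 : θ =ᶠ[𝓝 x] fun _ => 0 := notMem_tsupport_iff_eventuallyEq.1 hx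
    have h1 : ∀ e : ℂ, (fun y => fderiv ℝ θ y e) =ᶠ[𝓝 x] fun _ => 0 := fun e => by
      filter_upwards [h0.fderiv (𝕜 := ℝ)] with y hy
      rw [hy]; simp
    unfold L
    rw [(h1 1).fderiv_eq, (h1 Complex.I).fderiv_eq]
    simp
  have hint : ∀ g : ℂ → ℂ, ContinuousOn g (tsupport θ) →
      Integrable (fun z => g z * L 1 Complex.I θ z) := fun g hg =>
    ((hg.mul hLc.continuousOn).integrableOn_compact hK).integrable_of_forall_notMem_eq_zero
      (fun x hx => by simp [hL0 x hx])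
  have hLi : Integrable (fun z => ‖L 1 Complex.I θ z‖) := by
    have := (hint (fun _ => 1) continuousOn_const).norm
    simpa using this
  have hWK : ContinuousOn W (tsupport θ) := hW.mono hθ.sub
  obtain ⟨R1, hR1⟩ := hK.isBounded.subset_ball 0
  obtain ⟨R2, hR2⟩ := (hK.image_of_continuousOn hWK).isBounded.subset_ball 0
  set R : ℝ := |R1| + |R2| + 1 with hRdef
  have hR : 0 < R := by positivity
  have hKR : tsupport θ ⊆ ball 0 R := hR1.trans (ball_subset_ball (by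
    have := le_abs_self R1
    have := abs_nonneg R2
    linarith))
  have hWR : ∀ w ∈ tsupport θ, ‖W w‖ + 1 < R := fun w hw => by
    have h1 := mem_ball_zero_iff.1 (hR2 (mem_image_of_mem W hw))
    have := le_abs_self R2
    have := abs_nonneg R1
    linarith
  obtain ⟨a, ha⟩ := hd1.continuous.bounded_above_of_compact_support (hθ.cs.fderiv ℝ)
  have hfr : ContDiff ℝ 1 f := (hf.contDiff (n := 1)).restrict_scalars ℝ
  obtain ⟨b, hb⟩ := (isCompact_closedBall (0 : ℂ) R).exists_bound_of_continuousOn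
    (hfr.continuous_fderiv (by norm_num)).continuousOn
  have hb' : ∀ z ∈ ball (0 : ℂ) R, ‖fderiv ℝ f z‖ ≤ b := fun z hz => hb z (ball_subset_closedBall hz)
  have hb0 : 0 ≤ b := (norm_nonneg _).trans (hb' 0 (mem_ball_self hR))
  have key : ∀ ε : ℝ, 0 < ε → ε ≤ 1 → ‖∫ w, f (W w) * L 1 Complex.I θ w‖ ≤
      ε * (a * b + b * ∫ z, ‖L 1 Complex.I θ z‖) := by
    intro ε hε hε1
    obtain ⟨n, ⟨hn1, hn2⟩, hn3⟩ :=
      ((hV _ hK hθ.sub ε hε).and (hE ε hε R hR θ ⟨hθ.cd, hθ.cs, hKR⟩ hθ.sub)).exists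
    have hVR : ∀ z ∈ tsupport θ, V n z ∈ ball (0 : ℂ) R := fun z hz => by
      rw [mem_ball_zero_iff]
      have h1 := hn2 z hz
      have h2 := hWR z hz
      rw [dist_eq_norm] at h1
      have h3 : ‖V n z‖ ≤ ‖V n z - W z‖ + ‖W z‖ := norm_le_norm_sub_add _ _
      linarith
    have h4 := hn3 hVR a b ha hb'
    have i1 := hint (fun w => f (W w)) (hf.continuous.comp_continuousOn hWK)
    have i2 := hint (fun w => f (V n w)) (hf.continuous.comp_continuousOn hn1)
    have h5 : ‖∫ w, (f (W w) * L 1 Complex.I θ w - f (V n w) * L 1 Complex.I θ w)‖ ≤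
        ∫ z, (b * ε) * ‖L 1 Complex.I θ z‖ := by
      apply norm_integral_le_of_norm_le (hLi.const_mul _)
      refine Filter.Eventually.of_forall fun z => ?_
      by_cases hz : z ∈ tsupport θ
      · rw [← sub_mul, norm_mul]
        apply mul_le_mul_of_nonneg_right _ (norm_nonneg _)
        have hWz : W z ∈ ball (0 : ℂ) R := by
          rw [mem_ball_zero_iff]
          have := hWR z hz
          linarith
        have h6 := (convex_ball (0 : ℂ) R).norm_image_sub_le_of_norm_fderiv_le (𝕜 := ℝ)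
          (fun x _ => (hfr.differentiable (by norm_num)) x) hb' (hVR z hz) hWz
        refine h6.trans (mul_le_mul_of_nonneg_left ?_ hb0)
        rw [← dist_eq_norm, dist_comm]
        exact hn2 z hz
      · simp [hL0 z hz]
    rw [integral_sub i1 i2, integral_const_mul] at h5
    have h7 := norm_le_norm_sub_add (∫ w, f (W w) * L 1 Complex.I θ w)
      (∫ w, f (V n w) * L 1 Complex.I θ w)
    nlinarith
  apply norm_le_zero_iff.1
  have ht : Tendsto (fun ε : ℝ => ε * (a * b + b * ∫ z, ‖L 1 Complex.I θ z‖)) (𝓝[>] 0) (𝓝 0) := by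
    have : Tendsto (fun ε : ℝ => ε * (a * b + b * ∫ z, ‖L 1 Complex.I θ z‖)) (𝓝 0)
        (𝓝 (0 * (a * b + b * ∫ z, ‖L 1 Complex.I θ z‖))) := tendsto_id.mul_const _
    rw [zero_mul] at this
    exact this.mono_left nhdsWithin_le_nhds
  refine ge_of_tendsto ht ?_
  filter_upwards [Ioc_mem_nhdsGT (zero_lt_one' ℝ)] with ε hε
  exact key ε hε.1 hε.2

theorem continuous_aff (y₀ : ℂ) (A : ℂ ≃L[ℝ] ℂ) (s : ℝ) : Continuous (aff y₀ A s) := by
  unfold aff; fun_prop

theorem continuous_affi (y₀ : ℂ) (A : ℂ ≃L[ℝ] ℂ) (s : ℝ) : Continuous (affi y₀ A s) := by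
  unfold affi; fun_prop

theorem tblock_of (hTA : TAStmt) : TStmt := by
  intro G Z _ _ _ _ _ hcont hCR hcoc F hF
  obtain ⟨H, hPG⟩ := pg_phi hcont hCR hF
  have hne : F.target.Nonempty := by
    obtain ⟨x, hx⟩ := hF.ne
    exact ⟨F x, F.map_source hx⟩
  obtain ⟨y₀, hy₀, A, hTA'⟩ := hTA G H F.target (phi hcont F) hne hPG
  obtain ⟨𝒰, η, g, s, hs, hs0, hA⟩ := exists_approx hCR hcoc hF hy₀ A
  obtain ⟨h, κ, hL⟩ := hA.lim
  refine ⟨η, κ, hL.emb, hL.range_eq, fun γ => ⟨fun w => h (γ • κ w), fun z hz => hL.kh _ hz, ?_⟩⟩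
  have hγκ : Continuous fun w => γ • κ w := (hcont γ).comp hL.emb.continuous
  have hO : IsOpen {w : ℂ | γ • κ w ≠ η} := isOpen_ne_fun hγκ continuous_const
  have hW : ContinuousOn (fun w => h (γ • κ w)) {w : ℂ | γ • κ w ≠ η} :=
    hL.cont.comp hγκ.continuousOn fun w hw => hw
  have key : ∀ K : Set ℂ, IsCompact K → K ⊆ {w : ℂ | γ • κ w ≠ η} → ∀ ε : ℝ, 0 < ε →
      ∀ᶠ n in (𝒰 : Filter ℕ), ∀ w ∈ K,
        affi y₀ A (s n) w ∈ (phi hcont F (g n * γ * (g n)⁻¹)).source ∧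
        dist (aff y₀ A (s n) (phi hcont F (g n * γ * (g n)⁻¹) (affi y₀ A (s n) w)))
          (h (γ • κ w)) ≤ ε := by
    intro K hK hKO ε hε
    obtain ⟨R, hR⟩ := hK.isBounded.exists_norm_le
    filter_upwards [hL.conj hA (hcont γ) hK (fun w hw => hKO hw) hε, hA.tgt R] with n h1 h2 w hw
    obtain ⟨h3, h4⟩ := h1 w hw
    obtain ⟨h5, h6⟩ := h2 w (hR w hw)
    simp only [Set.mem_ofPred_eq, smul_inv_smul] at h3 h4 h5 h6
    have h7 : F (F.symm (affi y₀ A (s n) w)) = affi y₀ A (s n) w := by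
      have := congrArg (affi y₀ A (s n)) h6
      rwa [affi_aff y₀ A (hs n).ne'] at this
    refine ⟨(mem_phi_source hcont F _ _).2 ⟨h7 ▸ F.map_source h5, ?_⟩, ?_⟩
    · simpa only [mul_smul] using h3
    · simpa only [phi_apply, mul_smul] using h4
  have main : ∀ f : ℂ → ℂ, Differentiable ℂ f →
      WeakHarm {w : ℂ | γ • κ w ≠ η} fun w => f (h (γ • κ w)) := by
    intro f hf
    refine weakHarm_of_approx (𝒰 := 𝒰) hW (V := fun n w => aff y₀ A (s n)
      (phi hcont F (g n * γ * (g n)⁻¹) (affi y₀ A (s n) w))) hf ?_ ?_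
    · intro K hK hKO ε hε
      filter_upwards [key K hK hKO ε hε] with n hn
      refine ⟨(continuous_aff y₀ A (s n)).comp_continuousOn
        ((phi hcont F _).continuousOn.comp (continuous_affi y₀ A (s n)).continuousOn
          fun w hw => (hn w hw).1), fun w hw => (hn w hw).2⟩
    · intro ε hε R hR θ hθ hθO
      obtain ⟨ρ₀, hρ₀, hρ⟩ := hTA' ε hε R hR
      filter_upwards [key _ hθ.cs hθO 1 one_pos, hs0.eventually (gt_mem_nhds hρ₀)] with n h1 h2 h3
      exact hρ (s n) (hs n) h2 _ f θ hf hθ fun z hz => ⟨(h1 z hz).1, h3 z hz⟩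
  exact anal_of_weakHarm hO hW (main id differentiable_id)
    (main (fun z => z ^ 2) (differentiable_id.pow 2))

/-- **Block [T].** -/
theorem tblock : TStmt := tblock_of ta_final

end Crest.Agent.R193.T
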