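import Crest.Agent.R193.TAE

/-! Row 193, TA: blow-up of the invariant field at a Lebesgue point. -/

set_option autoImplicit false

open MeasureTheory Set Filter Topology Metric
open scoped ENNReal

namespace Crest.Agent.R193.TA

variable {G : Type} [Group G]

theorem pb_set {O K B : Set ℂ} (hK : MeasurableSet K) (hB : MeasurableSet B) (hKO : K ⊆ O)
    {τ : ℂ → ℂ} {D : ℂ → ℂ →L[ℝ] ℂ} {c : ℝ} (h : PB O τ D c) (hm : MapsTo τ K B) :
    ∫⁻ x in K, ‖D x‖ₑ ^ 2 ≤ ENNReal.ofReal c * volume B := by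
  have h1 := (h.mono hKO) (B.indicator 1) (measurable_one.indicator hB)
  rw [lintegral_indicator_one hB] at h1
  refine le_trans (le_of_eq ?_) h1
  refine setLIntegral_congr_fun hK fun x hx => ?_
  simp [hm hx]

theorem meas_clm_comp {E : Type} [NormedAddCommGroup E] [NormedSpace ℝ E] [FiniteDimensional ℝ E]
    {A : ℂ → ℂ →L[ℝ] E} {D : ℂ → ℂ →L[ℝ] ℂ} (hA : Measurable A) (hD : Measurable D) :
    Measurable fun x => (A x).comp (D x) := by
  have hc : Continuous fun p : (ℂ →L[ℝ] E) × (ℂ →L[ℝ] ℂ) => p.1.comp p.2 :=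
    continuous_fst.clm_comp continuous_snd
  have h2 : Measurable fun x => ((A x, D x) : (ℂ →L[ℝ] E) × (ℂ →L[ℝ] ℂ)) := hA.prodMk hD
  have h3 := hc.measurable.comp h2
  simpa only [Function.comp_def] using h3

/-- the basic estimate -/
theorem ta_est (P : PAct G) (hP : P.Nice) {D : G → ℂ → ℂ →L[ℝ] ℂ} {b : ℂ → ℝ × ℝ × ℝ} {C c : ℝ}
    (hc : 0 ≤ c) (hS : ∀ g, Sob (P.S g) (P.τ g) (D g)) (hB : ∀ g, PB (P.S g) (P.τ g) (D g) c)
    (hI : ∀ g, ∀ᵐ x, x ∈ P.S g → (D g⁻¹ (P.τ g x)).comp (D g x) = ContinuousLinearMap.id ℝ ℂ)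
    (hb : Measurable b) (hC : ∀ y, ‖b y‖ ≤ C)
    (hinv : ∀ (g : G) (α β : ℂ → ℂ →L[ℝ] ℝ), Measurable α → Measurable β →
        ∫ x in P.S g, qf (b x) (cv ((α (P.τ g x)).comp (D g x))) (cv ((β (P.τ g x)).comp (D g x))) =
          ∫ y in P.S g⁻¹, qf (b y) (cv (α y)) (cv (β y)))
    {b0 : ℝ × ℝ × ℝ} {v₁ v₂ : ℂ}
    (hb0 : ∀ α β : ℂ →L[ℝ] ℝ, qf b0 (cv α) (cv β) = α v₁ * β v₁ + α v₂ * β v₂)
    (g : G) {U Ψ : ℂ → ℝ} (hU : ContDiff ℝ 2 U) (hL : ∀ y, L2 v₁ v₂ U y = 0) (hΨ : ContDiff ℝ 2 Ψ)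
    (hΨc : HasCompactSupport Ψ) (hΨs : tsupport Ψ ⊆ P.S g) {B : Set ℂ} (hBm : MeasurableSet B)
    (hBf : volume B < ∞) (hKB : tsupport Ψ ⊆ B) (hτB : MapsTo (P.τ g) (tsupport Ψ) B)
    {a a' : ℝ} (ha : ∀ y, ‖fderiv ℝ Ψ y‖ ≤ a) (ha0 : 0 ≤ a')
    (ha' : ∀ x ∈ tsupport Ψ, ‖fderiv ℝ U (P.τ g x)‖ ≤ a') {l : ℝ} (hl : 0 < l) :
    |∫ x, U (P.τ g x) * L2 v₁ v₂ Ψ x| ≤
      16 * (a * a') * (l⁻¹ * (∫ x in B, ‖b x - b0‖ ^ 2) + l * (c * (volume B).toReal)) := by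
  have hm : ∀ k, MeasurableSet (P.S k) := fun k => (P.isOpen k).measurableSet
  have hU1 : ContDiff ℝ 1 U := hU.of_le (by norm_num)
  have hΨ1 : ContDiff ℝ 1 Ψ := hΨ.of_le (by norm_num)
  have a0 : 0 ≤ a := (norm_nonneg _).trans (ha 0)
  set K := tsupport Ψ with hK
  have hKm : MeasurableSet K := (isClosed_tsupport Ψ).measurableSet
  set K' := P.τ g '' K with hK'
  have hK'c : IsCompact K' := IsCompact.image_of_continuousOn hΨc ((P.cont g).mono hΨs)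
  have hK'S : K' ⊆ P.S g⁻¹ := by
    rintro _ ⟨x, hx, rfl⟩; exact P.inv g x (hΨs hx)
  have s1 := Sob.comp_C1 (P.isOpen g) (hP.meas g) (hS g) hU1
  have s2 := Sob.comp_C1 (P.isOpen g⁻¹) (hP.meas g⁻¹) (hS g⁻¹) hΨ1
  set A : ℂ → ℂ →L[ℝ] ℝ := fun x => (fderiv ℝ U (P.τ g x)).comp (D g x) with hA
  set β : ℂ → ℂ →L[ℝ] ℝ := fun y => (fderiv ℝ Ψ (P.τ g⁻¹ y)).comp (D g⁻¹ y) with hβ
  have hdU : Measurable (fderiv ℝ U) := (hU1.continuous_fderiv one_ne_zero).measurable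
  have hdΨ : Measurable (fderiv ℝ Ψ) := (hΨ1.continuous_fderiv one_ne_zero).measurable
  have hoff : ∀ y ∈ P.S g⁻¹, y ∉ K' → P.τ g⁻¹ y ∉ K := by
    intro y hy hyK h'
    exact hyK ⟨_, h', by simpa using P.left g⁻¹ hy⟩
  have e1 : ∫ x in P.S g, qf (b x) (cv (A x)) (cv (fderiv ℝ Ψ x)) =
      ∫ y in P.S g⁻¹, qf (b y) (cv (fderiv ℝ U y)) (cv (β y)) := by
    rw [← hinv g (fderiv ℝ U) β hdU s2.meas]
    refine setIntegral_congr_ae (hm g) ?_
    filter_upwards [hI g] with x hx hxS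
    simp only [hβ, hA, ContinuousLinearMap.comp_assoc, hx hxS, P.left g hxS,
      ContinuousLinearMap.comp_id]
  have e2 : ∫ x in P.S g, qf b0 (cv (A x)) (cv (fderiv ℝ Ψ x)) =
      -∫ x, U (P.τ g x) * L2 v₁ v₂ Ψ x := by
    simp only [hb0]
    exact I0_eq s1 hΨ hΨc hΨs v₁ v₂
  have e3 : ∫ y in P.S g⁻¹, qf b0 (cv (fderiv ℝ U y)) (cv (β y)) = 0 := by
    simp only [hb0]
    refine J0_eq (P.isOpen g⁻¹) hK'c hK'S s2 (fun y hy hyK => ?_) hU v₁ v₂ hL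
    have := hoff y hy hyK
    exact ⟨image_eq_zero_of_notMem_tsupport this, by
      simp [hβ, fderiv_of_notMem_tsupport ℝ this]⟩
  have r1 := err_bound (hm g) hKm hBm hKB hBf s1.meas hdΨ (hS g).meas (m := a * a')
    (by positivity) hc (fun x _ => by
      by_cases hx : x ∈ K
      · rw [indicator_of_mem hx]
        have h1 : ‖A x‖ ≤ a' * ‖D g x‖ :=
          (ContinuousLinearMap.opNorm_comp_le _ _).trans (by gcongr; exact ha' x hx)
        calc ‖A x‖ * ‖fderiv ℝ Ψ x‖ ≤ (a' * ‖D g x‖) * a := by gcongr; exact ha x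
          _ = _ := by ring
      · rw [indicator_of_notMem hx, fderiv_of_notMem_tsupport ℝ hx]; simp)
    (pb_set hKm hBm hΨs (hB g) hτB) hb hC b0 hl
  have r2 := err_bound (hm g⁻¹) hK'c.measurableSet hBm (by rintro _ ⟨x, hx, rfl⟩; exact hτB hx)
    hBf hdU s2.meas (hS g⁻¹).meas (m := a * a') (by positivity) hc (fun y hy => by
      by_cases hyK : y ∈ K'
      · rw [indicator_of_mem hyK]
        obtain ⟨x, hx, rfl⟩ := hyK
        have h1 : ‖β (P.τ g x)‖ ≤ a * ‖D g⁻¹ (P.τ g x)‖ :=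
          (ContinuousLinearMap.opNorm_comp_le _ _).trans (by gcongr; exact ha _)
        calc ‖fderiv ℝ U (P.τ g x)‖ * ‖β (P.τ g x)‖ ≤ a' * (a * ‖D g⁻¹ (P.τ g x)‖) := by
              gcongr; exact ha' x hx
          _ = _ := by ring
      · rw [indicator_of_notMem hyK]
        simp [hβ, fderiv_of_notMem_tsupport ℝ (hoff y hy hyK)])
    (pb_set hK'c.measurableSet hBm hK'S (hB g⁻¹) (by
      rintro _ ⟨x, hx, rfl⟩
      rw [P.left g (hΨs hx)]; exact hKB hx)) hb hC b0 hl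
  rw [e2] at r1
  rw [e3, ← e1] at r2
  rw [abs_le] at r1 r2 ⊢
  constructor <;> nlinarith [r1.1, r1.2, r2.1, r2.2]

theorem fderiv_aff {φ : ℂ → ℝ} (hφ : Differentiable ℝ φ) (L : ℂ ≃L[ℝ] ℂ) (y0 : ℂ) (ρ : ℝ) (y : ℂ) :
    fderiv ℝ (fun w => φ (ρ⁻¹ • L.symm (w - y0))) y =
      (fderiv ℝ φ (ρ⁻¹ • L.symm (y - y0))).comp (ρ⁻¹ • (L.symm : ℂ →L[ℝ] ℂ)) := by
  have h1 : HasFDerivAt (fun w : ℂ => ρ⁻¹ • L.symm (w - y0)) (ρ⁻¹ • (L.symm : ℂ →L[ℝ] ℂ)) y := by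
    have := ((L.symm : ℂ →L[ℝ] ℂ).hasFDerivAt.comp y ((hasFDerivAt_id y).sub_const y0)).const_smul
      ρ⁻¹
    rw [ContinuousLinearMap.comp_id] at this
    exact this
  exact ((hφ _).hasFDerivAt.comp y h1).fderiv

theorem L2_aff {φ : ℂ → ℝ} (hφ : ContDiff ℝ 2 φ) (L : ℂ ≃L[ℝ] ℂ) (y0 : ℂ) (ρ : ℝ) (y : ℂ) :
    L2 (L 1) (L Complex.I) (fun w => φ (ρ⁻¹ • L.symm (w - y0))) y =
      ρ⁻¹ ^ 2 * lap φ (ρ⁻¹ • L.symm (y - y0)) := by
  have hd : Differentiable ℝ φ := hφ.differentiable (by norm_num)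
  have key : ∀ e : ℂ, fderiv ℝ (fun w => fderiv ℝ (fun w => φ (ρ⁻¹ • L.symm (w - y0))) w (L e)) y
      (L e) = ρ⁻¹ ^ 2 * fderiv ℝ (fun w => fderiv ℝ φ w e) (ρ⁻¹ • L.symm (y - y0)) e := by
    intro e
    have h1 : (fun w => fderiv ℝ (fun w => φ (ρ⁻¹ • L.symm (w - y0))) w (L e)) =
        fun w => (fun z => ρ⁻¹ * fderiv ℝ φ z e) (ρ⁻¹ • L.symm (w - y0)) := by
      funext w; rw [fderiv_aff hd]; simp
    have h2 : Differentiable ℝ fun z => fderiv ℝ φ z e :=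
      (contDiff_dir hφ e).differentiable one_ne_zero
    rw [h1, fderiv_aff (φ := fun z => ρ⁻¹ * fderiv ℝ φ z e) (h2.const_mul _),
      fderiv_const_mul (h2 _)]
    simp; ring
  simp only [L2, lap, key]; ring

theorem lap_off {ψ : ℂ → ℝ} {z : ℂ} (hz : z ∉ tsupport ψ) : lap ψ z = 0 := by
  have : ∀ v : ℂ, z ∉ tsupport fun w => fderiv ℝ ψ w v := fun v h =>
    hz (tsupport_fderiv_apply_subset ℝ v h)
  simp [lap, fderiv_of_notMem_tsupport ℝ (this _)]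

/-- `ta_final` for normalised partial actions -/
theorem ta_nice [Countable G] (P : PAct G) (hP : P.Nice) :
    ∃ y0 ∈ P.S 1, ∃ L : ℂ ≃L[ℝ] ℂ, ∀ ε : ℝ, 0 < ε → ∀ R : ℝ, 0 < R → ∃ ρ0 : ℝ, 0 < ρ0 ∧
      ∀ ρ : ℝ, 0 < ρ → ρ < ρ0 → ∀ (g : G) (u ψ : ℂ → ℝ), ContDiff ℝ 2 u → (∀ z, lap u z = 0) →
        ContDiff ℝ 2 ψ → tsupport ψ ⊆ ball 0 R →
        (∀ z ∈ tsupport ψ, y0 + ρ • L z ∈ P.S g ∧
          ρ⁻¹ • L.symm (P.τ g (y0 + ρ • L z) - y0) ∈ ball (0 : ℂ) R) →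
        ∀ a b : ℝ, (∀ z, ‖fderiv ℝ ψ z‖ ≤ a) → (∀ z ∈ ball (0 : ℂ) R, ‖fderiv ℝ u z‖ ≤ b) →
        |∫ z, u (ρ⁻¹ • L.symm (P.τ g (y0 + ρ • L z) - y0)) * lap ψ z| ≤ ε * a * b := by
  obtain ⟨D, b, C, hS, hB, hI, hb, hC, hpos, hinv⟩ := exists_field P hP
  set c : ℝ := 4 * P.H ^ 2 with hc
  have hc0 : 0 ≤ c := by positivity
  have hC0 : 0 ≤ C := (norm_nonneg _).trans (hC 0)
  have hli : LocallyIntegrable b volume := by
    refine (locallyIntegrable_iff).2 fun K hK => ?_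
    exact Measure.integrableOn_of_bounded (M := C) hK.measure_lt_top.ne hb.aestronglyMeasurable
      (Eventually.of_forall hC)
  have hleb := IsUnifLocDoublingMeasure.ae_tendsto_average_norm_sub (volume : Measure ℂ) hli 1
  obtain ⟨y0, hy0, hy1, hy2⟩ : ∃ y0 ∈ P.S 1, (∀ ξ : ℂ, ξ ≠ 0 → 0 < qf (b y0) ξ ξ) ∧
      Tendsto (fun r : ℝ => ⨍ y in closedBall y0 r, ‖b y - b y0‖) (𝓝[>] 0) (𝓝 0) := by
    have hne : volume (P.S 1) ≠ 0 := ((P.isOpen 1).measure_pos volume P.ne).ne'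
    obtain ⟨y0, hy0, h1, h2⟩ := Measure.exists_mem_of_measure_ne_zero_of_ae hne
      (ae_restrict_of_ae (hpos.and hleb))
    refine ⟨y0, hy0, h1 hy0, h2 (fun _ => y0) (fun r => r) tendsto_id ?_⟩
    filter_upwards [self_mem_nhdsWithin] with r hr
    exact mem_closedBall_self (by rw [one_mul]; exact le_of_lt hr)
  obtain ⟨L, hL⟩ := exists_chol hy1
  refine ⟨y0, hy0, L, fun ε hε R hR => ?_⟩
  set T : ℂ →L[ℝ] ℂ := (L : ℂ →L[ℝ] ℂ) with hT
  set d : ℝ := |LinearMap.det (T : ℂ →ₗ[ℝ] ℂ)| with hd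
  have hd0 : 0 < d := by
    have : LinearMap.det (T : ℂ →ₗ[ℝ] ℂ) ≠ 0 := (LinearEquiv.isUnit_det' L.toLinearEquiv).ne_zero
    exact abs_pos.2 this
  set n1 : ℝ := ‖T‖ + 1 with hn1
  set n2 : ℝ := ‖(L.symm : ℂ →L[ℝ] ℂ)‖ + 1 with hn2
  have hn1' : 0 < n1 := by positivity
  have hn2' : 0 < n2 := by positivity
  set κ : ℝ := 16 * n2 ^ 2 * (Real.pi * (n1 * R) ^ 2) / d with hκ
  have hκ0 : 0 < κ := by positivity
  set l : ℝ := ε / (2 * κ * (c + 1)) with hl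
  have hl0 : 0 < l := by positivity
  have hev := hy2.eventually (gt_mem_nhds (show (0 : ℝ) < ε * l / (2 * κ * (2 * C + 1)) by
    positivity))
  obtain ⟨r0, hr0, hr⟩ := (nhdsGT_basis (0 : ℝ)).eventually_iff.1 hev
  refine ⟨r0 / (n1 * R), by positivity, fun ρ hρ hρ0 g u ψ hu hlu hψ hψs hmem a a' ha ha' => ?_⟩
  set r : ℝ := ρ * (n1 * R) with hrdef
  have hrpos : 0 < r := by positivity
  have hrlt : r < r0 := by rwa [lt_div_iff₀ (by positivity)] at hρ0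
  have a0 : 0 ≤ a := (norm_nonneg _).trans (ha 0)
  have a'0 : 0 ≤ a' := (norm_nonneg _).trans (ha' 0 (mem_ball_self hR))
  let ai : ℂ → ℂ := fun y => ρ⁻¹ • L.symm (y - y0)
  have hai : ∀ y, y0 + ρ • L (ai y) = y := fun y => by
    simp only [ai, map_smul, ContinuousLinearEquiv.apply_symm_apply, smul_smul,
      mul_inv_cancel₀ hρ.ne', one_smul, add_sub_cancel]
  have hai' : ∀ z, ai (y0 + ρ • L z) = z := fun z => by
    simp only [ai, add_sub_cancel_left, map_smul, ContinuousLinearEquiv.symm_apply_apply, smul_smul,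
      inv_mul_cancel₀ hρ.ne', one_smul]
  have hcai : ContDiff ℝ 2 ai :=
    ((L.symm : ℂ →L[ℝ] ℂ).contDiff.comp (contDiff_id.sub contDiff_const)).const_smul ρ⁻¹
  have hball : ∀ y, ai y ∈ ball (0 : ℂ) R → y ∈ closedBall y0 r := by
    intro y hy
    rw [mem_ball_zero_iff] at hy
    have e0 : y - y0 = ρ • L (ai y) := by
      have := hai y
      rw [sub_eq_iff_eq_add, add_comm]; exact this.symm
    rw [mem_closedBall, dist_eq_norm, e0, norm_smul, Real.norm_eq_abs, abs_of_pos hρ]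
    have h1 : ‖L (ai y)‖ ≤ ‖T‖ * ‖ai y‖ := T.le_opNorm _
    have h2 : ‖T‖ * ‖ai y‖ ≤ n1 * R := by
      have := norm_nonneg T
      gcongr; linarith
    exact mul_le_mul_of_nonneg_left (h1.trans h2) hρ.le
  set U : ℂ → ℝ := fun y => u (ai y) with hU
  set Ψ : ℂ → ℝ := fun y => ψ (ai y) with hΨ
  have hts : tsupport Ψ ⊆ ai ⁻¹' tsupport ψ :=
    closure_minimal (fun y hy => subset_tsupport ψ hy)
      ((isClosed_tsupport ψ).preimage hcai.continuous)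
  have hKB : tsupport Ψ ⊆ closedBall y0 r := fun y hy => hball y (hψs (hts hy))
  have hnrm : ‖ρ⁻¹ • (L.symm : ℂ →L[ℝ] ℂ)‖ ≤ ρ⁻¹ * n2 := by
    rw [norm_smul, Real.norm_eq_abs, abs_of_pos (inv_pos.2 hρ)]
    gcongr; linarith
  have hτ : ∀ x ∈ tsupport Ψ, ai (P.τ g x) ∈ ball (0 : ℂ) R := fun x hx => by
    have := (hmem _ (hts hx)).2
    rwa [hai] at this
  have est := ta_est P hP hc0 hS hB hI hb hC hinv hL g (U := U) (Ψ := Ψ) (hu.comp hcai)
    (fun y => by rw [hU, L2_aff hu, hlu, mul_zero]) (hψ.comp hcai)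
    ((isCompact_closedBall y0 r).of_isClosed_subset (isClosed_tsupport _) hKB)
    (fun y hy => by have := (hmem _ (hts hy)).1; rwa [hai] at this)
    measurableSet_closedBall (isCompact_closedBall y0 r).measure_lt_top hKB
    (fun x hx => hball _ (hτ x hx)) (a := a * (ρ⁻¹ * n2)) (a' := a' * (ρ⁻¹ * n2))
    (fun y => by
      rw [hΨ, fderiv_aff (hψ.differentiable (by norm_num))]
      exact (ContinuousLinearMap.opNorm_comp_le _ _).trans (by gcongr; exact ha _))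
    (by positivity)
    (fun x hx => by
      rw [hU, fderiv_aff (hu.differentiable (by norm_num))]
      exact (ContinuousLinearMap.opNorm_comp_le _ _).trans (by gcongr; exact ha' _ (hτ x hx)))
    hl0
  -- change of variables
  have cv1 : ∫ x, U (P.τ g x) * L2 (L 1) (L Complex.I) Ψ x =
      d * ∫ z, u (ρ⁻¹ • L.symm (P.τ g (y0 + ρ • L z) - y0)) * lap ψ z := by
    have hinj : Function.Injective (ρ • T) := by
      intro z w h
      have h' : ρ • L z = ρ • L w := h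
      exact L.injective (smul_right_injective ℂ hρ.ne' h')
    rw [← integral_add_left_eq_self _ y0, TABL_int (ρ • T) hinj]
    have hdet : |LinearMap.det ((ρ • T : ℂ →L[ℝ] ℂ) : ℂ →ₗ[ℝ] ℂ)| = ρ ^ 2 * d := by
      rw [ContinuousLinearMap.coe_smul, LinearMap.det_smul, Complex.finrank_real_complex, abs_mul,
        abs_of_pos (by positivity : 0 < ρ ^ 2)]
    rw [hdet]
    have e : (fun z => U (P.τ g (y0 + (ρ • T) z)) * L2 (L 1) (L Complex.I) Ψ (y0 + (ρ • T) z)) =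
        fun z => ρ⁻¹ ^ 2 * (u (ρ⁻¹ • L.symm (P.τ g (y0 + ρ • L z) - y0)) * lap ψ z) := by
      funext z
      have h1 : y0 + (ρ • T) z = y0 + ρ • L z := rfl
      rw [h1, hΨ, L2_aff hψ]
      have h2 := hai' z
      simp only [ai] at h2
      rw [h2]; simp only [hU, ai]; ring
    rw [e, integral_const_mul]
    field_simp
  have hvol : (volume (closedBall y0 r)).toReal = Real.pi * r ^ 2 := by
    rw [Complex.volume_closedBall]
    simp [ENNReal.toReal_ofReal hrpos.le]; ring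
  have hav := hr ⟨hrpos, hrlt⟩
  have hint : ∫ x in closedBall y0 r, ‖b x - b y0‖ ^ 2 ≤
      2 * C * (Real.pi * r ^ 2 * (ε * l / (2 * κ * (2 * C + 1)))) := by
    have iB : IntegrableOn (fun x => ‖b x - b y0‖) (closedBall y0 r) :=
      ((hli.integrableOn_isCompact (isCompact_closedBall y0 r)).sub
        (integrableOn_const (isCompact_closedBall y0 r).measure_lt_top.ne)).norm
    have h1 : ∫ x in closedBall y0 r, ‖b x - b y0‖ ^ 2 ≤
        ∫ x in closedBall y0 r, 2 * C * ‖b x - b y0‖ := by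
      refine integral_mono_of_nonneg (Eventually.of_forall fun x => by positivity)
        (iB.const_mul _) (Eventually.of_forall fun x => ?_)
      have h2 : ‖b x - b y0‖ ≤ 2 * C := (norm_sub_le _ _).trans (by linarith [hC x, hC y0])
      have h3 := norm_nonneg (b x - b y0)
      show ‖b x - b y0‖ ^ 2 ≤ 2 * C * ‖b x - b y0‖
      nlinarith
    rw [integral_const_mul] at h1
    refine h1.trans ?_
    have h4 : ∫ x in closedBall y0 r, ‖b x - b y0‖ =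
        Real.pi * r ^ 2 * ⨍ y in closedBall y0 r, ‖b y - b y0‖ := by
      rw [setAverage_eq, Measure.real, hvol, smul_eq_mul]
      field_simp
    rw [h4]
    gcongr
  rw [cv1, hvol, abs_mul, abs_of_pos hd0] at est
  have hfin : 16 * (a * (ρ⁻¹ * n2) * (a' * (ρ⁻¹ * n2))) *
      (l⁻¹ * (∫ x in closedBall y0 r, ‖b x - b y0‖ ^ 2) + l * (c * (Real.pi * r ^ 2))) ≤
      d * (ε * a * a') := by
    calc _ ≤ 16 * (a * (ρ⁻¹ * n2) * (a' * (ρ⁻¹ * n2))) *
        (l⁻¹ * (2 * C * (Real.pi * r ^ 2 * (ε * l / (2 * κ * (2 * C + 1))))) +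
          l * (c * (Real.pi * r ^ 2))) := by gcongr
      _ = d * (a * a') * (ε * (2 * C / (2 * (2 * C + 1))) + ε * (c / (2 * (c + 1)))) := by
        rw [hl, hκ, hrdef]; field_simp
      _ ≤ d * (a * a') * (ε * (1 / 2) + ε * (1 / 2)) := by
        have q1 : 2 * C / (2 * (2 * C + 1)) ≤ 1 / 2 := by
          rw [div_le_div_iff₀ (by positivity) (by positivity)]; linarith
        have q2 : c / (2 * (c + 1)) ≤ 1 / 2 := by
          rw [div_le_div_iff₀ (by positivity) (by positivity)]; linarith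
        have q3 := add_le_add (mul_le_mul_of_nonneg_left q1 hε.le)
          (mul_le_mul_of_nonneg_left q2 hε.le)
        exact mul_le_mul_of_nonneg_left q3 (by positivity)
      _ = _ := by ring
  exact le_of_mul_le_mul_left (est.trans hfin) hd0

/-- normalisation of a partial action -/
noncomputable def PAct.norm (P : PAct G) : PAct G where
  S := P.S
  τ g := (P.S g).indicator (P.τ g)
  H := P.H
  Hpos := P.Hpos
  isOpen := P.isOpen
  cont g := (P.cont g).congr fun x hx => indicator_of_mem hx _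
  ne := P.ne
  bdd := P.bdd
  sub := P.sub
  one x hx := by rw [indicator_of_mem hx, P.one x hx]
  mul g h x hx hx' := by
    rw [indicator_of_mem hx] at hx' ⊢
    have := P.mul g h x hx hx'
    exact ⟨this.1, by rw [indicator_of_mem this.1, indicator_of_mem hx', this.2]⟩
  inv g x hx := by rw [indicator_of_mem hx]; exact P.inv g x hx
  dil g x hx := by
    obtain ⟨r, hr, h⟩ := P.dil g x hx
    obtain ⟨s, hs, hsub⟩ := Metric.isOpen_iff.1 (P.isOpen g) x hx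
    refine ⟨min r s, lt_min hr hs, fun a ha b hb c hc habc => ?_⟩
    have h1 := ball_subset_ball (x := x) (min_le_left r s)
    have h2 := (ball_subset_ball (x := x) (min_le_right r s)).trans hsub
    rw [indicator_of_mem (h2 ha), indicator_of_mem (h2 hb), indicator_of_mem (h2 hc)]
    exact h a (h1 ha) b (h1 hb) c (h1 hc) habc

theorem PAct.norm_nice (P : PAct G) : P.norm.Nice where
  meas g := by
    classical
    have := ContinuousOn.measurable_piecewise (f := P.τ g) (g := fun _ : ℂ => (0 : ℂ)) (P.cont g)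
      continuousOn_const (P.isOpen g).measurableSet
    have e : P.norm.τ g = (P.S g).piecewise (P.τ g) fun _ => 0 := by
      funext x
      by_cases hx : x ∈ P.S g <;> simp [PAct.norm, hx]
    rwa [e]
  bd g := by
    obtain ⟨R, hR⟩ := P.bdd.exists_norm_le
    refine ⟨max R 0, fun x => ?_⟩
    by_cases hx : x ∈ P.S g
    · have : P.norm.τ g x = P.τ g x := indicator_of_mem hx _
      rw [this]
      exact (hR _ (P.sub _ (P.inv g x hx))).trans (le_max_left _ _)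
    · have : P.norm.τ g x = 0 := indicator_of_notMem hx _
      rw [this]; simp

/-- Output of the analysis block. -/
theorem ta_final [Countable G] (P : PAct G) :
    ∃ y0 ∈ P.S 1, ∃ L : ℂ ≃L[ℝ] ℂ, ∀ ε : ℝ, 0 < ε → ∀ R : ℝ, 0 < R → ∃ ρ0 : ℝ, 0 < ρ0 ∧
      ∀ ρ : ℝ, 0 < ρ → ρ < ρ0 → ∀ (g : G) (u ψ : ℂ → ℝ), ContDiff ℝ 2 u → (∀ z, lap u z = 0) →
        ContDiff ℝ 2 ψ → tsupport ψ ⊆ ball 0 R →
        (∀ z ∈ tsupport ψ, y0 + ρ • L z ∈ P.S g ∧
          ρ⁻¹ • L.symm (P.τ g (y0 + ρ • L z) - y0) ∈ ball (0 : ℂ) R) →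
        ∀ a b : ℝ, (∀ z, ‖fderiv ℝ ψ z‖ ≤ a) → (∀ z ∈ ball (0 : ℂ) R, ‖fderiv ℝ u z‖ ≤ b) →
        |∫ z, u (ρ⁻¹ • L.symm (P.τ g (y0 + ρ • L z) - y0)) * lap ψ z| ≤ ε * a * b := by
  obtain ⟨y0, hy0, L, h⟩ := ta_nice P.norm P.norm_nice
  refine ⟨y0, hy0, L, fun ε hε R hR => ?_⟩
  obtain ⟨ρ0, hρ0, h⟩ := h ε hε R hR
  refine ⟨ρ0, hρ0, fun ρ h1 h2 g u ψ hu hl hψ hs hm a b ha hb => ?_⟩
  have e : ∀ z ∈ tsupport ψ, P.norm.τ g (y0 + ρ • L z) = P.τ g (y0 + ρ • L z) := fun z hz =>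
    indicator_of_mem (hm z hz).1 _
  have := h ρ h1 h2 g u ψ hu hl hψ hs (fun z hz => ⟨(hm z hz).1, by rw [e z hz]; exact (hm z hz).2⟩)
    a b ha hb
  refine le_trans (le_of_eq ?_) this
  congr 1
  refine integral_congr_ae (Eventually.of_forall fun z => ?_)
  by_cases hz : z ∈ tsupport ψ
  · simp only [e z hz]
  · simp only [lap_off hz, mul_zero]

end Crest.Agent.R193.TA
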