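import Crest.Agent.R193.TADefs

/-! Row 193, TA: the Gaussian Binet-Legendre form. -/

set_option autoImplicit false

open MeasureTheory Set Filter Topology Metric
open scoped ENNReal

namespace Crest.Agent.R193.TA

theorem TABL_lin {E : Type} [NormedAddCommGroup E] [NormedSpace ℝ E] (α : ℂ →L[ℝ] E) (z : ℂ) :
    α z = z.re • α 1 + z.im • α Complex.I := by
  have : z = z.re • (1 : ℂ) + z.im • Complex.I := by
    apply Complex.ext <;> simp
  conv_lhs => rw [this]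
  rw [map_add, map_smul, map_smul]

theorem TABL_det (T : ℂ →L[ℝ] ℂ) : LinearMap.det (T : ℂ →ₗ[ℝ] ℂ) =
    (T 1).re * (T Complex.I).im - (T Complex.I).re * (T 1).im := by
  rw [← LinearMap.det_toMatrix Complex.basisOneI, Matrix.det_fin_two]
  simp [LinearMap.toMatrix_apply]

theorem TABL_int (T : ℂ →L[ℝ] ℂ) (hT : Function.Injective T) (F : ℂ → ℝ) :
    ∫ ζ, F ζ = |LinearMap.det (T : ℂ →ₗ[ℝ] ℂ)| * ∫ ζ, F (T ζ) := by
  have hs : Function.Surjective T :=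
    (LinearMap.injective_iff_surjective (f := (T : ℂ →ₗ[ℝ] ℂ))).1 hT
  have h := integral_image_eq_integral_abs_det_fderiv_smul (volume : Measure ℂ)
    (s := univ) (f := T) (f' := fun _ => T) MeasurableSet.univ
    (fun x _ => T.hasFDerivWithinAt) hT.injOn F
  rw [image_univ, hs.range_eq, Measure.restrict_univ] at h
  rw [h, ← integral_const_mul]
  rfl

theorem cv_comp (α : ℂ →L[ℝ] ℝ) (M : ℂ →L[ℝ] ℂ) : cv (α.comp M) = tr M (cv α) := by
  have key : ∀ v : ℂ, inner ℝ v (tr M (cv α)) = α (M v) := by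
    intro v
    unfold tr
    rw [ContinuousLinearMap.adjoint_inner_right, Complex.inner, TABL_lin α (M v)]
    simp [cv]
    ring
  apply Complex.ext
  · have := key 1
    rw [Complex.inner] at this
    simpa [cv] using this.symm
  · have := key Complex.I
    rw [Complex.inner] at this
    simpa [cv] using this.symm

theorem norm_cv_le (α : ℂ →L[ℝ] ℝ) : ‖cv α‖ ≤ 2 * ‖α‖ := by
  have h1 : |α 1| ≤ ‖α‖ := by simpa using α.le_opNorm 1
  have h2 : |α Complex.I| ≤ ‖α‖ := by simpa using α.le_opNorm Complex.I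
  have h3 := Complex.norm_le_abs_re_add_abs_im (cv α)
  simp only [cv] at h3 ⊢
  linarith

theorem abs_qf_le (b : ℝ × ℝ × ℝ) (ξ η : ℂ) : |qf b ξ η| ≤ 4 * ‖b‖ * ‖ξ‖ * ‖η‖ := by
  have hb1 : |b.1| ≤ ‖b‖ := norm_fst_le b
  have hb2 : |b.2.1| ≤ ‖b‖ := (norm_fst_le b.2).trans (norm_snd_le b)
  have hb3 : |b.2.2| ≤ ‖b‖ := (norm_snd_le b.2).trans (norm_snd_le b)
  have x1 := Complex.abs_re_le_norm ξ
  have x2 := Complex.abs_im_le_norm ξ
  have y1 := Complex.abs_re_le_norm η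
  have y2 := Complex.abs_im_le_norm η
  have gen : ∀ c x y : ℝ, |c| ≤ ‖b‖ → |x| ≤ ‖ξ‖ → |y| ≤ ‖η‖ → |c * (x * y)| ≤ ‖b‖ * ‖ξ‖ * ‖η‖ := by
    intro c x y hc hx hy
    rw [abs_mul, abs_mul, mul_assoc]
    gcongr
  have e : qf b ξ η = b.1 * (ξ.re * η.re) + b.2.1 * (ξ.re * η.im) + b.2.1 * (ξ.im * η.re)
      + b.2.2 * (ξ.im * η.im) := by unfold qf; ring
  have g1 := abs_le.1 (gen _ _ _ hb1 x1 y1)
  have g2 := abs_le.1 (gen _ _ _ hb2 x1 y2)
  have g3 := abs_le.1 (gen _ _ _ hb2 x2 y1)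
  have g4 := abs_le.1 (gen _ _ _ hb3 x2 y2)
  rw [e, abs_le]
  constructor <;> linarith [g1.1, g1.2, g2.1, g2.2, g3.1, g3.2, g4.1, g4.2]

/-- `om (T ζ) (T ξ) = det T * om ζ ξ` (expand in the basis `Complex.basisOneI`). -/
theorem om_map (T : ℂ →L[ℝ] ℂ) (ζ ξ : ℂ) :
    om (T ζ) (T ξ) = LinearMap.det (T : ℂ →ₗ[ℝ] ℂ) * om ζ ξ := by
  rw [TABL_det, TABL_lin T ζ, TABL_lin T ξ]
  simp [om]
  ring

/-- Equivariance.  With `d = det T ≠ 0`: `∫ F (T ζ) dζ = |d|⁻¹ ∫ F` for every `F`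
(`Measure.map_linearMap_addHaar_eq_smul_addHaar` + `MeasurableEquiv`/`integral_map_equiv`, or
`integral_comp_...`), `om ζ ξ * om ζ η = d⁻² om (Tζ) (Tξ) * om (Tζ) (Tη)`; so the left side is
`(|d|⁻¹ Z)⁻³ d⁻² |d|⁻¹ I = Z⁻³ I`.  No integrability is needed. -/
theorem BL_comp (ν : ℂ → ℝ) (T : ℂ →L[ℝ] ℂ) (hT : Function.Injective T) (ξ η : ℂ) :
    BL (fun ζ => ν (T ζ)) ξ η = BL ν (T ξ) (T η) := by
  set d := LinearMap.det (T : ℂ →ₗ[ℝ] ℂ) with hd
  have hd0 : d ≠ 0 := by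
    have : IsUnit (T : ℂ →ₗ[ℝ] ℂ) := by
      rw [LinearMap.isUnit_iff_ker_eq_bot, LinearMap.ker_eq_bot]
      exact hT
    exact (LinearMap.isUnit_det _ this).ne_zero
  have ha : |d| ≠ 0 := abs_ne_zero.2 hd0
  have h1 := TABL_int T hT (fun ζ => Real.exp (-ν ζ))
  have h2 := TABL_int T hT (fun ζ => om ζ (T ξ) * om ζ (T η) * Real.exp (-ν ζ))
  have h3 : ∫ ζ, om (T ζ) (T ξ) * om (T ζ) (T η) * Real.exp (-ν (T ζ))
      = |d| ^ 2 * ∫ ζ, om ζ ξ * om ζ η * Real.exp (-ν (T ζ)) := by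
    rw [← integral_const_mul]
    congr 1
    funext ζ
    rw [om_map, om_map, sq_abs]
    ring
  unfold BL
  rw [h1, h2, h3, ← hd, mul_inv]
  field_simp

private theorem bl_gauss {b : ℝ} (hb : 0 < b) :
    Integrable (fun ζ : ℂ => Real.exp (-(b * ‖ζ‖ ^ 2))) := by
  have h := (GaussianFourier.integrable_cexp_neg_mul_sq_norm_add (V := ℂ) (b := (b : ℂ))
    (by simpa using hb) 0 0).norm
  refine h.congr (Eventually.of_forall fun ζ => ?_)
  simp only [zero_mul, add_zero]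
  rw [Complex.norm_exp]
  congr 1
  have : (-(b : ℂ) * (‖ζ‖ : ℂ) ^ 2) = ((-(b * ‖ζ‖ ^ 2) : ℝ) : ℂ) := by push_cast; ring
  rw [this, Complex.ofReal_re]

private theorem bl_gauss2 :
    Integrable (fun ζ : ℂ => ‖ζ‖ ^ 2 * Real.exp (-‖ζ‖ ^ 2)) := by
  refine ((bl_gauss (b := 1 / 2) (by norm_num)).const_mul 2).mono' ?_ (Eventually.of_forall fun ζ => ?_)
  · exact (by fun_prop : Continuous fun ζ : ℂ => ‖ζ‖ ^ 2 * Real.exp (-‖ζ‖ ^ 2)).aestronglyMeasurable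
  · rw [Real.norm_of_nonneg (by positivity)]
    set x := ‖ζ‖ ^ 2 with hx
    have h1 : x / 2 + 1 ≤ Real.exp (x / 2) := Real.add_one_le_exp _
    have h2 : Real.exp (-(1 / 2 * x)) = Real.exp (x / 2) * Real.exp (-x) := by
      rw [← Real.exp_add]; congr 1; ring
    rw [h2]
    have h3 : 0 < Real.exp (-x) := Real.exp_pos _
    nlinarith

private theorem bl_abs_om (ζ ξ : ℂ) : |om ζ ξ| ≤ ‖ζ‖ * ‖ξ‖ := by
  have : om ζ ξ = ((starRingEnd ℂ) ζ * ξ).im := by simp [om]; ring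
  rw [this]
  refine (Complex.abs_im_le_norm _).trans ?_
  rw [norm_mul, Complex.norm_conj]

private theorem bl_ptw {K : ℝ} {ν : ℂ → ℝ} (h : Good K ν) (ξ η ζ : ℂ) :
    ‖om ζ ξ * om ζ η * Real.exp (-ν ζ)‖ ≤ ‖ξ‖ * ‖η‖ * (‖ζ‖ ^ 2 * Real.exp (-‖ζ‖ ^ 2)) := by
  rw [norm_mul, norm_mul, Real.norm_eq_abs, Real.norm_eq_abs, Real.norm_of_nonneg (Real.exp_pos _).le]
  have h1 := bl_abs_om ζ ξ
  have h2 := bl_abs_om ζ η
  have h3 : Real.exp (-ν ζ) ≤ Real.exp (-‖ζ‖ ^ 2) := Real.exp_le_exp.2 (by linarith [(h.2 ζ).1])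
  calc |om ζ ξ| * |om ζ η| * Real.exp (-ν ζ)
      ≤ (‖ζ‖ * ‖ξ‖) * (‖ζ‖ * ‖η‖) * Real.exp (-‖ζ‖ ^ 2) := by gcongr
    _ = _ := by ring

private theorem bl_meas_om (ξ : ℂ) : Measurable fun ζ : ℂ => om ζ ξ := by
  unfold om; fun_prop

private theorem bl_int {K : ℝ} {ν : ℂ → ℝ} (h : Good K ν) (ξ η : ℂ) :
    Integrable (fun ζ : ℂ => om ζ ξ * om ζ η * Real.exp (-ν ζ)) := by
  refine (bl_gauss2.const_mul (‖ξ‖ * ‖η‖)).mono' ?_ (Eventually.of_forall fun ζ => bl_ptw h ξ η ζ)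
  exact (((bl_meas_om ξ).mul (bl_meas_om η)).mul (Real.measurable_exp.comp h.1.neg)).aestronglyMeasurable

private theorem bl_intZ {K : ℝ} {ν : ℂ → ℝ} (h : Good K ν) :
    Integrable (fun ζ : ℂ => Real.exp (-ν ζ)) := by
  refine (bl_gauss (b := 1) one_pos).mono' (Real.measurable_exp.comp h.1.neg).aestronglyMeasurable
    (Eventually.of_forall fun ζ => ?_)
  rw [Real.norm_of_nonneg (Real.exp_pos _).le]
  exact Real.exp_le_exp.2 (by linarith [(h.2 ζ).1])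

private theorem bl_Zpos {K : ℝ} {ν : ℂ → ℝ} (h : Good K ν) : 0 < ∫ ζ, Real.exp (-ν ζ) :=
  integral_exp_pos (bl_intZ h)

/-- Bilinearity (the integrands `ζ.re², ζ.re ζ.im, ζ.im²` times `exp (-ν ζ)` are dominated by
`‖ζ‖² exp (-‖ζ‖²)`, integrable). -/
theorem BL_eq_qf {K : ℝ} {ν : ℂ → ℝ} (h : Good K ν) (ξ η : ℂ) : BL ν ξ η = qf (BLc ν) ξ η := by
  have e : ∀ ζ : ℂ, om ζ ξ * om ζ η * Real.exp (-ν ζ) =
      (ξ.re * η.re) * (om ζ 1 * om ζ 1 * Real.exp (-ν ζ)) +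
      (ξ.re * η.im + ξ.im * η.re) * (om ζ 1 * om ζ Complex.I * Real.exp (-ν ζ)) +
      (ξ.im * η.im) * (om ζ Complex.I * om ζ Complex.I * Real.exp (-ν ζ)) := by
    intro ζ; simp only [om, Complex.one_re, Complex.one_im, Complex.I_re, Complex.I_im]; ring
  have i1 := (bl_int h 1 1).const_mul (ξ.re * η.re)
  have i2 := (bl_int h 1 Complex.I).const_mul (ξ.re * η.im + ξ.im * η.re)
  have i3 := (bl_int h Complex.I Complex.I).const_mul (ξ.im * η.im)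
  have i12 : Integrable fun ζ : ℂ => (ξ.re * η.re) * (om ζ 1 * om ζ 1 * Real.exp (-ν ζ)) +
      (ξ.re * η.im + ξ.im * η.re) * (om ζ 1 * om ζ Complex.I * Real.exp (-ν ζ)) := i1.add i2
  have e2 : ∫ ζ, om ζ ξ * om ζ η * Real.exp (-ν ζ) =
      (ξ.re * η.re) * (∫ ζ, om ζ 1 * om ζ 1 * Real.exp (-ν ζ)) +
      (ξ.re * η.im + ξ.im * η.re) * (∫ ζ, om ζ 1 * om ζ Complex.I * Real.exp (-ν ζ)) +
      (ξ.im * η.im) * (∫ ζ, om ζ Complex.I * om ζ Complex.I * Real.exp (-ν ζ)) := by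
    rw [integral_congr_ae (Eventually.of_forall e), integral_add i12 i3, integral_add i1 i2,
      integral_const_mul, integral_const_mul, integral_const_mul]
  simp only [BL, qf, BLc]
  rw [e2]
  ring

/-- Positivity: `om ζ ξ ^ 2 * exp (-ν ζ)` is `≥ 0`, integrable, and positive off the line
`{ζ | om ζ ξ = 0}` (its support contains a nonempty open set; `integral_pos_iff_support_of_nonneg`). -/
theorem BL_pos {K : ℝ} {ν : ℂ → ℝ} (h : Good K ν) {ξ : ℂ} (hξ : ξ ≠ 0) : 0 < BL ν ξ ξ := by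
  unfold BL
  refine mul_pos (pow_pos (inv_pos.2 (bl_Zpos h)) 3) ?_
  rw [integral_pos_iff_support_of_nonneg (fun ζ => mul_nonneg (mul_self_nonneg _) (Real.exp_pos _).le)
    (bl_int h ξ ξ)]
  have hO : IsOpen {ζ : ℂ | om ζ ξ ≠ 0} := by
    refine isOpen_ne_fun ?_ continuous_const
    unfold om; fun_prop
  have hne : {ζ : ℂ | om ζ ξ ≠ 0}.Nonempty := by
    refine ⟨Complex.I * ξ, ?_⟩
    have : om (Complex.I * ξ) ξ = -Complex.normSq ξ := by
      simp [om, Complex.normSq_apply]; ring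
    simp only [mem_ofPred_eq, this]
    exact neg_ne_zero.2 (Complex.normSq_pos.2 hξ).ne'
  refine lt_of_lt_of_le (hO.measure_pos volume hne) (measure_mono fun ζ hζ => ?_)
  exact mul_ne_zero (mul_ne_zero hζ hζ) (Real.exp_pos _).ne'

/-- Uniform bound: `Z ≥ Z_K = ∫ exp (-K‖ζ‖²) > 0` (note `Good K ν` forces `1 ≤ K`) and
`|∫ om om exp(-ν)| ≤ ∫ ‖ζ‖² exp (-‖ζ‖²)` for `ξ, η ∈ {1, I}`. -/
theorem BLc_bound (K : ℝ) : ∃ C : ℝ, ∀ ν, Good K ν → ‖BLc ν‖ ≤ C := by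
  set Z := ∫ ζ : ℂ, Real.exp (-(K * ‖ζ‖ ^ 2)) with hZ
  set J := ∫ ζ : ℂ, ‖ζ‖ ^ 2 * Real.exp (-‖ζ‖ ^ 2) with hJ
  refine ⟨(Z⁻¹) ^ 3 * J, fun ν h => ?_⟩
  have hK : 0 < K := by
    have := h.2 1
    simp only [norm_one, one_pow, mul_one] at this
    linarith [this.1, this.2]
  have hZpos : 0 < Z := integral_exp_pos (bl_gauss hK)
  have hZle : Z ≤ ∫ ζ, Real.exp (-ν ζ) :=
    integral_mono (bl_gauss hK) (bl_intZ h) fun ζ =>
      Real.exp_le_exp.2 (by linarith [(h.2 ζ).2])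
  have key : ∀ ξ η : ℂ, ‖ξ‖ = 1 → ‖η‖ = 1 → ‖BL ν ξ η‖ ≤ (Z⁻¹) ^ 3 * J := by
    intro ξ η hξ hη
    unfold BL
    rw [norm_mul, Real.norm_of_nonneg (pow_pos (inv_pos.2 (bl_Zpos h)) 3).le]
    have h1 : ‖∫ ζ, om ζ ξ * om ζ η * Real.exp (-ν ζ)‖ ≤ J := by
      refine norm_integral_le_of_norm_le bl_gauss2 (Eventually.of_forall fun ζ => ?_)
      have := bl_ptw h ξ η ζ
      rwa [hξ, hη, one_mul, one_mul] at this
    have h2 : (∫ ζ, Real.exp (-ν ζ))⁻¹ ≤ Z⁻¹ := inv_anti₀ hZpos hZle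
    have h3 : 0 ≤ (∫ ζ, Real.exp (-ν ζ))⁻¹ := (inv_pos.2 (bl_Zpos h)).le
    gcongr
  unfold BLc
  rw [Prod.norm_def, Prod.norm_def]
  exact max_le (key 1 1 norm_one norm_one)
    (max_le (key 1 Complex.I norm_one Complex.norm_I) (key _ _ Complex.norm_I Complex.norm_I))

/-- Measurability in a parameter (`StronglyMeasurable.integral_prod_right'`). -/
theorem measurable_BLc {N : ℂ → ℂ → ℝ} (hN : Measurable (Function.uncurry N)) :
    Measurable fun y => BLc (N y) := by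
  have hE : Measurable fun p : ℂ × ℂ => Real.exp (-N p.1 p.2) :=
    Real.measurable_exp.comp hN.neg
  have hZ : Measurable fun y => ∫ ζ, Real.exp (-N y ζ) :=
    (hE.stronglyMeasurable.integral_prod_right' (ν := volume)).measurable
  have key : ∀ ξ η : ℂ, Measurable fun y => BL (N y) ξ η := by
    intro ξ η
    unfold BL
    refine (hZ.inv.pow_const 3).mul ?_
    have : Measurable fun p : ℂ × ℂ => om p.2 ξ * om p.2 η * Real.exp (-N p.1 p.2) :=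
      (((bl_meas_om ξ).comp measurable_snd).mul ((bl_meas_om η).comp measurable_snd)).mul hE
    exact (this.stronglyMeasurable.integral_prod_right' (ν := volume)).measurable
  unfold BLc
  exact (key 1 1).prodMk ((key 1 Complex.I).prodMk (key _ _))

/-- Cholesky: a positive definite form is a sum of two squares along a basis. -/
theorem exists_chol {b : ℝ × ℝ × ℝ} (hb : ∀ ξ : ℂ, ξ ≠ 0 → 0 < qf b ξ ξ) :
    ∃ L : ℂ ≃L[ℝ] ℂ, ∀ α β : ℂ →L[ℝ] ℝ,
      qf b (cv α) (cv β) = α (L 1) * β (L 1) + α (L Complex.I) * β (L Complex.I) := by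
  obtain ⟨p, q, r⟩ := b
  have hp : 0 < p := by simpa [qf] using hb 1 one_ne_zero
  have hD : 0 < p * r - q ^ 2 := by
    have hne : (⟨-q, p⟩ : ℂ) ≠ 0 := by
      intro h
      have := congrArg Complex.im h
      simp at this
      exact hp.ne' this
    have := hb _ hne
    simp only [qf] at this
    have e : p * (-q * -q) + q * (-q * p + p * -q) + r * (p * p) = p * (p * r - q ^ 2) := by ring
    rw [e] at this
    exact (mul_pos_iff_of_pos_left hp).1 this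
  set a := Real.sqrt p with ha
  have ha0 : 0 < a := Real.sqrt_pos.2 hp
  have ha2 : a * a = p := Real.mul_self_sqrt hp.le
  set c := Real.sqrt ((p * r - q ^ 2) / p) with hc
  have hc0 : 0 < c := Real.sqrt_pos.2 (div_pos hD hp)
  have hc2 : c * c = (p * r - q ^ 2) / p := Real.mul_self_sqrt (div_pos hD hp).le
  let L0 : ℂ →L[ℝ] ℂ := Complex.reCLM.smulRight (⟨a, q / a⟩ : ℂ) + Complex.imCLM.smulRight (⟨0, c⟩ : ℂ)
  have hL1 : L0 1 = ⟨a, q / a⟩ := by simp [L0]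
  have hLI : L0 Complex.I = ⟨0, c⟩ := by simp [L0]
  have hdet : L0.det ≠ 0 := by
    show LinearMap.det (L0 : ℂ →ₗ[ℝ] ℂ) ≠ 0
    rw [TABL_det, hL1, hLI]
    simp [ha0.ne', hc0.ne']
  refine ⟨L0.toContinuousLinearEquivOfDetNeZero hdet, fun α β => ?_⟩
  rw [ContinuousLinearMap.toContinuousLinearEquivOfDetNeZero_apply,
    ContinuousLinearMap.toContinuousLinearEquivOfDetNeZero_apply, hL1, hLI,
    TABL_lin α ⟨a, q / a⟩, TABL_lin β ⟨a, q / a⟩, TABL_lin α ⟨0, c⟩, TABL_lin β ⟨0, c⟩]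
  simp only [qf, cv, smul_eq_mul]
  have e1 : q / a * (q / a) = q ^ 2 / p := by rw [← ha2]; field_simp
  have e2 : a * (q / a) = q := by field_simp
  have e3 : r = q ^ 2 / p + (p * r - q ^ 2) / p := by field_simp; ring
  linear_combination (-(α 1 * β 1)) * ha2
    - (α 1 * β Complex.I + α Complex.I * β 1) * e2
    - (α Complex.I * β Complex.I) * (e1 + hc2 - e3)

end Crest.Agent.R193.TA
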