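import Mathlib

/-! Row 193, block [T], analysis part TA (helper42): definitions.

A countable group acts *partially* on a bounded open subset of the plane by homeomorphisms of
uniformly bounded metric dilatation.  We build an invariant measurable field of quadratic forms
(Sullivan-Tukia, without a.e. differentiability) and blow it up at a Lebesgue point. -/

set_option autoImplicit false

open MeasureTheory Set Filter Topology Metric
open scoped ENNReal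

namespace Crest.Agent.R193.TA

/-- A partial action of `G` on the bounded open set `S 1 ⊆ ℂ`: `τ g : S g → S g⁻¹`
are homeomorphisms with metric dilatation at most `H` at small scales. -/
structure PAct (G : Type) [Group G] where
  S : G → Set ℂ
  τ : G → ℂ → ℂ
  H : ℝ
  Hpos : 0 < H
  isOpen : ∀ g, IsOpen (S g)
  cont : ∀ g, ContinuousOn (τ g) (S g)
  ne : (S 1).Nonempty
  bdd : Bornology.IsBounded (S 1)
  sub : ∀ g, S g ⊆ S 1
  one : ∀ x ∈ S 1, τ 1 x = x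
  mul : ∀ g h x, x ∈ S h → τ h x ∈ S g → x ∈ S (g * h) ∧ τ (g * h) x = τ g (τ h x)
  inv : ∀ g x, x ∈ S g → τ g x ∈ S g⁻¹
  dil : ∀ g, ∀ x ∈ S g, ∃ r : ℝ, 0 < r ∧ ∀ a ∈ ball x r, ∀ b ∈ ball x r, ∀ c ∈ ball x r,
    dist a b ≤ dist a c → dist (τ g a) (τ g b) ≤ H * dist (τ g a) (τ g c)

/-- the Laplacian, written with iterated directional derivatives -/
noncomputable def lap (ψ : ℂ → ℝ) (z : ℂ) : ℝ :=
  fderiv ℝ (fun w => fderiv ℝ ψ w 1) z 1 + fderiv ℝ (fun w => fderiv ℝ ψ w Complex.I) z Complex.I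

/-- `w` is continuous on `O` and has the weak derivative `D ∈ L²_loc(O)`. -/
structure Sob {E : Type} [NormedAddCommGroup E] [NormedSpace ℝ E]
    (O : Set ℂ) (w : ℂ → E) (D : ℂ → ℂ →L[ℝ] E) : Prop where
  cont : ContinuousOn w O
  meas : Measurable D
  l2 : ∀ K, IsCompact K → K ⊆ O → ∫⁻ x in K, ‖D x‖ₑ ^ 2 < ∞
  wd : ∀ ψ : ℂ → ℝ, ContDiff ℝ 1 ψ → HasCompactSupport ψ → tsupport ψ ⊆ O → ∀ v : ℂ,
    ∫ x, fderiv ℝ ψ x v • w x = -∫ x, ψ x • D x v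

/-- `(w, D)` is approximable on compact subsets of `O` by `C¹` functions, uniformly / in `L²`. -/
def Apx {E : Type} [NormedAddCommGroup E] [NormedSpace ℝ E]
    (O : Set ℂ) (w : ℂ → E) (D : ℂ → ℂ →L[ℝ] E) : Prop :=
  ∀ K, IsCompact K → K ⊆ O → ∀ η : ℝ, 0 < η → ∃ w' : ℂ → E, ContDiff ℝ 1 w' ∧
    (∀ x ∈ K, ‖w' x - w x‖ ≤ η) ∧ ∫⁻ x in K, ‖fderiv ℝ w' x - D x‖ₑ ^ 2 ≤ ENNReal.ofReal η

/-- the push-forward of `‖D‖² dx` (on `O`) under `τ` is at most `c` times Lebesgue measure -/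
def PB (O : Set ℂ) (τ : ℂ → ℂ) (D : ℂ → ℂ →L[ℝ] ℂ) (c : ℝ) : Prop :=
  ∀ h : ℂ → ℝ≥0∞, Measurable h →
    ∫⁻ x in O, ‖D x‖ₑ ^ 2 * h (τ x) ≤ ENNReal.ofReal c * ∫⁻ y, h y

/-- A pair of mutually inverse homeomorphisms `τ : O → O'`, `σ : O' → O` between open sets of
finite area, globally measurable and bounded, `τ` of metric dilatation `≤ H` at small scales. -/
structure Pair (O O' : Set ℂ) (τ σ : ℂ → ℂ) (H : ℝ) : Prop where
  Hpos : 0 < H
  oO : IsOpen O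
  oO' : IsOpen O'
  fin : volume O < ∞
  fin' : volume O' < ∞
  mτ : Measurable τ
  mσ : Measurable σ
  bτ : ∃ R : ℝ, ∀ x, ‖τ x‖ ≤ R
  cτ : ContinuousOn τ O
  cσ : ContinuousOn σ O'
  maps : MapsTo τ O O'
  maps' : MapsTo σ O' O
  left : ∀ x ∈ O, σ (τ x) = x
  right : ∀ y ∈ O', τ (σ y) = y
  dil : ∀ x ∈ O, ∃ r : ℝ, 0 < r ∧ ∀ a ∈ ball x r, ∀ b ∈ ball x r, ∀ c ∈ ball x r,
    dist a b ≤ dist a c → dist (τ a) (τ b) ≤ H * dist (τ a) (τ c)

/-- the pulled-back area measure `μ A = vol (τ (A ∩ O))` -/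
noncomputable def pull (O' : Set ℂ) (σ : ℂ → ℂ) : Measure ℂ := (volume.restrict O').map σ

/-- the symmetric bilinear form with coefficients `b = (b11, b12, b22)` -/
def qf (b : ℝ × ℝ × ℝ) (ξ η : ℂ) : ℝ :=
  b.1 * (ξ.re * η.re) + b.2.1 * (ξ.re * η.im + ξ.im * η.re) + b.2.2 * (ξ.im * η.im)

/-- coordinates of a covector -/
noncomputable def cv (α : ℂ →L[ℝ] ℝ) : ℂ := ⟨α 1, α Complex.I⟩

/-- transpose -/
noncomputable def tr (M : ℂ →L[ℝ] ℂ) : ℂ →L[ℝ] ℂ := ContinuousLinearMap.adjoint M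

/-- the symplectic form -/
def om (ζ ξ : ℂ) : ℝ := ζ.re * ξ.im - ζ.im * ξ.re

/-- Gaussian Binet-Legendre form of a function `ν` (think `ν = N²`, `N` a norm) -/
noncomputable def BL (ν : ℂ → ℝ) (ξ η : ℂ) : ℝ :=
  ((∫ ζ, Real.exp (-ν ζ))⁻¹) ^ 3 * ∫ ζ, om ζ ξ * om ζ η * Real.exp (-ν ζ)

/-- its three coefficients -/
noncomputable def BLc (ν : ℂ → ℝ) : ℝ × ℝ × ℝ :=
  (BL ν 1 1, BL ν 1 Complex.I, BL ν Complex.I Complex.I)

/-- `ν` is measurable and comparable to `‖·‖²` -/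
def Good (K : ℝ) (ν : ℂ → ℝ) : Prop :=
  Measurable ν ∧ ∀ ζ, ‖ζ‖ ^ 2 ≤ ν ζ ∧ ν ζ ≤ K * ‖ζ‖ ^ 2

end Crest.Agent.R193.TA
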