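import Crest.Agent.R193.TAF

/-! Row 193, TA: the basic estimate. -/

set_option autoImplicit false

open MeasureTheory Set Filter Topology Metric
open scoped ENNReal Manifold

namespace Crest.Agent.R193.TA

/-- constant coefficient second order operator -/
noncomputable def L2 (v₁ v₂ : ℂ) (φ : ℂ → ℝ) (y : ℂ) : ℝ :=
  fderiv ℝ (fun w => fderiv ℝ φ w v₁) y v₁ + fderiv ℝ (fun w => fderiv ℝ φ w v₂) y v₂

theorem qf_sub (b b' : ℝ × ℝ × ℝ) (ξ η : ℂ) : qf b ξ η - qf b' ξ η = qf (b - b') ξ η := by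
  simp only [qf, Prod.fst_sub, Prod.snd_sub]; ring

theorem abs_qf_cv (b : ℝ × ℝ × ℝ) (α β : ℂ →L[ℝ] ℝ) :
    |qf b (cv α) (cv β)| ≤ 16 * ‖b‖ * (‖α‖ * ‖β‖) := by
  refine (abs_qf_le _ _ _).trans ?_
  have h1 := norm_cv_le α
  have h2 := norm_cv_le β
  calc 4 * ‖b‖ * ‖cv α‖ * ‖cv β‖ ≤ 4 * ‖b‖ * (2 * ‖α‖) * (2 * ‖β‖) := by gcongr
    _ = _ := by ring

theorem err_bound {O K B : Set ℂ} (hO : MeasurableSet O) (hK : MeasurableSet K)
    (hB : MeasurableSet B) (hKB : K ⊆ B) (hBf : volume B < ∞) {A Bt : ℂ → ℂ →L[ℝ] ℝ}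
    (hA : Measurable A) (hBt : Measurable Bt) {Dm : ℂ → ℂ →L[ℝ] ℂ} (hDm : Measurable Dm)
    {m c : ℝ} (hm : 0 ≤ m) (hc : 0 ≤ c)
    (hpt : ∀ x ∈ O, ‖A x‖ * ‖Bt x‖ ≤ K.indicator (fun x => m * ‖Dm x‖) x)
    (hD2 : ∫⁻ x in K, ‖Dm x‖ₑ ^ 2 ≤ ENNReal.ofReal c * volume B)
    {b : ℂ → ℝ × ℝ × ℝ} (hb : Measurable b) {C : ℝ} (hC : ∀ y, ‖b y‖ ≤ C) (b0 : ℝ × ℝ × ℝ)
    {l : ℝ} (hl : 0 < l) :
    |(∫ x in O, qf (b x) (cv (A x)) (cv (Bt x))) - ∫ x in O, qf b0 (cv (A x)) (cv (Bt x))| ≤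
      8 * m * (l⁻¹ * (∫ x in B, ‖b x - b0‖ ^ 2) + l * (c * (volume B).toReal)) := by
  have hKf : volume K < ∞ := (measure_mono hKB).trans_lt hBf
  have hfin : ∫⁻ x in K, ‖Dm x‖ₑ ^ 2 < ∞ :=
    hD2.trans_lt (ENNReal.mul_lt_top ENNReal.ofReal_lt_top hBf)
  have i2 : IntegrableOn (fun x => ‖Dm x‖ ^ 2) K := by
    refine ⟨(hDm.norm.pow_const 2).aestronglyMeasurable, ?_⟩
    simpa [HasFiniteIntegral] using hfin
  have i2le : ∫ x in K, ‖Dm x‖ ^ 2 ≤ c * (volume B).toReal := by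
    rw [integral_eq_lintegral_of_nonneg_ae (Eventually.of_forall fun x => by positivity)
      i2.aestronglyMeasurable]
    have e : ∀ x, ENNReal.ofReal (‖Dm x‖ ^ 2) = ‖Dm x‖ₑ ^ 2 := fun x => by
      rw [ENNReal.ofReal_pow (norm_nonneg _), ofReal_norm_eq_enorm]
    simp only [e]
    have := ENNReal.toReal_mono (ENNReal.mul_lt_top ENNReal.ofReal_lt_top hBf).ne hD2
    rwa [ENNReal.toReal_mul, ENNReal.toReal_ofReal hc] at this
  have iB : IntegrableOn (fun x => ‖b x - b0‖ ^ 2) B := by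
    refine Measure.integrableOn_of_bounded (M := (C + ‖b0‖) ^ 2) hBf.ne
      ((hb.sub_const b0).norm.pow_const 2).aestronglyMeasurable (Eventually.of_forall fun x => ?_)
    rw [Real.norm_eq_abs, abs_of_nonneg (by positivity)]
    have h1 : ‖b x - b0‖ ≤ C + ‖b0‖ := (norm_sub_le _ _).trans (by linarith [hC x])
    gcongr
  have i1 : IntegrableOn (fun x => ‖Dm x‖) K := by
    have h1 : IntegrableOn (fun x => 1 + ‖Dm x‖ ^ 2) K :=
      (integrableOn_const hKf.ne).add i2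
    refine h1.mono' hDm.norm.aestronglyMeasurable (Eventually.of_forall fun x => ?_)
    rw [norm_norm]; nlinarith [norm_nonneg (Dm x)]
  have hcA : Measurable fun y => cv (A y) := continuous_cv.measurable.comp hA
  have hcB : Measurable fun y => cv (Bt y) := continuous_cv.measurable.comp hBt
  have key : ∀ (b' : ℂ → ℝ × ℝ × ℝ) (C' : ℝ), Measurable b' → (∀ y, ‖b' y‖ ≤ C') →
      IntegrableOn (fun x => qf (b' x) (cv (A x)) (cv (Bt x))) O := by
    intro b' C' hb' hC'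
    have h0 : 0 ≤ C' := (norm_nonneg _).trans (hC' 0)
    have h1 : Integrable (K.indicator fun x => 16 * C' * (m * ‖Dm x‖)) :=
      (integrable_indicator_iff hK).2 ((i1.const_mul m).const_mul _)
    refine h1.integrableOn.mono' (meas_qf hb' hcA hcB).aestronglyMeasurable
      ((ae_restrict_iff' hO).2 (Eventually.of_forall fun x hx => ?_))
    rw [Real.norm_eq_abs]
    refine (abs_qf_cv _ _ _).trans ?_
    have h2 := hpt x hx
    have h3 := hC' x
    by_cases hxK : x ∈ K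
    · rw [indicator_of_mem hxK] at h2 ⊢
      gcongr
    · rw [indicator_of_notMem hxK] at h2 ⊢
      have : 0 ≤ 16 * ‖b' x‖ := by positivity
      nlinarith
  rw [← integral_sub (key b C hb hC) (key (fun _ => b0) ‖b0‖ measurable_const fun _ => le_rfl)]
  have iK : IntegrableOn (fun x => 8 * m * (l⁻¹ * ‖b x - b0‖ ^ 2 + l * ‖Dm x‖ ^ 2)) K :=
    ((((iB.mono_set hKB).const_mul l⁻¹).add (i2.const_mul l))).const_mul _
  have iK' : Integrable (K.indicator fun x => 8 * m * (l⁻¹ * ‖b x - b0‖ ^ 2 + l * ‖Dm x‖ ^ 2)) :=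
    (integrable_indicator_iff hK).2 iK
  calc _ ≤ ∫ x in O, K.indicator (fun x => 8 * m * (l⁻¹ * ‖b x - b0‖ ^ 2 + l * ‖Dm x‖ ^ 2)) x := by
        rw [← Real.norm_eq_abs]
        refine norm_integral_le_of_norm_le iK'.integrableOn
          ((ae_restrict_iff' hO).2 (Eventually.of_forall fun x hx => ?_))
        rw [Real.norm_eq_abs, qf_sub]
        refine (abs_qf_cv _ _ _).trans ?_
        have h2 := hpt x hx
        by_cases hxK : x ∈ K
        · rw [indicator_of_mem hxK] at h2 ⊢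
          have h3 : 2 * (‖b x - b0‖ * ‖Dm x‖) ≤ l⁻¹ * ‖b x - b0‖ ^ 2 + l * ‖Dm x‖ ^ 2 := by
            have h4 : 0 ≤ l⁻¹ * (‖b x - b0‖ - l * ‖Dm x‖) ^ 2 := by positivity
            have h5 : l⁻¹ * (‖b x - b0‖ - l * ‖Dm x‖) ^ 2 =
                l⁻¹ * ‖b x - b0‖ ^ 2 + l * ‖Dm x‖ ^ 2 - 2 * (‖b x - b0‖ * ‖Dm x‖) := by
              field_simp; ring
            linarith
          calc 16 * ‖b x - b0‖ * (‖A x‖ * ‖Bt x‖) ≤ 16 * ‖b x - b0‖ * (m * ‖Dm x‖) := by gcongr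
            _ = 8 * m * (2 * (‖b x - b0‖ * ‖Dm x‖)) := by ring
            _ ≤ _ := by gcongr
        · rw [indicator_of_notMem hxK] at h2 ⊢
          have : 0 ≤ 16 * ‖b x - b0‖ := by positivity
          nlinarith
    _ ≤ ∫ x, K.indicator (fun x => 8 * m * (l⁻¹ * ‖b x - b0‖ ^ 2 + l * ‖Dm x‖ ^ 2)) x :=
        setIntegral_le_integral iK' (Eventually.of_forall fun x =>
          indicator_nonneg (fun x _ => by positivity) x)
    _ = 8 * m * (l⁻¹ * (∫ x in K, ‖b x - b0‖ ^ 2) + l * ∫ x in K, ‖Dm x‖ ^ 2) := by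
        rw [integral_indicator hK, integral_const_mul,
          integral_add ((iB.mono_set hKB).const_mul l⁻¹) (i2.const_mul l), integral_const_mul,
          integral_const_mul]
    _ ≤ _ := by
        have h1 : ∫ x in K, ‖b x - b0‖ ^ 2 ≤ ∫ x in B, ‖b x - b0‖ ^ 2 :=
          setIntegral_mono_set iB (Eventually.of_forall fun x => by positivity) hKB.eventuallyLE
        gcongr

theorem int_test {O : Set ℂ} {w : ℂ → ℝ} {D : ℂ → ℂ →L[ℝ] ℝ} (h : Sob O w D) {φ : ℂ → ℝ}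
    (hφ : ContDiff ℝ 1 φ) (hc : HasCompactSupport φ) (hs : tsupport φ ⊆ O) (v : ℂ) :
    Integrable (fun x => fderiv ℝ φ x v * w x) ∧ Integrable (fun x => φ x * D x v) := by
  have hKm : MeasurableSet (tsupport φ) := (isClosed_tsupport φ).measurableSet
  constructor
  · have h1 : IntegrableOn (fun x => fderiv ℝ φ x v * w x) (tsupport φ) :=
      ((((hφ.continuous_fderiv one_ne_zero).clm_apply continuous_const).continuousOn).mul
        (h.cont.mono hs)).integrableOn_compact hc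
    refine (integrableOn_iff_integrable_of_support_subset ?_).1 h1
    intro x hx
    by_contra hx'
    exact hx (by simp [fderiv_of_notMem_tsupport ℝ hx'])
  · have h0 : IntegrableOn (fun x => D x v) (tsupport φ) :=
      (h.integrableOn hc hs).apply_continuousLinearMap v
    have h1 : IntegrableOn (fun x => φ x * D x v) (tsupport φ) :=
      IntegrableOn.continuousOn_mul hφ.continuous.continuousOn h0 hc
    refine (integrableOn_iff_integrable_of_support_subset ?_).1 h1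
    intro x hx
    by_contra hx'
    exact hx (by simp [image_eq_zero_of_notMem_tsupport hx'])

theorem contDiff_dir {φ : ℂ → ℝ} (hφ : ContDiff ℝ 2 φ) (v : ℂ) :
    ContDiff ℝ 1 fun w => fderiv ℝ φ w v :=
  (hφ.fderiv_right (m := 1) (by norm_num)).clm_apply contDiff_const

/-- the constant coefficient energy against a test function -/
theorem I0_eq {O : Set ℂ} {w : ℂ → ℝ} {A : ℂ → ℂ →L[ℝ] ℝ} (h : Sob O w A) {Ψ : ℂ → ℝ}
    (hΨ : ContDiff ℝ 2 Ψ) (hc : HasCompactSupport Ψ) (hs : tsupport Ψ ⊆ O) (v₁ v₂ : ℂ) :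
    ∫ x in O, (A x v₁ * fderiv ℝ Ψ x v₁ + A x v₂ * fderiv ℝ Ψ x v₂) =
      -∫ x, w x * L2 v₁ v₂ Ψ x := by
  have hs' : ∀ v, tsupport (fun w => fderiv ℝ Ψ w v) ⊆ O := fun v =>
    (tsupport_fderiv_apply_subset ℝ v).trans hs
  have hc' : ∀ v, HasCompactSupport (fun w => fderiv ℝ Ψ w v) := fun v => hc.fderiv_apply ℝ v
  have e := fun v => h.wd _ (contDiff_dir hΨ v) (hc' v) (hs' v) v
  have i := fun v => int_test h (contDiff_dir hΨ v) (hc' v) (hs' v) v
  simp only [smul_eq_mul] at e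
  rw [setIntegral_eq_integral_of_forall_compl_eq_zero (fun x hx => by
    have : x ∉ tsupport Ψ := fun h' => hx (hs h')
    simp [fderiv_of_notMem_tsupport ℝ this])]
  have e1 : (fun x => w x * L2 v₁ v₂ Ψ x) = fun x =>
      fderiv ℝ (fun w => fderiv ℝ Ψ w v₁) x v₁ * w x +
        fderiv ℝ (fun w => fderiv ℝ Ψ w v₂) x v₂ * w x := by
    funext x; simp only [L2]; ring
  have e2 : (fun x => A x v₁ * fderiv ℝ Ψ x v₁ + A x v₂ * fderiv ℝ Ψ x v₂) = fun x =>
      fderiv ℝ Ψ x v₁ * A x v₁ + fderiv ℝ Ψ x v₂ * A x v₂ := by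
    funext x; ring
  rw [e1, e2, integral_add (i v₁).1 (i v₂).1, integral_add (i v₁).2 (i v₂).2, e v₁, e v₂]
  ring

/-- a compactly supported Sobolev function against a solution -/
theorem J0_eq {O K : Set ℂ} (hO : IsOpen O) (hK : IsCompact K) (hKO : K ⊆ O) {w : ℂ → ℝ}
    {β : ℂ → ℂ →L[ℝ] ℝ} (h : Sob O w β) (hw : ∀ y ∈ O, y ∉ K → w y = 0 ∧ β y = 0) {U : ℂ → ℝ}
    (hU : ContDiff ℝ 2 U) (v₁ v₂ : ℂ) (hL : ∀ y, L2 v₁ v₂ U y = 0) :
    ∫ y in O, (fderiv ℝ U y v₁ * β y v₁ + fderiv ℝ U y v₂ * β y v₂) = 0 := by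
  obtain ⟨K', hK', h1, h2⟩ := exists_compact_between hK hO hKO
  obtain ⟨χ, hχ1, hχ0, -⟩ := exists_contMDiffMap_one_nhds_of_subset_interior (n := 1)
    𝓘(ℝ, ℂ) hK.isClosed h1
  have hχ : ContDiff ℝ 1 χ := χ.contMDiff.contDiff
  let φ : ℂ → ℂ → ℝ := fun v y => χ y * fderiv ℝ U y v
  have hφ : ∀ v, ContDiff ℝ 1 (φ v) := fun v => hχ.mul (contDiff_dir hU v)
  have hsK : ∀ v, tsupport (φ v) ⊆ K' := fun v =>
    closure_minimal (fun y hy => by
      by_contra hy'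
      exact hy (by simp [φ, hχ0 y hy'])) hK'.isClosed
  have hc : ∀ v, HasCompactSupport (φ v) := fun v =>
    hK'.of_isClosed_subset (isClosed_tsupport _) (hsK v)
  have e := fun v => h.wd _ (hφ v) (hc v) ((hsK v).trans h2) v
  have i := fun v => int_test h (hφ v) (hc v) ((hsK v).trans h2) v
  simp only [smul_eq_mul] at e
  have z1 : ∀ y, fderiv ℝ (φ v₁) y v₁ * w y + fderiv ℝ (φ v₂) y v₂ * w y = 0 := by
    intro y
    by_cases hy : y ∈ K
    · have hev : ∀ v, φ v =ᶠ[𝓝 y] fun w => fderiv ℝ U w v := fun v => by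
        filter_upwards [(eventually_nhdsSet_iff_forall.1 hχ1) y hy] with z hz
        simp [φ, hz]
      rw [(hev v₁).fderiv_eq, (hev v₂).fderiv_eq, ← add_mul]
      have := hL y
      simp only [L2] at this
      rw [this, zero_mul]
    · by_cases hyO : y ∈ O
      · simp [(hw y hyO hy).1]
      · have : ∀ v, y ∉ tsupport (φ v) := fun v h' => hyO (h2 (hsK v h'))
        simp [fderiv_of_notMem_tsupport ℝ (this _)]
  have z2 : (∫ y, fderiv ℝ (φ v₁) y v₁ * w y) + ∫ y, fderiv ℝ (φ v₂) y v₂ * w y = 0 := by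
    rw [← integral_add (i v₁).1 (i v₂).1]
    simp [z1]
  rw [e v₁, e v₂] at z2
  have z3 : ∫ y, (φ v₁ y * β y v₁ + φ v₂ y * β y v₂) = 0 := by
    rw [integral_add (i v₁).2 (i v₂).2]; linarith
  rw [← z3, ← integral_indicator hO.measurableSet]
  refine integral_congr_ae (Eventually.of_forall fun y => ?_)
  by_cases hyO : y ∈ O
  · rw [indicator_of_mem hyO]
    by_cases hy : y ∈ K
    · have : χ y = 1 := ((eventually_nhdsSet_iff_forall.1 hχ1) y hy).self_of_nhds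
      simp [φ, this]
    · simp [(hw y hyO hy).2]
  · rw [indicator_of_notMem hyO]
    have : χ y = 0 := hχ0 y (fun h' => hyO (h2 h'))
    simp [φ, this]

end Crest.Agent.R193.TA
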