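import Crest.Agent.R193.TAEx0

/-! Row 193, TA: existence of the weak derivative of a map of bounded dilatation. -/

set_option autoImplicit false

open MeasureTheory Set Filter Topology Metric
open scoped ENNReal

namespace Crest.Agent.R193.TA

/-- Weak limit along an ultrafilter of a bounded sequence in a real Hilbert space:
`φ ↦ lim_U ⟪q n, φ⟫` (exists by compactness of `closedBall 0 (C‖φ‖)` in `ℝ`) is linear and bounded by
`C‖φ‖`; Riesz representation (`InnerProductSpace.toDual`). -/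
theorem exists_weak_limit {X : Type} [NormedAddCommGroup X] [InnerProductSpace ℝ X]
    [CompleteSpace X] (U : Ultrafilter ℕ) (q : ℕ → X) {C : ℝ} (hq : ∀ n, ‖q n‖ ≤ C) :
    ∃ d : X, ∀ φ : X, Tendsto (fun n => inner ℝ (q n) φ) U (𝓝 (inner ℝ d φ)) := by
  have hb : ∀ φ : X, ∀ n, inner ℝ (q n) φ ∈ closedBall (0 : ℝ) (C * ‖φ‖) := by
    intro φ n
    rw [mem_closedBall_zero_iff]
    exact (norm_inner_le_norm _ _).trans (mul_le_mul_of_nonneg_right (hq n) (norm_nonneg _))
  have hex : ∀ φ : X, ∃ l ∈ closedBall (0 : ℝ) (C * ‖φ‖),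
      Tendsto (fun n => inner ℝ (q n) φ) U (𝓝 l) := by
    intro φ
    have h1 : (↑(U.map (fun n => inner ℝ (q n) φ)) : Filter ℝ) ≤ 𝓟 (closedBall 0 (C * ‖φ‖)) := by
      rw [Ultrafilter.coe_map, le_principal_iff, Filter.mem_map]
      exact Filter.Eventually.of_forall (hb φ)
    obtain ⟨l, hl, h2⟩ := (isCompact_closedBall (0 : ℝ) (C * ‖φ‖)).ultrafilter_le_nhds _ h1
    exact ⟨l, hl, h2⟩
  choose L hL1 hL2 using hex
  let L0 : X →ₗ[ℝ] ℝ :=
    { toFun := L
      map_add' := fun a b => by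
        have h1 := (hL2 a).add (hL2 b)
        have h2 := hL2 (a + b)
        simp only [inner_add_right] at h2
        exact tendsto_nhds_unique h2 h1
      map_smul' := fun c a => by
        have h1 := (hL2 a).const_mul c
        have h2 := hL2 (c • a)
        simp only [inner_smul_right] at h2
        exact tendsto_nhds_unique h2 h1 }
  let L1 : X →L[ℝ] ℝ := L0.mkContinuous C (fun φ => by
    have := hL1 φ
    rwa [mem_closedBall_zero_iff] at this)
  refine ⟨(InnerProductSpace.toDual ℝ X).symm L1, fun φ => ?_⟩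
  rw [InnerProductSpace.toDual_symm_apply]
  exact hL2 φ

private theorem eLp_sq (g : ℂ → ℂ) : eLpNorm g 2 volume ^ 2 = ∫⁻ x, ‖g x‖ₑ ^ 2 := by
  have h := eLpNorm_nnreal_pow_eq_lintegral (f := g) (μ := (volume : Measure ℂ)) (p := 2)
    (by norm_num)
  simp only [NNReal.coe_ofNat, ENNReal.rpow_ofNat, ENNReal.coe_ofNat] at h
  exact h

private theorem memLp_of_sq {g : ℂ → ℂ} (hg : Measurable g) {M : ℝ≥0∞} (hM : M ≠ ∞)
    (hb : ∫⁻ x, ‖g x‖ₑ ^ 2 ≤ M) : MemLp g 2 volume := by
  refine ⟨hg.aestronglyMeasurable, ?_⟩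
  have h1 : eLpNorm g 2 volume ^ 2 < ∞ := by
    rw [eLp_sq]; exact lt_of_le_of_lt hb hM.lt_top
  by_contra h2
  rw [not_lt, top_le_iff] at h2
  rw [h2] at h1
  simp at h1

private theorem norm_toLp_le {g : ℂ → ℂ} (hg : MemLp g 2 volume) {M : ℝ≥0∞} (hM : M ≠ ∞)
    (hb : ∫⁻ x, ‖g x‖ₑ ^ 2 ≤ M) : ‖hg.toLp g‖ ≤ Real.sqrt M.toReal := by
  apply Real.le_sqrt_of_sq_le
  rw [Lp.norm_toLp, ← ENNReal.toReal_pow, eLp_sq]
  exact ENNReal.toReal_mono hM hb

private theorem lint_indicator {A : Set ℂ} (hA : MeasurableSet A) (g : ℂ → ℂ) :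
    ∫⁻ x, ‖A.indicator g x‖ₑ ^ 2 = ∫⁻ x in A, ‖g x‖ₑ ^ 2 := by
  rw [← lintegral_indicator hA]
  congr 1
  funext x
  by_cases hx : x ∈ A <;> simp [hx]

private theorem inner_toLp {f g : ℂ → ℂ} (hf : MemLp f 2 volume) (hg : MemLp g 2 volume) :
    inner ℝ (hf.toLp f) (hg.toLp g) = ∫ x, inner ℝ (f x) (g x) := by
  rw [L2.inner_def]
  apply integral_congr_ae
  filter_upwards [hf.coeFn_toLp, hg.coeFn_toLp] with x h1 h2
  rw [h1, h2]

private theorem exists_exhaust {O : Set ℂ} (hO : IsOpen O) :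
    ∃ K : ℕ → Set ℂ, (∀ n, IsCompact (K n)) ∧ (∀ n, K n ⊆ O) ∧
      ∀ A : Set ℂ, IsCompact A → A ⊆ O → ∀ᶠ n in atTop, A ⊆ K n := by
  refine ⟨fun n => closedBall 0 n \ thickening (1 / ((n : ℝ) + 1)) Oᶜ, fun n => ?_, fun n => ?_,
    fun A hA hAO => ?_⟩
  · exact (isCompact_closedBall _ _).diff isOpen_thickening
  · intro x hx
    by_contra h
    exact hx.2 (self_subset_thickening (by positivity) _ h)
  · obtain ⟨δ, hδ, hδO⟩ := hA.exists_thickening_subset_open hO hAO
    obtain ⟨R, hR⟩ := hA.isBounded.subset_closedBall 0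
    have h1 : ∀ᶠ n : ℕ in atTop, R ≤ (n : ℝ) := tendsto_natCast_atTop_atTop.eventually_ge_atTop R
    have h2 : ∀ᶠ n : ℕ in atTop, 1 / ((n : ℝ) + 1) < δ :=
      tendsto_one_div_add_atTop_nhds_zero_nat.eventually (gt_mem_nhds hδ)
    filter_upwards [h1, h2] with n h1 h2 x hx
    refine ⟨closedBall_subset_closedBall h1 (hR hx), fun h => ?_⟩
    obtain ⟨z, hz, hd⟩ := mem_thickening_iff.1 h
    apply hz
    apply hδO
    exact mem_thickening_iff.2 ⟨x, hx, by rw [dist_comm]; exact hd.trans h2⟩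

/-- Weak directional derivative.  Take an increasing sequence of compact sets `K n ⊆ O` such that every
compact subset of `O` lies in `K n` for large `n` (e.g. `K n = closedBall 0 n ∩ {x | 1/(n+1) ≤ infDist x Oᶜ}`
or `closedBall 0 n \ thickening (1/(n+1)) Oᶜ`), `ε n < min (ε0 (K n)) (1/(n+1))` from `dq_bound`,
`q n = (K n).indicator (difference quotient at ε n) ∈ Lp ℂ 2 volume`, `‖q n‖² ≤ H² μ(univ)`.
`d` = weak limit along `hyperfilter ℕ` (`exists_weak_limit`, real inner product on `Lp ℂ 2 volume`,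
`L2.inner_def`), represented by the measurable function `⇑d` (`Lp.stronglyMeasurable`).
* identity: test with `φ = x ↦ ψ x • c` for `c = 1, I` (compare real inner products with `c`, `integral_inner`),
  `dq_tendsto`, uniqueness of limits (`hyperfilter_le_atTop`).
* bound: `∫_A ‖d‖² = ⟪d, 1_A d⟫ = lim ⟪q n, 1_A d⟫`, `⟪q n, 1_A d⟫ ≤ ‖1_A q n‖ ‖1_A d‖`, and
  `‖1_A q n‖² ≤ H² μ(thickening (ε n) A) → H² μ A` (`tendsto_measure_thickening_of_isClosed` or the
  `cthickening` version). -/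
theorem exists_dir {O O' : Set ℂ} {τ σ : ℂ → ℂ} {H : ℝ} (h : Pair O O' τ σ H) {v : ℂ}
    (hv : ‖v‖ = 1) :
    ∃ d : ℂ → ℂ, Measurable d ∧
      (∀ ψ : ℂ → ℝ, ContDiff ℝ 1 ψ → HasCompactSupport ψ → tsupport ψ ⊆ O →
        ∫ x, fderiv ℝ ψ x v • τ x = -∫ x, ψ x • d x) ∧
      ∀ A : Set ℂ, IsCompact A → A ⊆ O →
        ∫⁻ x in A, ‖d x‖ₑ ^ 2 ≤ ENNReal.ofReal (H ^ 2) * pull O' σ A := by
  have hfin : IsFiniteMeasure (volume.restrict O') :=
    ⟨by rw [Measure.restrict_apply_univ]; exact h.fin'⟩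
  have hfinμ : IsFiniteMeasure (pull O' σ) := by unfold pull; infer_instance
  obtain ⟨K, hKc, hKO, hKA⟩ := exists_exhaust h.oO
  choose ε0 hε0 hb using fun n => dq_bound h (hKc n) (hKO n)
  obtain ⟨R, hR⟩ := h.bτ
  set ε : ℕ → ℝ := fun n => min (ε0 n / 2) (1 / ((n : ℝ) + 1)) with hε
  have hεpos : ∀ n, 0 < ε n := fun n => lt_min (half_pos (hε0 n)) (by positivity)
  have hεlt : ∀ n, ε n < ε0 n := fun n => (min_le_left _ _).trans_lt (half_lt_self (hε0 n))
  have hεt : Tendsto ε atTop (𝓝[>] 0) := by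
    refine tendsto_nhdsWithin_iff.2 ⟨?_, Filter.Eventually.of_forall hεpos⟩
    exact squeeze_zero (fun n => (hεpos n).le) (fun n => min_le_right _ _)
      tendsto_one_div_add_atTop_nhds_zero_nat
  set f : ℕ → ℂ → ℂ := fun n x => (ε n)⁻¹ • (τ (x + ε n • v) - τ x) with hf
  have hfm : ∀ n, Measurable (f n) := fun n =>
    ((h.mτ.comp (measurable_id.add_const (ε n • v))).sub h.mτ).const_smul (ε n)⁻¹
  have hfb : ∀ n x, ‖f n x‖ ≤ ‖(ε n)⁻¹‖ * (R + R) := fun n x => by
    simp only [hf]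
    rw [norm_smul]
    exact mul_le_mul_of_nonneg_left ((norm_sub_le _ _).trans (add_le_add (hR _) (hR _)))
      (norm_nonneg _)
  have hne : ∀ A : Set ℂ, ENNReal.ofReal (H ^ 2) * pull O' σ A ≠ ∞ := fun A =>
    ENNReal.mul_ne_top ENNReal.ofReal_ne_top (measure_ne_top _ _)
  have hbA : ∀ n (A : Set ℂ), MeasurableSet A → A ⊆ K n → ∫⁻ x, ‖A.indicator (f n) x‖ₑ ^ 2 ≤
      ENNReal.ofReal (H ^ 2) * pull O' σ (thickening (ε n) A) := fun n A hA hAK => by
    rw [lint_indicator hA]
    exact hb n (ε n) (hεpos n) (hεlt n) v hv A hA hAK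
  have hmem : ∀ n (A : Set ℂ), MeasurableSet A → A ⊆ K n → MemLp (A.indicator (f n)) 2 volume :=
    fun n A hA hAK => memLp_of_sq ((hfm n).indicator hA) (hne _) (hbA n A hA hAK)
  set q : ℕ → Lp ℂ 2 (volume : Measure ℂ) := fun n =>
    (hmem n (K n) (hKc n).measurableSet subset_rfl).toLp _ with hq
  have hqb : ∀ n, ‖q n‖ ≤ Real.sqrt (ENNReal.ofReal (H ^ 2) * pull O' σ univ).toReal := fun n =>
    norm_toLp_le _ (hne _) ((hbA n _ (hKc n).measurableSet subset_rfl).trans
      (mul_le_mul_right (measure_mono (subset_univ _)) _))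
  obtain ⟨d, hd⟩ := exists_weak_limit (hyperfilter ℕ) q hqb
  have hU : (↑(hyperfilter ℕ) : Filter ℕ) ≤ atTop := Nat.hyperfilter_le_atTop
  have hdd : (Lp.memLp d).toLp d = d := Lp.toLp_coeFn d _
  refine ⟨d, (Lp.stronglyMeasurable d).measurable, fun ψ hψ hc hs => ?_, fun A hA hAO => ?_⟩
  · rw [← neg_eq_iff_eq_neg]
    apply ext_inner_left ℝ
    intro c
    have hcont : Continuous (fun x => ψ x • c) := hψ.continuous.smul continuous_const
    have hcs : HasCompactSupport (fun x => ψ x • c) := hc.smul_right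
    have hφ : MemLp (fun x => ψ x • c) 2 (volume : Measure ℂ) :=
      hcont.memLp_of_hasCompactSupport hcs
    have h1 := hd (hφ.toLp _)
    have h2 : inner ℝ d (hφ.toLp _) = inner ℝ c (∫ x, ψ x • d x) := by
      conv_lhs => rw [← hdd]
      rw [inner_toLp, ← integral_inner]
      · congr 1
        funext x
        rw [inner_smul_right, inner_smul_right, real_inner_comm]
      · exact ((Lp.memLp d).locallyIntegrable (by norm_num)).integrable_smul_left_of_hasCompactSupport
          hψ.continuous hc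
    have h3 : ∀ᶠ n in atTop, inner ℝ c (∫ x, ψ x • f n x) = inner ℝ (q n) (hφ.toLp _) := by
      filter_upwards [hKA _ hc hs] with n hn
      simp only [hq]
      rw [inner_toLp, ← integral_inner]
      · congr 1
        funext x
        by_cases hx : x ∈ K n
        · rw [indicator_of_mem hx, inner_smul_right c (f n x), inner_smul_right (f n x) c,
            real_inner_comm]
        · have : ψ x = 0 := image_eq_zero_of_notMem_tsupport (fun h => hx (hn h))
          simp [this]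
      · have hi : Integrable ψ (volume : Measure ℂ) :=
          hψ.continuous.integrable_of_hasCompactSupport hc
        exact hi.smul_bdd _ (hfm n).aestronglyMeasurable (Filter.Eventually.of_forall (hfb n))
    have h4 : Tendsto (fun n => inner ℝ c (∫ x, ψ x • f n x)) atTop
        (𝓝 (inner ℝ c (-∫ x, fderiv ℝ ψ x v • τ x))) :=
      tendsto_const_nhds.inner ((dq_tendsto h.mτ hR hψ hc v).comp hεt)
    rw [← h2]
    exact tendsto_nhds_unique ((h4.congr' h3).mono_left hU) h1
  · have hAm := hA.measurableSet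
    have hw : MemLp (A.indicator d) 2 (volume : Measure ℂ) := (Lp.memLp d).indicator hAm
    set w := hw.toLp _ with hwdef
    have h1 := hd w
    have h2 : inner ℝ d w = ‖w‖ ^ 2 := by
      rw [← real_inner_self_eq_norm_sq]
      conv_lhs => rw [← hdd]
      simp only [hwdef]
      rw [inner_toLp, inner_toLp]
      congr 1
      funext x
      by_cases hx : x ∈ A <;> simp [hx]
    have h3 : ∀ᶠ n in atTop, inner ℝ (q n) w ≤
        Real.sqrt (ENNReal.ofReal (H ^ 2) * pull O' σ (thickening (ε n) A)).toReal * ‖w‖ := by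
      filter_upwards [hKA _ hA hAO] with n hn
      have h4 : inner ℝ (q n) w = inner ℝ ((hmem n A hAm hn).toLp _) w := by
        simp only [hq, hwdef]
        rw [inner_toLp, inner_toLp]
        congr 1
        funext x
        by_cases hx : x ∈ A
        · rw [indicator_of_mem hx, indicator_of_mem hx, indicator_of_mem (hn hx)]
        · simp [hx]
      rw [h4]
      exact (real_inner_le_norm _ _).trans (mul_le_mul_of_nonneg_right
        (norm_toLp_le _ (hne _) (hbA n A hAm hn)) (norm_nonneg _))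
    have h5 : Tendsto (fun n => pull O' σ (thickening (ε n) A)) atTop (𝓝 (pull O' σ A)) :=
      (tendsto_measure_thickening_of_isClosed ⟨1, one_pos, measure_ne_top _ _⟩ hA.isClosed).comp hεt
    have h6 : Tendsto (fun n =>
        Real.sqrt (ENNReal.ofReal (H ^ 2) * pull O' σ (thickening (ε n) A)).toReal * ‖w‖) atTop
        (𝓝 (Real.sqrt (ENNReal.ofReal (H ^ 2) * pull O' σ A).toReal * ‖w‖)) := by
      apply Tendsto.mul_const
      apply Tendsto.sqrt
      exact (ENNReal.tendsto_toReal (hne A)).comp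
        (ENNReal.Tendsto.const_mul h5 (Or.inr ENNReal.ofReal_ne_top))
    have h7 : ‖w‖ ^ 2 ≤ Real.sqrt (ENNReal.ofReal (H ^ 2) * pull O' σ A).toReal * ‖w‖ := by
      rw [← h2]
      exact le_of_tendsto_of_tendsto h1 (h6.mono_left hU) (h3.filter_mono hU)
    have h8 : ‖w‖ ≤ Real.sqrt (ENNReal.ofReal (H ^ 2) * pull O' σ A).toReal := by
      by_contra hlt
      rw [not_le] at hlt
      have : 0 < ‖w‖ := (Real.sqrt_nonneg _).trans_lt hlt
      nlinarith
    have h9 : ‖w‖ ^ 2 ≤ (ENNReal.ofReal (H ^ 2) * pull O' σ A).toReal := by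
      have := pow_le_pow_left₀ (norm_nonneg _) h8 2
      rwa [Real.sq_sqrt ENNReal.toReal_nonneg] at this
    rw [← lint_indicator hAm, ← eLp_sq]
    rw [hwdef, Lp.norm_toLp, ← ENNReal.toReal_pow] at h9
    exact (ENNReal.toReal_le_toReal (ENNReal.pow_ne_top hw.2.ne) (hne A)).1 h9

end Crest.Agent.R193.TA
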