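import Crest.Agent.R193.TADefs

/-! Row 193, TA: difference quotients of a map of bounded dilatation. -/

set_option autoImplicit false

open MeasureTheory Set Filter Topology Metric
open scoped ENNReal

namespace Crest.Agent.R193.TA

/-- Pointwise area bound.  With `L = dist (τ x) (τ z)`: the disc `ball (τ x) (L / H)` is preconnected,
avoids `τ '' sphere x r` (by `hd`: `dist x z = r ≤ dist x c` gives `L ≤ H dist (τ x) (τ c)`), contains
`τ x` (if `L > 0`), and is covered by the disjoint open sets `U = O' ∩ σ ⁻¹' ball x r` and the complement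
of the compact set `τ '' closedBall x r`; so it lies in `U` (`IsPreconnected.subset_left_of_subset_union`).
`pull O' σ (ball x r) = volume (σ ⁻¹' ball x r ∩ O')`, `Complex.volume_ball`. -/
theorem area_pt {O O' : Set ℂ} {τ σ : ℂ → ℂ} {H : ℝ} (h : Pair O O' τ σ H) {x z : ℂ} {r : ℝ}
    (hr : 0 < r) (hsub : closedBall x r ⊆ O) (hz : dist x z = r)
    (hd : ∀ c, dist x c = r → dist (τ x) (τ z) ≤ H * dist (τ x) (τ c)) :
    ENNReal.ofReal Real.pi * ‖τ z - τ x‖ₑ ^ 2 ≤ ENNReal.ofReal (H ^ 2) * pull O' σ (ball x r) := by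
  -- h29_area
  have hH := h.Hpos
  set L := dist (τ x) (τ z) with hL
  have hL0 : 0 ≤ L := dist_nonneg
  have hxO : x ∈ O := hsub (mem_closedBall_self hr.le)
  have hK : IsCompact (τ '' closedBall x r) :=
    (isCompact_closedBall x r).image_of_continuousOn (h.cτ.mono hsub)
  have hU : IsOpen (O' ∩ σ ⁻¹' ball x r) := h.cσ.isOpen_inter_preimage h.oO' isOpen_ball
  have hsubU : ball (τ x) (L / H) ⊆ O' ∩ σ ⁻¹' ball x r := by
    rcases eq_or_lt_of_le hL0 with h0 | hpos
    · rw [← h0, zero_div, ball_zero]; exact empty_subset _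
    refine (convex_ball (τ x) (L / H)).isPreconnected.subset_left_of_subset_union hU
      hK.isClosed.isOpen_compl ?_ ?_ ?_
    · rw [Set.disjoint_left]
      rintro y ⟨hyO, hy⟩ hy'
      exact hy' ⟨σ y, ball_subset_closedBall hy, h.right y hyO⟩
    · intro y hy
      by_cases hyK : y ∈ τ '' closedBall x r
      · left
        obtain ⟨c, hc, rfl⟩ := hyK
        have hcO : c ∈ O := hsub hc
        refine ⟨h.maps hcO, ?_⟩
        show σ (τ c) ∈ ball x r
        rw [h.left c hcO]
        rcases eq_or_lt_of_le (mem_closedBall.1 hc) with he | hlt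
        · exfalso
          have h1 := hd c (by rw [dist_comm]; exact he)
          have h2 : dist (τ c) (τ x) < L / H := mem_ball.1 hy
          rw [lt_div_iff₀ hH, dist_comm] at h2
          linarith
        · exact mem_ball.2 hlt
      · right; exact hyK
    · refine ⟨τ x, mem_ball_self (div_pos hpos hH), h.maps hxO, ?_⟩
      show σ (τ x) ∈ ball x r
      rw [h.left x hxO]; exact mem_ball_self hr
  have hpull : pull O' σ (ball x r) = volume (σ ⁻¹' ball x r ∩ O') := by
    rw [pull, Measure.map_apply h.mσ measurableSet_ball,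
      Measure.restrict_apply (h.mσ measurableSet_ball)]
  have hvol : volume (ball (τ x) (L / H)) ≤ pull O' σ (ball x r) := by
    rw [hpull, inter_comm]; exact measure_mono hsubU
  rw [Complex.volume_ball] at hvol
  have hn : ‖τ z - τ x‖ₑ = ENNReal.ofReal L := by
    rw [hL, dist_comm, dist_eq_norm, ofReal_norm]
  refine le_trans (le_of_eq ?_) (mul_le_mul_right hvol _)
  rw [hn, ← ENNReal.ofReal_pow hL0, ← ENNReal.ofReal_pow (div_nonneg hL0 hH.le),
    ← NNReal.coe_real_pi, ENNReal.ofReal_coe_nnreal, ← mul_assoc,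
    ← ENNReal.ofReal_mul (sq_nonneg H), mul_comm]
  congr 2
  field_simp

/-- Tonelli: `∫_A μ(ball x r) dx = ∫ vol(A ∩ ball z r) dμ(z) ≤ π r² μ(thickening r A)`. -/
theorem tonelli_ball (μ : Measure ℂ) [IsFiniteMeasure μ] {A : Set ℂ} (hA : MeasurableSet A)
    {r : ℝ} (hr : 0 < r) :
    ∫⁻ x in A, μ (ball x r) ≤ ENNReal.ofReal (Real.pi * r ^ 2) * μ (thickening r A) := by
  -- h29_tonelli
  have hS : MeasurableSet {p : ℂ × ℂ | dist p.2 p.1 < r} :=
    (isOpen_lt (continuous_snd.dist continuous_fst) continuous_const).measurableSet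
  have h1 : ∀ x, μ (ball x r) =
      ∫⁻ z, ({p : ℂ × ℂ | dist p.2 p.1 < r}).indicator (fun _ => (1 : ℝ≥0∞)) (x, z) ∂μ := by
    intro x
    rw [← lintegral_indicator_one measurableSet_ball]
    refine lintegral_congr fun z => ?_
    by_cases hz : dist z x < r
    · rw [indicator_of_mem (mem_ball.2 hz), indicator_of_mem (show (x, z) ∈ _ from hz)]; rfl
    · rw [indicator_of_notMem (fun h => hz (mem_ball.1 h)),
        indicator_of_notMem (show (x, z) ∉ _ from hz)]
  simp_rw [h1]
  rw [lintegral_lintegral_swap (f := fun x z =>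
    ({p : ℂ × ℂ | dist p.2 p.1 < r}).indicator (fun _ => (1 : ℝ≥0∞)) (x, z))
    ((measurable_const.indicator hS).aemeasurable)]
  rw [← lintegral_indicator_one isOpen_thickening.measurableSet, ← lintegral_const_mul _
    (measurable_one.indicator isOpen_thickening.measurableSet)]
  refine lintegral_mono fun z => ?_
  have h2 : ∫⁻ x in A, ({p : ℂ × ℂ | dist p.2 p.1 < r}).indicator (fun _ => (1 : ℝ≥0∞)) (x, z) =
      volume (ball z r ∩ A) := by
    rw [← Measure.restrict_apply measurableSet_ball, ← lintegral_indicator_one measurableSet_ball]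
    refine lintegral_congr fun x => ?_
    by_cases hz : dist z x < r
    · rw [indicator_of_mem (mem_ball'.2 hz), indicator_of_mem (show (x, z) ∈ _ from hz)]; rfl
    · rw [indicator_of_notMem (fun h => hz (mem_ball'.1 h)),
        indicator_of_notMem (show (x, z) ∉ _ from hz)]
  show ∫⁻ x in A, ({p : ℂ × ℂ | dist p.2 p.1 < r}).indicator (fun _ => (1 : ℝ≥0∞)) (x, z) ≤ _
  rw [h2]
  by_cases hz : z ∈ thickening r A
  · rw [indicator_of_mem hz, Pi.one_apply, mul_one]
    refine (measure_mono inter_subset_left).trans (le_of_eq ?_)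
    rw [Complex.volume_ball, ← ENNReal.ofReal_pow hr.le, ← NNReal.coe_real_pi,
      ENNReal.ofReal_mul (NNReal.coe_nonneg _), ENNReal.ofReal_coe_nnreal, mul_comm]
  · have : ball z r ∩ A = ∅ := by
      rw [eq_empty_iff_forall_notMem]
      rintro y ⟨hy, hyA⟩
      exact hz (mem_thickening_iff.2 ⟨y, hyA, by rw [dist_comm]; exact mem_ball.1 hy⟩)
    rw [this, measure_empty]; exact zero_le

/-- `L²` bound of difference quotients.  Lebesgue number lemma (`lebesgue_number_lemma_of_metric`) for the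
cover of `K` by the open sets `ball x (r x) ∩ O` (`r x` from `h.dil`) gives `δ`; take `ε0 = δ/2`... any
`ε < δ` has `closedBall x ε ⊆ ball x δ ⊆ ball x' (r x') ∩ O`; apply `area_pt` with `z = x + ε • v`, then
`tonelli_ball` (`pull O' σ` is finite by `h.fin'`); cancel `π ε²`. -/
theorem dq_bound {O O' : Set ℂ} {τ σ : ℂ → ℂ} {H : ℝ} (h : Pair O O' τ σ H) {K : Set ℂ}
    (hK : IsCompact K) (hKO : K ⊆ O) :
    ∃ ε0 : ℝ, 0 < ε0 ∧ ∀ ε : ℝ, 0 < ε → ε < ε0 → ∀ v : ℂ, ‖v‖ = 1 → ∀ A : Set ℂ, MeasurableSet A →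
      A ⊆ K → ∫⁻ x in A, ‖ε⁻¹ • (τ (x + ε • v) - τ x)‖ₑ ^ 2 ≤
        ENNReal.ofReal (H ^ 2) * pull O' σ (thickening ε A) := by
  classical
  choose! r hr hdil using h.dil
  obtain ⟨δ, hδ, hL⟩ := lebesgue_number_lemma_of_metric (ι := K)
    (c := fun x : K => ball (x : ℂ) (r x) ∩ O) hK (fun x => isOpen_ball.inter h.oO)
    (fun x hx => mem_iUnion.2 ⟨⟨x, hx⟩, mem_ball_self (hr x (hKO hx)), hKO hx⟩)
  refine ⟨δ, hδ, fun ε hε hεδ v hv A hA hAK => ?_⟩
  have : IsFiniteMeasure (volume.restrict O' : Measure ℂ) := isFiniteMeasure_restrict.2 h.fin'.ne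
  have : IsFiniteMeasure (pull O' σ) := by unfold pull; infer_instance
  have key : ∀ x ∈ A, ENNReal.ofReal (Real.pi * ε ^ 2) * ‖ε⁻¹ • (τ (x + ε • v) - τ x)‖ₑ ^ 2 ≤
      ENNReal.ofReal (H ^ 2) * pull O' σ (ball x ε) := by
    intro x hx
    obtain ⟨y, hy⟩ := hL x (hAK hx)
    have hcb : closedBall x ε ⊆ ball (y : ℂ) (r y) ∩ O := (closedBall_subset_ball hεδ).trans hy
    have hz : dist x (x + ε • v) = ε := by
      rw [dist_self_add_right, norm_smul, hv, mul_one, Real.norm_eq_abs, abs_of_pos hε]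
    have hp := area_pt h hε (hcb.trans inter_subset_right) hz (fun c hc => by
      refine hdil y (hKO y.2) x (hcb (mem_closedBall_self hε.le)).1 _ (hcb ?_).1 c (hcb ?_).1 ?_
      · rw [mem_closedBall, dist_comm, hz]
      · rw [mem_closedBall, dist_comm, hc]
      · rw [hz, hc])
    refine le_trans (le_of_eq ?_) hp
    rw [enorm_smul, mul_pow, ← mul_assoc, ENNReal.ofReal_mul Real.pi_pos.le, mul_assoc,
      mul_assoc, ← mul_assoc (ENNReal.ofReal (ε ^ 2))]
    have : ENNReal.ofReal (ε ^ 2) * ‖ε⁻¹‖ₑ ^ 2 = 1 := by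
      rw [Real.enorm_eq_ofReal (inv_pos.2 hε).le, ← ENNReal.ofReal_pow (inv_pos.2 hε).le,
        ← ENNReal.ofReal_mul (sq_nonneg _), ← mul_pow, mul_inv_cancel₀ hε.ne', one_pow,
        ENNReal.ofReal_one]
    rw [this, one_mul]
  have h1 : ENNReal.ofReal (Real.pi * ε ^ 2) * ∫⁻ x in A, ‖ε⁻¹ • (τ (x + ε • v) - τ x)‖ₑ ^ 2 ≤
      ENNReal.ofReal (H ^ 2) * ∫⁻ x in A, pull O' σ (ball x ε) := by
    rw [← lintegral_const_mul' _ _ ENNReal.ofReal_ne_top,
      ← lintegral_const_mul' _ _ ENNReal.ofReal_ne_top]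
    exact setLIntegral_mono' hA key
  have h2 := h1.trans (mul_le_mul_right (tonelli_ball (pull O' σ) hA hε) _)
  have hpos : ENNReal.ofReal (Real.pi * ε ^ 2) ≠ 0 :=
    (ENNReal.ofReal_pos.2 (by have := Real.pi_pos; positivity)).ne'
  rw [mul_left_comm] at h2
  exact (ENNReal.mul_le_mul_iff_right hpos ENNReal.ofReal_ne_top).1 h2

/-- Difference quotients against a test function.  By translation invariance
(`integral_add_right_eq_self`) the integral equals `∫ ε⁻¹ (ψ (x - ε v) - ψ x) • τ x`; dominated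
convergence (`ψ` is Lipschitz, the integrand vanishes off `cthickening ‖v‖ (tsupport ψ)` for `ε ≤ 1`,
`τ` is bounded). -/
theorem dq_tendsto {τ : ℂ → ℂ} (hτ : Measurable τ) {R : ℝ} (hR : ∀ x, ‖τ x‖ ≤ R) {ψ : ℂ → ℝ}
    (hψ : ContDiff ℝ 1 ψ) (hc : HasCompactSupport ψ) (v : ℂ) :
    Tendsto (fun ε : ℝ => ∫ x, ψ x • (ε⁻¹ • (τ (x + ε • v) - τ x))) (𝓝[>] 0)
      (𝓝 (-∫ x, fderiv ℝ ψ x v • τ x)) := by
  have hψc : Continuous ψ := hψ.continuous
  have hψi : Integrable ψ := hψc.integrable_of_hasCompactSupport hc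
  have hint : ∀ {φ : ℂ → ℝ} {g : ℂ → ℂ}, Integrable φ → Measurable g → (∀ x, ‖g x‖ ≤ R) →
      Integrable (fun x => φ x • g x) := by
    intro φ g hφ hg hgR
    refine (hφ.norm.mul_const R).mono' (hφ.1.smul hg.aestronglyMeasurable)
      (Eventually.of_forall fun x => ?_)
    rw [norm_smul]
    exact mul_le_mul_of_nonneg_left (hgR x) (norm_nonneg _)
  have heq : ∀ ε : ℝ, ∫ x, ψ x • (ε⁻¹ • (τ (x + ε • v) - τ x)) =
      ∫ x, (ε⁻¹ • (ψ (x + ε • (-v)) - ψ x)) • τ x := by
    intro ε
    have i1 : Integrable (fun x => ψ x • τ (x + ε • v)) :=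
      hint hψi (hτ.comp (measurable_add_const _)) (fun x => hR _)
    have i2 : Integrable (fun x => ψ x • τ x) := hint hψi hτ hR
    have i3 : Integrable (fun x => ψ (x + ε • (-v)) • τ x) :=
      hint (hψi.comp_add_right _) hτ hR
    have e1 : ∫ x, ψ x • τ (x + ε • v) = ∫ x, ψ (x + ε • (-v)) • τ x := by
      rw [← integral_add_right_eq_self (fun x => ψ (x + ε • (-v)) • τ x) (ε • v)]
      congr 1
      funext x
      rw [smul_neg, add_neg_cancel_right]
    calc ∫ x, ψ x • (ε⁻¹ • (τ (x + ε • v) - τ x))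
        = ∫ x, ε⁻¹ • (ψ x • τ (x + ε • v) - ψ x • τ x) := by
          congr 1
          funext x
          rw [smul_comm, smul_sub]
      _ = ε⁻¹ • ((∫ x, ψ x • τ (x + ε • v)) - ∫ x, ψ x • τ x) := by
          rw [integral_smul, integral_sub i1 i2]
      _ = ∫ x, ε⁻¹ • (ψ (x + ε • (-v)) • τ x - ψ x • τ x) := by
          rw [integral_smul, integral_sub i3 i2, e1]
      _ = _ := by
          congr 1
          funext x
          rw [smul_assoc, sub_smul]
  obtain ⟨L, hL⟩ := ContDiff.lipschitzWith_of_hasCompactSupport hc hψ one_ne_zero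
  have hlim : (-∫ x, fderiv ℝ ψ x v • τ x) = ∫ x, fderiv ℝ ψ x (-v) • τ x := by
    rw [← integral_neg]
    congr 1
    funext x
    rw [map_neg, neg_smul]
  simp_rw [heq]
  rw [hlim]
  have hK : IsCompact (cthickening ‖v‖ (tsupport ψ)) := hc.isCompact.cthickening
  refine tendsto_integral_filter_of_dominated_convergence
    ((cthickening ‖v‖ (tsupport ψ)).indicator fun _ => (L : ℝ) * ‖v‖ * R) ?_ ?_ ?_ ?_
  · refine Eventually.of_forall fun ε => ?_
    have hc1 : Continuous fun x : ℂ => ε⁻¹ • (ψ (x + ε • (-v)) - ψ x) := by fun_prop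
    exact hc1.aestronglyMeasurable.smul hτ.aestronglyMeasurable
  · have : ∀ᶠ ε : ℝ in 𝓝[>] 0, ε ∈ Ioo (0 : ℝ) 1 := Ioo_mem_nhdsGT one_pos
    filter_upwards [this] with ε hε
    refine Eventually.of_forall fun x => ?_
    by_cases hx : x ∈ cthickening ‖v‖ (tsupport ψ)
    · rw [indicator_of_mem hx, norm_smul]
      refine mul_le_mul ?_ (hR x) (norm_nonneg _) (by positivity)
      have h1 := hL.dist_le_mul (x + ε • (-v)) x
      rw [dist_self_add_left, norm_smul, norm_neg, Real.norm_eq_abs, abs_of_pos hε.1,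
        dist_eq_norm] at h1
      rw [norm_smul, norm_inv, Real.norm_eq_abs ε, abs_of_pos hε.1, inv_mul_le_iff₀ hε.1]
      linarith
    · rw [indicator_of_notMem hx]
      have h1 : ψ x = 0 :=
        image_eq_zero_of_notMem_tsupport fun h' => hx (self_subset_cthickening _ h')
      have h2 : ψ (x + ε • (-v)) = 0 := by
        refine image_eq_zero_of_notMem_tsupport fun h' => hx ?_
        refine mem_cthickening_of_dist_le x _ _ _ h' ?_
        rw [dist_self_add_right, norm_smul, norm_neg, Real.norm_eq_abs, abs_of_pos hε.1]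
        exact mul_le_of_le_one_left (norm_nonneg _) hε.2.le
      rw [h1, h2, sub_self, smul_zero, zero_smul, norm_zero]
  · exact (integrable_indicator_iff hK.measurableSet).2
      (integrableOn_const hK.measure_lt_top.ne)
  · refine Eventually.of_forall fun x => ?_
    have hd : HasLineDerivAt ℝ ψ (fderiv ℝ ψ x (-v)) x (-v) :=
      ((hψ.differentiable one_ne_zero x).hasFDerivAt).hasLineDerivAt (-v)
    exact hd.tendsto_slope_zero_right.smul_const (τ x)

end Crest.Agent.R193.TA
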