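import Crest.Agent.R193.TADefs

/-! Row 193, TA: basic facts on weak derivatives. -/

set_option autoImplicit false

open MeasureTheory Set Filter Topology Metric
open scoped ENNReal

namespace Crest.Agent.R193.TA

variable {E : Type} [NormedAddCommGroup E] [NormedSpace ℝ E] [FiniteDimensional ℝ E]

private theorem W1_sc : SecondCountableTopology E := by
  have := FiniteDimensional.proper_real E
  infer_instance

private theorem W1_l1 {D : ℂ → ℂ →L[ℝ] E} (hm : Measurable D) (K : Set ℂ) {T : ℝ≥0∞}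
    (h0 : T ≠ 0) (ht : T ≠ ∞) :
    ∫⁻ x in K, ‖D x‖ₑ ≤ T * volume K + T⁻¹ * ∫⁻ x in K, ‖D x‖ₑ ^ 2 := by
  have h1 : ∀ y : ℝ≥0∞, y ≤ T + T⁻¹ * y ^ 2 := fun y => by
    rcases le_total y T with h | h
    · exact h.trans le_self_add
    · refine le_trans ?_ le_add_self
      calc y = T⁻¹ * (T * y) := by rw [← mul_assoc, ENNReal.inv_mul_cancel h0 ht, one_mul]
        _ ≤ T⁻¹ * (y * y) := by gcongr
        _ = T⁻¹ * y ^ 2 := by rw [sq]
  calc ∫⁻ x in K, ‖D x‖ₑ ≤ ∫⁻ x in K, (T + T⁻¹ * ‖D x‖ₑ ^ 2) := lintegral_mono fun x => h1 _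
    _ = _ := by
      rw [lintegral_add_left measurable_const, lintegral_const_mul _ (hm.enorm.pow_const 2)]
      simp

private theorem W1_int {D : ℂ → ℂ →L[ℝ] E} (hm : Measurable D) {K : Set ℂ} (hK : IsCompact K)
    (h : ∫⁻ x in K, ‖D x‖ₑ ^ 2 < ∞) : IntegrableOn D K := by
  have := W1_sc (E := E)
  refine ⟨hm.aestronglyMeasurable, ?_⟩
  refine (W1_l1 hm K one_ne_zero ENNReal.one_ne_top).trans_lt ?_
  simpa using ⟨hK.measure_lt_top, h⟩

omit [FiniteDimensional ℝ E] in
private theorem W1_smul {φ : ℂ → ℝ} {F : ℂ → E} {K : Set ℂ} (hK : IsCompact K)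
    (hφ : Continuous φ) (hs : Function.support φ ⊆ K) (hF : IntegrableOn F K) :
    Integrable fun x => φ x • F x := by
  refine (integrableOn_iff_integrable_of_support_subset (s := K) ?_).1
    (hF.continuousOn_smul hφ.continuousOn hK)
  exact (Function.support_smul_subset_left _ _).trans hs

omit [FiniteDimensional ℝ E] in
private theorem W1_app {D : ℂ → ℂ →L[ℝ] E} {K : Set ℂ} (h : IntegrableOn D K) (v : ℂ) :
    IntegrableOn (fun x => D x v) K :=
  (ContinuousLinearMap.apply ℝ E v).integrable_comp h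

private theorem W1_supp (ψ : ℂ → ℝ) (v : ℂ) :
    Function.support (fun x => fderiv ℝ ψ x v) ⊆ tsupport ψ :=
  (subset_tsupport _).trans (tsupport_fderiv_apply_subset ℝ v)

private theorem W1_cont {ψ : ℂ → ℝ} (h : ContDiff ℝ 1 ψ) (v : ℂ) :
    Continuous fun x => fderiv ℝ ψ x v :=
  (h.continuous_fderiv one_ne_zero).clm_apply continuous_const

/-- restriction to a smaller set (trivial) -/
theorem Sob.mono {O O' : Set ℂ} {w : ℂ → E} {D : ℂ → ℂ →L[ℝ] E} (h : Sob O w D) (hO : O' ⊆ O) :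
    Sob O' w D := by
  exact ⟨h.cont.mono hO, h.meas, fun K hK hKO => h.l2 K hK (hKO.trans hO),
    fun ψ h1 h2 h3 v => h.wd ψ h1 h2 (h3.trans hO) v⟩

/-- `w` only matters on `O`: `fderiv ℝ ψ x = 0` off `tsupport ψ`
(`support_fderiv_subset` / `fderiv_of_notMem_tsupport`). -/
theorem Sob.congr {O : Set ℂ} {w w' : ℂ → E} {D : ℂ → ℂ →L[ℝ] E} (h : Sob O w D)
    (he : EqOn w w' O) : Sob O w' D := by
  refine ⟨h.cont.congr he.symm, h.meas, h.l2, fun ψ h1 h2 h3 v => ?_⟩
  rw [← h.wd ψ h1 h2 h3 v]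
  refine integral_congr_ae (Eventually.of_forall fun x => ?_)
  by_cases hx : x ∈ tsupport ψ
  · simp only [he (h3 hx)]
  · simp [fderiv_of_notMem_tsupport ℝ hx]

/-- `x ↦ D x` is integrable on compact subsets of `O` (`‖D‖ ≤ 1 + ‖D‖²`, finite measure). -/
theorem Sob.integrableOn {O : Set ℂ} {w : ℂ → E} {D : ℂ → ℂ →L[ℝ] E} (h : Sob O w D)
    {K : Set ℂ} (hK : IsCompact K) (hKO : K ⊆ O) : IntegrableOn D K := by
  exact W1_int h.meas hK (h.l2 K hK hKO)

/-- Uniqueness of the weak derivative.  For `v = 1, I` apply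
`IsOpen.ae_eq_zero_of_integral_contDiff_smul_eq_zero` to `x ↦ D₁ x v - D₂ x v`
(locally integrable on `O` by `Sob.integrableOn`, `locallyIntegrableOn_iff`); then a real-linear map
on `ℂ` is determined by its values at `1` and `I`. -/
theorem Sob.unique {O : Set ℂ} (hO : IsOpen O) {w : ℂ → E} {D₁ D₂ : ℂ → ℂ →L[ℝ] E}
    (h₁ : Sob O w D₁) (h₂ : Sob O w D₂) : ∀ᵐ x, x ∈ O → D₁ x = D₂ x := by
  have := FiniteDimensional.complete ℝ E
  have key : ∀ v : ℂ, ∀ᵐ x, x ∈ O → D₁ x v - D₂ x v = 0 := fun v => by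
    refine hO.ae_eq_zero_of_integral_contDiff_smul_eq_zero ?_ fun g hg hc hs => ?_
    · exact (locallyIntegrableOn_iff hO.isLocallyClosed).2 fun K hKO hK =>
        (W1_app (h₁.integrableOn hK hKO) v).sub (W1_app (h₂.integrableOn hK hKO) v)
    · have hg1 : ContDiff ℝ 1 g := hg.of_le (by exact_mod_cast le_top)
      simp only [smul_sub]
      rw [integral_sub (W1_smul hc hg.continuous (subset_tsupport _)
        (W1_app (h₁.integrableOn hc hs) v)) (W1_smul hc hg.continuous (subset_tsupport _)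
        (W1_app (h₂.integrableOn hc hs) v)), sub_eq_zero, ← neg_inj, ← h₁.wd g hg1 hc hs v,
        ← h₂.wd g hg1 hc hs v]
  filter_upwards [key 1, key Complex.I] with x h1 h2 hx
  ext1 z
  have e : z = z.re • (1 : ℂ) + z.im • Complex.I := by simp
  rw [e, map_add, map_add, map_smul, map_smul, map_smul, map_smul, sub_eq_zero.1 (h1 hx),
    sub_eq_zero.1 (h2 hx)]

/-- A `C¹` function has its derivative as weak derivative (integration by parts: the integral of
`fderiv (ψ • w) x v` vanishes, `integral_fderiv_eq_zero`-type lemma or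
`integral_bilinear_hasLineDerivAt_right_eq_neg_left_of_integrable`). -/
theorem sob_of_contDiff (O : Set ℂ) {w : ℂ → E} (hw : ContDiff ℝ 1 w) : Sob O w (fderiv ℝ w) := by
  have := FiniteDimensional.complete ℝ E
  have hc : Continuous (fderiv ℝ w) := hw.continuous_fderiv one_ne_zero
  refine ⟨hw.continuous.continuousOn, measurable_fderiv ℝ w, fun K hK _ => ?_,
    fun ψ h1 h2 _ v => ?_⟩
  · obtain ⟨C, hC⟩ := hK.exists_bound_of_continuousOn hc.continuousOn
    calc ∫⁻ x in K, ‖fderiv ℝ w x‖ₑ ^ 2 ≤ ∫⁻ _ in K, ENNReal.ofReal C ^ 2 :=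
          setLIntegral_mono' hK.measurableSet fun x hx => by
            gcongr
            rw [← ofReal_norm]
            exact ENNReal.ofReal_le_ofReal (hC x hx)
      _ < ∞ := by
          rw [setLIntegral_const]
          exact ENNReal.mul_lt_top (ENNReal.pow_lt_top ENNReal.ofReal_lt_top) hK.measure_lt_top
  · rw [integral_smul_fderiv_eq_neg_fderiv_smul_of_integrable, neg_neg]
    · exact W1_smul h2 (W1_cont h1 v) (W1_supp ψ v)
        (hw.continuous.continuousOn.integrableOn_compact h2)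
    · exact W1_smul h2 h1.continuous (subset_tsupport _)
        ((hc.clm_apply continuous_const).continuousOn.integrableOn_compact h2)
    · exact W1_smul h2 h1.continuous (subset_tsupport _)
        (hw.continuous.continuousOn.integrableOn_compact h2)
    · exact fun x _ => h1.differentiable one_ne_zero x
    · exact fun x _ => hw.differentiable one_ne_zero x

/-- Approximable pairs are Sobolev.  `l2`: `‖D‖² ≤ 2‖fderiv w' - D‖² + 2‖fderiv w'‖²`.
`wd`: with `K = tsupport ψ`, the defect of the identity for `(w, D)` minus the (zero) defect for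
`(w', fderiv w')` is at most `η ∫‖fderiv ψ v‖ + ‖v‖ sup|ψ| ∫_K ‖fderiv w' - D‖`, and
`‖a‖ ≤ t/2 + ‖a‖²/(2t)` with `t = √η` bounds the last integral by `√η (vol K + 1) / 2`. -/
theorem sob_of_apx {O : Set ℂ} {w : ℂ → E} {D : ℂ → ℂ →L[ℝ] E} (hc : ContinuousOn w O)
    (hm : Measurable D) (h : Apx O w D) : Sob O w D := by
  have := FiniteDimensional.complete ℝ E
  have := W1_sc (E := E)
  have hl2 : ∀ K, IsCompact K → K ⊆ O → ∫⁻ x in K, ‖D x‖ₑ ^ 2 < ∞ := fun K hK hKO => by
    obtain ⟨w', hw', -, h2⟩ := h K hK hKO 1 one_pos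
    have hm' : Measurable (fderiv ℝ w') := measurable_fderiv ℝ w'
    have h3 := (sob_of_contDiff O hw').l2 K hK hKO
    have h4 : ∀ x, ‖D x‖ₑ ^ 2 ≤ 4 * ‖fderiv ℝ w' x‖ₑ ^ 2 + 4 * ‖fderiv ℝ w' x - D x‖ₑ ^ 2 := by
      intro x
      have e : D x = fderiv ℝ w' x - (fderiv ℝ w' x - D x) := by abel
      have h5 : ‖D x‖ₑ ≤ ‖fderiv ℝ w' x‖ₑ + ‖fderiv ℝ w' x - D x‖ₑ := by
        conv_lhs => rw [e]
        exact enorm_sub_le
      generalize ‖fderiv ℝ w' x‖ₑ = a at *
      generalize ‖fderiv ℝ w' x - D x‖ₑ = b at *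
      rcases le_total a b with hab | hab
      · calc ‖D x‖ₑ ^ 2 ≤ (b + b) ^ 2 := by gcongr; exact h5.trans (by gcongr)
          _ = 4 * b ^ 2 := by ring
          _ ≤ _ := le_add_self
      · calc ‖D x‖ₑ ^ 2 ≤ (a + a) ^ 2 := by gcongr; exact h5.trans (by gcongr)
          _ = 4 * a ^ 2 := by ring
          _ ≤ _ := le_self_add
    refine (lintegral_mono h4).trans_lt ?_
    rw [lintegral_add_left ((hm'.enorm.pow_const 2).const_mul 4),
      lintegral_const_mul _ (hm'.enorm.pow_const 2),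
      lintegral_const_mul _ ((hm'.fun_sub hm).enorm.pow_const 2)]
    exact ENNReal.add_lt_top.2 ⟨ENNReal.mul_lt_top (by simp) h3,
      ENNReal.mul_lt_top (by simp) (h2.trans_lt ENNReal.ofReal_lt_top)⟩
  refine ⟨hc, hm, hl2, fun ψ h1 h2 h3 v => ?_⟩
  have hK : IsCompact (tsupport ψ) := h2
  obtain ⟨M, hM⟩ := h1.continuous.bounded_above_of_compact_support h2
  have hM0 : 0 ≤ M := (norm_nonneg _).trans (hM 0)
  have iD : IntegrableOn D (tsupport ψ) := W1_int hm hK (hl2 _ hK h3)
  have i1 : Integrable fun x => fderiv ℝ ψ x v • w x :=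
    W1_smul hK (W1_cont h1 v) (W1_supp ψ v) ((hc.mono h3).integrableOn_compact hK)
  have i2 : Integrable fun x => ψ x • D x v :=
    W1_smul hK h1.continuous (subset_tsupport _) (W1_app iD v)
  have i0 : Integrable fun x => ‖fderiv ℝ ψ x v‖ :=
    ((W1_cont h1 v).integrable_of_hasCompactSupport (h2.fderiv_apply ℝ v)).norm
  rw [eq_neg_iff_add_eq_zero, ← norm_le_zero_iff]
  set C : ℝ := (∫ x, ‖fderiv ℝ ψ x v‖) + M * ‖v‖ * ((volume (tsupport ψ)).toReal + 1) with hC
  have key : ∀ t : ℝ, 0 < t → t ≤ 1 →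
      ‖(∫ x, fderiv ℝ ψ x v • w x) + ∫ x, ψ x • D x v‖ ≤ t * C := fun t ht ht1 => by
    obtain ⟨w', hw', ha, hb⟩ := h _ hK h3 (t ^ 2) (by positivity)
    have hm' : Measurable (fderiv ℝ w') := measurable_fderiv ℝ w'
    have hs := sob_of_contDiff O hw'
    have iD' := hs.integrableOn hK h3
    have j1 : Integrable fun x => fderiv ℝ ψ x v • w' x :=
      W1_smul hK (W1_cont h1 v) (W1_supp ψ v) (hw'.continuous.continuousOn.integrableOn_compact hK)
    have j2 : Integrable fun x => ψ x • fderiv ℝ w' x v :=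
      W1_smul hK h1.continuous (subset_tsupport _) (W1_app iD' v)
    have e : (∫ x, fderiv ℝ ψ x v • w x) + ∫ x, ψ x • D x v =
        -(∫ x, (fderiv ℝ ψ x v • w' x - fderiv ℝ ψ x v • w x)) -
          ∫ x, (ψ x • fderiv ℝ w' x v - ψ x • D x v) := by
      rw [integral_sub j1 i1, integral_sub j2 i2, hs.wd ψ h1 h2 h3 v]
      abel
    have b1 : ‖∫ x, (fderiv ℝ ψ x v • w' x - fderiv ℝ ψ x v • w x)‖ ≤
        t * ∫ x, ‖fderiv ℝ ψ x v‖ := by
      rw [← integral_const_mul]
      refine norm_integral_le_of_norm_le (i0.const_mul t) (Eventually.of_forall fun x => ?_)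
      by_cases hx : x ∈ tsupport ψ
      · rw [← smul_sub, norm_smul, mul_comm]
        refine mul_le_mul_of_nonneg_right ((ha x hx).trans ?_) (norm_nonneg _)
        nlinarith
      · simp [fderiv_of_notMem_tsupport ℝ hx]
    have b3 : ∫ x in tsupport ψ, ‖fderiv ℝ w' x - D x‖ ≤
        t * ((volume (tsupport ψ)).toReal + 1) := by
      rw [integral_norm_eq_lintegral_enorm (hm'.fun_sub hm).aestronglyMeasurable]
      have hT : ENNReal.ofReal t ≠ 0 := by simpa using ht
      refine ENNReal.toReal_le_of_le_ofReal (by positivity) ?_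
      refine (W1_l1 (hm'.fun_sub hm) _ hT ENNReal.ofReal_ne_top).trans ?_
      rw [mul_add, mul_one, ENNReal.ofReal_add (by positivity) ht.le, ENNReal.ofReal_mul ht.le,
        ENNReal.ofReal_toReal hK.measure_lt_top.ne]
      gcongr
      calc (ENNReal.ofReal t)⁻¹ * ∫⁻ x in tsupport ψ, ‖fderiv ℝ w' x - D x‖ₑ ^ 2
          ≤ (ENNReal.ofReal t)⁻¹ * ENNReal.ofReal (t ^ 2) := by gcongr
        _ = ENNReal.ofReal t := by
          rw [sq, ENNReal.ofReal_mul ht.le, ← mul_assoc,
            ENNReal.inv_mul_cancel hT ENNReal.ofReal_ne_top, one_mul]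
    have b2 : ‖∫ x, (ψ x • fderiv ℝ w' x v - ψ x • D x v)‖ ≤
        M * ‖v‖ * ∫ x in tsupport ψ, ‖fderiv ℝ w' x - D x‖ := by
      rw [← setIntegral_eq_integral_of_forall_compl_eq_zero (s := tsupport ψ)
        (fun x hx => by simp [image_eq_zero_of_notMem_tsupport hx]), ← integral_const_mul]
      refine norm_integral_le_of_norm_le ((iD'.sub iD).norm.const_mul _)
        (Eventually.of_forall fun x => ?_)
      rw [← smul_sub, norm_smul, ← ContinuousLinearMap.sub_apply, mul_assoc]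
      refine mul_le_mul (hM x) ?_ (norm_nonneg _) hM0
      rw [mul_comm]
      exact ContinuousLinearMap.le_opNorm _ _
    rw [e]
    refine (norm_sub_le _ _).trans ?_
    rw [norm_neg, hC, mul_add]
    refine add_le_add b1 (b2.trans ?_)
    calc M * ‖v‖ * ∫ x in tsupport ψ, ‖fderiv ℝ w' x - D x‖
        ≤ M * ‖v‖ * (t * ((volume (tsupport ψ)).toReal + 1)) := by gcongr
      _ = _ := by ring
  have hlim : Tendsto (fun t : ℝ => t * C) (𝓝[>] 0) (𝓝 0) := by
    have : Tendsto (fun t : ℝ => t * C) (𝓝 0) (𝓝 (0 * C)) :=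
      (continuous_id.mul continuous_const).tendsto 0
    rw [zero_mul] at this
    exact this.mono_left nhdsWithin_le_nhds
  refine ge_of_tendsto hlim ?_
  filter_upwards [Ioc_mem_nhdsGT (one_pos : (0 : ℝ) < 1)] with t ht
  exact key t ht.1 ht.2

end Crest.Agent.R193.TA
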