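import Crest.Agent.R193.TAEx
import Crest.Agent.R193.TAW1

/-! Row 193, TA: existence of the weak derivative with the push-forward bound. -/

set_option autoImplicit false

open MeasureTheory Set Filter Topology Metric
open scoped ENNReal

namespace Crest.Agent.R193.TA

/-- From compact sets to all functions.  `ν = (volume.restrict O).withDensity f` satisfies
`ν A ≤ c μ A` for compact `A ⊆ O`; by inner regularity of `volume` (for measurable `B`,
`∫⁻_{B ∩ O} f` is the supremum of `∫⁻_A f` over compact `A ⊆ B ∩ O`: exhaust `B ∩ O` up to a null set by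
an increasing sequence of compact sets, `MeasurableSet.exists_isCompact_diff_lt`/`exists_lt_isCompact`,
finite volume `h.fin`, monotone convergence) `ν ≤ c • μ`; then
`∫⁻_O f·(k∘τ) = ∫⁻ k∘τ dν ≤ c ∫⁻ k∘τ dμ = c ∫⁻_{O'} k(τ(σ y)) dy = c ∫⁻_{O'} k ≤ c ∫⁻ k`. -/
theorem pb_of_compact {O O' : Set ℂ} {τ σ : ℂ → ℂ} {H : ℝ} (h : Pair O O' τ σ H)
    {f : ℂ → ℝ≥0∞} (hf : Measurable f) {c : ℝ≥0∞}
    (hA : ∀ A : Set ℂ, IsCompact A → A ⊆ O → ∫⁻ x in A, f x ≤ c * pull O' σ A)
    (k : ℂ → ℝ≥0∞) (hk : Measurable k) :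
    ∫⁻ x in O, f x * k (τ x) ≤ c * ∫⁻ y, k y := by
  have hO := h.oO.measurableSet
  have hle : (volume.restrict O).withDensity f ≤ c • pull O' σ := by
    refine Measure.le_iff.2 fun B hB => ?_
    have hs : MeasurableSet (B ∩ O) := hB.inter hO
    have hfin : volume (B ∩ O) ≠ ∞ := ((measure_mono inter_subset_right).trans_lt h.fin).ne
    have hK : ∀ n : ℕ, ∃ K ⊆ B ∩ O, IsCompact K ∧ volume ((B ∩ O) \ K) < ((n : ℝ≥0∞) + 1)⁻¹ :=
      fun n => hs.exists_isCompact_diff_lt hfin (by simp)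
    choose K hKs hKc hKv using hK
    have hLc : ∀ n, IsCompact (Set.accumulate K n) := fun n => isCompact_accumulate hKc n
    have hLs : ∀ n, Set.accumulate K n ⊆ B ∩ O := fun n x hx => by
      obtain ⟨m, -, hm⟩ := Set.mem_accumulate.1 hx
      exact hKs m hm
    have hnull : volume ((B ∩ O) \ ⋃ n, Set.accumulate K n) = 0 := by
      refine le_antisymm (ENNReal.le_of_forall_pos_le_add fun ε hε _ => ?_) zero_le
      obtain ⟨n, hn⟩ := ENNReal.exists_inv_nat_lt (a := (ε : ℝ≥0∞)) (by exact_mod_cast hε.ne')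
      rw [zero_add]
      refine le_trans (measure_mono (diff_subset_diff_right ?_)) ((hKv n).le.trans ?_)
      · exact (Set.subset_accumulate).trans (subset_iUnion (Set.accumulate K) n)
      · exact le_trans (ENNReal.inv_le_inv.2 le_self_add) hn.le
    have h1 : (volume.restrict O).withDensity f B = volume.withDensity f (B ∩ O) := by
      rw [withDensity_apply _ hB, withDensity_apply _ hs, Measure.restrict_restrict hB]
    rw [h1, Measure.smul_apply, smul_eq_mul]
    calc volume.withDensity f (B ∩ O)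
        ≤ volume.withDensity f ((⋃ n, Set.accumulate K n) ∪ ((B ∩ O) \ ⋃ n, Set.accumulate K n)) :=
          measure_mono (by rw [union_diff_self]; exact subset_union_right)
      _ ≤ volume.withDensity f (⋃ n, Set.accumulate K n) +
            volume.withDensity f ((B ∩ O) \ ⋃ n, Set.accumulate K n) := measure_union_le _ _
      _ = ⨆ n, volume.withDensity f (Set.accumulate K n) := by
          rw [withDensity_absolutelyContinuous volume f hnull, add_zero,
            (Set.monotone_accumulate).measure_iUnion]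
      _ ≤ c * pull O' σ B := by
          refine iSup_le fun n => ?_
          rw [withDensity_apply _ (hLc n).measurableSet]
          refine (hA _ (hLc n) ((hLs n).trans inter_subset_right)).trans ?_
          gcongr
          exact (hLs n).trans inter_subset_left
  have hkτ : Measurable fun x => k (τ x) := hk.comp h.mτ
  calc ∫⁻ x in O, f x * k (τ x) = ∫⁻ x, k (τ x) ∂((volume.restrict O).withDensity f) :=
        (lintegral_withDensity_eq_lintegral_mul _ hf hkτ).symm
    _ ≤ ∫⁻ x, k (τ x) ∂(c • pull O' σ) := lintegral_mono' hle le_rfl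
    _ = c * ∫⁻ y in O', k (τ (σ y)) := by
        rw [lintegral_smul_measure, smul_eq_mul, pull, lintegral_map hkτ h.mσ]
    _ = c * ∫⁻ y in O', k y := by
        congr 1
        exact setLIntegral_congr_fun h.oO'.measurableSet fun y hy => by simp only [h.right y hy]
    _ ≤ c * ∫⁻ y, k y := by
        gcongr
        exact Measure.restrict_le_self

private theorem ex2_int {d : ℂ → ℂ} (hd : Measurable d) {K : Set ℂ} (hK : IsCompact K)
    (h : ∫⁻ x in K, ‖d x‖ₑ ^ 2 < ∞) : IntegrableOn d K := by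
  refine ⟨hd.aestronglyMeasurable, ?_⟩
  have h1 : ∀ a : ℝ≥0∞, a ≤ 1 + a ^ 2 := by
    intro a
    rcases le_total a 1 with ha | ha
    · exact ha.trans le_self_add
    · refine le_trans ?_ le_add_self
      calc a = a * 1 := (mul_one a).symm
        _ ≤ a * a := by gcongr
        _ = a ^ 2 := (sq a).symm
  calc ∫⁻ x in K, ‖d x‖ₑ ≤ ∫⁻ x in K, (1 + ‖d x‖ₑ ^ 2) := lintegral_mono fun x => h1 _
    _ = volume K + ∫⁻ x in K, ‖d x‖ₑ ^ 2 := by
        rw [lintegral_add_left measurable_const]; simp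
    _ < ∞ := ENNReal.add_lt_top.2 ⟨hK.measure_lt_top, h⟩

/-- `D x = reCLM.smulRight (d₁ x) + imCLM.smulRight (d₂ x)` with `d₁, d₂` from `exists_dir` for
`v = 1, I`; `‖D x‖² ≤ 2‖d₁ x‖² + 2‖d₂ x‖²`; the identity for general `v = v.re • 1 + v.im • I` follows by
linearity (all integrands are integrable: `d_i` is integrable on `tsupport ψ`, `τ` bounded). -/
theorem exists_sob {O O' : Set ℂ} {τ σ : ℂ → ℂ} {H : ℝ} (h : Pair O O' τ σ H) :
    ∃ D : ℂ → ℂ →L[ℝ] ℂ, Sob O τ D ∧ PB O τ D (4 * H ^ 2) := by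
  obtain ⟨d₁, m₁, w₁, b₁⟩ := exists_dir h (v := 1) (by simp)
  obtain ⟨d₂, m₂, w₂, b₂⟩ := exists_dir h (v := Complex.I) (by simp)
  have : IsFiniteMeasure (volume.restrict O') := ⟨by simpa using h.fin'⟩
  have : IsFiniteMeasure (pull O' σ) := by unfold pull; infer_instance
  obtain ⟨D, hD⟩ : ∃ D : ℂ → ℂ →L[ℝ] ℂ, D = fun x =>
      Complex.reCLM.smulRight (d₁ x) + Complex.imCLM.smulRight (d₂ x) := ⟨_, rfl⟩
  have hDv : ∀ x v, D x v = v.re • d₁ x + v.im • d₂ x := fun x v => by simp [hD]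
  have hDm : Measurable D := by
    have hc : Continuous fun p : ℂ × ℂ =>
        Complex.reCLM.smulRight p.1 + Complex.imCLM.smulRight p.2 :=
      ((ContinuousLinearMap.smulRightL ℝ ℂ ℂ Complex.reCLM).continuous.comp continuous_fst).add
        ((ContinuousLinearMap.smulRightL ℝ ℂ ℂ Complex.imCLM).continuous.comp continuous_snd)
    rw [hD]
    exact hc.measurable.comp (m₁.prodMk m₂)
  have hDn : ∀ x, ‖D x‖ ≤ ‖d₁ x‖ + ‖d₂ x‖ := by
    intro x
    refine ContinuousLinearMap.opNorm_le_bound _ (by positivity) fun v => ?_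
    rw [hDv]
    refine (norm_add_le _ _).trans ?_
    rw [norm_smul, norm_smul, Real.norm_eq_abs, Real.norm_eq_abs]
    have h1 := Complex.abs_re_le_norm v
    have h2 := Complex.abs_im_le_norm v
    nlinarith [norm_nonneg (d₁ x), norm_nonneg (d₂ x)]
  have hDe : ∀ x, ‖D x‖ₑ ^ 2 ≤ 2 * ‖d₁ x‖ₑ ^ 2 + 2 * ‖d₂ x‖ₑ ^ 2 := by
    intro x
    rw [← ofReal_norm, ← ofReal_norm, ← ofReal_norm,
      ← ENNReal.ofReal_pow (norm_nonneg _), ← ENNReal.ofReal_pow (norm_nonneg _),
      ← ENNReal.ofReal_pow (norm_nonneg _), ← ENNReal.ofReal_ofNat 2,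
      ← ENNReal.ofReal_mul (by norm_num), ← ENNReal.ofReal_mul (by norm_num),
      ← ENNReal.ofReal_add (by positivity) (by positivity)]
    refine ENNReal.ofReal_le_ofReal ?_
    have h1 := hDn x
    have h2 : ‖D x‖ ^ 2 ≤ (‖d₁ x‖ + ‖d₂ x‖) ^ 2 := by gcongr
    nlinarith [sq_nonneg (‖d₁ x‖ - ‖d₂ x‖)]
  have hb : ∀ A : Set ℂ, IsCompact A → A ⊆ O →
      ∫⁻ x in A, ‖D x‖ₑ ^ 2 ≤ ENNReal.ofReal (4 * H ^ 2) * pull O' σ A := by
    intro A hA hAO
    calc ∫⁻ x in A, ‖D x‖ₑ ^ 2 ≤ ∫⁻ x in A, (2 * ‖d₁ x‖ₑ ^ 2 + 2 * ‖d₂ x‖ₑ ^ 2) :=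
          lintegral_mono hDe
      _ = 2 * (∫⁻ x in A, ‖d₁ x‖ₑ ^ 2) + 2 * ∫⁻ x in A, ‖d₂ x‖ₑ ^ 2 := by
          rw [lintegral_add_left ((m₁.enorm.pow_const 2).const_mul 2),
            lintegral_const_mul _ (m₁.enorm.pow_const 2),
            lintegral_const_mul _ (m₂.enorm.pow_const 2)]
      _ ≤ 2 * (ENNReal.ofReal (H ^ 2) * pull O' σ A) +
            2 * (ENNReal.ofReal (H ^ 2) * pull O' σ A) := by
          gcongr
          · exact b₁ A hA hAO
          · exact b₂ A hA hAO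
      _ = ENNReal.ofReal (4 * H ^ 2) * pull O' σ A := by
          rw [ENNReal.ofReal_mul (by norm_num), ENNReal.ofReal_ofNat]
          ring
  have hfin : ∀ (a : ℝ) (A : Set ℂ), ENNReal.ofReal a * pull O' σ A < ∞ := fun a A =>
    ENNReal.mul_lt_top ENNReal.ofReal_lt_top (measure_lt_top _ _)
  refine ⟨D, ⟨h.cτ, hDm, fun K hK hKO => (hb K hK hKO).trans_lt (hfin _ _), ?_⟩,
    fun k hk => pb_of_compact h (hDm.enorm.pow_const 2) hb k hk⟩
  intro ψ hψ hc hs v
  obtain ⟨R, hR⟩ := h.bτ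
  have hiτ : ∀ u : ℂ, Integrable fun x => fderiv ℝ ψ x u • τ x := by
    intro u
    have h1 : Continuous fun x => fderiv ℝ ψ x u :=
      (hψ.continuous_fderiv one_ne_zero).clm_apply continuous_const
    have h2 : Integrable fun x => fderiv ℝ ψ x u :=
      h1.integrable_of_hasCompactSupport (hc.fderiv_apply (𝕜 := ℝ) u)
    refine (h2.norm.mul_const R).mono' (h1.aestronglyMeasurable.smul h.mτ.aestronglyMeasurable)
      (Eventually.of_forall fun x => ?_)
    rw [norm_smul]
    gcongr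
    exact hR x
  have hid : ∀ d : ℂ → ℂ, Measurable d → (∫⁻ x in tsupport ψ, ‖d x‖ₑ ^ 2 < ∞) →
      Integrable fun x => ψ x • d x := by
    intro d hd hl
    have h1 := (ex2_int hd hc hl).continuousOn_smul hψ.continuous.continuousOn hc
    refine (integrableOn_iff_integrable_of_support_subset ?_).1 h1
    intro x hx
    refine subset_tsupport _ fun h0 => hx ?_
    simp [h0]
  have hi₁ := hid d₁ m₁ ((b₁ _ hc hs).trans_lt (hfin _ _))
  have hi₂ := hid d₂ m₂ ((b₂ _ hc hs).trans_lt (hfin _ _))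
  have e1 : ∀ x, fderiv ℝ ψ x v • τ x =
      v.re • (fderiv ℝ ψ x 1 • τ x) + v.im • (fderiv ℝ ψ x Complex.I • τ x) := by
    intro x
    have hv : v = v.re • (1 : ℂ) + v.im • Complex.I := by
      apply Complex.ext <;> simp
    conv_lhs => rw [hv]
    rw [map_add, map_smul, map_smul, add_smul, smul_assoc, smul_assoc]
  have e2 : ∀ x, ψ x • D x v = v.re • (ψ x • d₁ x) + v.im • (ψ x • d₂ x) := by
    intro x
    rw [hDv, smul_add, smul_comm (ψ x) v.re, smul_comm (ψ x) v.im]
  simp only [e1, e2]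
  have a1 : Integrable fun x => v.re • (fderiv ℝ ψ x 1 • τ x) := (hiτ 1).smul v.re
  have a2 : Integrable fun x => v.im • (fderiv ℝ ψ x Complex.I • τ x) := (hiτ Complex.I).smul v.im
  have a3 : Integrable fun x => v.re • (ψ x • d₁ x) := hi₁.smul v.re
  have a4 : Integrable fun x => v.im • (ψ x • d₂ x) := hi₂.smul v.im
  rw [integral_add a1 a2, integral_add a3 a4, integral_smul, integral_smul, integral_smul,
    integral_smul, w₁ ψ hψ hc hs, w₂ ψ hψ hc hs]
  simp only [smul_neg, neg_add]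

end Crest.Agent.R193.TA
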