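import Crest.Agent.R193.TAF0

/-! Row 193, TA: the invariant field of quadratic forms. -/

set_option autoImplicit false

open MeasureTheory Set Filter Topology Metric
open scoped ENNReal

namespace Crest.Agent.R193.TA

variable {G : Type} [Group G]

theorem qf_smul (b : ℝ × ℝ × ℝ) (t : ℝ) (ξ η : ℂ) : qf b (t • ξ) (t • η) = t ^ 2 * qf b ξ η := by
  simp only [qf, Complex.smul_re, Complex.smul_im, smul_eq_mul]; ring

theorem continuous_cv : Continuous cv := by
  have h1 : Continuous fun α : ℂ →L[ℝ] ℝ => α 1 := continuous_id.clm_apply continuous_const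
  have h2 : Continuous fun α : ℂ →L[ℝ] ℝ => α Complex.I := continuous_id.clm_apply continuous_const
  have : cv = fun α : ℂ →L[ℝ] ℝ => ((α 1 : ℝ) : ℂ) + ((α Complex.I : ℝ) : ℂ) * Complex.I := by
    funext α; apply Complex.ext <;> simp [cv]
  rw [this]
  exact (Complex.continuous_ofReal.comp h1).add
    ((Complex.continuous_ofReal.comp h2).mul continuous_const)

theorem meas_qf {α : Type} [MeasurableSpace α] {b : α → ℝ × ℝ × ℝ} {ξ η : α → ℂ}
    (hb : Measurable b) (hξ : Measurable ξ) (hη : Measurable η) :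
    Measurable fun a => qf (b a) (ξ a) (η a) := by
  unfold qf
  have h1 := Complex.measurable_re.comp hξ
  have h2 := Complex.measurable_im.comp hξ
  have h3 := Complex.measurable_re.comp hη
  have h4 := Complex.measurable_im.comp hη
  exact ((hb.fst.mul (h1.mul h3)).add (hb.snd.fst.mul ((h1.mul h4).add (h2.mul h3)))).add
    (hb.snd.snd.mul (h2.mul h4))

/-- The invariant field. -/
theorem exists_field [Countable G] (P : PAct G) (hP : P.Nice) :
    ∃ (D : G → ℂ → ℂ →L[ℝ] ℂ) (b : ℂ → ℝ × ℝ × ℝ) (C : ℝ),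
      (∀ g, Sob (P.S g) (P.τ g) (D g)) ∧ (∀ g, PB (P.S g) (P.τ g) (D g) (4 * P.H ^ 2)) ∧
      (∀ g, ∀ᵐ x, x ∈ P.S g → (D g⁻¹ (P.τ g x)).comp (D g x) = ContinuousLinearMap.id ℝ ℂ) ∧
      Measurable b ∧ (∀ y, ‖b y‖ ≤ C) ∧
      (∀ᵐ y, y ∈ P.S 1 → ∀ ξ : ℂ, ξ ≠ 0 → 0 < qf (b y) ξ ξ) ∧
      ∀ (g : G) (α β : ℂ → ℂ →L[ℝ] ℝ), Measurable α → Measurable β →
        ∫ x in P.S g, qf (b x) (cv ((α (P.τ g x)).comp (D g x))) (cv ((β (P.τ g x)).comp (D g x))) =
          ∫ y in P.S g⁻¹, qf (b y) (cv (α y)) (cv (β y)) := by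
  have hm : ∀ k, MeasurableSet (P.S k) := fun k => (P.isOpen k).measurableSet
  choose D hS hB using fun g => exists_sob (P.pair hP g)
  set c : ℝ := 4 * P.H ^ 2 with hc
  have hc0 : 0 ≤ c := by positivity
  choose M hM hMb hT hTr hnull using fun g => exists_transfer (hm g) (hm g⁻¹) (P.vol_lt g⁻¹)
    (hP.meas g) (hP.meas g⁻¹) (P.pair hP g).maps (fun x hx => P.left g hx) (hS g).meas hc0 (hB g)
  let N : ℂ → ℂ → ℝ≥0∞ := fun y ξ =>
    ⨆ g : G, (P.S g⁻¹).indicator (fun y => ‖tr (M g y) ξ‖ₑ ^ 2) y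
  have hNm : Measurable fun p : ℂ × ℂ => N p.1 p.2 := by
    refine Measurable.iSup fun g => ?_
    have : (fun p : ℂ × ℂ => (P.S g⁻¹).indicator (fun y => ‖tr (M g y) p.2‖ₑ ^ 2) p.1) =
        (Prod.fst ⁻¹' P.S g⁻¹).indicator (fun p : ℂ × ℂ => ‖tr (M g p.1) p.2‖ₑ ^ 2) := by
      funext p; by_cases hp : p.1 ∈ P.S g⁻¹ <;> simp [hp]
    rw [this]
    exact (meas_n (meas_comp' (hM g) measurable_fst) measurable_snd).indicator
      (measurable_fst (hm _))
  have hNle : ∀ y ξ, N y ξ ≤ ENNReal.ofReal (c * ‖ξ‖ ^ 2) := by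
    intro y ξ
    refine iSup_le fun g => (indicator_le_self _ _ y).trans ?_
    rw [← ofReal_norm_eq_enorm, ← ENNReal.ofReal_pow (norm_nonneg _)]
    refine ENNReal.ofReal_le_ofReal ?_
    have h1 : ‖tr (M g y) ξ‖ ≤ ‖M g y‖ * ‖ξ‖ := by
      rw [← norm_tr]; exact ContinuousLinearMap.le_opNorm _ _
    calc ‖tr (M g y) ξ‖ ^ 2 ≤ (‖M g y‖ * ‖ξ‖) ^ 2 := by gcongr
      _ = ‖M g y‖ ^ 2 * ‖ξ‖ ^ 2 := by ring
      _ ≤ c * ‖ξ‖ ^ 2 := by gcongr; exact hMb g y
  have hN0 : ∀ y, N y 0 = 0 := by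
    intro y
    have := hNle y 0
    simpa using this
  have hNtop : ∀ y ξ, N y ξ ≠ ∞ := fun y ξ => ne_top_of_le_ne_top ENNReal.ofReal_ne_top (hNle y ξ)
  have hlow : ∀ᵐ y, y ∈ P.S 1 → ∀ ξ : ℂ, ‖ξ‖ ^ 2 ≤ (N y ξ).toReal := by
    filter_upwards [P.M_one hS hM hT] with y hy hy1 ξ
    have h1 : ‖ξ‖ₑ ^ 2 ≤ N y ξ := by
      refine le_trans ?_ (le_iSup _ (1 : G))
      rw [inv_one, indicator_of_mem hy1, hy hy1]
    have h2 := ENNReal.toReal_mono (hNtop y ξ) h1
    simpa using h2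
  have hinvN : ∀ g, ∀ᵐ y, y ∈ P.S g⁻¹ → ∀ ξ : ℂ, N y ξ = N (P.τ g⁻¹ y) (tr (M g y) ξ) := by
    intro g
    filter_upwards [ae_all_iff.2 fun h => P.cocycle hP hS hB hM hT g h] with y hy hyg ξ
    show (⨆ k : G, (P.S k⁻¹).indicator (fun y => ‖tr (M k y) ξ‖ₑ ^ 2) y) = _
    rw [← (Equiv.mulLeft g).iSup_comp]
    refine iSup_congr fun h => ?_
    simp only [Equiv.coe_mulLeft]
    by_cases hh : P.τ g⁻¹ y ∈ P.S h⁻¹
    · have h1 : y ∈ P.S (g * h)⁻¹ := by
        have := (P.mul h⁻¹ g⁻¹ y hyg hh).1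
        rwa [mul_inv_rev]
      rw [indicator_of_mem h1, indicator_of_mem hh, hy h ⟨hyg, hh⟩ ξ]
      rfl
    · have h1 : y ∉ P.S (g * h)⁻¹ := by
        intro h1
        apply hh
        have h2 : P.τ g⁻¹ y ∈ P.S g := by simpa using P.inv g⁻¹ y hyg
        have h3 : P.τ g (P.τ g⁻¹ y) = y := by simpa using P.left g⁻¹ hyg
        have := (P.mul (g * h)⁻¹ g _ h2 (by rw [h3]; exact h1)).1
        rwa [mul_inv_rev, inv_mul_cancel_right] at this
      rw [indicator_of_notMem h1, indicator_of_notMem hh]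
  let Nr : ℂ → ℂ → ℝ := fun y ξ => max (‖ξ‖ ^ 2) (N y ξ).toReal
  have hNrm : Measurable (Function.uncurry Nr) :=
    (measurable_snd.norm.pow_const 2).max hNm.ennreal_toReal
  have hgood : ∀ y, Good (max c 1) (Nr y) := by
    intro y
    refine ⟨hNrm.comp (measurable_prodMk_left (x := y)), fun ζ => ⟨le_max_left _ _, max_le ?_ ?_⟩⟩
    · nlinarith [le_max_right c 1, sq_nonneg ‖ζ‖]
    · have h1 := ENNReal.toReal_mono ENNReal.ofReal_ne_top (hNle y ζ)
      rw [ENNReal.toReal_ofReal (by positivity)] at h1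
      nlinarith [le_max_left c 1, sq_nonneg ‖ζ‖]
  obtain ⟨C, hC⟩ := BLc_bound (max c 1)
  have hb : Measurable fun y => BLc (Nr y) := measurable_BLc hNrm
  refine ⟨D, fun y => BLc (Nr y), C, hS, hB, fun g => ?_, hb, fun y => hC _ (hgood y),
    Eventually.of_forall fun y _ ξ hξ => ?_, fun g α β hα hβ => ?_⟩
  · filter_upwards [P.chain hP hS hB g⁻¹ g, P.D_one hS] with x h1 h2 hx
    rw [← h1 hx (P.inv g x hx), inv_mul_cancel, h2 (P.sub g hx)]
  · rw [← BL_eq_qf (hgood y)]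
    exact BL_pos (hgood y) hξ
  · have hinv : ∀ᵐ y, y ∈ P.S g⁻¹ → ∀ ξ η : ℂ, qf (BLc (Nr y)) ξ η =
        qf (BLc (Nr (P.τ g⁻¹ y))) (tr (M g y) ξ) (tr (M g y) η) := by
      filter_upwards [hinvN g, hlow, hnull g _ hlow] with y h1 h2 h3 hy ξ η
      have hy1 := h2 (P.sub _ hy)
      have hker : ∀ ζ, tr (M g y) ζ = 0 → ζ = 0 := by
        intro ζ hζ
        have := hy1 ζ
        rw [h1 hy ζ, hζ, hN0] at this
        have h5 : ‖ζ‖ ^ 2 ≤ 0 := by simpa using this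
        have h6 : ‖ζ‖ = 0 := by nlinarith [norm_nonneg ζ]
        simpa using h6
      have hinj : Function.Injective (tr (M g y)) :=
        (injective_iff_map_eq_zero _).2 hker
      have h4 : ∀ ζ : ℂ, ‖ζ‖ ^ 2 ≤ (N (P.τ g⁻¹ y) ζ).toReal := by
        rcases h3 with h3 | h3
        · exact absurd (hker 1 (by rw [h3, tr_zero]; rfl)) one_ne_zero
        · exact h3 (P.sub g (by simpa using P.inv g⁻¹ y hy))
      have h5 : Nr y = fun ζ => Nr (P.τ g⁻¹ y) (tr (M g y) ζ) := by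
        funext ζ
        show max _ _ = max _ _
        rw [max_eq_right (hy1 ζ), max_eq_right (h4 _), h1 hy ζ]
      rw [← BL_eq_qf (hgood y), ← BL_eq_qf (hgood _), ← BL_comp _ _ hinj, ← h5]
    have hcα : Measurable fun y => cv (α y) := continuous_cv.measurable.comp hα
    have hcβ : Measurable fun y => cv (β y) := continuous_cv.measurable.comp hβ
    have hF : Measurable fun p : ℂ × (ℂ →L[ℝ] ℂ) => qf (BLc (Nr (P.τ g⁻¹ p.1)))
        (tr p.2 (cv (α p.1))) (tr p.2 (cv (β p.1))) :=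
      meas_qf (meas_comp' (f := fun y => BLc (Nr y)) hb (meas_comp' (hP.meas g⁻¹) measurable_fst))
        (meas_tr measurable_snd (meas_comp' (f := fun y => cv (α y)) hcα measurable_fst))
        (meas_tr measurable_snd (meas_comp' (f := fun y => cv (β y)) hcβ measurable_fst))
    have h1 := hTr g (fun y T => qf (BLc (Nr (P.τ g⁻¹ y))) (tr T (cv (α y))) (tr T (cv (β y))))
      hF (fun y t T _ => by
        rw [tr_smul, ContinuousLinearMap.smul_apply, ContinuousLinearMap.smul_apply, qf_smul])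
    calc _ = ∫ x in P.S g, qf (BLc (Nr (P.τ g⁻¹ (P.τ g x)))) (tr (D g x) (cv (α (P.τ g x))))
          (tr (D g x) (cv (β (P.τ g x)))) := by
          refine setIntegral_congr_fun (hm g) fun x hx => ?_
          simp only [cv_comp, P.left g hx]
      _ = _ := h1
      _ = _ := by
          refine setIntegral_congr_ae (hm _) ?_
          filter_upwards [hinv] with y hy hyg
          rw [hy hyg]

end Crest.Agent.R193.TA
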