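import Crest.Agent.R193.TAW2

/-! Row 193, TA: chain rules. -/

set_option autoImplicit false

open MeasureTheory Set Filter Topology Metric
open scoped ENNReal

namespace Crest.Agent.R193.TA

variable {E : Type} [NormedAddCommGroup E] [NormedSpace ℝ E] [FiniteDimensional ℝ E]

private lemma w3_sq_le {X Y Z : Type*} [NormedAddCommGroup X] [NormedAddCommGroup Y]
    [NormedAddCommGroup Z] (u : X) (p : Y) (q : Z) {A B : ℝ}
    (h : ‖u‖ ≤ A * ‖p‖ + B * ‖q‖) :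
    ‖u‖ₑ ^ 2 ≤ ENNReal.ofReal (2 * A ^ 2) * ‖p‖ₑ ^ 2 + ENNReal.ofReal (2 * B ^ 2) * ‖q‖ₑ ^ 2 := by
  rw [← ofReal_norm_eq_enorm, ← ofReal_norm_eq_enorm, ← ofReal_norm_eq_enorm,
    ← ENNReal.ofReal_pow (norm_nonneg _), ← ENNReal.ofReal_pow (norm_nonneg _),
    ← ENNReal.ofReal_pow (norm_nonneg _), ← ENNReal.ofReal_mul (by positivity),
    ← ENNReal.ofReal_mul (by positivity), ← ENNReal.ofReal_add (by positivity) (by positivity)]
  apply ENNReal.ofReal_le_ofReal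
  have h0 := norm_nonneg u
  have h1 : ‖u‖ ^ 2 ≤ (A * ‖p‖ + B * ‖q‖) ^ 2 := pow_le_pow_left₀ h0 h 2
  nlinarith [sq_nonneg (A * ‖p‖ - B * ‖q‖)]

private lemma w3_meas_comp {P : ℂ → ℂ →L[ℝ] E} {D : ℂ → ℂ →L[ℝ] ℂ} (hP : Measurable P)
    (hD : Measurable D) : Measurable fun x => (P x).comp (D x) := by
  have : ProperSpace E := FiniteDimensional.proper ℝ E
  have hc : Continuous fun p : (ℂ →L[ℝ] E) × (ℂ →L[ℝ] ℂ) => p.1.comp p.2 :=
    continuous_fst.clm_comp continuous_snd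
  exact hc.measurable.comp (hP.prodMk hD)

/-- Chain rule with a `C¹` outer function, approximation form.
Given `K`, let `K₁ = cthickening 1 (τ '' K)` (compact), `A` a bound for `‖fderiv f‖` on `K₁`; `f` and
`fderiv f` are uniformly continuous on `K₁`.  Take `τ'` from `h.apx` with a small `η' ≤ 1`, `w' = f ∘ τ'`,
`‖Df(τ')∘Dτ' - Df(τ)∘D‖ ≤ A ‖Dτ' - D‖ + ‖Df(τ') - Df(τ)‖ ‖D‖`, square (`(a+b)² ≤ 2a²+2b²`), integrate,
use `h.l2`. -/
theorem Sob.apx_comp_C1 {O : Set ℂ} (hO : IsOpen O) {τ : ℂ → ℂ} {D : ℂ → ℂ →L[ℝ] ℂ}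
    (h : Sob O τ D) {f : ℂ → E} (hf : ContDiff ℝ 1 f) :
    Apx O (fun x => f (τ x)) (fun x => (fderiv ℝ f (τ x)).comp (D x)) := by
  intro K hK hKO η hη
  have hτK : IsCompact (τ '' K) := hK.image_of_continuousOn (h.cont.mono hKO)
  set K₁ := cthickening 1 (τ '' K) with hK₁
  have hK₁c : IsCompact K₁ := hτK.cthickening
  have hdf : Continuous (fderiv ℝ f) := hf.continuous_fderiv one_ne_zero
  obtain ⟨A, hA⟩ := hK₁c.exists_bound_of_continuousOn hdf.continuousOn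
  set L : ℝ := (∫⁻ x in K, ‖D x‖ₑ ^ 2).toReal with hL
  have hL0 : 0 ≤ L := ENNReal.toReal_nonneg
  have hLe : ∫⁻ x in K, ‖D x‖ₑ ^ 2 = ENNReal.ofReal L := by
    rw [hL, ENNReal.ofReal_toReal (h.l2 K hK hKO).ne]
  set ε : ℝ := min 1 (η / (4 * (L + 1))) with hε
  have hε0 : 0 < ε := lt_min one_pos (by positivity)
  have hε1 : ε ≤ 1 := min_le_left _ _
  have hε2 : ε ≤ η / (4 * (L + 1)) := min_le_right _ _
  obtain ⟨δ₁, hδ₁, hu₁⟩ := Metric.uniformContinuousOn_iff.1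
    (hK₁c.uniformContinuousOn_of_continuous hf.continuous.continuousOn) η hη
  obtain ⟨δ₂, hδ₂, hu₂⟩ := Metric.uniformContinuousOn_iff.1
    (hK₁c.uniformContinuousOn_of_continuous hdf.continuousOn) ε hε0
  set η' : ℝ := min (min 1 (η / (4 * (A ^ 2 + 1)))) (min (δ₁ / 2) (δ₂ / 2)) with hη'
  have hη'0 : 0 < η' := lt_min (lt_min one_pos (by positivity)) (lt_min (by positivity) (by positivity))
  have hη'1 : η' ≤ 1 := (min_le_left _ _).trans (min_le_left _ _)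
  have hη'2 : η' ≤ η / (4 * (A ^ 2 + 1)) := (min_le_left _ _).trans (min_le_right _ _)
  have hη'3 : η' < δ₁ := ((min_le_right _ _).trans (min_le_left _ _)).trans_lt (by linarith)
  have hη'4 : η' < δ₂ := ((min_le_right _ _).trans (min_le_right _ _)).trans_lt (by linarith)
  obtain ⟨τ', hτ'c, hτ'0, hτ'1⟩ := h.apx hO K hK hKO η' hη'0
  have hm0 : ∀ x ∈ K, τ x ∈ K₁ := fun x hx =>
    self_subset_cthickening _ (mem_image_of_mem τ hx)
  have hm1 : ∀ x ∈ K, τ' x ∈ K₁ := fun x hx =>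
    mem_cthickening_of_dist_le (τ' x) (τ x) 1 _ (mem_image_of_mem τ hx)
      (by rw [dist_eq_norm]; exact (hτ'0 x hx).trans hη'1)
  refine ⟨fun x => f (τ' x), hf.comp hτ'c, fun x hx => ?_, ?_⟩
  · have := hu₁ _ (hm1 x hx) _ (hm0 x hx) (by rw [dist_eq_norm]; exact (hτ'0 x hx).trans_lt hη'3)
    rw [dist_eq_norm] at this
    exact this.le
  · have hpt : ∀ x ∈ K, ‖fderiv ℝ (fun x => f (τ' x)) x - (fderiv ℝ f (τ x)).comp (D x)‖ₑ ^ 2 ≤
        ENNReal.ofReal (2 * A ^ 2) * ‖fderiv ℝ τ' x - D x‖ₑ ^ 2 +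
          ENNReal.ofReal (2 * ε ^ 2) * ‖D x‖ₑ ^ 2 := by
      intro x hx
      apply w3_sq_le
      have e1 : fderiv ℝ (fun x => f (τ' x)) x = (fderiv ℝ f (τ' x)).comp (fderiv ℝ τ' x) :=
        fderiv_comp x (hf.differentiable one_ne_zero _) (hτ'c.differentiable one_ne_zero _)
      have e2 : (fderiv ℝ f (τ' x)).comp (fderiv ℝ τ' x) - (fderiv ℝ f (τ x)).comp (D x) =
          (fderiv ℝ f (τ' x)).comp (fderiv ℝ τ' x - D x) +
            (fderiv ℝ f (τ' x) - fderiv ℝ f (τ x)).comp (D x) := by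
        rw [ContinuousLinearMap.comp_sub, ContinuousLinearMap.sub_comp]; abel
      rw [e1, e2]
      have h3 := hu₂ _ (hm1 x hx) _ (hm0 x hx)
        (by rw [dist_eq_norm]; exact (hτ'0 x hx).trans_lt hη'4)
      rw [dist_eq_norm] at h3
      refine (norm_add_le _ _).trans (add_le_add ?_ ?_)
      · exact (ContinuousLinearMap.opNorm_comp_le _ _).trans
          (mul_le_mul_of_nonneg_right (hA _ (hm1 x hx)) (norm_nonneg _))
      · exact (ContinuousLinearMap.opNorm_comp_le _ _).trans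
          (mul_le_mul_of_nonneg_right h3.le (norm_nonneg _))
    have hmD : Measurable fun x => ENNReal.ofReal (2 * ε ^ 2) * ‖D x‖ₑ ^ 2 :=
      (h.meas.enorm.pow_const 2).const_mul _
    calc _ ≤ ∫⁻ x in K, (ENNReal.ofReal (2 * A ^ 2) * ‖fderiv ℝ τ' x - D x‖ₑ ^ 2 +
          ENNReal.ofReal (2 * ε ^ 2) * ‖D x‖ₑ ^ 2) := setLIntegral_mono' hK.measurableSet hpt
      _ = ENNReal.ofReal (2 * A ^ 2) * (∫⁻ x in K, ‖fderiv ℝ τ' x - D x‖ₑ ^ 2) +
          ENNReal.ofReal (2 * ε ^ 2) * ∫⁻ x in K, ‖D x‖ₑ ^ 2 := by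
        rw [lintegral_add_right _ hmD, lintegral_const_mul' _ _ ENNReal.ofReal_ne_top,
          lintegral_const_mul' _ _ ENNReal.ofReal_ne_top]
      _ ≤ ENNReal.ofReal (2 * A ^ 2) * ENNReal.ofReal η' +
          ENNReal.ofReal (2 * ε ^ 2) * ENNReal.ofReal L := by
        rw [hLe]; gcongr
      _ = ENNReal.ofReal (2 * A ^ 2 * η' + 2 * ε ^ 2 * L) := by
        rw [← ENNReal.ofReal_mul (by positivity), ← ENNReal.ofReal_mul (by positivity),
          ← ENNReal.ofReal_add (by positivity) (by positivity)]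
      _ ≤ ENNReal.ofReal η := by
        apply ENNReal.ofReal_le_ofReal
        have a1 : η' * (4 * (A ^ 2 + 1)) ≤ η := by
          rwa [le_div_iff₀ (by positivity)] at hη'2
        have a2 : ε * (4 * (L + 1)) ≤ η := by
          rwa [le_div_iff₀ (by positivity)] at hε2
        have a3 : ε ^ 2 * L ≤ ε * L := by
          apply mul_le_mul_of_nonneg_right _ hL0
          nlinarith
        nlinarith [sq_nonneg A]

/-- Chain rule with a `C¹` outer function (`sob_of_apx` + measurability). -/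
theorem Sob.comp_C1 {O : Set ℂ} (hO : IsOpen O) {τ : ℂ → ℂ} (hτ : Measurable τ)
    {D : ℂ → ℂ →L[ℝ] ℂ} (h : Sob O τ D) {f : ℂ → E} (hf : ContDiff ℝ 1 f) :
    Sob O (fun x => f (τ x)) (fun x => (fderiv ℝ f (τ x)).comp (D x)) := by
  refine sob_of_apx (hf.continuous.comp_continuousOn h.cont) ?_ (h.apx_comp_C1 hO hf)
  exact w3_meas_comp ((hf.continuous_fderiv one_ne_zero).measurable.comp hτ) h.meas

/-- Chain rule with a Sobolev outer function.  By `sob_of_apx`.  Given `K ⊆ O` compact let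
`K' = τ '' K ⊆ O'` (compact); take `w'` from `hw.apx` on `K'`, then `w''` from `h.apx_comp_C1` for
`f = w'` on `K`.  `∫_K ‖(Dw'(τ) - Dw(τ)) ∘ D‖² ≤ ∫_O ‖D‖² h(τ x) ≤ c ∫ h` with
`h = K'.indicator ‖fderiv w' - Dw‖ₑ²` (`hb`). -/
theorem Sob.comp {O O' : Set ℂ} (hO : IsOpen O) (hO' : IsOpen O') {τ : ℂ → ℂ} (hτ : Measurable τ)
    (hmaps : MapsTo τ O O') {D : ℂ → ℂ →L[ℝ] ℂ} (h : Sob O τ D) {c : ℝ} (hb : PB O τ D c)
    {w : ℂ → E} {Dw : ℂ → ℂ →L[ℝ] E} (hw : Sob O' w Dw) :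
    Sob O (fun x => w (τ x)) (fun x => (Dw (τ x)).comp (D x)) := by
  have : ProperSpace E := FiniteDimensional.proper ℝ E
  refine sob_of_apx (hw.cont.comp h.cont hmaps) (w3_meas_comp (hw.meas.comp hτ) h.meas) ?_
  intro K hK hKO η hη
  have hK' : IsCompact (τ '' K) := hK.image_of_continuousOn (h.cont.mono hKO)
  have hK'O : τ '' K ⊆ O' := by
    rintro _ ⟨x, hx, rfl⟩
    exact hmaps (hKO hx)
  set η₁ : ℝ := η / (4 * (|c| + 1)) with hη₁
  have hη₁0 : 0 < η₁ := by positivity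
  have a1 : η₁ * (4 * (|c| + 1)) = η := by
    rw [hη₁]; field_simp
  obtain ⟨w', hw'c, hw'0, hw'1⟩ := hw.apx hO' _ hK' hK'O η₁ hη₁0
  obtain ⟨w'', hw''c, hw''0, hw''1⟩ := h.apx_comp_C1 hO hw'c K hK hKO (η / 4) (by positivity)
  refine ⟨w'', hw''c, fun x hx => ?_, ?_⟩
  · have b1 := hw''0 x hx
    have b2 := hw'0 _ (mem_image_of_mem τ hx)
    have b3 : w'' x - w (τ x) = (w'' x - w' (τ x)) + (w' (τ x) - w (τ x)) := by abel
    rw [b3]
    refine (norm_add_le _ _).trans ?_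
    have := abs_nonneg c
    nlinarith
  · set g : ℂ → ℝ≥0∞ := (τ '' K).indicator fun y => ‖fderiv ℝ w' y - Dw y‖ₑ ^ 2 with hg
    have hgm : Measurable g :=
      ((((hw'c.continuous_fderiv one_ne_zero).measurable.sub hw.meas).enorm.pow_const 2).indicator
        hK'.measurableSet)
    have hgi : ∫⁻ y, g y ≤ ENNReal.ofReal η₁ := by
      rw [hg, lintegral_indicator hK'.measurableSet]
      exact hw'1
    have hpt : ∀ x ∈ K, ‖fderiv ℝ w'' x - (Dw (τ x)).comp (D x)‖ₑ ^ 2 ≤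
        2 * ‖fderiv ℝ w'' x - (fderiv ℝ w' (τ x)).comp (D x)‖ₑ ^ 2 +
          2 * (‖D x‖ₑ ^ 2 * g (τ x)) := by
      intro x hx
      have e2 : fderiv ℝ w'' x - (Dw (τ x)).comp (D x) =
          (fderiv ℝ w'' x - (fderiv ℝ w' (τ x)).comp (D x)) +
            (fderiv ℝ w' (τ x) - Dw (τ x)).comp (D x) := by
        rw [ContinuousLinearMap.sub_comp]; abel
      have e3 := w3_sq_le (fderiv ℝ w'' x - (Dw (τ x)).comp (D x))
        (fderiv ℝ w'' x - (fderiv ℝ w' (τ x)).comp (D x))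
        ((fderiv ℝ w' (τ x) - Dw (τ x)).comp (D x)) (A := 1) (B := 1)
        (by rw [one_mul, one_mul, e2]; exact norm_add_le _ _)
      have e4 : ENNReal.ofReal (2 * (1 : ℝ) ^ 2) = 2 := by simp
      rw [e4] at e3
      refine e3.trans ?_
      gcongr
      rw [hg, indicator_of_mem (mem_image_of_mem τ hx), ← mul_pow]
      gcongr
      rw [mul_comm, ← ofReal_norm_eq_enorm, ← ofReal_norm_eq_enorm, ← ofReal_norm_eq_enorm,
        ← ENNReal.ofReal_mul (norm_nonneg _)]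
      exact ENNReal.ofReal_le_ofReal (ContinuousLinearMap.opNorm_comp_le _ _)
    have hmD : Measurable fun x => 2 * (‖D x‖ₑ ^ 2 * g (τ x)) :=
      ((h.meas.enorm.pow_const 2).mul (hgm.comp hτ)).const_mul _
    calc _ ≤ ∫⁻ x in K, (2 * ‖fderiv ℝ w'' x - (fderiv ℝ w' (τ x)).comp (D x)‖ₑ ^ 2 +
          2 * (‖D x‖ₑ ^ 2 * g (τ x))) := setLIntegral_mono' hK.measurableSet hpt
      _ = 2 * (∫⁻ x in K, ‖fderiv ℝ w'' x - (fderiv ℝ w' (τ x)).comp (D x)‖ₑ ^ 2) +
          2 * ∫⁻ x in K, ‖D x‖ₑ ^ 2 * g (τ x) := by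
        rw [lintegral_add_right _ hmD, lintegral_const_mul' _ _ (by simp),
          lintegral_const_mul' _ _ (by simp)]
      _ ≤ 2 * ENNReal.ofReal (η / 4) + 2 * (ENNReal.ofReal |c| * ENNReal.ofReal η₁) := by
        gcongr
        calc _ ≤ ∫⁻ x in O, ‖D x‖ₑ ^ 2 * g (τ x) := lintegral_mono_set hKO
          _ ≤ ENNReal.ofReal c * ∫⁻ y, g y := hb g hgm
          _ ≤ _ := by
            gcongr
            exact le_abs_self c
      _ = ENNReal.ofReal (2 * (η / 4) + 2 * (|c| * η₁)) := by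
        rw [ENNReal.ofReal_add (by positivity) (by positivity),
          ENNReal.ofReal_mul (p := 2) (by positivity), ENNReal.ofReal_mul (p := 2) (by positivity),
          ENNReal.ofReal_mul (abs_nonneg c)]
        simp
      _ ≤ ENNReal.ofReal η := by
        apply ENNReal.ofReal_le_ofReal
        have := abs_nonneg c
        nlinarith

end Crest.Agent.R193.TA
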