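import Crest.Agent.R193.TAP
import Crest.Agent.R193.TAW3
import Crest.Agent.R193.TAEx2

/-! Row 193, TA: the cocycle of normalised derivatives. -/

set_option autoImplicit false

open MeasureTheory Set Filter Topology Metric
open scoped ENNReal

namespace Crest.Agent.R193.TA

variable {G : Type} [Group G]

/-- normalised partial action: globally measurable and bounded maps -/
structure PAct.Nice (P : PAct G) : Prop where
  meas : ∀ g, Measurable (P.τ g)
  bd : ∀ g, ∃ R : ℝ, ∀ x, ‖P.τ g x‖ ≤ R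

theorem PAct.left (P : PAct G) (g : G) {x : ℂ} (hx : x ∈ P.S g) : P.τ g⁻¹ (P.τ g x) = x := by
  have h := P.mul g⁻¹ g x hx (P.inv g x hx)
  rw [← h.2, inv_mul_cancel]
  exact P.one x (P.sub g hx)

theorem PAct.vol_lt (P : PAct G) (g : G) : volume (P.S g) < ∞ :=
  (measure_mono (P.sub g)).trans_lt P.bdd.measure_lt_top

theorem PAct.pair (P : PAct G) (hP : P.Nice) (g : G) :
    Pair (P.S g) (P.S g⁻¹) (P.τ g) (P.τ g⁻¹) P.H where
  Hpos := P.Hpos
  oO := P.isOpen g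
  oO' := P.isOpen g⁻¹
  fin := P.vol_lt g
  fin' := P.vol_lt g⁻¹
  mτ := hP.meas g
  mσ := hP.meas g⁻¹
  bτ := hP.bd g
  cτ := P.cont g
  cσ := P.cont g⁻¹
  maps := fun x hx => P.inv g x hx
  maps' := fun y hy => by simpa using P.inv g⁻¹ y hy
  left := fun x hx => P.left g hx
  right := fun y hy => by simpa using P.left g⁻¹ hy
  dil := P.dil g

theorem continuous_tr : Continuous tr :=
  (ContinuousLinearMap.adjoint (𝕜 := ℝ) (E := ℂ) (F := ℂ)).continuous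

theorem tr_smul (t : ℝ) (T : ℂ →L[ℝ] ℂ) : tr (t • T) = t • tr T := by
  unfold tr; simp

theorem tr_zero : tr 0 = 0 := by
  unfold tr; simp

theorem tr_id : tr (ContinuousLinearMap.id ℝ ℂ) = ContinuousLinearMap.id ℝ ℂ := by
  unfold tr; simp

theorem tr_comp (A B : ℂ →L[ℝ] ℂ) (ξ : ℂ) : tr (A.comp B) ξ = tr B (tr A ξ) := by
  unfold tr; rw [ContinuousLinearMap.adjoint_comp]; rfl

theorem norm_tr (A : ℂ →L[ℝ] ℂ) : ‖tr A‖ = ‖A‖ := by
  unfold tr; simp

theorem meas_tr {α : Type} [MeasurableSpace α] {T : α → ℂ →L[ℝ] ℂ} {ξ : α → ℂ}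
    (hT : Measurable T) (hξ : Measurable ξ) : Measurable fun a => tr (T a) (ξ a) := by
  have hc : Continuous fun p : (ℂ →L[ℝ] ℂ) × ℂ => tr p.1 p.2 :=
    (continuous_tr.comp continuous_fst).clm_apply continuous_snd
  have h2 : Measurable fun a => ((T a, ξ a) : (ℂ →L[ℝ] ℂ) × ℂ) := hT.prodMk hξ
  have h3 := hc.measurable.comp h2
  simpa only [Function.comp_def] using h3

theorem meas_n {α : Type} [MeasurableSpace α] {T : α → ℂ →L[ℝ] ℂ} {ξ : α → ℂ}
    (hT : Measurable T) (hξ : Measurable ξ) : Measurable fun a => ‖tr (T a) (ξ a)‖ₑ ^ 2 :=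
  (meas_tr hT hξ).enorm.pow_const 2

theorem meas_mul' {α : Type} [MeasurableSpace α] {f k : α → ℝ≥0∞} (hf : Measurable f)
    (hk : Measurable k) : Measurable fun a => f a * k a := hf.mul hk

theorem meas_comp' {α β γ : Type} [MeasurableSpace α] [MeasurableSpace β] [MeasurableSpace γ]
    {f : β → γ} {k : α → β} (hf : Measurable f) (hk : Measurable k) :
    Measurable fun a => f (k a) := hf.comp hk

theorem meas_unc {F : ℂ → (ℂ →L[ℝ] ℂ) → ℝ≥0∞}
    (h : Measurable fun p : ℂ × (ℂ →L[ℝ] ℂ) => F p.1 p.2) : Measurable (Function.uncurry F) := h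

theorem enorm_tr_smul (t : ℝ) (ht : 0 ≤ t) (T : ℂ →L[ℝ] ℂ) (ξ : ℂ) :
    ‖tr (t • T) ξ‖ₑ ^ 2 = ENNReal.ofReal (t ^ 2) * ‖tr T ξ‖ₑ ^ 2 := by
  rw [tr_smul, ContinuousLinearMap.smul_apply, enorm_smul, mul_pow, Real.enorm_eq_ofReal ht,
    ENNReal.ofReal_pow ht]

theorem PB.mono {O O₁ : Set ℂ} {τ : ℂ → ℂ} {D : ℂ → ℂ →L[ℝ] ℂ} {c : ℝ} (h : PB O τ D c)
    (hO : O₁ ⊆ O) : PB O₁ τ D c := fun k hk => (lintegral_mono_set hO).trans (h k hk)

/-- the chain rule for the weak derivatives of a partial action -/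
theorem PAct.chain (P : PAct G) (hP : P.Nice) {D : G → ℂ → ℂ →L[ℝ] ℂ} {c : ℝ}
    (hS : ∀ g, Sob (P.S g) (P.τ g) (D g)) (hB : ∀ g, PB (P.S g) (P.τ g) (D g) c) (g h : G) :
    ∀ᵐ x, x ∈ P.S h → P.τ h x ∈ P.S g → D (g * h) x = (D g (P.τ h x)).comp (D h x) := by
  set O : Set ℂ := P.S h ∩ P.τ h ⁻¹' P.S g with hO
  have hOo : IsOpen O := (P.cont h).isOpen_inter_preimage (P.isOpen h) (P.isOpen g)
  have h1 : Sob O (fun x => P.τ g (P.τ h x)) (fun x => (D g (P.τ h x)).comp (D h x)) :=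
    Sob.comp hOo (P.isOpen g) (hP.meas h) (fun x hx => hx.2) ((hS h).mono inter_subset_left)
      ((hB h).mono inter_subset_left) (hS g)
  have h2 : Sob O (fun x => P.τ g (P.τ h x)) (D (g * h)) :=
    ((hS (g * h)).mono (fun x hx => (P.mul g h x hx.1 hx.2).1)).congr
      (fun x hx => (P.mul g h x hx.1 hx.2).2)
  filter_upwards [Sob.unique hOo h2 h1] with x hx h3 h4 using hx ⟨h3, h4⟩

theorem PAct.D_one (P : PAct G) {D : G → ℂ → ℂ →L[ℝ] ℂ}
    (hS : ∀ g, Sob (P.S g) (P.τ g) (D g)) :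
    ∀ᵐ x, x ∈ P.S 1 → D 1 x = ContinuousLinearMap.id ℝ ℂ := by
  have h1 : Sob (P.S 1) (fun x : ℂ => x) (fderiv ℝ fun x : ℂ => x) :=
    sob_of_contDiff _ contDiff_id
  have h2 : Sob (P.S 1) (fun x : ℂ => x) (D 1) := (hS 1).congr (fun x hx => P.one x hx)
  filter_upwards [Sob.unique (P.isOpen 1) h2 h1] with x hx h3
  rw [hx h3, fderiv_id']

/-- the lintegral transfer property -/
def Trans (O O' : Set ℂ) (τ : ℂ → ℂ) (D M : ℂ → ℂ →L[ℝ] ℂ) : Prop :=
  ∀ F : ℂ → (ℂ →L[ℝ] ℂ) → ℝ≥0∞, Measurable (Function.uncurry F) →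
    (∀ y (t : ℝ) T, 0 ≤ t → F y (t • T) = ENNReal.ofReal (t ^ 2) * F y T) →
    ∫⁻ x in O, F (τ x) (D x) = ∫⁻ y in O', F y (M y)

theorem ae_all_of_dense {A B : ℂ → ℂ →L[ℝ] ℂ} {W : Set ℂ}
    (h : ∀ ξ : ℂ, ∀ᵐ y, y ∈ W → ‖A y ξ‖ₑ ^ 2 = ‖B y ξ‖ₑ ^ 2) :
    ∀ᵐ y, y ∈ W → ∀ ξ : ℂ, ‖A y ξ‖ₑ ^ 2 = ‖B y ξ‖ₑ ^ 2 := by
  have h1 := ae_all_iff.2 (fun n : ℕ => h (TopologicalSpace.denseSeq ℂ n))
  filter_upwards [h1] with y hy hW ξ
  have hc : ∀ T : ℂ →L[ℝ] ℂ, Continuous fun ξ : ℂ => ‖T ξ‖ₑ ^ 2 := fun T =>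
    (ENNReal.continuous_pow 2).comp T.continuous.enorm
  have := (TopologicalSpace.denseRange_denseSeq ℂ).equalizer (hc (A y)) (hc (B y))
    (funext fun n => hy n hW)
  exact congrFun this ξ

theorem ae_eq_on_of_ind {W : Set ℂ} (hW : MeasurableSet W) {f k : ℂ → ℝ≥0∞} (hf : Measurable f)
    (hk : Measurable k)
    (h : ∀ A, MeasurableSet A → A ⊆ W → ∫⁻ y in A, f y = ∫⁻ y in A, k y) :
    ∀ᵐ y, y ∈ W → f y = k y := by
  have h1 : W.indicator f =ᵐ[volume] W.indicator k := by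
    refine ae_eq_of_forall_setLIntegral_eq_of_sigmaFinite (hf.indicator hW) (hk.indicator hW) ?_
    intro A hA _
    rw [lintegral_indicator hW, lintegral_indicator hW, Measure.restrict_restrict hW]
    exact h _ (hW.inter hA) inter_subset_left
  filter_upwards [h1] with y hy hyW
  simpa [indicator_of_mem hyW] using hy

/-- the normalised derivative of the identity -/
theorem PAct.M_one (P : PAct G) {D M : G → ℂ → ℂ →L[ℝ] ℂ}
    (hS : ∀ g, Sob (P.S g) (P.τ g) (D g)) (hM : ∀ g, Measurable (M g))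
    (hT : ∀ g, Trans (P.S g) (P.S g⁻¹) (P.τ g) (D g) (M g)) :
    ∀ᵐ y, y ∈ P.S 1 → ∀ ξ : ℂ, ‖tr (M 1 y) ξ‖ₑ ^ 2 = ‖ξ‖ₑ ^ 2 := by
  have hm : MeasurableSet (P.S 1) := (P.isOpen 1).measurableSet
  refine ae_all_of_dense (A := fun y => tr (M 1 y)) (B := fun _ => ContinuousLinearMap.id ℝ ℂ)
    (fun ξ => ?_)
  refine ae_eq_on_of_ind hm (meas_n (hM 1) measurable_const)
    measurable_const (fun A hA hAW => ?_)
  have h1 := hT 1 (fun y T => A.indicator 1 y * ‖tr T ξ‖ₑ ^ 2)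
    (meas_unc (meas_mul' (meas_comp' (measurable_one.indicator hA) measurable_fst)
      (meas_n measurable_snd measurable_const)))
    (fun y t T ht => by rw [enorm_tr_smul t ht]; ring)
  rw [inv_one] at h1
  have e1 : ∀ k : ℂ → ℝ≥0∞, ∫⁻ y in P.S 1, A.indicator 1 y * k y = ∫⁻ y in A, k y := by
    intro k
    have : (fun y => A.indicator (1 : ℂ → ℝ≥0∞) y * k y) = A.indicator k := by
      funext y; by_cases hy : y ∈ A <;> simp [hy]
    rw [this, lintegral_indicator hA, Measure.restrict_restrict hA, inter_eq_left.2 hAW]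
  rw [e1] at h1
  rw [← h1, ← e1]
  refine lintegral_congr_ae ((ae_restrict_iff' hm).2 ?_)
  filter_upwards [P.D_one hS] with x hx hx1
  rw [hx hx1, P.one x hx1, tr_id]

/-- the cocycle identity -/
theorem PAct.cocycle (P : PAct G) (hP : P.Nice) {D M : G → ℂ → ℂ →L[ℝ] ℂ} {c : ℝ}
    (hS : ∀ g, Sob (P.S g) (P.τ g) (D g)) (hB : ∀ g, PB (P.S g) (P.τ g) (D g) c)
    (hM : ∀ g, Measurable (M g))
    (hT : ∀ g, Trans (P.S g) (P.S g⁻¹) (P.τ g) (D g) (M g)) (g h : G) :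
    ∀ᵐ y, y ∈ P.S g⁻¹ ∩ P.τ g⁻¹ ⁻¹' P.S h⁻¹ → ∀ ξ : ℂ,
      ‖tr (M (g * h) y) ξ‖ₑ ^ 2 = ‖(tr (M h (P.τ g⁻¹ y))).comp (tr (M g y)) ξ‖ₑ ^ 2 := by
  have hm : ∀ k, MeasurableSet (P.S k) := fun k => (P.isOpen k).measurableSet
  set W : Set ℂ := P.S g⁻¹ ∩ P.τ g⁻¹ ⁻¹' P.S h⁻¹ with hW
  have hWm : MeasurableSet W := (hm _).inter (hP.meas _ (hm _))
  refine ae_all_of_dense (A := fun y => tr (M (g * h) y))
    (B := fun y => (tr (M h (P.τ g⁻¹ y))).comp (tr (M g y))) (fun ξ => ?_)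
  simp only [ContinuousLinearMap.comp_apply]
  refine ae_eq_on_of_ind hWm (meas_n (hM _) measurable_const)
    (meas_n (meas_comp' (hM h) (hP.meas _)) (meas_tr (hM g) measurable_const))
    (fun A hA hAW => ?_)
  have e1 : ∀ (O : Set ℂ) (k : ℂ → ℝ≥0∞), A ⊆ O →
      ∫⁻ y in O, A.indicator 1 y * k y = ∫⁻ y in A, k y := by
    intro O k hAO
    have : (fun y => A.indicator (1 : ℂ → ℝ≥0∞) y * k y) = A.indicator k := by
      funext y; by_cases hy : y ∈ A <;> simp [hy]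
    rw [this, lintegral_indicator hA, Measure.restrict_restrict hA, inter_eq_left.2 hAO]
  have hi : Measurable (A.indicator (1 : ℂ → ℝ≥0∞)) := measurable_one.indicator hA
  have hig : Measurable ((P.S g).indicator (1 : ℂ → ℝ≥0∞)) := measurable_one.indicator (hm g)
  -- transfer for `g * h`
  have h1 := hT (g * h) (fun y T => A.indicator 1 y * ‖tr T ξ‖ₑ ^ 2)
    (meas_unc (meas_mul' (meas_comp' hi measurable_fst) (meas_n measurable_snd measurable_const)))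
    (fun y t T ht => by rw [enorm_tr_smul t ht]; ring)
  -- transfer for `h`
  have h2 := hT h (fun z T => (P.S g).indicator 1 z * (A.indicator 1 (P.τ g z) *
      ‖tr T (tr (D g z) ξ)‖ₑ ^ 2))
    (meas_unc (meas_mul' (meas_comp' hig measurable_fst)
      (meas_mul' (meas_comp' hi (meas_comp' (hP.meas g) measurable_fst))
      (meas_n measurable_snd (meas_tr (meas_comp' (hS g).meas measurable_fst)
        measurable_const)))))
    (fun y t T ht => by rw [enorm_tr_smul t ht]; ring)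
  -- transfer for `g`
  have h3 := hT g (fun y T => A.indicator 1 y * ‖tr (M h (P.τ g⁻¹ y)) (tr T ξ)‖ₑ ^ 2)
    (meas_unc (meas_mul' (meas_comp' hi measurable_fst)
      (meas_n (meas_comp' (hM h) (meas_comp' (hP.meas g⁻¹) measurable_fst))
        (meas_tr measurable_snd measurable_const))))
    (fun y t T ht => by
      rw [tr_smul, ContinuousLinearMap.smul_apply, map_smul, enorm_smul, mul_pow,
        Real.enorm_eq_ofReal ht, ENNReal.ofReal_pow ht]; ring)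
  have hA1 : A ⊆ P.S (g * h)⁻¹ := by
    intro y hy
    have := (P.mul h⁻¹ g⁻¹ y (hAW hy).1 (hAW hy).2).1
    rwa [mul_inv_rev]
  rw [e1 _ _ hA1] at h1
  rw [e1 _ _ (fun y hy => (hAW hy).1)] at h3
  rw [← h1, ← h3]
  -- rewrite both sides as integrals over the whole plane
  have s1 : ∫⁻ x in P.S (g * h), A.indicator 1 (P.τ (g * h) x) * ‖tr (D (g * h) x) ξ‖ₑ ^ 2 =
      ∫⁻ x in P.S h, (P.S g).indicator 1 (P.τ h x) * (A.indicator 1 (P.τ g (P.τ h x)) *
        ‖tr (D h x) (tr (D g (P.τ h x)) ξ)‖ₑ ^ 2) := by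
    rw [← lintegral_indicator (hm _), ← lintegral_indicator (hm _)]
    refine lintegral_congr_ae ?_
    filter_upwards [P.chain hP hS hB g h] with x hx
    by_cases hxh : x ∈ P.S h ∧ P.τ h x ∈ P.S g
    · have hm' := P.mul g h x hxh.1 hxh.2
      rw [indicator_of_mem hm'.1, indicator_of_mem hxh.1, indicator_of_mem hxh.2, hm'.2,
        hx hxh.1 hxh.2, tr_comp]
      simp
    · have r0 : (P.S h).indicator (fun x => (P.S g).indicator (1 : ℂ → ℝ≥0∞) (P.τ h x) *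
          (A.indicator 1 (P.τ g (P.τ h x)) * ‖tr (D h x) (tr (D g (P.τ h x)) ξ)‖ₑ ^ 2)) x = 0 := by
        by_cases h4 : x ∈ P.S h
        · have h5 : P.τ h x ∉ P.S g := fun h5 => hxh ⟨h4, h5⟩
          simp [h4, h5]
        · simp [h4]
      rw [r0]
      by_cases h4 : x ∈ P.S (g * h)
      · have h5 : P.τ (g * h) x ∉ A := by
          intro h5
          have h6 := P.mul g⁻¹ (g * h) x h4 (hAW h5).1
          rw [inv_mul_cancel_left] at h6
          refine hxh ⟨h6.1, ?_⟩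
          rw [h6.2]
          simpa using P.inv g⁻¹ _ (hAW h5).1
        simp [h4, h5]
      · simp [h4]
  have s2 : ∫⁻ z in P.S h⁻¹, (P.S g).indicator 1 z * (A.indicator 1 (P.τ g z) *
        ‖tr (M h z) (tr (D g z) ξ)‖ₑ ^ 2) =
      ∫⁻ z in P.S g, A.indicator 1 (P.τ g z) *
        ‖tr (M h (P.τ g⁻¹ (P.τ g z))) (tr (D g z) ξ)‖ₑ ^ 2 := by
    rw [← lintegral_indicator (hm _), ← lintegral_indicator (hm _)]
    refine lintegral_congr fun z => ?_
    by_cases hz : z ∈ P.S g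
    · rw [indicator_of_mem hz, P.left g hz]
      by_cases hz2 : z ∈ P.S h⁻¹
      · simp [hz, hz2]
      · have h5 : P.τ g z ∉ A := by
          intro h5
          have := (hAW h5).2
          rw [mem_preimage, P.left g hz] at this
          exact hz2 this
        simp [hz2, h5]
    · by_cases hz2 : z ∈ P.S h⁻¹ <;> simp [hz, hz2]
  rw [s1, h2, s2]

end Crest.Agent.R193.TA
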