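import Crest.Agent.R193.TA
import Crest.Agent.R193.TDefs

/-! Row 193, TA: the interface statement `T.TAStmt` from `TA.ta_final`. -/

set_option autoImplicit false

open MeasureTheory Set Filter Topology Metric
open scoped ENNReal

namespace Crest.Agent.R193.TA

theorem TAFin_fderiv (ℓ : ℂ →L[ℝ] ℝ) {θ : ℂ → ℂ} (hθ : Differentiable ℝ θ) (w : ℂ) :
    fderiv ℝ (fun z => ℓ (θ z)) w = ℓ.comp (fderiv ℝ θ w) :=
  (ℓ.hasFDerivAt.comp w (hθ w).hasFDerivAt).fderiv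

theorem TAFin_cd {θ : ℂ → ℂ} (hθ : ContDiff ℝ 2 θ) (e : ℂ) :
    ContDiff ℝ 1 fun w => fderiv ℝ θ w e :=
  (hθ.fderiv_right (m := 1) le_rfl).clm_apply contDiff_const

theorem TAFin_lap (ℓ : ℂ →L[ℝ] ℝ) {θ : ℂ → ℂ} (hθ : ContDiff ℝ 2 θ) (z : ℂ) :
    lap (fun w => ℓ (θ w)) z = ℓ (T.L 1 Complex.I θ z) := by
  have hd : Differentiable ℝ θ := hθ.differentiable (by norm_num)
  have h : ∀ e : ℂ, fderiv ℝ (fun w => fderiv ℝ (fun z => ℓ (θ z)) w e) z e =
      ℓ (fderiv ℝ (fun w => fderiv ℝ θ w e) z e) := by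
    intro e
    simp only [TAFin_fderiv ℓ hd, ContinuousLinearMap.comp_apply]
    rw [TAFin_fderiv ℓ ((TAFin_cd hθ e).differentiable (by norm_num))]
    rfl
  rw [lap, h, h, T.L, map_add]

theorem TAFin_hol1 {f : ℂ → ℂ} (hf : Differentiable ℂ f) (w e : ℂ) :
    fderiv ℝ f w e = deriv f w * e := by
  rw [(hf w).hasDerivAt.complexToReal_fderiv.fderiv]
  simp

theorem TAFin_hol {f : ℂ → ℂ} (hf : Differentiable ℂ f) (z : ℂ) : T.L 1 Complex.I f z = 0 := by
  have h : ∀ e : ℂ, fderiv ℝ (fun w => fderiv ℝ f w e) z e = deriv (deriv f) z * e * e := by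
    intro e
    simp only [TAFin_hol1 hf]
    rw [TAFin_hol1 (hf.deriv.mul_const e), deriv_mul_const_field]
  rw [T.L, h, h, mul_assoc _ Complex.I, Complex.I_mul_I]
  ring

theorem TAFin_cont {θ : ℂ → ℂ} (hθ : ContDiff ℝ 2 θ) : Continuous (T.L 1 Complex.I θ) :=
  (((TAFin_cd hθ 1).continuous_fderiv (by norm_num)).clm_apply continuous_const).add
    (((TAFin_cd hθ _).continuous_fderiv (by norm_num)).clm_apply continuous_const)

theorem TAFin_zero {θ : ℂ → ℂ} {z : ℂ} (hz : z ∉ tsupport θ) : T.L 1 Complex.I θ z = 0 := by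
  have h0 : θ =ᶠ[𝓝 z] fun _ => 0 := notMem_tsupport_iff_eventuallyEq.1 hz
  have h : ∀ e : ℂ, fderiv ℝ (fun w => fderiv ℝ θ w e) z e = 0 := by
    intro e
    have h1 : (fun w => fderiv ℝ θ w e) =ᶠ[𝓝 z] fun _ => 0 := by
      filter_upwards [h0.fderiv (𝕜 := ℝ)] with w hw
      rw [hw]
      simp
    rw [h1.fderiv_eq]
    simp
  rw [T.L, h, h, add_zero]

theorem TAFin_norm (ℓ : ℂ →L[ℝ] ℝ) (hℓ : ‖ℓ‖ = 1) {θ : ℂ → ℂ} (hθ : Differentiable ℝ θ) (w : ℂ) :
    ‖fderiv ℝ (fun z => ℓ (θ z)) w‖ ≤ ‖fderiv ℝ θ w‖ := by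
  rw [TAFin_fderiv ℓ hθ]
  refine (ContinuousLinearMap.opNorm_comp_le _ _).trans ?_
  rw [hℓ, one_mul]

/-- the partial action on a ball -/
noncomputable def TAFin_pact {G : Type} [Group G] {H : ℝ} {Ω : Set ℂ} {φ : G → T.PH}
    (h : T.PG G H Ω φ) (p : ℂ) (s : ℝ) (hs : 0 < s) (hb : ball p s ⊆ Ω) : PAct G where
  S g := ball p s ∩ ((φ g).source ∩ φ g ⁻¹' ball p s)
  τ g := φ g
  H := H
  Hpos := lt_of_lt_of_le one_pos (h.qc 1).one_le
  isOpen g := isOpen_ball.inter ((φ g).isOpen_inter_preimage isOpen_ball)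
  cont g := (φ g).continuousOn.mono fun _ hx => hx.2.1
  ne := ⟨p, mem_ball_self hs, by rw [h.one_src]; exact hb (mem_ball_self hs), by
    rw [mem_preimage, h.one_eq p (hb (mem_ball_self hs))]; exact mem_ball_self hs⟩
  bdd := isBounded_ball.subset fun _ hx => hx.1
  sub g x hx := ⟨hx.1, by rw [h.one_src]; exact hb hx.1, by
    rw [mem_preimage, h.one_eq x (hb hx.1)]; exact hx.1⟩
  one x hx := h.one_eq x (hb hx.1)
  mul g k x hx hx' := by
    have h1 := h.mul_eq g k x hx.2.1 hx'.2.1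
    refine ⟨⟨hx.1, (h.mul_src g k x hx.2.1).1 hx'.2.1, ?_⟩, h1⟩
    rw [mem_preimage, h1]
    exact hx'.2.2
  inv g x hx := by
    have h1 : φ g x ∈ (φ g⁻¹).source := by
      rw [h.mul_src g⁻¹ g x hx.2.1, inv_mul_cancel, h.one_src]
      exact hb hx.1
    refine ⟨hx.2.2, h1, ?_⟩
    rw [mem_preimage, ← h.mul_eq g⁻¹ g x hx.2.1 h1, inv_mul_cancel, h.one_eq x (hb hx.1)]
    exact hx.1
  dil g x hx := by
    obtain ⟨r, hr, -, hq⟩ := (h.qc g).fwd x hx.2.1
    exact ⟨r, hr, fun a ha b hb c hc habc =>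
      hq a ha b hb c hc (habc.trans (by linarith [dist_nonneg (x := a) (y := c)]))⟩

/-- `T.TAStmt` from `ta_final`.
* `Ω = (φ 1).source` is open; pick `ball p s ⊆ Ω` and the partial action
  `S g = {x ∈ ball p s | x ∈ (φ g).source ∧ φ g x ∈ ball p s}`, `τ g = φ g`, same `H` (`inv` from
  `mul_src g⁻¹ g`, `dil` from `(qc g).fwd`).  Get `y0, L`; put `A = L.symm`.
* Shrink `ρ0` so that `ρ ‖L‖ R` is smaller than the distance from `y0` to the complement of the ball: then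
  `affi y0 A ρ z` and `φ g (affi ..) = affi (aff (φ g ..))` lie in `ball p s`.
* Apply `ta_final` with `ε / 4` to `u = ℓ ∘ f`, `ψ = ℓ' ∘ θ`, `ℓ, ℓ' ∈ {reCLM, imCLM}`: `f` entire gives
  `ContDiff ℝ 2 u` and `lap u = 0` (`fderiv ℝ u w e = ℓ (deriv f w * e)`, so
  `lap u z = ℓ (f'' z) + ℓ (f'' z * I * I) = 0`); `T.L 1 I θ z = lap (re ∘ θ) z + lap (im ∘ θ) z * I`;
  `tsupport (ℓ' ∘ θ) ⊆ tsupport θ`; the four real integrands are integrable (continuous on the compact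
  `tsupport θ`, zero outside), and `‖∫ F‖ ≤ |∫ re F| + |∫ im F|`. -/
theorem taStmt : T.TAStmt := by
  intro G _ _ H Ω φ hΩ h
  obtain ⟨p, hp⟩ := hΩ
  have hO : IsOpen Ω := h.one_src ▸ (φ 1).open_source
  obtain ⟨s, hs, hb⟩ := Metric.isOpen_iff.1 hO p hp
  obtain ⟨y0, hy0, L, hL⟩ := ta_final (TAFin_pact h p s hs hb)
  have hy : y0 ∈ ball p s := hy0.1
  obtain ⟨η, hη, hηb⟩ := Metric.isOpen_iff.1 isOpen_ball y0 hy
  refine ⟨y0, hb hy, L.symm, fun ε hε R hR => ?_⟩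
  obtain ⟨ρ0, hρ0, hρ⟩ := hL (ε / 4) (by positivity) R hR
  have hK : 0 < ‖(L : ℂ →L[ℝ] ℂ)‖ * R + 1 := by positivity
  refine ⟨min ρ0 (η / (‖(L : ℂ →L[ℝ] ℂ)‖ * R + 1)), lt_min hρ0 (div_pos hη hK), ?_⟩
  intro ρ hρ1 hρ2 g f θ hf hθ hsrc a b ha hbb
  have hin : ∀ w ∈ ball (0 : ℂ) R, y0 + ρ • L w ∈ ball p s := by
    intro w hw
    refine hηb ?_
    rw [mem_ball_zero_iff] at hw
    rw [mem_ball, dist_eq_norm, add_sub_cancel_left, norm_smul, Real.norm_of_nonneg hρ1.le]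
    have h1 : ‖L w‖ ≤ ‖(L : ℂ →L[ℝ] ℂ)‖ * R :=
      ((L : ℂ →L[ℝ] ℂ).le_opNorm w).trans (mul_le_mul_of_nonneg_left hw.le (norm_nonneg _))
    have h2 := (lt_div_iff₀ hK).1 (hρ2.trans_le (min_le_right _ _))
    nlinarith
  set W : ℂ → ℂ := fun z => ρ⁻¹ • L.symm (φ g (y0 + ρ • L z) - y0) with hW
  have hsrc' : ∀ z ∈ tsupport θ, y0 + ρ • L z ∈ (φ g).source ∧ W z ∈ ball (0 : ℂ) R := hsrc
  have hS : ∀ z ∈ tsupport θ, y0 + ρ • L z ∈ (TAFin_pact h p s hs hb).S g := by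
    intro z hz
    refine ⟨hin z (hθ.sub hz), (hsrc' z hz).1, ?_⟩
    have h1 := hin _ (hsrc' z hz).2
    have h2 : y0 + ρ • L (W z) = φ g (y0 + ρ • L z) := T.affi_aff y0 L.symm hρ1.ne' _
    rw [h2] at h1
    exact h1
  have hf2 : ContDiff ℝ 2 f := (hf.contDiff (n := 2)).restrict_scalars ℝ
  have hfd : Differentiable ℝ f := hf2.differentiable (by norm_num)
  have hθd : Differentiable ℝ θ := hθ.cd.differentiable (by norm_num)
  have key : ∀ ℓ ℓ' : ℂ →L[ℝ] ℝ, ‖ℓ‖ = 1 → ‖ℓ'‖ = 1 →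
      |∫ z, ℓ (f (W z)) * ℓ' (T.L 1 Complex.I θ z)| ≤ ε / 4 * a * b := by
    intro ℓ ℓ' h1 h2
    have hts : tsupport (fun w => ℓ' (θ w)) ⊆ tsupport θ :=
      closure_mono fun w hw h0 => hw (by simp only [h0, map_zero])
    have h3 := hρ ρ hρ1 (hρ2.trans_le (min_le_left _ _)) g (fun w => ℓ (f w)) (fun w => ℓ' (θ w))
      (ℓ.contDiff.comp hf2) (fun z => by rw [TAFin_lap ℓ hf2, TAFin_hol hf, map_zero])
      (ℓ'.contDiff.comp hθ.cd) (hts.trans hθ.sub)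
      (fun z hz => ⟨hS z (hts hz), (hsrc' z (hts hz)).2⟩) a b
      (fun z => (TAFin_norm ℓ' h2 hθd z).trans (ha z))
      (fun z hz => (TAFin_norm ℓ h1 hfd z).trans (hbb z hz))
    simp only [TAFin_lap ℓ' hθ.cd] at h3
    exact h3
  have hWc : ContinuousOn W (tsupport θ) := by
    have h1 : ContinuousOn (fun z => φ g (y0 + ρ • L z)) (tsupport θ) :=
      (φ g).continuousOn.comp (f := fun z => y0 + ρ • L z) (by fun_prop) fun z hz => (hsrc' z hz).1
    exact (L.symm.continuous.comp_continuousOn (h1.sub continuousOn_const)).const_smul ρ⁻¹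
  have hfc : ContinuousOn (fun z => f (W z)) (tsupport θ) := hf.continuous.comp_continuousOn hWc
  have hint : ∀ ℓ ℓ' : ℂ →L[ℝ] ℝ,
      Integrable fun z => ℓ (f (W z)) * ℓ' (T.L 1 Complex.I θ z) := by
    intro ℓ ℓ'
    refine (integrableOn_iff_integrable_of_support_subset (s := tsupport θ) ?_).1
      (ContinuousOn.integrableOn_compact hθ.cs ((ℓ.continuous.comp_continuousOn hfc).mul
        (ℓ'.continuous.comp (TAFin_cont hθ.cd)).continuousOn))
    intro z hz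
    by_contra h0
    exact hz (by simp only [TAFin_zero h0, map_zero, mul_zero])
  have hF : Integrable fun z => f (W z) * T.L 1 Complex.I θ z := by
    refine (integrableOn_iff_integrable_of_support_subset (s := tsupport θ) ?_).1
      (ContinuousOn.integrableOn_compact hθ.cs (hfc.mul (TAFin_cont hθ.cd).continuousOn))
    intro z hz
    by_contra h0
    exact hz (by simp only [TAFin_zero h0, mul_zero])
  show ‖∫ z, f (W z) * T.L 1 Complex.I θ z‖ ≤ ε * a * b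
  refine (Complex.norm_le_abs_re_add_abs_im _).trans ?_
  have hre : (∫ z, f (W z) * T.L 1 Complex.I θ z).re =
      (∫ z, Complex.reCLM (f (W z)) * Complex.reCLM (T.L 1 Complex.I θ z)) -
        ∫ z, Complex.imCLM (f (W z)) * Complex.imCLM (T.L 1 Complex.I θ z) := by
    rw [← integral_sub (hint _ _) (hint _ _)]
    exact (Complex.reCLM.integral_comp_comm hF).symm
  have him : (∫ z, f (W z) * T.L 1 Complex.I θ z).im =
      (∫ z, Complex.reCLM (f (W z)) * Complex.imCLM (T.L 1 Complex.I θ z)) +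
        ∫ z, Complex.imCLM (f (W z)) * Complex.reCLM (T.L 1 Complex.I θ z) := by
    rw [← integral_add (hint _ _) (hint _ _)]
    exact (Complex.imCLM.integral_comp_comm hF).symm
  rw [hre, him]
  have k1 := key _ _ Complex.reCLM_norm Complex.reCLM_norm
  have k2 := key _ _ Complex.imCLM_norm Complex.imCLM_norm
  have k3 := key _ _ Complex.reCLM_norm Complex.imCLM_norm
  have k4 := key _ _ Complex.imCLM_norm Complex.reCLM_norm
  refine (add_le_add (abs_sub _ _) (abs_add_le _ _)).trans ?_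
  linarith

end Crest.Agent.R193.TA
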