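import Crest.Agent.R193.TABL

/-! Row 193, TA: the normalised derivative `M` and the transfer formula. -/

set_option autoImplicit false

open MeasureTheory Set Filter Topology Metric
open scoped ENNReal

namespace Crest.Agent.R193.TA

/-- Transfer formula.  Let `ν = (volume.restrict O).withDensity ‖D‖ₑ²`, `π = ν.map τ`.  By `hb`,
`π ≤ ofReal c • volume` (test with indicators), `π` is finite (`π univ = π O' ≤ c vol O'`), so
`π = volume.withDensity s` with `s = π.rnDeriv volume ≤ ofReal c` a.e.  Put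
`M y = (√(min (s y).toReal c) * ‖D (σ y)‖⁻¹) • D (σ y)` (so `‖M y‖² ≤ c` everywhere when `0 ≤ c`).
With `N x = ‖D x‖⁻¹ • D x` one has `D x = ‖D x‖ • N x` (also if `D x = 0`), so for homogeneous `F`
`∫_O F (τ x) (D x) = ∫_O ‖D x‖² G (τ x) = ∫ G dπ = ∫ s G = ∫_{O'} F y (M y)` where
`G = O'.indicator (fun y => F y (N (σ y)))`.
(`lintegral_withDensity_eq_lintegral_mul`, `lintegral_map`, `integral_map`,
`integral_withDensity_eq_integral_smul` / `..._toReal_smul`.)
Third clause: a null set `B` has `ν (τ ⁻¹' (σ ⁻¹' B)) = ν B = 0`(on `O`), i.e. `π (σ⁻¹' B) = 0`, i.e. `s = 0` a.e. on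
`σ ⁻¹' B`, where then `M = 0`. -/
theorem exists_transfer {O O' : Set ℂ} (hO : MeasurableSet O) (hO' : MeasurableSet O')
    (hfin : volume O' < ∞) {τ σ : ℂ → ℂ} (hτ : Measurable τ) (hσ : Measurable σ)
    (hmaps : MapsTo τ O O') (hleft : ∀ x ∈ O, σ (τ x) = x) {D : ℂ → ℂ →L[ℝ] ℂ} (hD : Measurable D)
    {c : ℝ} (hc : 0 ≤ c) (hb : PB O τ D c) :
    ∃ M : ℂ → ℂ →L[ℝ] ℂ, Measurable M ∧ (∀ y, ‖M y‖ ^ 2 ≤ c) ∧
      (∀ F : ℂ → (ℂ →L[ℝ] ℂ) → ℝ≥0∞, Measurable (Function.uncurry F) →
        (∀ y (t : ℝ) T, 0 ≤ t → F y (t • T) = ENNReal.ofReal (t ^ 2) * F y T) →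
        ∫⁻ x in O, F (τ x) (D x) = ∫⁻ y in O', F y (M y)) ∧
      (∀ F : ℂ → (ℂ →L[ℝ] ℂ) → ℝ, Measurable (Function.uncurry F) →
        (∀ y (t : ℝ) T, 0 ≤ t → F y (t • T) = t ^ 2 * F y T) →
        ∫ x in O, F (τ x) (D x) = ∫ y in O', F y (M y)) ∧
      (∀ p : ℂ → Prop, (∀ᵐ x, p x) → ∀ᵐ y, M y = 0 ∨ p (σ y)) := by
  set ν : Measure ℂ := (volume.restrict O).withDensity (fun x => ‖D x‖ₑ ^ 2) with hν
  have hDm : Measurable fun x => ‖D x‖ₑ ^ 2 := hD.enorm.pow_const 2
  set π : Measure ℂ := ν.map τ with hπ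
  have key : ∀ h : ℂ → ℝ≥0∞, Measurable h → ∫⁻ y, h y ∂π = ∫⁻ x in O, ‖D x‖ₑ ^ 2 * h (τ x) := by
    intro h hh
    rw [hπ, lintegral_map hh hτ]
    exact lintegral_withDensity_eq_lintegral_mul _ hDm (hh.comp hτ)
  have keyB : ∀ B, MeasurableSet B → π B = ∫⁻ x in O, ‖D x‖ₑ ^ 2 * B.indicator 1 (τ x) := by
    intro B hB
    rw [← key _ (measurable_one.indicator hB), lintegral_indicator_one hB]
  have hle : ∀ B, MeasurableSet B → π B ≤ ENNReal.ofReal c * volume B := by
    intro B hB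
    rw [keyB B hB, ← lintegral_indicator_one hB]
    exact hb _ (measurable_one.indicator hB)
  have hc0 : π O'ᶜ = 0 := by
    rw [keyB _ hO'.compl, setLIntegral_congr_fun hO (g := fun _ => 0), lintegral_zero]
    intro x hx
    simp [indicator_of_notMem (show τ x ∉ O'ᶜ from fun h => h (hmaps hx))]
  have : IsFiniteMeasure π := ⟨by
    rw [← measure_add_measure_compl hO', hc0, add_zero]
    exact (hle _ hO').trans_lt (ENNReal.mul_lt_top ENNReal.ofReal_lt_top hfin)⟩
  have hac : π ≪ volume := Measure.AbsolutelyContinuous.mk fun B hB h0 => by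
    have := hle B hB
    rw [h0, mul_zero] at this
    exact le_antisymm this zero_le
  set s : ℂ → ℝ≥0∞ := π.rnDeriv volume with hs
  have hsm : Measurable s := Measure.measurable_rnDeriv _ _
  have hπs : volume.withDensity s = π := Measure.withDensity_rnDeriv_eq _ _ hac
  have hsc : ∀ᵐ y, s y ≤ ENNReal.ofReal c := by
    refine ae_le_of_forall_setLIntegral_le_of_sigmaFinite hsm fun B hB _ => ?_
    rw [← withDensity_apply _ hB, hπs, setLIntegral_const]
    exact hle B hB
  set s' : ℂ → ℝ := fun y => min (s y).toReal c with hs'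
  have hs'0 : ∀ y, 0 ≤ s' y := fun y => le_min ENNReal.toReal_nonneg hc
  have hs'm : Measurable s' := hsm.ennreal_toReal.min measurable_const
  have hs'e : ∀ᵐ y, s' y = (s y).toReal ∧ s y < ∞ := by
    filter_upwards [hsc] with y hy
    exact ⟨min_eq_left (ENNReal.toReal_le_of_le_ofReal hc hy), hy.trans_lt ENNReal.ofReal_lt_top⟩
  set N : ℂ → ℂ →L[ℝ] ℂ := fun y => ‖D (σ y)‖⁻¹ • D (σ y) with hN
  have hNm : Measurable N := (hD.comp hσ).norm.inv.smul (hD.comp hσ)
  have hN1 : ∀ y, ‖N y‖ ≤ 1 := fun y => by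
    simp only [hN, norm_smul, norm_inv, norm_norm]
    exact inv_mul_le_one_of_le₀ le_rfl (norm_nonneg _)
  have hDN : ∀ x ∈ O, D x = ‖D x‖ • N (τ x) := fun x hx => by
    simp only [hN, hleft x hx, smul_smul]
    by_cases h0 : D x = 0
    · rw [h0]; ext; simp
    · rw [mul_inv_cancel₀ (norm_ne_zero_iff.2 h0), one_smul]
  refine ⟨fun y => √(s' y) • N y, hs'm.sqrt.smul hNm, fun y => ?_, fun F hF hh => ?_, fun F hF hh => ?_,
    fun p hp => ?_⟩
  · rw [norm_smul, Real.norm_of_nonneg (Real.sqrt_nonneg _), mul_pow, Real.sq_sqrt (hs'0 y)]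
    have h1 : ‖N y‖ ^ 2 ≤ 1 := pow_le_one₀ (norm_nonneg _) (hN1 y)
    exact (mul_le_of_le_one_right (hs'0 y) h1).trans (min_le_right _ _)
  · have hG : Measurable (O'.indicator fun y => F y (N y)) :=
      (hF.comp (measurable_id.prodMk hNm)).indicator hO'
    have e1 : ∫⁻ x in O, F (τ x) (D x) = ∫⁻ y, O'.indicator (fun y => F y (N y)) y ∂π := by
      rw [key _ hG]
      refine setLIntegral_congr_fun hO fun x hx => ?_
      simp only [indicator_of_mem (hmaps hx)]
      conv_lhs => rw [hDN x hx]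
      rw [hh _ _ _ (norm_nonneg _), ENNReal.ofReal_pow (norm_nonneg _), ofReal_norm]
    rw [e1, ← hπs, lintegral_withDensity_eq_lintegral_mul _ hsm hG, ← lintegral_indicator hO']
    refine lintegral_congr_ae ?_
    filter_upwards [hs'e] with y hy
    by_cases hyO : y ∈ O'
    · simp only [Pi.mul_apply, indicator_of_mem hyO]
      rw [hh _ _ _ (Real.sqrt_nonneg _), Real.sq_sqrt (hs'0 y), hy.1, ENNReal.ofReal_toReal hy.2.ne]
    · simp [indicator_of_notMem hyO]
  · have hG : Measurable (O'.indicator fun y => F y (N y)) :=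
      (hF.comp (measurable_id.prodMk hNm)).indicator hO'
    have e1 : ∫ x in O, F (τ x) (D x) = ∫ y, O'.indicator (fun y => F y (N y)) y ∂π := by
      rw [hπ, integral_map hτ.aemeasurable hG.aestronglyMeasurable, hν,
        integral_withDensity_eq_integral_toReal_smul hDm
          (Eventually.of_forall fun x => ENNReal.pow_lt_top enorm_lt_top)]
      refine setIntegral_congr_fun hO fun x hx => ?_
      simp only [indicator_of_mem (hmaps hx)]
      conv_lhs => rw [hDN x hx]
      rw [hh _ _ _ (norm_nonneg _), ENNReal.toReal_pow, toReal_enorm, smul_eq_mul]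
    rw [e1, ← hπs, integral_withDensity_eq_integral_toReal_smul hsm (hs'e.mono fun y hy => hy.2),
      ← integral_indicator hO']
    refine integral_congr_ae ?_
    filter_upwards [hs'e] with y hy
    by_cases hyO : y ∈ O'
    · simp only [indicator_of_mem hyO]
      rw [hh _ _ _ (Real.sqrt_nonneg _), Real.sq_sqrt (hs'0 y), hy.1, smul_eq_mul]
    · simp [indicator_of_notMem hyO]
  · obtain ⟨B, hB1, hB, hB0⟩ := exists_measurable_superset_of_null (ae_iff.1 hp)
    have hB' : MeasurableSet (σ ⁻¹' B) := hσ hB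
    have h0 : π (σ ⁻¹' B) = 0 := by
      rw [keyB _ hB', ← lintegral_zero (μ := volume.restrict O)]
      refine lintegral_congr_ae ?_
      filter_upwards [ae_restrict_mem hO, ae_restrict_of_ae (measure_eq_zero_iff_ae_notMem.1 hB0)] with x hx hxB
      rw [indicator_of_notMem (show τ x ∉ σ ⁻¹' B by simpa [hleft x hx] using hxB), mul_zero]
    rw [← hπs, withDensity_apply _ hB', lintegral_eq_zero_iff hsm, Filter.EventuallyEq,
      ae_restrict_iff' hB'] at h0
    filter_upwards [h0] with y hy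
    by_cases hyB : y ∈ σ ⁻¹' B
    · left
      have : s' y = 0 := by simp [hs', hy hyB, hc]
      rw [this, Real.sqrt_zero]
      ext; simp
    · right
      by_contra hn
      exact hyB (hB1 hn)

end Crest.Agent.R193.TA
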