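import Crest.Agent.R193.TAW1
import Crest.Agent.R335.LMoll

/-! Row 193, TA: mollification (`W = H`). -/

set_option autoImplicit false

open MeasureTheory Set Filter Topology Metric
open scoped ENNReal

namespace Crest.Agent.R193.TA

variable {E : Type} [NormedAddCommGroup E] [NormedSpace ℝ E] [FiniteDimensional ℝ E]

open scoped Convolution in
/-- `L²` convergence of mollifications, vector valued. -/
theorem W2_moll {F : Type} [NormedAddCommGroup F] [NormedSpace ℝ F] [CompleteSpace F]
    (φ : ℕ → ContDiffBump (0 : ℂ)) (h1 : Tendsto (fun i => (φ i).rOut) atTop (𝓝 0))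
    (h2 : ∀ i, (φ i).rOut ≤ 2 * (φ i).rIn) {f : ℂ → F} (hf : MemLp f 2 volume) {η : ℝ}
    (hη : 0 < η) : ∀ᶠ n in atTop, ∫⁻ x,
      ‖((φ n).normed volume ⋆[ContinuousLinearMap.lsmul ℝ ℝ, volume] f) x - f x‖ₑ ^ 2 ≤
        ENNReal.ofReal η := by
  set a : ℕ → ℂ → F := fun n => (φ n).normed volume ⋆[ContinuousLinearMap.lsmul ℝ ℝ, volume] f
    with ha
  set h : ℂ → ℝ := fun x => ‖f x‖ with hh
  have hh2 : MemLp h 2 volume := hf.norm
  set b : ℕ → ℂ → ℝ := fun n => (φ n).normed volume ⋆[ContinuousLinearMap.lsmul ℝ ℝ, volume] h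
    with hb
  have hl : LocallyIntegrable f volume := hf.locallyIntegrable one_le_two
  have hab : ∀ n x, ‖a n x‖ ≤ b n x := by
    intro n x
    simp only [ha, hb, convolution_lsmul]
    refine (norm_integral_le_integral_norm _).trans (le_of_eq ?_)
    refine integral_congr_ae (Eventually.of_forall fun t => ?_)
    simp only [norm_smul, hh, smul_eq_mul, Real.norm_of_nonneg ((φ n).nonneg_normed t)]
  have hac : ∀ n, Continuous (a n) := fun n =>
    (φ n).hasCompactSupport_normed.continuous_convolution_left _ (φ n).continuous_normed hl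
  have hm : ∀ n, AEStronglyMeasurable (fun x => ‖a n x - f x‖) volume := fun n =>
    ((hac n).aestronglyMeasurable.sub hf.1).norm
  have hae : ∀ᵐ x, Tendsto (fun n => a n x) atTop (𝓝 (f x)) :=
    ContDiffBump.ae_convolution_tendsto_right_of_locallyIntegrable h1 (Eventually.of_forall h2) hl
  have hbm := R335.LMoll_moll φ h1 h2 hh2
  have hb2 : ∀ n, Integrable fun x => (b n x - h x) ^ 2 := fun n =>
    ((R335.LMoll_young (φ n) hh2).1.sub hh2).integrable_sq
  have h4 : Integrable fun x => 4 * h x ^ 2 := hh2.integrable_sq.const_mul 4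
  have hcm : ∀ n, AEStronglyMeasurable (fun x => min ‖a n x - f x‖ (2 * h x) ^ 2) volume :=
    fun n => (((hm n).aemeasurable.min (hh2.1.aemeasurable.const_mul 2)).pow_const 2
      ).aestronglyMeasurable
  have hcb : ∀ n x, ‖min ‖a n x - f x‖ (2 * h x) ^ 2‖ ≤ 4 * h x ^ 2 := by
    intro n x
    rw [Real.norm_of_nonneg (sq_nonneg _)]
    have h0 : 0 ≤ min ‖a n x - f x‖ (2 * h x) := le_min (norm_nonneg _) (by simp [hh])
    have := pow_le_pow_left₀ h0 (min_le_right _ _) 2
    linarith
  have hdct := tendsto_integral_of_dominated_convergence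
    (F := fun n x => min ‖a n x - f x‖ (2 * h x) ^ 2) (f := fun _ : ℂ => (0 : ℝ)) (μ := volume)
    (fun x => 4 * h x ^ 2) hcm h4 (fun n => Eventually.of_forall (hcb n)) (by
      filter_upwards [hae] with x hx
      have h5 := ((tendsto_iff_norm_sub_tendsto_zero.1 hx).min
        (tendsto_const_nhds (x := 2 * h x))).pow 2
      rw [min_eq_left (by simp [hh])] at h5
      simpa using h5)
  rw [integral_zero] at hdct
  have hsum := (hdct.const_mul 2).add (hbm.const_mul 2)
  simp only [mul_zero, add_zero] at hsum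
  filter_upwards [hsum.eventually (gt_mem_nhds hη)] with n hn
  have i1 : Integrable fun x => min ‖a n x - f x‖ (2 * h x) ^ 2 :=
    h4.mono' (hcm n) (Eventually.of_forall (hcb n))
  have i2 : Integrable fun x => 2 * min ‖a n x - f x‖ (2 * h x) ^ 2 + 2 * (b n x - h x) ^ 2 :=
    (i1.const_mul 2).add ((hb2 n).const_mul 2)
  calc ∫⁻ x, ‖a n x - f x‖ₑ ^ 2
      ≤ ∫⁻ x, ENNReal.ofReal (2 * min ‖a n x - f x‖ (2 * h x) ^ 2 + 2 * (b n x - h x) ^ 2) := by
        refine lintegral_mono fun x => ?_
        rw [← ofReal_norm, ← ENNReal.ofReal_pow (norm_nonneg _)]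
        refine ENNReal.ofReal_le_ofReal ?_
        have e1 : ‖a n x - f x‖ ≤ b n x + h x :=
          (norm_sub_le _ _).trans (add_le_add (hab n x) le_rfl)
        have e0 := norm_nonneg (a n x - f x)
        have eh : 0 ≤ h x := norm_nonneg _
        rcases le_total ‖a n x - f x‖ (2 * h x) with hc | hc
        · rw [min_eq_left hc]; nlinarith [sq_nonneg (b n x - h x), sq_nonneg ‖a n x - f x‖]
        · rw [min_eq_right hc]
          have e2 : ‖a n x - f x‖ ^ 2 ≤ (b n x + h x) ^ 2 := pow_le_pow_left₀ e0 e1 2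
          nlinarith [sq_nonneg (b n x - h x - 2 * h x)]
    _ = ENNReal.ofReal (∫ x, (2 * min ‖a n x - f x‖ (2 * h x) ^ 2 + 2 * (b n x - h x) ^ 2)) :=
        (ofReal_integral_eq_lintegral_ofReal i2 (Eventually.of_forall fun x => by positivity)).symm
    _ ≤ ENNReal.ofReal η := by
        refine ENNReal.ofReal_le_ofReal ?_
        rw [integral_add (i1.const_mul 2) ((hb2 n).const_mul 2), integral_const_mul,
          integral_const_mul]
        exact hn.le

open scoped Convolution in
theorem W2_fderiv_conv {F : Type} [NormedAddCommGroup F] [NormedSpace ℝ F] [CompleteSpace F]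
    (b : ℂ → ℝ) (hb : ContDiff ℝ 1 b) (hbc : HasCompactSupport b)
    (g : ℂ → F) (hg : LocallyIntegrable g) (x v : ℂ) :
    fderiv ℝ (b ⋆[ContinuousLinearMap.lsmul ℝ ℝ, volume] g) x v
      = ∫ t, (fderiv ℝ b (x - t) v) • g t := by
  have h1 := (hbc.hasFDerivAt_convolution_left (ContinuousLinearMap.lsmul ℝ ℝ) hb hg x).fderiv
  rw [h1, convolution_eq_swap]
  have hex : ConvolutionExistsAt (fderiv ℝ b) g x
      ((ContinuousLinearMap.lsmul ℝ ℝ : ℝ →L[ℝ] F →L[ℝ] F).precompL ℂ) volume :=
    (hbc.fderiv ℝ).convolutionExists_left _ (hb.continuous_fderiv one_ne_zero) hg x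
  rw [ContinuousLinearMap.integral_apply hex.integrable_swap]
  rfl

theorem W2_fderiv_test (b : ℂ → ℝ) (hb : ContDiff ℝ 1 b) (x y v : ℂ) :
    fderiv ℝ (fun y : ℂ => b (x - y)) y v = -fderiv ℝ b (x - y) v := by
  have h1 : HasFDerivAt b (fderiv ℝ b (x - y)) (x - y) :=
    (hb.differentiable one_ne_zero (x - y)).hasFDerivAt
  have h2 : HasFDerivAt (fun y : ℂ => x - y) (-(ContinuousLinearMap.id ℝ ℂ)) y := by
    simpa using (hasFDerivAt_id y).const_sub x
  have h4 : HasFDerivAt (fun y : ℂ => b (x - y))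
      ((fderiv ℝ b (x - y)).comp (-(ContinuousLinearMap.id ℝ ℂ))) y := h1.comp y h2
  rw [h4.fderiv]
  simp

open scoped Convolution in
/-- Sobolev pairs are approximable.
Proof.  Take `r > 0` with `K' = cthickening (2r) K ⊆ O` compact
(`IsCompact.exists_cthickening_subset_open`, `IsCompact.cthickening`).  Put `w₀ = K'.indicator w`,
`D₀ = K'.indicator D` (integrable, `D₀ ∈ L²`), bumps `φ n : ContDiffBump 0` with `rOut ≤ r`,
`rOut → 0`, `rOut = 2 rIn`, `wₙ = (φ n).normed volume ⋆[lsmul ℝ ℝ] w₀` (smooth).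
* For `x ∈ K`, `‖wₙ x - w x‖ ≤ η` for large `n` by uniform continuity of `w` on `K'`
  (`ContDiffBump.dist_normed_convolution_le`).
* For `x ∈ K`, `fderiv wₙ x v = ∫ t, fderiv φₙ (x - t) v • w₀ t` (see `R101.weyl_fderiv_conv` in
  `Crest/Agent/R101/Weyl.lean` for the computation) `= ∫ t, φₙ (x - t) • D t v` by `wd` applied to the
  test function `t ↦ φₙ (x - t)` (support in `closedBall x r ⊆ K'`); so
  `fderiv wₙ x = (φₙ ⋆ D₀) x` on `K`.
* `φₙ ⋆ D₀ → D₀` in `L²`: either a.e. convergence
  (`ContDiffBump.ae_convolution_tendsto_right_of_locallyIntegrable`) + Jensen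
  `∫‖φₙ ⋆ D₀‖² ≤ ∫‖D₀‖²` + Fatou applied to `2‖a‖² + 2‖b‖² - ‖a-b‖² ≥ 0`
  (careful: this needs `∫ ‖φₙ ⋆ D₀‖² → ∫‖D₀‖²` only as `limsup ≤`), or density of continuous compactly
  supported functions in `L²` (`MemLp.exists_hasCompactSupport_eLpNorm_sub_le`) + Jensen.
  See also `Crest/Agent/R335/LMoll.lean`, `R214/Moll.lean`, `R112/Sob1.lean` for similar proofs. -/
theorem Sob.apx {O : Set ℂ} (hO : IsOpen O) {w : ℂ → E} {D : ℂ → ℂ →L[ℝ] E} (h : Sob O w D) :
    Apx O w D := by
  intro K hK hKO η hη
  have : CompleteSpace E := FiniteDimensional.complete ℝ E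
  obtain ⟨r, hr0, hsub⟩ := hK.exists_cthickening_subset_open hO hKO
  set K' : Set ℂ := cthickening r K with hK'
  have hKc : IsCompact K' := hK.cthickening
  have hKm : MeasurableSet K' := hKc.measurableSet
  have hball : ∀ x ∈ K, closedBall x r ⊆ K' := fun x hx =>
    closedBall_subset_cthickening hx r
  have hKK : K ⊆ K' := self_subset_cthickening K
  have hwK : ContinuousOn w K' := h.cont.mono hsub
  set w₀ : ℂ → E := K'.indicator w with hw₀
  set D₀ : ℂ → ℂ →L[ℝ] E := K'.indicator D with hD₀
  have hwi : Integrable w₀ := by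
    rw [hw₀, integrable_indicator_iff hKm]
    exact hwK.integrableOn_compact hKc
  have hDi : Integrable D₀ := by
    have h1 : IntegrableOn D K' := h.integrableOn hKc hsub
    exact (integrable_indicator_iff (f := D) (μ := volume) hKm).2 h1
  have hD2 : MemLp D₀ 2 volume := by
    refine (memLp_indicator_iff_restrict hKm).2 ⟨(h.integrableOn hKc hsub).1, ?_⟩
    rw [eLpNorm_lt_top_iff_lintegral_rpow_enorm_lt_top two_ne_zero ENNReal.ofNat_ne_top]
    simpa using h.l2 K' hKc hsub
  let φ : ℕ → ContDiffBump (0 : ℂ) := fun n =>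
    ⟨r / (2 * ((n : ℝ) + 1)), r / ((n : ℝ) + 1), by positivity, by
      have : (0 : ℝ) < (n : ℝ) + 1 := by positivity
      rw [div_lt_div_iff₀ (by positivity) this]; nlinarith⟩
  have hφr : ∀ n, (φ n).rOut ≤ r := by
    intro n
    change r / ((n : ℝ) + 1) ≤ r
    have : (1 : ℝ) ≤ (n : ℝ) + 1 := by have := Nat.cast_nonneg (α := ℝ) n; linarith
    exact div_le_self hr0.le this
  have ht : Tendsto (fun n : ℕ => (φ n).rOut) atTop (𝓝 0) := by
    have := tendsto_one_div_add_atTop_nhds_zero_nat (𝕜 := ℝ).const_mul r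
    simpa [φ, div_eq_mul_inv] using this
  have h2 : ∀ n, (φ n).rOut ≤ 2 * (φ n).rIn := fun n => by
    change r / ((n : ℝ) + 1) ≤ 2 * (r / (2 * ((n : ℝ) + 1)))
    refine le_of_eq ?_
    field_simp
  obtain ⟨δ, hδ, hu⟩ := Metric.uniformContinuousOn_iff.1
    (hKc.uniformContinuousOn_of_continuous hwK) η hη
  obtain ⟨n, hn1, hn2⟩ := ((W2_moll φ ht h2 hD2 hη).and (ht.eventually (gt_mem_nhds hδ))).exists
  have hb : ContDiff ℝ 1 ((φ n).normed volume) := (φ n).contDiff_normed
  have hbc : HasCompactSupport ((φ n).normed volume) := (φ n).hasCompactSupport_normed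
  have hts := (φ n).tsupport_normed_eq (μ := volume)
  refine ⟨(φ n).normed volume ⋆[ContinuousLinearMap.lsmul ℝ ℝ, volume] w₀,
    hbc.contDiff_convolution_left _ hb hwi.locallyIntegrable, fun x hx => ?_, ?_⟩
  · have hd := (φ n).dist_normed_convolution_le (μ := volume) (x₀ := x) (ε := η)
      hwi.aestronglyMeasurable (by
        intro y hy
        have hyK : y ∈ K' := hball x hx (mem_closedBall.2 ((mem_ball.1 hy).le.trans (hφr n)))
        rw [hw₀, indicator_of_mem hyK, indicator_of_mem (hKK hx)]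
        exact (hu y hyK x (hKK hx) (lt_trans hy hn2)).le)
    have hgx : w₀ x = w x := by rw [hw₀, indicator_of_mem (hKK hx)]
    rwa [hgx, dist_eq_norm] at hd
  · refine le_trans ?_ ((setLIntegral_le_lintegral K _).trans hn1)
    refine setLIntegral_mono' hK.measurableSet fun x hx => le_of_eq ?_
    set b := (φ n).normed volume with hbdef
    have hsupp : tsupport (fun y : ℂ => b (x - y)) ⊆ K' := by
      refine (closure_minimal (fun y hy => ?_) isClosed_closedBall).trans (hball x hx)
      have hm : x - y ∈ tsupport b := subset_tsupport b hy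
      rw [hts] at hm
      have := hφr n
      simp only [mem_closedBall, dist_zero_right] at hm
      rw [mem_closedBall, dist_comm, dist_eq_norm]
      linarith
    have hψ : ContDiff ℝ 1 fun y : ℂ => b (x - y) := hb.comp (contDiff_const.sub contDiff_id)
    have hfd : fderiv ℝ (b ⋆[ContinuousLinearMap.lsmul ℝ ℝ, volume] w₀) x =
        (b ⋆[ContinuousLinearMap.lsmul ℝ ℝ, volume] D₀) x := by
      refine ContinuousLinearMap.ext fun v => ?_
      have hex : ConvolutionExistsAt b D₀ x (ContinuousLinearMap.lsmul ℝ ℝ) volume :=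
        hbc.convolutionExists_left _ hb.continuous hDi.locallyIntegrable x
      rw [W2_fderiv_conv b hb hbc w₀ hwi.locallyIntegrable, convolution_eq_swap,
        ContinuousLinearMap.integral_apply hex.integrable_swap]
      have h0 := h.wd (fun y => b (x - y)) hψ
        (hKc.of_isClosed_subset (isClosed_tsupport _) hsupp) (hsupp.trans hsub) v
      have e1 : ∫ t, fderiv ℝ b (x - t) v • w₀ t =
          -∫ t, fderiv ℝ (fun y => b (x - y)) t v • w t := by
        rw [← integral_neg]
        refine integral_congr_ae (Eventually.of_forall fun t => ?_)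
        by_cases htK : t ∈ K'
        · simp only [hw₀, indicator_of_mem htK, W2_fderiv_test b hb, neg_smul, neg_neg]
        · have hz : fderiv ℝ (fun y => b (x - y)) t = 0 := by
            by_contra hne
            exact htK (hsupp (support_fderiv_subset ℝ hne))
          simp only [hw₀, indicator_of_notMem htK, hz]
          simp
      rw [e1, h0, neg_neg]
      refine integral_congr_ae (Eventually.of_forall fun t => ?_)
      by_cases htK : t ∈ K'
      · simp [hD₀, indicator_of_mem htK]
      · have hz : b (x - t) = 0 := by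
          by_contra hne
          exact htK (hsupp (subset_tsupport _ hne))
        simp [hz]
    rw [hfd, hD₀, indicator_of_mem (hKK hx)]

end Crest.Agent.R193.TA
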