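import Crest.Agent.R193.Defs
import Crest.Agent.R179.WL

/-! Row 193, block [Z1]: Gromov products, rays and the boundary action. -/

set_option autoImplicit false

namespace Crest.Agent.R193

open Crest.GroupTheory Crest.Agent.R179A Filter Topology

/-- hypotheses of the statement -/
structure HypD (G : Type) [Group G] where
  S : Finset G
  hS : Subgroup.closure (S : Set G) = ⊤
  δ : ℝ
  hδ0 : 0 ≤ δ
  hδ : ∀ w x y z : G, min (gromovProduct (S : Set G) w x y) (gromovProduct (S : Set G) w y z) - δ ≤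
    gromovProduct (S : Set G) w x z

namespace HypD

variable {G : Type} [Group G] (D : HypD G)

noncomputable def len (g : G) : ℕ := wordLength (D.S : Set G) g

noncomputable def gp (x y : G) : ℝ := gromovProduct (D.S : Set G) 1 x y

theorem mem_closure (g : G) : g ∈ Subgroup.closure (D.S : Set G) := by rw [D.hS]; trivial

theorem len_one : D.len 1 = 0 := wl_one

theorem len_inv (g : G) : D.len g⁻¹ = D.len g := wl_inv g

theorem len_mul (g h : G) : D.len (g * h) ≤ D.len g + D.len h :=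
  wl_mul (D.mem_closure g) (D.mem_closure h)

theorem len_comm (g h : G) : D.len (g⁻¹ * h) = D.len (h⁻¹ * g) := by
  rw [← D.len_inv]; simp

theorem len_le_add (g h : G) : D.len h ≤ D.len g + D.len (g⁻¹ * h) := by
  simpa using D.len_mul g (g⁻¹ * h)

theorem len_tri (g h k : G) : D.len (g⁻¹ * k) ≤ D.len (g⁻¹ * h) + D.len (h⁻¹ * k) := by
  simpa [mul_assoc] using D.len_mul (g⁻¹ * h) (h⁻¹ * k)

theorem finite_len (n : ℕ) : {g : G | D.len g ≤ n}.Finite :=
  (wl_finite (S := (D.S : Set G)) D.S.finite_toSet n).subset fun g hg => ⟨D.mem_closure g, hg⟩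

theorem exists_geodesic (g : G) : ∃ p : ℕ → G, p 0 = 1 ∧ (∀ n, D.len g ≤ n → p n = g) ∧
    ∀ m n, m ≤ n → n ≤ D.len g → D.len ((p m)⁻¹ * p n) = n - m := by
  obtain ⟨l, hl, hS, hp⟩ := wl_spec (D.mem_closure g)
  have hle : ∀ m n, m ≤ n → D.len ((l.take m).prod⁻¹ * (l.take n).prod) ≤ n - m := by
    intro m n hmn
    have e : (l.take n).prod = (l.take m).prod * ((l.take n).drop m).prod := by
      conv_lhs => rw [← List.take_append_drop m (l.take n)]
      rw [List.prod_append, List.take_take, min_eq_left hmn]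
    rw [e, inv_mul_cancel_left]
    refine (wl_le _ fun x hx => hS x (List.mem_of_mem_take (List.mem_of_mem_drop hx))).trans ?_
    simp only [List.length_drop, List.length_take]; omega
  have hg : ∀ n, D.len g ≤ n → (l.take n).prod = g := fun n hn => by
    rw [List.take_of_length_le (by rw [hl]; exact hn), hp]
  refine ⟨fun n => (l.take n).prod, by simp, hg, fun m n hmn hn => le_antisymm (hle m n hmn) ?_⟩
  have h1 := hle 0 m (Nat.zero_le _)
  have h2 := hle n (D.len g) hn
  have h3 := D.len_tri 1 (l.take m).prod (l.take n).prod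
  have h4 := D.len_tri 1 (l.take n).prod (l.take (D.len g)).prod
  rw [hg _ le_rfl] at h2 h4
  simp only [List.take_zero, List.prod_nil, inv_one, one_mul] at h1 h3 h4
  beta_reduce
  omega

theorem gp_eq (x y : G) : D.gp x y = ((D.len x : ℝ) + D.len y - D.len (x⁻¹ * y)) / 2 := by
  simp only [gp, gromovProduct, wordDist, mul_one, wl_inv, len]

theorem gp_comm (x y : G) : D.gp x y = D.gp y x := by
  rw [gp_eq, gp_eq, D.len_comm]; ring

theorem gp_nonneg (x y : G) : 0 ≤ D.gp x y := by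
  have h := D.len_mul x⁻¹ y
  rw [D.len_inv] at h
  have : (D.len (x⁻¹ * y) : ℝ) ≤ D.len x + D.len y := by exact_mod_cast h
  rw [gp_eq]; linarith

theorem gp_le (x y : G) : D.gp x y ≤ D.len x := by
  have : (D.len y : ℝ) ≤ D.len x + D.len (x⁻¹ * y) := by exact_mod_cast D.len_le_add x y
  rw [gp_eq]; linarith

theorem gp_self (x : G) : D.gp x x = D.len x := by
  rw [gp_eq]; simp [D.len_one]

theorem gp_change (g x y : G) :
    D.gp (g⁻¹ * x) (g⁻¹ * y) = D.gp x y + D.len g - D.gp g x - D.gp g y := by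
  simp only [gp_eq, mul_inv_rev, inv_inv, mul_assoc, mul_inv_cancel_left]; ring

theorem gp_mul_ge (g x y : G) : D.gp x y - D.len g ≤ D.gp (g * x) (g * y) := by
  have h := D.gp_change g⁻¹ x y
  have h1 := D.gp_le g⁻¹ x
  have h2 := D.gp_le g⁻¹ y
  rw [inv_inv] at h
  rw [D.len_inv] at h h1 h2
  linarith

theorem gp_hyp (x y z : G) : min (D.gp x y) (D.gp y z) - D.δ ≤ D.gp x z := D.hδ 1 x y z

/-- two sequences converging to the same boundary point -/
def Far (x y : ℕ → G) : Prop := Tendsto (fun n => D.gp (x n) (y n)) atTop atTop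

variable {D}

theorem Far.symm {x y : ℕ → G} (h : D.Far x y) : D.Far y x := by
  unfold Far at *; simpa only [D.gp_comm] using h

theorem Far.trans {x y z : ℕ → G} (h : D.Far x y) (h' : D.Far y z) : D.Far x z := by
  refine tendsto_atTop.2 fun M => ?_
  filter_upwards [tendsto_atTop.1 h (M + D.δ), tendsto_atTop.1 h' (M + D.δ)] with n h1 h2
  have := D.gp_hyp (x n) (y n) (z n)
  have := le_min h1 h2
  linarith

theorem Far.mul {x y : ℕ → G} (h : D.Far x y) (g : G) :
    D.Far (fun n => g * x n) (fun n => g * y n) :=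
  tendsto_atTop_mono (fun n => D.gp_mul_ge g (x n) (y n)) (tendsto_atTop_add_const_right _ _ h)

variable (D)

theorem ray_len (γ : CayleyRay (D.S : Set G)) {m n : ℕ} (h : m ≤ n) :
    D.len ((γ.toFun m)⁻¹ * γ.toFun n) = n - m := by
  have h1 := γ.dist_eq m n
  have h2 : (m : ℝ) ≤ n := by exact_mod_cast h
  rw [abs_sub_comm, abs_of_nonneg (by linarith), ← Nat.cast_sub h] at h1
  exact Nat.cast_injective (R := ℝ) h1

theorem len_ray (γ : CayleyRay (D.S : Set G)) (n : ℕ) : D.len (γ.toFun n) = n := by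
  simpa [γ.map_zero] using D.ray_len γ (Nat.zero_le n)

theorem gp_ray (γ : CayleyRay (D.S : Set G)) {m n : ℕ} (h : m ≤ n) :
    D.gp (γ.toFun m) (γ.toFun n) = m := by
  rw [gp_eq, D.ray_len γ h, D.len_ray, D.len_ray, Nat.cast_sub h]; ring

theorem far_self (γ : CayleyRay (D.S : Set G)) : D.Far γ.toFun γ.toFun := by
  unfold Far
  simpa only [D.gp_ray γ le_rfl] using tendsto_natCast_atTop_atTop (R := ℝ)

theorem far_of_asym {γ γ' : CayleyRay (D.S : Set G)} (h : γ.IsAsymptotic γ') :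
    D.Far γ.toFun γ'.toFun := by
  obtain ⟨C, hC⟩ := h
  refine tendsto_atTop_mono (fun n => ?_)
    (tendsto_atTop_add_const_right _ (-C / 2) (tendsto_natCast_atTop_atTop (R := ℝ)))
  have : (D.len ((γ.toFun n)⁻¹ * γ'.toFun n) : ℝ) ≤ C := hC n
  rw [gp_eq, D.len_ray, D.len_ray]; linarith

theorem asym_of_far {γ γ' : CayleyRay (D.S : Set G)} (h : D.Far γ.toFun γ'.toFun) :
    γ.IsAsymptotic γ' := by
  refine ⟨4 * D.δ, fun m => ?_⟩
  obtain ⟨n, h1, h2⟩ := ((tendsto_atTop.1 h (m : ℝ)).and (eventually_ge_atTop m)).exists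
  have k1 := D.gp_hyp (γ.toFun m) (γ.toFun n) (γ'.toFun n)
  have k2 := D.gp_hyp (γ.toFun m) (γ'.toFun n) (γ'.toFun m)
  rw [D.gp_ray γ h2, min_eq_left h1] at k1
  rw [D.gp_comm (γ'.toFun n), D.gp_ray γ' h2] at k2
  have k3 : (m : ℝ) - D.δ ≤ min (D.gp (γ.toFun m) (γ'.toFun n)) m :=
    le_min k1 (by linarith [D.hδ0])
  rw [D.gp_eq (γ.toFun m) (γ'.toFun m), D.len_ray, D.len_ray] at k2
  change (D.len _ : ℝ) ≤ _
  linarith

theorem mk_eq_iff {γ γ' : CayleyRay (D.S : Set G)} :
    (Quot.mk _ γ : CayleyBoundary (D.S : Set G)) = Quot.mk _ γ' ↔ D.Far γ.toFun γ'.toFun := by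
  refine ⟨fun h => ?_, fun h => Quot.sound (D.asym_of_far h)⟩
  have h' := Quot.eqvGen_exact h
  clear h
  induction h' with
  | rel _ _ h => exact D.far_of_asym h
  | refl γ => exact D.far_self γ
  | symm _ _ _ ih => exact ih.symm
  | trans _ _ _ _ _ ih1 ih2 => exact ih1.trans ih2

/-- a sequence converging at infinity converges to the end of a ray -/
theorem exists_ray (x : ℕ → G) (hx : ∀ M : ℝ, ∃ N, ∀ m n, N ≤ m → N ≤ n → M ≤ D.gp (x m) (x n)) :
    ∃ γ : CayleyRay (D.S : Set G), D.Far x γ.toFun := by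
  choose p p0 p1 p2 using fun m => D.exists_geodesic (x m)
  let U : Ultrafilter ℕ := Ultrafilter.of atTop
  have hU : (U : Filter ℕ) ≤ atTop := Ultrafilter.of_le _
  have hb : ∀ m k, D.len (p m k) ≤ k := by
    intro m k
    rcases le_total k (D.len (x m)) with h | h
    · simpa [p0] using (p2 m 0 k (Nat.zero_le _) h).le
    · rwa [p1 m k h]
  have hlim : ∀ k, ∃ y, ∀ᶠ m in U, p m k = y := by
    intro k
    obtain ⟨y, -, hy⟩ := (U.map fun m => p m k).eq_pure_of_finite_mem (D.finite_len k)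
      (Ultrafilter.mem_map.2 (Filter.univ_mem' fun m => hb m k))
    refine ⟨y, ?_⟩
    have : {y} ∈ U.map fun m => p m k := by rw [hy]; simp
    exact Ultrafilter.mem_map.1 this
  choose γ hγ using hlim
  have hlen : ∀ k, ∀ᶠ m in U, k ≤ D.len (x m) := by
    intro k
    obtain ⟨N, hN⟩ := hx k
    filter_upwards [hU (eventually_ge_atTop N)] with m hm
    have := hN m m hm hm
    rw [D.gp_self] at this
    exact_mod_cast this
  have hd : ∀ j k, j ≤ k → D.len ((γ j)⁻¹ * γ k) = k - j := by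
    intro j k hjk
    obtain ⟨m, h1, h2, h3⟩ := ((hγ j).and ((hγ k).and (hlen k))).exists
    rw [← h1, ← h2]; exact p2 m j k hjk h3
  have h0 : γ 0 = 1 := by
    obtain ⟨m, h1⟩ := (hγ 0).exists
    rw [← h1, p0]
  refine ⟨⟨γ, h0, fun j k => ?_⟩, tendsto_atTop.2 fun M => ?_⟩
  · change (D.len _ : ℝ) = _
    rcases le_total j k with h | h
    · have h' : (j : ℝ) ≤ k := by exact_mod_cast h
      rw [hd j k h, abs_sub_comm, abs_of_nonneg (by linarith), Nat.cast_sub h]
    · have h' : (k : ℝ) ≤ j := by exact_mod_cast h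
      rw [D.len_comm, hd k j h, abs_of_nonneg (by linarith), Nat.cast_sub h]
  obtain ⟨N, hN⟩ := hx (M + D.δ)
  filter_upwards [eventually_ge_atTop N,
    tendsto_atTop.1 (tendsto_natCast_atTop_atTop (R := ℝ)) (M + D.δ)] with k hk1 hk2
  obtain ⟨m, h1, h2, h3⟩ := ((hγ k).and ((hlen k).and (hU (eventually_ge_atTop N)))).exists
  have k1 := D.gp_hyp (x k) (x m) (γ k)
  have k2 : D.gp (x m) (γ k) = k := by
    have e1 := p2 m k _ h2 le_rfl
    have e2 : D.len (γ k) = k := by simpa [h0] using hd 0 k (Nat.zero_le _)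
    rw [p1 m _ le_rfl, h1] at e1
    rw [D.gp_comm, gp_eq, e1, e2, Nat.cast_sub h2]; ring
  have k3 := le_min (hN k m hk1 h3) (k2 ▸ hk2 : M + D.δ ≤ D.gp (x m) (γ k))
  change M ≤ D.gp (x k) (γ k)
  linarith

/-- the boundary, as a new type (it will carry the visual metric) -/
def Bd : Type := CayleyBoundary (D.S : Set G)

/-- chosen ray to a boundary point -/
noncomputable def rayOf (ξ : D.Bd) : CayleyRay (D.S : Set G) := Quot.out ξ

noncomputable def r (ξ : D.Bd) : ℕ → G := (D.rayOf ξ).toFun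

theorem mk_rayOf (ξ : D.Bd) : (Quot.mk _ (D.rayOf ξ) : CayleyBoundary (D.S : Set G)) = ξ :=
  Quot.out_eq ξ

theorem eq_of_far {ξ η : D.Bd} (h : D.Far (D.r ξ) (D.r η)) : ξ = η := by
  rw [← D.mk_rayOf ξ, ← D.mk_rayOf η]; exact D.mk_eq_iff.2 h

theorem far_r {γ : CayleyRay (D.S : Set G)} {ξ : D.Bd}
    (h : (Quot.mk _ γ : CayleyBoundary (D.S : Set G)) = ξ) : D.Far γ.toFun (D.r ξ) :=
  D.mk_eq_iff.1 (h.trans (D.mk_rayOf ξ).symm)

theorem exists_smul (g : G) (ξ : D.Bd) : ∃ η : D.Bd, D.Far (fun n => g * D.r ξ n) (D.r η) := by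
  obtain ⟨γ, hγ⟩ := D.exists_ray (fun n => g * D.r ξ n) fun M => by
    obtain ⟨N, hN⟩ := exists_nat_ge (M + D.len g)
    refine ⟨N, fun m n hm hn => ?_⟩
    have h1 := D.gp_mul_ge g (D.r ξ m) (D.r ξ n)
    have hm' : (N : ℝ) ≤ m := by exact_mod_cast hm
    have hn' : (N : ℝ) ≤ n := by exact_mod_cast hn
    rcases le_total m n with h | h
    · have := D.gp_ray (D.rayOf ξ) h
      change D.gp (D.r ξ m) (D.r ξ n) = _ at this
      linarith
    · have := D.gp_ray (D.rayOf ξ) h
      change D.gp (D.r ξ n) (D.r ξ m) = _ at this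
      rw [D.gp_comm] at this
      linarith
  exact ⟨Quot.mk _ γ, hγ.trans (D.far_r rfl)⟩

noncomputable instance : SMul G D.Bd := ⟨fun g ξ => (D.exists_smul g ξ).choose⟩

theorem far_smul (g : G) (ξ : D.Bd) : D.Far (fun n => g * D.r ξ n) (D.r (g • ξ)) :=
  (D.exists_smul g ξ).choose_spec

noncomputable instance : MulAction G D.Bd where
  one_smul ξ := D.eq_of_far (by simpa using (D.far_smul 1 ξ).symm)
  mul_smul g h ξ := D.eq_of_far <| (D.far_smul (g * h) ξ).symm.trans <| by
    simpa only [mul_assoc] using ((D.far_smul h ξ).mul g).trans (D.far_smul g (h • ξ))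

end HypD

end Crest.Agent.R193
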