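import Crest.Agent.R193.VisEx1

/-! Row 193, block [Z1]: the visual quasi-metric and the visual metric. -/

set_option autoImplicit false

namespace Crest.Agent.R193

open Crest.GroupTheory Filter Topology

namespace HypD

variable {G : Type} [Group G] (D : HypD G)

/-- visual parameter -/
noncomputable def a : ℝ := (2 : ℝ) ^ (1 / (2 * D.δ + 1))

/-- ultrametric constant -/
noncomputable def K : ℝ := D.a ^ D.δ

theorem one_lt_a : 1 < D.a :=
  Real.one_lt_rpow one_lt_two (by have := D.hδ0; positivity)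

theorem a_pos : 0 < D.a := one_pos.trans D.one_lt_a

theorem one_le_K : 1 ≤ D.K := Real.one_le_rpow D.one_lt_a.le D.hδ0

theorem K_sq : D.K * D.K ≤ 2 := by
  have h0 := D.hδ0
  rw [K, ← Real.rpow_add D.a_pos, a, ← Real.rpow_mul (by norm_num)]
  calc (2 : ℝ) ^ (1 / (2 * D.δ + 1) * (D.δ + D.δ)) ≤ 2 ^ (1 : ℝ) := by
        refine Real.rpow_le_rpow_of_exponent_le one_le_two ?_
        rw [one_div, inv_mul_le_iff₀ (by positivity)]; linarith
    _ = 2 := Real.rpow_one 2

theorem K_le : D.K ≤ 2 := by nlinarith [D.K_sq, D.one_le_K]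

/-- `a^{-(x|y)}` -/
noncomputable def e (x y : G) : ℝ := D.a ^ (-D.gp x y)

theorem e_pos (x y : G) : 0 < D.e x y := Real.rpow_pos_of_pos D.a_pos _

theorem e_comm (x y : G) : D.e x y = D.e y x := by rw [e, e, D.gp_comm]

theorem e_le_of_le {x y : G} {t : ℝ} (h : t ≤ D.gp x y) : D.e x y ≤ D.a ^ (-t) :=
  Real.rpow_le_rpow_of_exponent_le D.one_lt_a.le (by linarith)

theorem lt_of_e_lt {x y : G} {t : ℝ} (h : D.e x y < D.a ^ (-t)) : t < D.gp x y := by
  have := (Real.rpow_lt_rpow_left_iff D.one_lt_a).1 h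
  linarith

theorem e_le_one (x y : G) : D.e x y ≤ 1 := by simpa using D.e_le_of_le (D.gp_nonneg x y)

theorem e_self (g : G) : D.e g g = (D.a ^ D.len g)⁻¹ := by
  rw [e, D.gp_self, Real.rpow_neg D.a_pos.le, Real.rpow_natCast]

theorem e_self_le (g x : G) : D.e g g ≤ D.e g x := D.e_le_of_le (by rw [D.gp_self]; exact D.gp_le g x)

theorem e_ultra (x y z : G) : D.e x z ≤ D.K * max (D.e x y) (D.e y z) := by
  have h := D.e_le_of_le (D.gp_hyp x y z)
  rw [neg_sub, sub_eq_add_neg, Real.rpow_add D.a_pos] at h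
  refine h.trans (mul_le_mul_of_nonneg_left ?_ (by linarith [D.one_le_K, show D.a ^ D.δ = D.K from rfl]))
  rcases le_total (D.gp x y) (D.gp y z) with h1 | h1
  · rw [min_eq_left h1]; exact le_max_left _ _
  · rw [min_eq_right h1]; exact le_max_right _ _

theorem e_change (g x y : G) :
    D.e (g⁻¹ * x) (g⁻¹ * y) * (D.e g x * D.e g y) = D.e g g * D.e x y := by
  simp only [e, ← Real.rpow_add D.a_pos, D.gp_change, D.gp_self]; congr 1; ring

theorem tendsto_e_of_far {x y : ℕ → G} (h : D.Far x y) :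
    Tendsto (fun n => D.e (x n) (y n)) atTop (𝓝 0) :=
  (tendsto_rpow_atBot_of_base_gt_one _ D.one_lt_a).comp (tendsto_neg_atTop_atBot.comp h)

theorem far_of_tendsto_e {x y : ℕ → G} (h : Tendsto (fun n => D.e (x n) (y n)) atTop (𝓝 0)) :
    D.Far x y := by
  refine tendsto_atTop.2 fun M => ?_
  filter_upwards [h.eventually (gt_mem_nhds (Real.rpow_pos_of_pos D.a_pos (-M)))] with n hn
  exact (D.lt_of_e_lt hn).le

/-- constant sequences and rays from `1` -/
def Good (x : ℕ → G) : Prop := ∀ n, D.len ((x n)⁻¹ * x (n + 1)) + D.len (x n) ≤ D.len (x (n + 1))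

theorem good_const (g : G) : D.Good fun _ => g := fun _ => by simp [D.len_one]

theorem good_ray (γ : CayleyRay (D.S : Set G)) : D.Good γ.toFun := fun n => by
  rw [D.ray_len γ (Nat.le_succ n), D.len_ray, D.len_ray]; omega

theorem good_r (ξ : D.Bd) : D.Good (D.r ξ) := D.good_ray _

/-- limit of `a^{-(x n|y n)}` -/
noncomputable def lim (x y : ℕ → G) : ℝ := ⨅ n, D.e (x n) (y n)

variable {D}

theorem Good.mono {x y : ℕ → G} (hx : D.Good x) (hy : D.Good y) :
    Monotone fun n => D.gp (x n) (y n) := by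
  refine monotone_nat_of_le_succ fun n => ?_
  have h1 := hx n
  have h2 := hy n
  have h3 := D.len_tri (x (n + 1)) (x n) (y (n + 1))
  have h4 := D.len_tri (x n) (y n) (y (n + 1))
  rw [D.len_comm (x (n + 1)) (x n)] at h3
  have : D.len ((x (n + 1))⁻¹ * y (n + 1)) + D.len (x n) + D.len (y n) ≤
      D.len (x (n + 1)) + D.len (y (n + 1)) + D.len ((x n)⁻¹ * y n) := by omega
  have : (D.len ((x (n + 1))⁻¹ * y (n + 1)) : ℝ) + D.len (x n) + D.len (y n) ≤
      D.len (x (n + 1)) + D.len (y (n + 1)) + D.len ((x n)⁻¹ * y n) := by exact_mod_cast this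
  rw [gp_eq, gp_eq]; linarith

theorem bdd_e (x y : ℕ → G) : BddBelow (Set.range fun n => D.e (x n) (y n)) :=
  ⟨0, by rintro _ ⟨n, rfl⟩; exact (D.e_pos _ _).le⟩

theorem Good.tendsto {x y : ℕ → G} (hx : D.Good x) (hy : D.Good y) :
    Tendsto (fun n => D.e (x n) (y n)) atTop (𝓝 (D.lim x y)) :=
  tendsto_atTop_ciInf (fun _ _ h => D.e_le_of_le (hx.mono hy h)) (bdd_e x y)

variable (D)

theorem lim_le (x y : ℕ → G) (n : ℕ) : D.lim x y ≤ D.e (x n) (y n) := ciInf_le (bdd_e x y) n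

theorem lim_nonneg (x y : ℕ → G) : 0 ≤ D.lim x y := le_ciInf fun _ => (D.e_pos _ _).le

theorem lim_le_one (x y : ℕ → G) : D.lim x y ≤ 1 := (D.lim_le x y 0).trans (D.e_le_one _ _)

theorem lim_comm (x y : ℕ → G) : D.lim x y = D.lim y x := by simp only [lim, D.e_comm]

theorem lim_const (g h : G) : D.lim (fun _ => g) (fun _ => h) = D.e g h := by simp [lim]

theorem e_self_le_lim (g : G) (y : ℕ → G) : D.e g g ≤ D.lim (fun _ => g) y :=
  le_ciInf fun _ => D.e_self_le _ _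

theorem lim_ultra {x y z : ℕ → G} (hx : D.Good x) (hy : D.Good y) (hz : D.Good z) :
    D.lim x z ≤ D.K * max (D.lim x y) (D.lim y z) :=
  le_of_tendsto_of_tendsto' (hx.tendsto hz)
    (((hx.tendsto hy).max (hy.tendsto hz)).const_mul D.K) fun _ => D.e_ultra _ _ _

/-- equal, or converging to the same boundary point -/
def Near (x y : ℕ → G) : Prop := x = y ∨ D.Far x y

theorem Near.symm {D : HypD G} {x y : ℕ → G} (h : D.Near x y) : D.Near y x :=
  h.imp Eq.symm Far.symm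

theorem Near.exists {D : HypD G} {x y : ℕ → G} (h : D.Near x y) : ∃ u : ℕ → ℝ,
    Tendsto u atTop (𝓝 0) ∧ ∀ n z, D.e (y n) z ≤ D.K * max (u n) (D.e (x n) z) := by
  rcases h with rfl | h
  · refine ⟨fun _ => 0, tendsto_const_nhds, fun n z => ?_⟩
    rw [max_eq_right (D.e_pos _ _).le]
    exact le_mul_of_one_le_left (D.e_pos _ _).le D.one_le_K
  · exact ⟨_, D.tendsto_e_of_far h.symm, fun n z => D.e_ultra _ _ _⟩

theorem cmp {x y x' y' : ℕ → G} (hx : D.Near x x') (hy : D.Near y y') {s s' : ℝ}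
    (h : Tendsto (fun n => D.e (x n) (y n)) atTop (𝓝 s))
    (h' : Tendsto (fun n => D.e (x' n) (y' n)) atTop (𝓝 s')) : s' ≤ 2 * s := by
  obtain ⟨u, hu, hu'⟩ := hx.exists
  obtain ⟨v, hv, hv'⟩ := hy.exists
  have hK := D.one_le_K
  have hs : 0 ≤ s := ge_of_tendsto' h fun _ => (D.e_pos _ _).le
  have := le_of_tendsto_of_tendsto' h' ((hu.max ((hv.max h).const_mul D.K)).const_mul D.K) fun n => by
    refine (hu' n _).trans ?_
    have := hv' n (x n)
    rw [D.e_comm (y' n), D.e_comm (y n)] at this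
    gcongr
  rw [max_eq_right hs, max_eq_right (by positivity)] at this
  nlinarith [D.K_sq]

/-- change of base point for limits -/
theorem lim_change (g : G) {x y x' y' : ℕ → G} (gx : D.Good x) (gy : D.Good y) (gx' : D.Good x')
    (gy' : D.Good y') (hx : D.Near (fun n => g⁻¹ * x n) x') (hy : D.Near (fun n => g⁻¹ * y n) y') :
    D.lim x' y' * (D.lim (fun _ => g) x * D.lim (fun _ => g) y) ≤ 2 * (D.e g g * D.lim x y) ∧
    D.e g g * D.lim x y ≤ 2 * (D.lim x' y' * (D.lim (fun _ => g) x * D.lim (fun _ => g) y)) := by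
  have p1 : 0 < D.lim (fun _ => g) x := (D.e_pos g g).trans_le (D.e_self_le_lim g x)
  have p2 : 0 < D.lim (fun _ => g) y := (D.e_pos g g).trans_le (D.e_self_le_lim g y)
  have h : Tendsto (fun n => D.e (g⁻¹ * x n) (g⁻¹ * y n)) atTop
      (𝓝 (D.e g g * D.lim x y / (D.lim (fun _ => g) x * D.lim (fun _ => g) y))) := by
    refine (((gx.tendsto gy).const_mul (D.e g g)).div (((D.good_const g).tendsto gx).mul
      ((D.good_const g).tendsto gy)) (mul_pos p1 p2).ne').congr fun n => ?_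
    simp only [Pi.div_apply]
    rw [← D.e_change, mul_div_assoc, div_self (mul_pos (D.e_pos _ _) (D.e_pos _ _)).ne', mul_one]
  have h1 := D.cmp hx hy h (gx'.tendsto gy')
  have h2 := D.cmp hx.symm hy.symm (gx'.tendsto gy') h
  rw [← mul_div_assoc, le_div_iff₀ (mul_pos p1 p2)] at h1
  rw [div_le_iff₀ (mul_pos p1 p2)] at h2
  exact ⟨h1, by linarith⟩

/-- the visual quasi-metric -/
noncomputable def q (ξ η : D.Bd) : NNReal := ⟨D.lim (D.r ξ) (D.r η), D.lim_nonneg _ _⟩

theorem q_self (ξ : D.Bd) : D.q ξ ξ = 0 :=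
  NNReal.eq <| tendsto_nhds_unique ((D.good_r ξ).tendsto (D.good_r ξ))
    (D.tendsto_e_of_far (D.far_self _))

theorem q_comm (ξ η : D.Bd) : D.q ξ η = D.q η ξ := NNReal.eq (D.lim_comm _ _)

theorem q_four (x₁ x₂ x₃ x₄ : D.Bd) :
    D.q x₁ x₄ ≤ 2 * max (D.q x₁ x₂) (max (D.q x₂ x₃) (D.q x₃ x₄)) := by
  rw [← NNReal.coe_le_coe]
  have hq : ∀ ξ η, (D.q ξ η : ℝ) = D.lim (D.r ξ) (D.r η) := fun _ _ => rfl
  simp only [NNReal.coe_mul, NNReal.coe_max, NNReal.coe_ofNat, hq]
  have h1 := D.lim_ultra (D.good_r x₁) (D.good_r x₂) (D.good_r x₄)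
  have h2 := D.lim_ultra (D.good_r x₂) (D.good_r x₃) (D.good_r x₄)
  have hK := D.one_le_K
  set m := max (D.lim (D.r x₁) (D.r x₂)) (max (D.lim (D.r x₂) (D.r x₃)) (D.lim (D.r x₃) (D.r x₄)))
  have hm : 0 ≤ m := (D.lim_nonneg _ _).trans (le_max_left _ _)
  have h3 : max (D.lim (D.r x₁) (D.r x₂)) (D.lim (D.r x₂) (D.r x₄)) ≤ D.K * m :=
    max_le ((le_max_left _ _).trans (le_mul_of_one_le_left hm hK))
      (h2.trans (mul_le_mul_of_nonneg_left (le_max_right _ _) (by linarith)))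
  have h4 := mul_le_mul_of_nonneg_left h3 (show 0 ≤ D.K by linarith)
  nlinarith [D.K_sq]

theorem eq_of_lim_eq_zero {ξ η : D.Bd} (h : D.lim (D.r ξ) (D.r η) = 0) : ξ = η :=
  D.eq_of_far (D.far_of_tendsto_e (h ▸ (D.good_r ξ).tendsto (D.good_r η)))

noncomputable instance pms : PseudoMetricSpace D.Bd :=
  PseudoMetricSpace.ofPreNNDist D.q D.q_self D.q_comm

theorem dist_le_lim (ξ η : D.Bd) : dist ξ η ≤ D.lim (D.r ξ) (D.r η) :=
  PseudoMetricSpace.dist_ofPreNNDist_le D.q D.q_self D.q_comm ξ η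

theorem lim_le_dist (ξ η : D.Bd) : D.lim (D.r ξ) (D.r η) ≤ 2 * dist ξ η :=
  PseudoMetricSpace.le_two_mul_dist_ofPreNNDist D.q D.q_self D.q_comm D.q_four ξ η

noncomputable instance ms : MetricSpace D.Bd :=
  { D.pms with
    eq_of_dist_eq_zero := fun {ξ η} h => D.eq_of_lim_eq_zero <|
      le_antisymm (by simpa [h] using D.lim_le_dist ξ η) (D.lim_nonneg _ _) }

end HypD

end Crest.Agent.R193
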