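import Crest.Agent.R193.Vis
import Crest.Agent.R179.WL

/-! Row 193, block [Z]: word length, sizes, rays, scales. -/

set_option autoImplicit false

namespace Crest.Agent.R193

open Crest.GroupTheory Crest.Agent.R179A

namespace Visual

variable {G Z : Type} [Group G] [MetricSpace Z] [MulAction G Z] (V : Visual G Z)

theorem a_pos : 0 < V.a := lt_trans one_pos V.one_lt_a

theorem C_pos : 0 < V.C := lt_of_lt_of_le one_pos V.one_le_C

theorem mem_closure (g : G) : g ∈ Subgroup.closure (V.S : Set G) := by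
  rw [V.closure_S]; trivial

theorem len_one : V.len 1 = 0 := wl_one

theorem len_inv (g : G) : V.len g⁻¹ = V.len g := wl_inv g

theorem len_mul (g h : G) : V.len (g * h) ≤ V.len g + V.len h :=
  wl_mul (V.mem_closure g) (V.mem_closure h)

theorem len_inv_mul_comm (g h : G) : V.len (g⁻¹ * h) = V.len (h⁻¹ * g) := by
  rw [← V.len_inv]; simp

theorem len_le_add (g h : G) : V.len h ≤ V.len g + V.len (g⁻¹ * h) := by
  simpa using V.len_mul g (g⁻¹ * h)

theorem len_tri (g h k : G) : V.len (g⁻¹ * k) ≤ V.len (g⁻¹ * h) + V.len (h⁻¹ * k) := by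
  simpa [mul_assoc] using V.len_mul (g⁻¹ * h) (h⁻¹ * k)

theorem len_eq_zero {g : G} : V.len g = 0 ↔ g = 1 :=
  ⟨wl_eq_zero (V.mem_closure g), fun h => h ▸ V.len_one⟩

theorem len_le_one_iff {g : G} : V.len g ≤ 1 ↔ g = 1 ∨ g ∈ V.S ∨ g⁻¹ ∈ V.S :=
  ⟨fun h => by simpa using wl_le_one_iff (V.mem_closure g) h,
   fun h => wl_le_one (by simpa using h)⟩

theorem finite_len (n : ℕ) : {g : G | V.len g ≤ n}.Finite :=
  (wl_finite (S := (V.S : Set G)) V.S.finite_toSet n).subset fun g hg => ⟨V.mem_closure g, hg⟩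

include V in
theorem countable_group : Countable G := by
  have : (Set.univ : Set G) = ⋃ n : ℕ, {g : G | V.len g ≤ n} := by
    ext g; simp only [Set.mem_univ, Set.mem_iUnion, Set.mem_setOf_eq, true_iff]; exact ⟨_, le_rfl⟩
  rw [← Set.countable_univ_iff, this]
  exact Set.countable_iUnion fun n => (V.finite_len n).countable

/-- the ball of radius `n` as a finset -/
noncomputable def ballF (n : ℕ) : Finset G := (V.finite_len n).toFinset

/-- the sphere of radius `n` (level-`n` cells) as a finset -/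
noncomputable def level (n : ℕ) : Finset G :=
  ((V.finite_len n).subset (fun _ (h : _ ∈ {g : G | V.len g = n}) => le_of_eq h)).toFinset

@[simp] theorem mem_ballF {n : ℕ} {g : G} : g ∈ V.ballF n ↔ V.len g ≤ n := by simp [ballF]

@[simp] theorem mem_level {n : ℕ} {g : G} : g ∈ V.level n ↔ V.len g = n := by simp [level]

theorem sz_pos (g : G) : 0 < V.sz g := inv_pos.2 (pow_pos V.a_pos _)

theorem sz_le_one (g : G) : V.sz g ≤ 1 := inv_le_one_of_one_le₀ (one_le_pow₀ V.one_lt_a.le)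

theorem sz_one : V.sz 1 = 1 := by simp [VData.sz, V.len_one]

theorem sz_inv (g : G) : V.sz g⁻¹ = V.sz g := by simp [VData.sz, V.len_inv]

theorem sz_eq {g : G} {n : ℕ} (h : V.len g = n) : V.sz g = (V.a ^ n)⁻¹ := by simp [VData.sz, h]

theorem sz_mul_pow (g : G) : V.sz g * V.a ^ V.len g = 1 :=
  inv_mul_cancel₀ (pow_pos V.a_pos _).ne'

theorem inv_pow_le_sz {g : G} {n : ℕ} (h : V.len g ≤ n) : (V.a ^ n)⁻¹ ≤ V.sz g :=
  inv_anti₀ (pow_pos V.a_pos _) (pow_le_pow_right₀ V.one_lt_a.le h)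

theorem sz_le_inv_pow {g : G} {n : ℕ} (h : n ≤ V.len g) : V.sz g ≤ (V.a ^ n)⁻¹ :=
  inv_anti₀ (pow_pos V.a_pos _) (pow_le_pow_right₀ V.one_lt_a.le h)

theorem sz_mul (g h : G) : V.sz g * V.sz h ≤ V.sz (g * h) := by
  have := V.inv_pow_le_sz (V.len_mul g h)
  rwa [pow_add, mul_inv] at this

/-- `|g⁻¹ h| ≤ L` gives `sz h ≤ a^L sz g`. -/
theorem sz_le_of_len {g h : G} {L : ℕ} (hL : V.len (g⁻¹ * h) ≤ L) : V.sz h ≤ V.a ^ L * V.sz g := by
  have h1 : V.len g ≤ V.len h + L := by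
    have := V.len_le_add h g; rw [V.len_inv_mul_comm] at this; omega
  have h2 := V.inv_pow_le_sz h1
  have h3 : 0 < V.a ^ L := pow_pos V.a_pos _
  rw [pow_add, mul_inv] at h2
  calc V.sz h = V.a ^ L * ((V.a ^ V.len h)⁻¹ * (V.a ^ L)⁻¹) := by
        rw [VData.sz]; field_simp
    _ ≤ _ := by gcongr

/-- a lower bound on the size bounds the length -/
theorem exists_len_le {e : ℝ} (he : 0 < e) : ∃ L : ℕ, ∀ g : G, e ≤ V.sz g → V.len g ≤ L := by
  obtain ⟨L, hL⟩ := pow_unbounded_of_one_lt e⁻¹ V.one_lt_a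
  refine ⟨L, fun g hg => ?_⟩
  by_contra h
  have h1 := V.sz_le_inv_pow (not_le.1 h).le
  have h2 : (V.a ^ L)⁻¹ < e := by
    rw [inv_lt_comm₀ (pow_pos V.a_pos _) he]; exact hL
  linarith

theorem finite_sz {e : ℝ} (he : 0 < e) : {g : G | e ≤ V.sz g}.Finite := by
  obtain ⟨L, hL⟩ := V.exists_len_le he
  exact (V.finite_len L).subset hL

theorem sz_le_rho (g : G) (ξ : Z) : V.sz g ≤ V.rho g ξ := le_max_left _ _

theorem dist_le_rho (g : G) (ξ : Z) : dist ξ (V.ctr g) ≤ V.rho g ξ := le_max_right _ _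

theorem rho_pos (g : G) (ξ : Z) : 0 < V.rho g ξ := (V.sz_pos g).trans_le (V.sz_le_rho g ξ)

theorem rho_le_one (g : G) (ξ : Z) : V.rho g ξ ≤ 1 := max_le (V.sz_le_one g) (V.dist_le_one _ _)

theorem rho_one (ξ : Z) : V.rho 1 ξ = 1 :=
  le_antisymm (V.rho_le_one _ _) (V.sz_one ▸ V.sz_le_rho 1 ξ)

theorem rho_ctr (g : G) : V.rho g (V.ctr g) = V.sz g := by
  simp [VData.rho, (V.sz_pos g).le]

theorem rho_le {g : G} {ξ : Z} {R : ℝ} (hR : 1 ≤ R) (h : dist ξ (V.ctr g) ≤ R * V.sz g) :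
    V.rho g ξ ≤ R * V.sz g :=
  max_le (le_mul_of_one_le_left (V.sz_pos g).le hR) h

theorem rho_le_add (g : G) (ξ η : Z) : V.rho g ξ ≤ V.rho g η + dist ξ η := by
  have h1 := V.sz_le_rho g η
  have h2 := V.dist_le_rho g η
  have h3 := dist_triangle ξ η (V.ctr g)
  have h4 : 0 ≤ dist ξ η := dist_nonneg
  exact max_le (by linarith) (by linarith)

theorem dist_le_rho_add (g : G) (ξ η : Z) : dist ξ η ≤ V.rho g ξ + V.rho g η := by
  have h1 := V.dist_le_rho g ξ
  have h2 := V.dist_le_rho g η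
  have h3 := dist_triangle_right ξ η (V.ctr g)
  linarith

theorem sz_le_rho2 (g h : G) : V.sz g ≤ V.rho2 g h := (le_max_left _ _).trans (le_max_left _ _)

theorem sz_le_rho2' (g h : G) : V.sz h ≤ V.rho2 g h := (le_max_right _ _).trans (le_max_left _ _)

theorem dist_le_rho2 (g h : G) : dist (V.ctr g) (V.ctr h) ≤ V.rho2 g h := le_max_right _ _

theorem rho2_pos (g h : G) : 0 < V.rho2 g h := (V.sz_pos g).trans_le (V.sz_le_rho2 g h)

theorem rho2_le_one (g h : G) : V.rho2 g h ≤ 1 :=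
  max_le (max_le (V.sz_le_one g) (V.sz_le_one h)) (V.dist_le_one _ _)

theorem rho2_comm (g h : G) : V.rho2 g h = V.rho2 h g := by
  simp [VData.rho2, max_comm, dist_comm]

theorem rho2_self (g : G) : V.rho2 g g = V.sz g := by simp [VData.rho2, (V.sz_pos g).le]

theorem rho2_one (g : G) : V.rho2 g 1 = 1 :=
  le_antisymm (V.rho2_le_one _ _) (V.sz_one ▸ V.sz_le_rho2' g 1)

theorem rho2_le {g h : G} {t : ℝ} (h1 : V.sz g ≤ t) (h2 : V.sz h ≤ t)
    (h3 : dist (V.ctr g) (V.ctr h) ≤ t) : V.rho2 g h ≤ t := max_le (max_le h1 h2) h3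

theorem rho2_le_rho_add (g h : G) (ξ : Z) : V.rho2 g h ≤ V.rho g ξ + V.rho h ξ := by
  have h1 := V.sz_le_rho g ξ
  have h2 := V.dist_le_rho g ξ
  have h3 := V.sz_le_rho h ξ
  have h4 := V.dist_le_rho h ξ
  have h5 := V.rho_pos g ξ
  have h6 := V.rho_pos h ξ
  have h7 := dist_triangle_left (V.ctr g) (V.ctr h) ξ
  exact V.rho2_le (by linarith) (by linarith) (by linarith)

theorem rho_le_rho2_add (g h : G) (ξ : Z) : V.rho g ξ ≤ V.rho2 g h + V.rho h ξ := by
  have h1 := V.sz_le_rho2 g h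
  have h2 := V.dist_le_rho2 g h
  have h4 := V.dist_le_rho h ξ
  have h6 := V.rho_pos h ξ
  have h7 := dist_triangle_right ξ (V.ctr g) (V.ctr h)
  exact max_le (by linarith) (by linarith)

theorem len_ray (ξ : Z) (n : ℕ) : V.len (V.ray ξ n) = n := by
  simpa [V.ray_zero] using V.ray_len ξ 0 n (Nat.zero_le n)

theorem sz_ray (ξ : Z) (n : ℕ) : V.sz (V.ray ξ n) = (V.a ^ n)⁻¹ := V.sz_eq (V.len_ray ξ n)

theorem dist_ctr_ray (ξ : Z) (n : ℕ) : dist ξ (V.ctr (V.ray ξ n)) ≤ V.C * V.sz (V.ray ξ n) := by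
  rw [V.sz_ray]; exact V.ray_ctr ξ n

theorem rho_ray (ξ : Z) (n : ℕ) : V.rho (V.ray ξ n) ξ ≤ V.C * V.sz (V.ray ξ n) :=
  V.rho_le V.one_le_C (V.dist_ctr_ray ξ n)

/-- every scale `r ∈ (0,1]` is comparable with some `a^{-n}` -/
theorem exists_scale {r : ℝ} (h0 : 0 < r) (h1 : r ≤ 1) :
    ∃ n : ℕ, (V.a ^ n)⁻¹ ≤ r ∧ r ≤ V.a * (V.a ^ n)⁻¹ := by
  have ha := V.a_pos
  obtain ⟨n, hn1, hn2⟩ := exists_nat_pow_near (one_le_inv_iff₀.2 ⟨h0, h1⟩) V.one_lt_a
  refine ⟨n + 1, ?_, ?_⟩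
  · rw [inv_le_comm₀ (pow_pos ha _) h0]; exact hn2.le
  · rw [le_inv_comm₀ (pow_pos ha _) h0] at hn1
    calc r ≤ (V.a ^ n)⁻¹ := hn1
      _ = _ := by rw [pow_succ]; field_simp

/-- a cell of size `≈ r` centred near `ξ` (the expanding element is its inverse) -/
theorem exists_cell (ξ : Z) {r : ℝ} (h0 : 0 < r) (h1 : r ≤ 1) :
    ∃ g : G, V.sz g ≤ r ∧ r ≤ V.a * V.sz g ∧ dist ξ (V.ctr g) ≤ V.C * V.sz g := by
  obtain ⟨n, hn1, hn2⟩ := V.exists_scale h0 h1
  exact ⟨V.ray ξ n, by rwa [V.sz_ray], by rwa [V.sz_ray], V.dist_ctr_ray ξ n⟩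

/-- geodesics from `1` to `g` -/
theorem exists_geodesic (g : G) : ∃ p : ℕ → G, p 0 = 1 ∧ (∀ n, V.len g ≤ n → p n = g) ∧
    ∀ m n, m ≤ n → n ≤ V.len g → V.len ((p m)⁻¹ * p n) = n - m := by
  obtain ⟨l, hl, hS, hp⟩ := wl_spec (V.mem_closure g)
  have hle : ∀ m n, m ≤ n → V.len ((l.take m).prod⁻¹ * (l.take n).prod) ≤ n - m := by
    intro m n hmn
    have e : (l.take n).prod = (l.take m).prod * ((l.take n).drop m).prod := by
      conv_lhs => rw [← List.take_append_drop m (l.take n)]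
      rw [List.prod_append, List.take_take, min_eq_left hmn]
    rw [e, inv_mul_cancel_left]
    refine (wl_le _ fun x hx => hS x (List.mem_of_mem_take (List.mem_of_mem_drop hx))).trans ?_
    simp only [List.length_drop, List.length_take]; omega
  have hg : ∀ n, V.len g ≤ n → (l.take n).prod = g := fun n hn => by
    rw [List.take_of_length_le (by rw [hl]; exact hn), hp]
  refine ⟨fun n => (l.take n).prod, by simp, hg, fun m n hmn hn => le_antisymm (hle m n hmn) ?_⟩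
  have h1 := hle 0 m (Nat.zero_le _)
  have h2 := hle n (V.len g) hn
  have h3 := V.len_tri 1 (l.take m).prod (l.take n).prod
  have h4 := V.len_tri 1 (l.take n).prod (l.take (V.len g)).prod
  rw [hg _ le_rfl] at h2 h4
  simp only [List.take_zero, List.prod_nil, inv_one, one_mul] at h1 h3 h4
  beta_reduce
  omega

end Visual

end Crest.Agent.R193
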